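import Vale.Agent.P128.MathlibUsed

set_option linter.all false

section

open MeasureTheory Set Metric Filter
open scoped ENNReal NNReal Topology Real ContDiff

namespace Vale.Agent.P128

/-- Lebesgue point property at `s` (two-sided averages). -/
def LebPt (f : ℝ → ℝ) (s : ℝ) : Prop :=
  Tendsto (fun δ : ℝ => (∫ r in Icc (s - δ) (s + δ), |f r - f s|) / δ) (𝓝[>] 0) (𝓝 0)

theorem ae_lebPt {f : ℝ → ℝ} (hf : Integrable f) : ∀ᵐ s, LebPt f s := by
  filter_upwards [IsUnifLocDoublingMeasure.ae_tendsto_average_norm_sub (volume : Measure ℝ)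
    hf.locallyIntegrable 1] with s hs
  have h1 := hs (l := 𝓝[>] (0 : ℝ)) (fun _ : ℝ => s) (fun δ : ℝ => δ) tendsto_id (by
    filter_upwards [self_mem_nhdsWithin] with δ hδ
    rw [one_mul]
    exact mem_closedBall_self (le_of_lt hδ))
  have h2 := h1.const_mul 2
  rw [mul_zero] at h2
  refine h2.congr' ?_
  filter_upwards [self_mem_nhdsWithin] with δ hδ
  have hδ' : (0 : ℝ) < δ := hδ
  rw [Real.closedBall_eq_Icc, setAverage_eq, measureReal_def, Real.volume_Icc,
    ENNReal.toReal_ofReal (by linarith)]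
  simp only [Real.norm_eq_abs, smul_eq_mul]
  have : s + δ - (s - δ) = 2 * δ := by ring
  rw [this]
  field_simp

/-- Averages against kernels concentrating at a Lebesgue point. -/
theorem LebPt.tendsto_kernel {f : ℝ → ℝ} {s m C : ℝ} (hf : LebPt f s) (hfi : Integrable f)
    {k : ℕ → ℝ → ℝ} {δ : ℕ → ℝ} (hδ : Tendsto δ atTop (𝓝[>] 0))
    (hkm : ∀ n, Measurable (k n))
    (hks : ∀ n r, r ∉ Icc (s - δ n) (s + δ n) → k n r = 0)
    (hkb : ∀ n r, |k n r| ≤ C / δ n)
    (hki : Tendsto (fun n => ∫ r, k n r) atTop (𝓝 m)) :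
    Tendsto (fun n => ∫ r, k n r * f r) atTop (𝓝 (m * f s)) := by
  have hpos : ∀ᶠ n in atTop, 0 < δ n := hδ (self_mem_nhdsWithin)
  have h1 : Tendsto (fun n => (∫ r, k n r) * f s) atTop (𝓝 (m * f s)) := hki.mul_const _
  have h0 : Tendsto (fun n => C * ((∫ r in Icc (s - δ n) (s + δ n), |f r - f s|) / δ n))
      atTop (𝓝 0) := by
    have := (Tendsto.comp hf hδ).const_mul C
    simpa using this
  have h2 : Tendsto (fun n => (∫ r, k n r * f r) - (∫ r, k n r) * f s) atTop (𝓝 0) := by
    rw [tendsto_zero_iff_abs_tendsto_zero]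
    refine squeeze_zero' (Eventually.of_forall fun n => abs_nonneg _) ?_ h0
    filter_upwards [hpos] with n hn
    have hCn : 0 ≤ C / δ n := (abs_nonneg _).trans (hkb n s)
    have hki' : Integrable (k n) := by
      have : IntegrableOn (k n) (Icc (s - δ n) (s + δ n)) :=
        Measure.integrableOn_of_bounded (M := C / δ n) (by simp)
          (hkm n).aestronglyMeasurable (Eventually.of_forall fun r => by
            simpa using hkb n r)
      exact this.integrable_of_forall_notMem_eq_zero (fun r hr => hks n r hr)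
    have hkf : Integrable fun r => k n r * f r :=
      Integrable.bdd_mul (c := C / δ n) hfi (hkm n).aestronglyMeasurable
        (Eventually.of_forall fun r => by simpa using hkb n r)
    have e1 : (∫ r, k n r * f r) - (∫ r, k n r) * f s = ∫ r, k n r * (f r - f s) := by
      rw [← integral_mul_const, ← integral_sub hkf (hki'.mul_const _)]
      refine integral_congr_ae (Eventually.of_forall fun r => by ring)
    have e2 : ∫ r, k n r * (f r - f s) =
        ∫ r in Icc (s - δ n) (s + δ n), k n r * (f r - f s) := by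
      refine (setIntegral_eq_integral_of_forall_compl_eq_zero fun r hr => ?_).symm
      rw [hks n r hr, zero_mul]
    rw [Function.comp_def] at *
    simp only
    rw [e1, e2]
    have hfi' : IntegrableOn (fun r => |f r - f s|) (Icc (s - δ n) (s + δ n)) :=
      ((hfi.integrableOn).sub (integrableOn_const (by simp))).abs
    calc |∫ r in Icc (s - δ n) (s + δ n), k n r * (f r - f s)|
        ≤ ∫ r in Icc (s - δ n) (s + δ n), |k n r * (f r - f s)| := abs_integral_le_integral_abs
      _ ≤ ∫ r in Icc (s - δ n) (s + δ n), (C / δ n) * |f r - f s| := by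
          refine integral_mono_of_nonneg (Eventually.of_forall fun r => abs_nonneg _)
            (hfi'.const_mul _) (Eventually.of_forall fun r => ?_)
          simp only [abs_mul]
          exact mul_le_mul_of_nonneg_right (hkb n r) (abs_nonneg _)
      _ = C * ((∫ r in Icc (s - δ n) (s + δ n), |f r - f s|) / δ n) := by
          rw [integral_const_mul]; ring
  have h3 := h1.add h2
  simpa using h3

end Vale.Agent.P128
end

section

open MeasureTheory Set Metric Filter
open scoped ENNReal NNReal Topology Real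

namespace Vale.Agent.P128

/-- The angular interval. -/
abbrev ang : Set ℝ := Ioo (-π) π

theorem polarCoord_symm_add (x : ℂ) (p : ℝ × ℝ) :
    x + Complex.polarCoord.symm p = circleMap x p.1 p.2 := by
  rw [Complex.polarCoord_symm_apply, circleMap, Complex.exp_mul_I]
  push_cast
  ring

theorem continuous_circleMap_uncurry (x : ℂ) :
    Continuous fun p : ℝ × ℝ => circleMap x p.1 p.2 := by
  unfold circleMap; fun_prop

/-- Polar coordinates around `x` on the level of Lebesgue integrals. -/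
theorem lintegral_polar (x : ℂ) {F : ℂ → ℝ≥0∞} (hF : Measurable F) :
    ∫⁻ z, F z = ∫⁻ s in Ioi (0 : ℝ), ENNReal.ofReal s * ∫⁻ θ in ang, F (circleMap x s θ) := by
  have h1 : ∫⁻ z, F z = ∫⁻ z, F (x + z) := (lintegral_add_left_eq_self F x).symm
  rw [h1, ← Complex.lintegral_comp_polarCoord_symm, polarCoord_target,
    Measure.volume_eq_prod, setLIntegral_prod]
  · refine setLIntegral_congr_fun measurableSet_Ioi fun s hs => ?_
    simp only [smul_eq_mul, polarCoord_symm_add]
    rw [lintegral_const_mul]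
    exact hF.comp (measurable_circleMap x s)
  · refine Measurable.aemeasurable ?_
    simp only [smul_eq_mul, polarCoord_symm_add]
    exact (ENNReal.measurable_ofReal.comp measurable_fst).mul
      (hF.comp (continuous_circleMap_uncurry x).measurable)

theorem lintegral_polar_set (x : ℂ) {F : ℂ → ℝ≥0∞} (hF : Measurable F) {S : Set ℝ}
    (hS : MeasurableSet S) (hS0 : S ⊆ Ioi 0) :
    ∫⁻ z in {z | dist z x ∈ S}, F z =
      ∫⁻ s in S, ENNReal.ofReal s * ∫⁻ θ in ang, F (circleMap x s θ) := by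
  have hmeas : MeasurableSet {z : ℂ | dist z x ∈ S} :=
    (measurable_id.dist measurable_const) hS
  have hR : ∫⁻ s in S, ENNReal.ofReal s * ∫⁻ θ in ang, F (circleMap x s θ) =
      ∫⁻ s in Ioi 0, S.indicator
        (fun s => ENNReal.ofReal s * ∫⁻ θ in ang, F (circleMap x s θ)) s := by
    rw [setLIntegral_indicator hS, inter_eq_self_of_subset_left hS0]
  rw [← lintegral_indicator hmeas, lintegral_polar x (hF.indicator hmeas), hR]
  refine setLIntegral_congr_fun measurableSet_Ioi fun s hs => ?_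
  have hd : ∀ θ, dist (circleMap x s θ) x = s := fun θ => by
    rw [dist_eq_norm, circleMap_sub_center, norm_circleMap_zero, abs_of_pos hs]
  by_cases hsS : s ∈ S
  · have : ∀ θ, ({z : ℂ | dist z x ∈ S}.indicator F) (circleMap x s θ) =
        F (circleMap x s θ) := fun θ => indicator_of_mem (by simpa [hd θ] using hsS) _
    simp only [this, indicator_of_mem hsS]
  · have : ∀ θ, ({z : ℂ | dist z x ∈ S}.indicator F) (circleMap x s θ) = 0 := fun θ =>
      indicator_of_notMem (by simpa [hd θ] using hsS) _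
    simp only [this, indicator_of_notMem hsS]; simp

theorem integrable_polar (x : ℂ) {F : ℂ → ℝ} (hFm : Measurable F) (hF : Integrable F) :
    Integrable (fun p : ℝ × ℝ => p.1 * F (circleMap x p.1 p.2))
      ((volume.restrict (Ioi 0)).prod (volume.restrict ang)) := by
  refine ⟨?_, ?_⟩
  · exact (measurable_fst.mul
      (hFm.comp (continuous_circleMap_uncurry x).measurable)).aestronglyMeasurable
  · have h1 : ∫⁻ z, ‖F z‖ₑ < ⊤ := hF.2
    rw [lintegral_polar x hFm.enorm] at h1
    unfold HasFiniteIntegral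
    rw [lintegral_prod]
    · refine lt_of_le_of_lt (le_of_eq ?_) h1
      refine setLIntegral_congr_fun measurableSet_Ioi fun s hs => ?_
      rw [← lintegral_const_mul]
      · refine lintegral_congr fun θ => ?_
        rw [enorm_mul, Real.enorm_of_nonneg (le_of_lt hs)]
      · exact (hFm.comp (measurable_circleMap x s)).enorm
    · exact (measurable_fst.mul
        (hFm.comp (continuous_circleMap_uncurry x).measurable)).enorm.aemeasurable

theorem integral_polar (x : ℂ) {F : ℂ → ℝ} (hFm : Measurable F) (hF : Integrable F) :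
    ∫ z, F z = ∫ s in Ioi (0 : ℝ), s * ∫ θ in ang, F (circleMap x s θ) := by
  have h1 : ∫ z, F z = ∫ z, F (x + z) := (integral_add_left_eq_self F x).symm
  rw [h1, ← Complex.integral_comp_polarCoord_symm, polarCoord_target,
    Measure.volume_eq_prod, ← Measure.prod_restrict]
  simp only [smul_eq_mul, polarCoord_symm_add]
  rw [integral_prod _ (integrable_polar x hFm hF)]
  refine setIntegral_congr_fun measurableSet_Ioi fun s hs => ?_
  simp only [integral_const_mul]

end Vale.Agent.P128
end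

section

open MeasureTheory Set Metric Filter
open scoped ENNReal NNReal Topology Real ContDiff

namespace Vale.Agent.P128

/-- Weighted circle integrals of `F`, as a function of the radius. -/
noncomputable def circInt (x : ℂ) (F : ℂ → ℝ) (Ψ : ℝ × ℝ → ℝ) (r : ℝ) : ℝ :=
  (Ioi (0 : ℝ)).indicator (fun r => r * ∫ θ in ang, F (circleMap x r θ) * Ψ (r, θ)) r

theorem circInt_of_pos {x : ℂ} {F : ℂ → ℝ} {Ψ : ℝ × ℝ → ℝ} {r : ℝ} (hr : 0 < r) :
    circInt x F Ψ r = r * ∫ θ in ang, F (circleMap x r θ) * Ψ (r, θ) :=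
  indicator_of_mem (s := Ioi (0 : ℝ)) hr _

theorem integrable_circInt_bdd (x : ℂ) {F : ℂ → ℝ} {Ψ : ℝ × ℝ → ℝ} {C : ℝ}
    (hFm : Measurable F) (hF : Integrable F) (hΨ : Measurable Ψ) (hb : ∀ p, |Ψ p| ≤ C) :
    Integrable (circInt x F Ψ) := by
  have h1 := integrable_polar x hFm hF
  have h2 : Integrable (fun p : ℝ × ℝ => Ψ p * (p.1 * F (circleMap x p.1 p.2)))
      ((volume.restrict (Ioi 0)).prod (volume.restrict ang)) :=
    Integrable.bdd_mul (c := C) h1 hΨ.aestronglyMeasurable
      (Eventually.of_forall fun p => by simpa using hb p)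
  have h3 := h2.integral_prod_left
  have h4 : IntegrableOn (fun r => r * ∫ θ in ang, F (circleMap x r θ) * Ψ (r, θ)) (Ioi 0) := by
    refine h3.congr (Eventually.of_forall fun r => ?_)
    simp only
    rw [← integral_const_mul]
    refine integral_congr_ae (Eventually.of_forall fun θ => ?_)
    simp only; ring
  have h5 := (integrable_indicator_iff measurableSet_Ioi).mpr h4
  exact h5

theorem dist_cm (x : ℂ) {r : ℝ} (hr : 0 < r) (θ : ℝ) :
    dist (circleMap x r θ) x = r := by
  rw [dist_eq_norm, circleMap_sub_center, norm_circleMap_zero, abs_of_pos hr]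

theorem integrable_circInt (x : ℂ) {F : ℂ → ℝ} {Ψ : ℝ × ℝ → ℝ} {R : ℝ}
    (hFm : Measurable F) (hF : Integrable F) (hF0 : ∀ z, R ≤ dist z x → F z = 0)
    (hΨ : Continuous Ψ) :
    Integrable (circInt x F Ψ) := by
  have hK : IsCompact (Icc (0 : ℝ) R ×ˢ Icc (-π) π) := isCompact_Icc.prod isCompact_Icc
  obtain ⟨C, hC⟩ := hK.exists_bound_of_continuousOn hΨ.continuousOn
  set S : Set (ℝ × ℝ) := Icc (0 : ℝ) R ×ˢ Icc (-π) π with hS
  have hSm : MeasurableSet S := measurableSet_Icc.prod measurableSet_Icc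
  have h1 : Integrable (circInt x F (S.indicator Ψ)) := by
    refine integrable_circInt_bdd x (C := max C 0) hFm hF (hΨ.measurable.indicator hSm)
      fun p => ?_
    by_cases hp : p ∈ S
    · rw [indicator_of_mem hp]
      exact (by simpa using hC p hp : |Ψ p| ≤ C).trans (le_max_left _ _)
    · rw [indicator_of_notMem hp]; simp
  have h2 : circInt x F (S.indicator Ψ) = circInt x F Ψ := by
    funext r
    unfold circInt
    refine congrFun (indicator_congr fun r hr => ?_) r
    have hr' : (0 : ℝ) < r := hr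
    congr 1
    refine setIntegral_congr_fun measurableSet_Ioo fun θ hθ => ?_
    by_cases hrR : r < R
    · rw [indicator_of_mem (s := S) (show (r, θ) ∈ S from
        ⟨⟨hr'.le, hrR.le⟩, ⟨hθ.1.le, hθ.2.le⟩⟩)]
    · rw [hF0 _ (by rw [dist_cm x hr']; exact not_lt.mp hrR)]
      simp
  rwa [h2] at h1

theorem ae_integrable_circle (x : ℂ) {F : ℂ → ℝ} (hFm : Measurable F) (hF : Integrable F) :
    ∀ᵐ s : ℝ, 0 < s → IntegrableOn (fun θ => F (circleMap x s θ)) ang := by
  have h1 := (integrable_polar x hFm hF).prod_right_ae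
  rw [ae_restrict_iff' measurableSet_Ioi] at h1
  filter_upwards [h1] with s hs hs0
  have h2 := (hs hs0).const_mul (1 / s)
  refine h2.congr (Eventually.of_forall fun θ => ?_)
  simp only
  field_simp

theorem ae_lebPt_circInt (x : ℂ) {F : ℂ → ℝ} {R : ℝ} (hFm : Measurable F) (hF : Integrable F)
    (hF0 : ∀ z, R ≤ dist z x → F z = 0) :
    ∀ᵐ s : ℝ, 0 < s → ∀ Ψ : ℝ × ℝ → ℝ, Continuous Ψ → LebPt (circInt x F Ψ) s := by
  have hpi : -π ≤ π := by linarith [Real.pi_pos]
  let χ : ℕ → C(Icc (-π) π, ℝ) := TopologicalSpace.denseSeq _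
  let X : ℕ → ℝ × ℝ → ℝ := fun k p => χ k (projIcc (-π) π hpi p.2)
  have hXc : ∀ k, Continuous (X k) := fun k =>
    (χ k).continuous.comp (continuous_projIcc.comp continuous_snd)
  have hA := ae_all_iff.mpr fun k => ae_lebPt (integrable_circInt x hFm hF hF0 (hXc k))
  have hFam : Measurable fun z => |F z| := hFm.abs
  have hB := ae_lebPt (integrable_circInt x (Ψ := fun _ => 1) (R := R) hFam hF.abs
    (fun z hz => by simp [hF0 z hz]) continuous_const)
  have hI := ae_integrable_circle x hFm hF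
  filter_upwards [hA, hB, hI] with s hAs hBs hIs hs0 Ψ hΨ
  have hIs := hIs hs0
  set Q := circInt x (fun z => |F z|) (fun _ => 1) with hQ
  set A := circInt x F Ψ with hAdef
  have hQ0 : 0 ≤ Q s := by
    rw [hQ, circInt_of_pos hs0]
    refine mul_nonneg hs0.le (integral_nonneg fun θ => ?_)
    simp
  have hAi := integrable_circInt x hFm hF hF0 hΨ
  have hQi := integrable_circInt x (Ψ := fun _ => 1) (R := R) hFam hF.abs
    (fun z hz => by simp [hF0 z hz]) continuous_const
  unfold LebPt
  rw [Metric.tendsto_nhds]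
  intro ε hε
  -- choose η
  obtain ⟨η, hη0, hη⟩ : ∃ η > 0, 6 * η * Q s < ε / 3 := by
    refine ⟨ε / 3 / (6 * (Q s + 1)), by positivity, ?_⟩
    have : 6 * (ε / 3 / (6 * (Q s + 1))) * Q s = (ε / 3) * (Q s / (Q s + 1)) := by
      field_simp
    rw [this]
    have h1 : Q s / (Q s + 1) < 1 := by rw [div_lt_one (by linarith only [hQ0])]; linarith only []
    have h2 : 0 < ε / 3 := by linarith
    (by_contra nlg; linarith only [nlg, mul_pos (sub_pos.2 h1) (sub_pos.2 h2), mul_nonneg (mul_self_nonneg (1 : ℝ)) (sub_nonneg.2 (not_lt.1 nlg))])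
  -- choose k
  let ψ : C(Icc (-π) π, ℝ) := ⟨fun θ => Ψ (s, θ), hΨ.comp (by fun_prop)⟩
  obtain ⟨k, hk⟩ : ∃ k, dist (χ k) ψ < η := by
    have := (TopologicalSpace.denseRange_denseSeq C(Icc (-π) π, ℝ)).exists_dist_lt ψ hη0
    obtain ⟨k, hk⟩ := this
    exact ⟨k, by rw [dist_comm]; exact hk⟩
  have hk' : ∀ r, ∀ θ ∈ ang, |Ψ (s, θ) - X k (r, θ)| ≤ η := by
    intro r θ hθ
    have hθ' : θ ∈ Icc (-π) π := ⟨hθ.1.le, hθ.2.le⟩
    have h1 := (ContinuousMap.dist_lt_iff hη0).mp hk ⟨θ, hθ'⟩
    have h2 : X k (r, θ) = χ k ⟨θ, hθ'⟩ := by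
      simp only [X]; rw [projIcc_of_mem hpi hθ']
    rw [h2, abs_sub_comm]
    exact h1.le
  -- uniform continuity
  obtain ⟨δ0, hδ0, hδ0'⟩ : ∃ δ0 > 0, ∀ r, |r - s| < δ0 → ∀ θ ∈ ang,
      |Ψ (r, θ) - Ψ (s, θ)| ≤ η := by
    have hcomp : IsCompact (Icc (s - 1) (s + 1) ×ˢ Icc (-π) π) :=
      isCompact_Icc.prod isCompact_Icc
    have huc := hcomp.uniformContinuousOn_of_continuous hΨ.continuousOn
    rw [Metric.uniformContinuousOn_iff] at huc
    obtain ⟨d, hd, hd'⟩ := huc η hη0
    refine ⟨min d 1, by positivity, fun r hr θ hθ => ?_⟩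
    have hr1 : |r - s| < 1 := lt_of_lt_of_le hr (min_le_right _ _)
    have hr2 : |r - s| < d := lt_of_lt_of_le hr (min_le_left _ _)
    have hθ' : θ ∈ Icc (-π) π := ⟨hθ.1.le, hθ.2.le⟩
    rw [abs_lt] at hr1
    have := hd' (r, θ) ⟨⟨by linarith, by linarith⟩, hθ'⟩ (s, θ)
      ⟨⟨by linarith, by linarith⟩, hθ'⟩ (by
        rw [Prod.dist_eq]; simp only [dist_self]
        rw [Real.dist_eq, max_eq_left (abs_nonneg _)]; exact hr2)
    rw [Real.dist_eq] at this
    exact this.le
  -- bounds
  have hXi := integrable_circInt x hFm hF hF0 (hXc k)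
  set q := circInt x F (X k) with hq
  have key : ∀ η' : ℝ, 0 ≤ η' → ∀ Ψ' : ℝ × ℝ → ℝ, Continuous Ψ' → ∀ r, 0 < r →
      IntegrableOn (fun θ => F (circleMap x r θ)) ang →
      (∀ θ ∈ ang, |Ψ' (r, θ) - X k (r, θ)| ≤ η') →
      |circInt x F Ψ' r - q r| ≤ η' * Q r := by
    intro η' hη' Ψ' hΨ' r hr hi hb
    rw [hq, hQ, circInt_of_pos hr, circInt_of_pos hr, circInt_of_pos hr, ← mul_sub, abs_mul,
      abs_of_pos hr]
    have hbd : ∀ Ψ₁ : ℝ × ℝ → ℝ, Continuous Ψ₁ →
        IntegrableOn (fun θ => F (circleMap x r θ) * Ψ₁ (r, θ)) ang := by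
      intro Ψ₁ h1
      obtain ⟨C, hC⟩ := (isCompact_Icc (a := -π) (b := π)).exists_bound_of_continuousOn
        (f := fun θ => Ψ₁ (r, θ)) (h1.comp (by fun_prop)).continuousOn
      refine Integrable.mul_bdd (c := C) hi
        (h1.comp (by fun_prop : Continuous fun θ : ℝ => (r, θ))).aestronglyMeasurable ?_
      refine (ae_restrict_mem measurableSet_Ioo).mono fun θ hθ => ?_
      exact hC θ ⟨hθ.1.le, hθ.2.le⟩
    rw [← integral_sub (hbd _ hΨ') (hbd _ (hXc k))]
    have h1 : |∫ θ in ang, (F (circleMap x r θ) * Ψ' (r, θ) - F (circleMap x r θ) * X k (r, θ))|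
        ≤ ∫ θ in ang, η' * |F (circleMap x r θ)| := by
      refine abs_integral_le_integral_abs.trans ?_
      refine integral_mono_of_nonneg (Eventually.of_forall fun θ => abs_nonneg _)
        (hi.abs.const_mul _) ?_
      refine (ae_restrict_mem measurableSet_Ioo).mono fun θ hθ => ?_
      simp only
      rw [← mul_sub, abs_mul, mul_comm]
      exact mul_le_mul_of_nonneg_right (hb θ hθ) (abs_nonneg _)
    rw [integral_const_mul] at h1
    simp only [mul_one]
    calc r * _ ≤ r * (η' * ∫ θ in ang, |F (circleMap x r θ)|) := by gcongr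
      _ = _ := by ring
  have lim1 := (hAs k).add (hBs.const_mul (2 * η))
  rw [mul_zero, add_zero, Metric.tendsto_nhds] at lim1
  have lim1' := lim1 (ε / 3) (by linarith only [hε])
  have hs' : ∀ᶠ δ in 𝓝[>] (0 : ℝ), δ < min s δ0 :=
    mem_nhdsWithin_of_mem_nhds (Iio_mem_nhds (by positivity))
  filter_upwards [lim1', hs', self_mem_nhdsWithin] with δ h1 h2 h3
  have hδpos : (0 : ℝ) < δ := h3
  rw [Real.dist_eq, sub_zero] at h1 ⊢
  have hδs : δ < s := lt_of_lt_of_le h2 (min_le_left _ _)
  have hδδ0 : δ < δ0 := lt_of_lt_of_le h2 (min_le_right _ _)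
  have hptw : ∀ᵐ r ∂(volume.restrict (Icc (s - δ) (s + δ))),
      |A r - A s| ≤ |q r - q s| + 2 * η * |Q r - Q s| + 3 * η * Q s := by
    filter_upwards [ae_restrict_of_ae hI, ae_restrict_mem measurableSet_Icc] with r hr1 hr2
    have hr0 : 0 < r := by linarith only [hr2.1, hδs]
    have hrs : |r - s| < δ0 := by
      rw [abs_lt]; constructor <;> linarith [hr2.1, hr2.2]
    have e1 := key (2 * η) (by positivity) Ψ hΨ r hr0 (hr1 hr0) (fun θ hθ => by
      calc |Ψ (r, θ) - X k (r, θ)| ≤ |Ψ (r, θ) - Ψ (s, θ)| + |Ψ (s, θ) - X k (r, θ)| :=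
            abs_sub_le _ _ _
        _ ≤ η + η := add_le_add (hδ0' r hrs θ hθ) (hk' r θ hθ)
        _ = 2 * η := by ring)
    have e2 := key η hη0.le Ψ hΨ s hs0 hIs (fun θ hθ => hk' s θ hθ)
    have e3 : Q r ≤ |Q r - Q s| + Q s := by linarith only [le_abs_self (Q r - Q s)]
    have e4 : |A r - A s| ≤ |A r - q r| + |q r - q s| + |q s - A s| :=
      (abs_sub_le _ (q r) _).trans (by
        have := abs_sub_le (q r) (q s) (A s); linarith only [this])
    have e5 : |q s - A s| ≤ η * Q s := by rw [abs_sub_comm]; exact e2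
    have e6 : 2 * η * Q r ≤ 2 * η * (|Q r - Q s| + Q s) := by gcongr
    linarith only [e6, e5, e4, e1]
  have hvol : (volume (Icc (s - δ) (s + δ))) ≠ ⊤ := by simp
  have i1 : IntegrableOn (fun r => |q r - q s|) (Icc (s - δ) (s + δ)) :=
    ((hXi.integrableOn).sub (integrableOn_const hvol)).abs
  have i2 : IntegrableOn (fun r => |Q r - Q s|) (Icc (s - δ) (s + δ)) :=
    ((hQi.integrableOn).sub (integrableOn_const hvol)).abs
  have i3 : IntegrableOn (fun r => |q r - q s| + 2 * η * |Q r - Q s| + 3 * η * Q s)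
      (Icc (s - δ) (s + δ)) :=
    (i1.add (i2.const_mul _)).add (integrableOn_const hvol)
  have h4 : ∫ r in Icc (s - δ) (s + δ), |A r - A s| ≤
      (∫ r in Icc (s - δ) (s + δ), |q r - q s|)
        + 2 * η * (∫ r in Icc (s - δ) (s + δ), |Q r - Q s|) + 6 * η * Q s * δ := by
    refine (integral_mono_of_nonneg (Eventually.of_forall fun r => abs_nonneg _) i3 hptw).trans
      (le_of_eq ?_)
    have i2' : IntegrableOn (fun r => 2 * η * |Q r - Q s|) (Icc (s - δ) (s + δ)) :=
      i2.const_mul _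
    have i12 : IntegrableOn (fun r => |q r - q s| + 2 * η * |Q r - Q s|)
        (Icc (s - δ) (s + δ)) := i1.add i2'
    rw [integral_add i12 (integrableOn_const hvol),
      integral_add i1 i2', integral_const_mul, setIntegral_const,
      measureReal_def, Real.volume_Icc, ENNReal.toReal_ofReal (by linarith only [hδpos])]
    simp only [smul_eq_mul]
    ring
  have h5 : (∫ r in Icc (s - δ) (s + δ), |A r - A s|) / δ ≤
      (∫ r in Icc (s - δ) (s + δ), |q r - q s|) / δ
        + 2 * η * ((∫ r in Icc (s - δ) (s + δ), |Q r - Q s|) / δ) + 6 * η * Q s := by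
    rw [div_le_iff₀ hδpos]
    refine h4.trans (le_of_eq ?_)
    field_simp
  have h6 : 0 ≤ (∫ r in Icc (s - δ) (s + δ), |A r - A s|) / δ :=
    div_nonneg (integral_nonneg fun r => abs_nonneg _) hδpos.le
  rw [abs_of_nonneg h6]
  have h7 := lt_of_le_of_lt (le_abs_self _) h1
  linarith only [h7, h6, h5, hη]

end Vale.Agent.P128
end

section

open MeasureTheory Set Metric Filter
open scoped ENNReal NNReal Topology Real ContDiff

namespace Vale.Agent.P128

/-- Radial cutoff, equal to zero for `r ≤ s` and to one for `r ≥ s + 1 / (n + 1)`. -/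
noncomputable def rcut (n : ℕ) (s r : ℝ) : ℝ := Real.smoothTransition ((r - s) * (n + 1))

/-- Derivative of the radial cutoff. -/
noncomputable def ker (n : ℕ) (s r : ℝ) : ℝ :=
  deriv Real.smoothTransition ((r - s) * (n + 1)) * (n + 1)

theorem contDiff_st : ContDiff ℝ ∞ Real.smoothTransition := Real.smoothTransition.contDiff

theorem contDiff_deriv_st : ContDiff ℝ ∞ (deriv Real.smoothTransition) :=
  (contDiff_infty_iff_deriv.mp contDiff_st).2

theorem contDiff_rcut (n : ℕ) (s : ℝ) : ContDiff ℝ ∞ (rcut n s) := by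
  unfold rcut
  exact contDiff_st.comp (by fun_prop)

theorem contDiff_ker (n : ℕ) (s : ℝ) : ContDiff ℝ ∞ (ker n s) := by
  unfold ker
  exact (contDiff_deriv_st.comp (by fun_prop)).mul contDiff_const

theorem hasDerivAt_rcut (n : ℕ) (s r : ℝ) : HasDerivAt (rcut n s) (ker n s r) r := by
  unfold rcut ker
  have h1 : HasDerivAt Real.smoothTransition
      (deriv Real.smoothTransition ((r - s) * (n + 1))) ((r - s) * (n + 1)) :=
    (contDiff_st.differentiable (by simp)).differentiableAt.hasDerivAt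
  have h2 : HasDerivAt (fun r : ℝ => (r - s) * (n + 1)) ((n : ℝ) + 1) r := by
    simpa using ((hasDerivAt_id r).sub_const s).mul_const ((n : ℝ) + 1)
  exact h1.comp r h2

theorem rcut_nonneg (n : ℕ) (s r : ℝ) : 0 ≤ rcut n s r := Real.smoothTransition.nonneg _

theorem cut_le_one (n : ℕ) (s r : ℝ) : rcut n s r ≤ 1 := Real.smoothTransition.le_one _

theorem cut_of_le {n : ℕ} {s r : ℝ} (h : r ≤ s) : rcut n s r = 0 := by
  unfold rcut
  exact Real.smoothTransition.zero_of_nonpos (mul_nonpos_of_nonpos_of_nonneg (by linarith)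
    (by positivity))

theorem cut_of_ge {n : ℕ} {s r : ℝ} (h : s + 1 / (n + 1) ≤ r) : rcut n s r = 1 := by
  unfold rcut
  apply Real.smoothTransition.one_of_one_le
  have : (0 : ℝ) < n + 1 := by positivity
  rw [← sub_nonneg]
  have h2 : (1 : ℝ) / (n + 1) ≤ r - s := by linarith
  rw [div_le_iff₀ this] at h2
  linarith

theorem deriv_st_of_neg {t : ℝ} (h : t < 0) : deriv Real.smoothTransition t = 0 := by
  have : Real.smoothTransition =ᶠ[𝓝 t] fun _ => 0 := by
    filter_upwards [Iio_mem_nhds h] with y hy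
    exact Real.smoothTransition.zero_of_nonpos (le_of_lt hy)
  rw [this.deriv_eq]; simp

theorem deriv_st_of_gt {t : ℝ} (h : 1 < t) : deriv Real.smoothTransition t = 0 := by
  have : Real.smoothTransition =ᶠ[𝓝 t] fun _ => 1 := by
    filter_upwards [Ioi_mem_nhds h] with y hy
    exact Real.smoothTransition.one_of_one_le (le_of_lt hy)
  rw [this.deriv_eq]; simp

theorem ker_of_lt {n : ℕ} {s r : ℝ} (h : r < s) : ker n s r = 0 := by
  unfold ker
  rw [deriv_st_of_neg, zero_mul]
  exact mul_neg_of_neg_of_pos (by linarith) (by positivity)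

theorem ker_of_gt {n : ℕ} {s r : ℝ} (h : s + 1 / (n + 1) < r) : ker n s r = 0 := by
  unfold ker
  rw [deriv_st_of_gt, zero_mul]
  have : (0 : ℝ) < n + 1 := by positivity
  have h2 : (1 : ℝ) / (n + 1) < r - s := by linarith
  rwa [div_lt_iff₀ this] at h2

theorem hasCompactSupport_ker (n : ℕ) (s : ℝ) : HasCompactSupport (ker n s) := by
  refine HasCompactSupport.intro (isCompact_Icc (a := s) (b := s + 1 / (n + 1))) fun r hr => ?_
  rw [mem_Icc, not_and_or, not_le, not_le] at hr
  rcases hr with hr | hr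
  · exact ker_of_lt hr
  · exact ker_of_gt hr

theorem integrable_ker (n : ℕ) (s : ℝ) : Integrable (ker n s) :=
  (contDiff_ker n s).continuous.integrable_of_hasCompactSupport (hasCompactSupport_ker n s)

theorem integral_ker_one (n : ℕ) (s : ℝ) : ∫ r, ker n s r = 1 := by
  have h1 : Tendsto (rcut n s) atBot (𝓝 0) :=
    tendsto_const_nhds.congr' (by
      filter_upwards [Iic_mem_atBot s] with r hr
      exact (cut_of_le hr).symm)
  have h2 : Tendsto (rcut n s) atTop (𝓝 1) :=
    tendsto_const_nhds.congr' (by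
      filter_upwards [Ici_mem_atTop (s + 1 / (n + 1))] with r hr
      exact (cut_of_ge hr).symm)
  have := integral_of_hasDerivAt_of_tendsto (hasDerivAt_rcut n s) (integrable_ker n s) h1 h2
  rw [this]; ring

theorem exists_bound_deriv_st : ∃ C, 0 ≤ C ∧ ∀ t, |deriv Real.smoothTransition t| ≤ C := by
  have hc : HasCompactSupport (deriv Real.smoothTransition) := by
    refine HasCompactSupport.intro (isCompact_Icc (a := (0 : ℝ)) (b := 1)) fun r hr => ?_
    rw [mem_Icc, not_and_or, not_le, not_le] at hr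
    rcases hr with hr | hr
    · exact deriv_st_of_neg hr
    · exact deriv_st_of_gt hr
  obtain ⟨C, hC⟩ := hc.exists_bound_of_continuous contDiff_deriv_st.continuous
  refine ⟨max C 0, le_max_right _ _, fun t => ?_⟩
  have := hC t
  rw [Real.norm_eq_abs] at this
  exact this.trans (le_max_left _ _)

theorem tendsto_inv_nhdsGT : Tendsto (fun n : ℕ => 1 / ((n : ℝ) + 1)) atTop (𝓝[>] 0) := by
  rw [tendsto_nhdsWithin_iff]
  refine ⟨tendsto_one_div_add_atTop_nhds_zero_nat, Eventually.of_forall fun n => ?_⟩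
  exact (by positivity : (0 : ℝ) < 1 / ((n : ℝ) + 1))

theorem LebPt.tendsto_ker {A : ℝ → ℝ} {s : ℝ} (hA : LebPt A s) (hAi : Integrable A) :
    Tendsto (fun n => ∫ r, ker n s r * A r) atTop (𝓝 (A s)) := by
  obtain ⟨C, hC0, hC⟩ := exists_bound_deriv_st
  have := hA.tendsto_kernel (C := C) (m := 1) hAi (k := fun n => ker n s)
    (δ := fun n => 1 / ((n : ℝ) + 1)) tendsto_inv_nhdsGT
    (fun n => (contDiff_ker n s).continuous.measurable)
    (fun n r hr => ?_) (fun n r => ?_) ?_
  · simpa using this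
  · have hn : (0 : ℝ) < 1 / ((n : ℝ) + 1) := by positivity
    rw [mem_Icc, not_and_or, not_le, not_le] at hr
    rcases hr with hr | hr
    · exact ker_of_lt (by linarith)
    · exact ker_of_gt hr
  · unfold ker
    have hn : (0 : ℝ) < (n : ℝ) + 1 := by positivity
    rw [abs_mul, abs_of_pos hn]
    calc |deriv Real.smoothTransition ((r - s) * (n + 1))| * ((n : ℝ) + 1)
        ≤ C * ((n : ℝ) + 1) := by gcongr; exact hC _
      _ = C / (1 / ((n : ℝ) + 1)) := by field_simp
  · simp only [integral_ker_one]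
    exact tendsto_const_nhds

/-- The unit radial direction. -/
noncomputable def dirn (x z : ℂ) : ℂ := (‖z - x‖⁻¹ : ℝ) • (z - x)

theorem contDiffAt_rho {x z : ℂ} (h : z ≠ x) : ContDiffAt ℝ ∞ (fun z => ‖z - x‖) z :=
  (contDiffAt_norm ℝ (sub_ne_zero.mpr h)).comp z (by fun_prop)

theorem contDiffAt_dirn {x z : ℂ} (h : z ≠ x) : ContDiffAt ℝ ∞ (dirn x) z := by
  unfold dirn
  have h1 : ‖z - x‖ ≠ 0 := norm_ne_zero_iff.mpr (sub_ne_zero.mpr h)
  exact ((contDiffAt_rho h).inv h1).smul (by fun_prop)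

theorem contDiff_rad_mul {x : ℂ} {η : ℝ → ℝ} (hη : ContDiff ℝ ∞ η) {s : ℝ} (hs : 0 < s)
    (h0 : ∀ r < s, η r = 0) {Φ : ℂ → ℝ} (hΦ : ContDiff ℝ ∞ Φ) :
    ContDiff ℝ ∞ (fun z => η ‖z - x‖ * Φ (dirn x z)) := by
  rw [contDiff_iff_contDiffAt]
  intro z
  by_cases hz : z = x
  · have : (fun z => η ‖z - x‖ * Φ (dirn x z)) =ᶠ[𝓝 z] fun _ => 0 := by
      filter_upwards [ball_mem_nhds z hs] with y hy
      rw [mem_ball, hz, dist_eq_norm] at hy
      rw [h0 _ hy, zero_mul]
    exact contDiffAt_const.congr_of_eventuallyEq this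
  · exact (hη.contDiffAt.comp z (contDiffAt_rho hz)).mul
      (hΦ.contDiffAt.comp z (contDiffAt_dirn hz))

theorem contDiff_rad {x : ℂ} {η : ℝ → ℝ} (hη : ContDiff ℝ ∞ η) {s : ℝ} (hs : 0 < s)
    (h0 : ∀ r < s, η r = 0) :
    ContDiff ℝ ∞ (fun z => η ‖z - x‖) := by
  have := contDiff_rad_mul (x := x) hη hs h0 (Φ := fun _ => 1) contDiff_const
  simpa using this

theorem circleMap_eq (x : ℂ) (r θ : ℝ) : circleMap x r θ = x + (r : ℝ) • circleMap 0 1 θ := by
  simp [circleMap]

theorem norm_unit (θ : ℝ) : ‖circleMap 0 1 θ‖ = 1 := by simp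

theorem dirn_circleMap (x : ℂ) {r : ℝ} (hr : 0 < r) (θ : ℝ) :
    dirn x (circleMap x r θ) = circleMap 0 1 θ := by
  unfold dirn
  rw [circleMap_eq, add_sub_cancel_left, norm_smul, norm_unit, mul_one, Real.norm_eq_abs,
    abs_of_pos hr, smul_smul, inv_mul_cancel₀ hr.ne', one_smul]

theorem norm_circleMap_sub (x : ℂ) {r : ℝ} (hr : 0 < r) (θ : ℝ) :
    ‖circleMap x r θ - x‖ = r := by
  rw [← dist_eq_norm]; exact dist_cm x hr θ

/-- Derivative of the distance to `x`. -/
theorem fderiv_rho {x z : ℂ} (h : z ≠ x) (v : ℂ) :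
    fderiv ℝ (fun z => ‖z - x‖) z v = inner ℝ (dirn x z) v := by
  have h1 : HasFDerivAt (fun z : ℂ => ‖z - x‖ ^ 2) (2 • (innerSL ℝ (z - x))) z := by
    have h0 : HasFDerivAt (fun z : ℂ => z - x) (ContinuousLinearMap.id ℝ ℂ) z :=
      (hasFDerivAt_id z).sub_const x
    exact (hasStrictFDerivAt_norm_sq (z - x)).hasFDerivAt.comp z h0
  have h2 : HasFDerivAt (fun z : ℂ => ‖z - x‖) (fderiv ℝ (fun z => ‖z - x‖) z) z :=
    ((contDiffAt_rho h).differentiableAt (by simp)).hasFDerivAt
  have h3 := h2.pow 2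
  have h4 := h3.unique h1
  have h5 := congrArg (fun L : ℂ →L[ℝ] ℝ => L v) h4
  have h7 : 2 * ‖z - x‖ * fderiv ℝ (fun z => ‖z - x‖) z v = 2 * inner ℝ (z - x) v := by
    simpa only [Nat.add_one_sub_one, pow_one, nsmul_eq_mul, Nat.cast_ofNat,
      smul_apply, smul_eq_mul, innerSL_apply_apply] using h5
  have h6 : ‖z - x‖ ≠ 0 := norm_ne_zero_iff.mpr (sub_ne_zero.mpr h)
  unfold dirn
  rw [inner_smul_left]
  simp only [conj_trivial]
  field_simp
  linarith

theorem fderiv_rad {x z : ℂ} {η : ℝ → ℝ} (hη : ContDiff ℝ ∞ η) (h : z ≠ x) (v : ℂ) :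
    fderiv ℝ (fun z => η ‖z - x‖) z v = deriv η ‖z - x‖ * inner ℝ (dirn x z) v := by
  have h2 : HasFDerivAt (fun z : ℂ => ‖z - x‖) (fderiv ℝ (fun z => ‖z - x‖) z) z :=
    ((contDiffAt_rho h).differentiableAt (by simp)).hasFDerivAt
  have h3 : HasDerivAt η (deriv η ‖z - x‖) ‖z - x‖ :=
    (hη.differentiable (by simp)).differentiableAt.hasDerivAt
  have h4 : HasFDerivAt (fun z : ℂ => η ‖z - x‖)
      (deriv η ‖z - x‖ • fderiv ℝ (fun z => ‖z - x‖) z) z := h3.comp_hasFDerivAt z h2
  rw [h4.fderiv, smul_apply, fderiv_rho h, smul_eq_mul]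

end Vale.Agent.P128
end

section

open MeasureTheory Set Metric Function Filter
open scoped ENNReal Topology Real

namespace Vale.Agent.P128

theorem intervalIntegrable_of_memLp {a b : ℝ} (hab : a ≤ b) {f : ℝ → ℝ}
    (hf : MemLp f 2 (volume.restrict (Ioc a b))) : IntervalIntegrable f volume a b := by
  rw [intervalIntegrable_iff_integrableOn_Ioc_of_le hab]
  have : IsFiniteMeasure (volume.restrict (Ioc a b)) := ⟨by simp only [MeasurableSet.univ, Measure.restrict_apply, univ_inter, Real.volume_Ioc, ENNReal.ofReal_lt_top]⟩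
  exact hf.integrable (by norm_num)

theorem norm_sq_fourierCoeffOn {L : ℝ} (hL : 0 < L) {f : ℝ → ℝ}
    (hf : IntervalIntegrable f volume (-L) L) (n : ℤ) :
    ‖fourierCoeffOn (by linarith : -L < L) (fun t => (f t : ℂ)) n‖ ^ 2 =
      ((∫ t in (-L)..L, f t * Real.cos (π * n * t / L)) ^ 2 +
        (∫ t in (-L)..L, f t * Real.sin (π * n * t / L)) ^ 2) / (2 * L) ^ 2 := by
  have i1 : IntervalIntegrable (fun t => f t * Real.cos (π * n * t / L)) volume (-L) L :=
    hf.mul_continuousOn (by fun_prop)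
  have i2 : IntervalIntegrable (fun t => f t * Real.sin (π * n * t / L)) volume (-L) L :=
    hf.mul_continuousOn (by fun_prop)
  have i1' : IntervalIntegrable (fun t => ((f t * Real.cos (π * n * t / L) : ℝ) : ℂ)) volume (-L) L :=
    ⟨i1.1.ofReal, i1.2.ofReal⟩
  have i2' : IntervalIntegrable (fun t => ((f t * Real.sin (π * n * t / L) : ℝ) : ℂ)) volume (-L) L :=
    ⟨i2.1.ofReal, i2.2.ofReal⟩
  have e : (∫ t in (-L)..L, fourier (-n) (t : AddCircle (L - -L)) • (f t : ℂ)) =
      ((∫ t in (-L)..L, f t * Real.cos (π * n * t / L) : ℝ) : ℂ) -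
        ((∫ t in (-L)..L, f t * Real.sin (π * n * t / L) : ℝ) : ℂ) * Complex.I := by
    rw [← intervalIntegral.integral_ofReal, ← intervalIntegral.integral_ofReal,
      ← intervalIntegral.integral_mul_const, ← intervalIntegral.integral_sub i1'
        (i2'.mul_const _)]
    refine intervalIntegral.integral_congr fun t _ => ?_
    simp only [smul_eq_mul]
    rw [fourier_coe_apply]
    have : (2 * π * Complex.I * ((-n : ℤ) : ℂ) * t / ((L - -L : ℝ) : ℂ)) =
        ((-(π * n * t / L) : ℝ) : ℂ) * Complex.I := by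
      have hL' : (L : ℂ) ≠ 0 := by exact_mod_cast hL.ne'
      push_cast
      have : (L : ℂ) - -L = 2 * L := by ring
      rw [this]
      field_simp
    rw [this, Complex.exp_mul_I, ← Complex.ofReal_cos, ← Complex.ofReal_sin, Real.cos_neg,
      Real.sin_neg]
    push_cast
    ring
  rw [fourierCoeffOn_eq_integral, e, norm_smul, mul_pow]
  have h1 : ∀ a b : ℝ, ‖(a : ℂ) - b * Complex.I‖ ^ 2 = a ^ 2 + b ^ 2 := by
    intro a b
    rw [← Complex.normSq_eq_norm_sq, Complex.normSq_apply]
    simp only [Complex.sub_re, Complex.ofReal_re, Complex.mul_re, Complex.I_re, mul_zero, Complex.ofReal_im, Complex.I_im, mul_one, sub_self, sub_zero, Complex.sub_im, Complex.mul_im, add_zero, zero_sub, mul_neg, neg_mul, neg_neg]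
    ring
  rw [h1, Real.norm_eq_abs, sq_abs]
  have : L - -L = 2 * L := by ring
  rw [this]
  (clear * - hL; field_simp)

theorem wirtinger_zero {L : ℝ} (hL : 0 < L) {f h : ℝ → ℝ}
    (hf : MemLp f 2 (volume.restrict (Ioc (-L) L)))
    (hh : MemLp h 2 (volume.restrict (Ioc (-L) L)))
    (h0 : ∫ t in (-L)..L, f t = 0)
    (hcos : ∀ n : ℕ, ∫ t in (-L)..L, h t * Real.cos (π * n * t / L) =
      π * n / L * ∫ t in (-L)..L, f t * Real.sin (π * n * t / L))
    (hsin : ∀ n : ℕ, ∫ t in (-L)..L, h t * Real.sin (π * n * t / L) =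
      - (π * n / L * ∫ t in (-L)..L, f t * Real.cos (π * n * t / L))) :
    ∫ t in (-L)..L, f t ^ 2 ≤ (L / π) ^ 2 * ∫ t in (-L)..L, h t ^ 2 := by
  have hLL : -L < L := by linarith only [hL]
  have hfi := intervalIntegrable_of_memLp hLL.le hf
  have hhi := intervalIntegrable_of_memLp hLL.le hh
  have hf' : MemLp (fun t => (f t : ℂ)) 2 (volume.restrict (Ioc (-L) L)) := hf.ofReal
  have hh' : MemLp (fun t => (h t : ℂ)) 2 (volume.restrict (Ioc (-L) L)) := hh.ofReal
  have s1 := hasSum_sq_fourierCoeffOn hLL hf'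
  have s2 := hasSum_sq_fourierCoeffOn hLL hh'
  have hcos' : ∀ n : ℤ, ∫ t in (-L)..L, h t * Real.cos (π * n * t / L) =
      π * n / L * ∫ t in (-L)..L, f t * Real.sin (π * n * t / L) := by
    intro n
    obtain ⟨m, rfl | rfl⟩ := n.eq_nat_or_neg
    · exact_mod_cast hcos m
    · have e1 : ∀ t, Real.cos (π * ((-(m : ℤ) : ℤ) : ℝ) * t / L) = Real.cos (π * m * t / L) := by
        intro t
        rw [← Real.cos_neg]; congr 1; push_cast; ring
      have e2 : ∀ t, Real.sin (π * ((-(m : ℤ) : ℤ) : ℝ) * t / L) = - Real.sin (π * m * t / L) := by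
        intro t
        rw [← Real.sin_neg]; congr 1; push_cast; ring
      simp only [e1, e2, mul_neg, intervalIntegral.integral_neg]
      rw [hcos m]
      push_cast; ring
  have hsin' : ∀ n : ℤ, ∫ t in (-L)..L, h t * Real.sin (π * n * t / L) =
      - (π * n / L * ∫ t in (-L)..L, f t * Real.cos (π * n * t / L)) := by
    intro n
    obtain ⟨m, rfl | rfl⟩ := n.eq_nat_or_neg
    · exact_mod_cast hsin m
    · have e1 : ∀ t, Real.cos (π * ((-(m : ℤ) : ℤ) : ℝ) * t / L) = Real.cos (π * m * t / L) := by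
        intro t
        rw [← Real.cos_neg]; congr 1; push_cast; ring
      have e2 : ∀ t, Real.sin (π * ((-(m : ℤ) : ℤ) : ℝ) * t / L) = - Real.sin (π * m * t / L) := by
        intro t
        rw [← Real.sin_neg]; congr 1; push_cast; ring
      simp only [e1, e2, mul_neg, intervalIntegral.integral_neg]
      rw [hsin m]
      push_cast; ring
  have hterm : ∀ n : ℤ, ‖fourierCoeffOn hLL (fun t => (f t : ℂ)) n‖ ^ 2 ≤
      (L / π) ^ 2 * ‖fourierCoeffOn hLL (fun t => (h t : ℂ)) n‖ ^ 2 := by
    intro n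
    rw [norm_sq_fourierCoeffOn hL hfi, norm_sq_fourierCoeffOn hL hhi, hcos', hsin']
    by_cases hn : n = 0
    · subst hn
      simp [h0]
    · have hn1 : (1 : ℝ) ≤ (n : ℝ) ^ 2 := by
        have : (1 : ℤ) ≤ n ^ 2 := by
          have := sq_nonneg n
          have h2 : n ^ 2 ≠ 0 := pow_ne_zero 2 hn
          omega
        exact_mod_cast this
      have hπ := Real.pi_pos
      set S := ∫ t in (-L)..L, f t * Real.sin (π * n * t / L)
      set C := ∫ t in (-L)..L, f t * Real.cos (π * n * t / L)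
      have e : (L / π) ^ 2 * (((π * n / L * S) ^ 2 + (-(π * n / L * C)) ^ 2) / (2 * L) ^ 2) =
          (n : ℝ) ^ 2 * ((C ^ 2 + S ^ 2) / (2 * L) ^ 2) := by
        field_simp
        ring
      rw [e]
      have : 0 ≤ (C ^ 2 + S ^ 2) / (2 * L) ^ 2 := by (clear * - hL; positivity)
      linarith only [mul_nonneg (sub_nonneg.2 hn1) (sub_nonneg.2 this)]
  have hle := hasSum_le hterm s1 (s2.mul_left _)
  simp only [smul_eq_mul, Complex.norm_real, Real.norm_eq_abs, sq_abs] at hle
  have h2L : 0 < L - -L := by linarith only [hL]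
  have : (L - -L)⁻¹ * ∫ t in (-L)..L, f t ^ 2 ≤
      (L - -L)⁻¹ * ((L / π) ^ 2 * ∫ t in (-L)..L, h t ^ 2) := by
    calc _ ≤ _ := hle
      _ = _ := by ring
  exact le_of_mul_le_mul_left this (inv_pos.mpr h2L)

/-- Wirtinger's inequality, weak form, on an interval of length `2 L`. -/
theorem wirtinger_trig {L : ℝ} (hL : 0 < L) {f h : ℝ → ℝ}
    (hf : MemLp f 2 (volume.restrict (Ioc (-L) L)))
    (hh : MemLp h 2 (volume.restrict (Ioc (-L) L)))
    (hcos : ∀ n : ℕ, ∫ t in (-L)..L, h t * Real.cos (π * n * t / L) =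
      π * n / L * ∫ t in (-L)..L, f t * Real.sin (π * n * t / L))
    (hsin : ∀ n : ℕ, ∫ t in (-L)..L, h t * Real.sin (π * n * t / L) =
      - (π * n / L * ∫ t in (-L)..L, f t * Real.cos (π * n * t / L))) :
    ∫ t in (-L)..L, (f t - (2 * L)⁻¹ * ∫ t in (-L)..L, f t) ^ 2 ≤
      (L / π) ^ 2 * ∫ t in (-L)..L, h t ^ 2 := by
  have hLL : -L < L := by linarith only [hL]
  have hfi := intervalIntegrable_of_memLp hLL.le hf
  set m : ℝ := (2 * L)⁻¹ * ∫ t in (-L)..L, f t with hm
  have hfin : IsFiniteMeasure (volume.restrict (Ioc (-L) L)) := ⟨by simp only [MeasurableSet.univ, Measure.restrict_apply, univ_inter, Real.volume_Ioc, sub_neg_eq_add, ENNReal.ofReal_lt_top]⟩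
  have hfm : MemLp (fun t => f t - m) 2 (volume.restrict (Ioc (-L) L)) :=
    hf.sub (memLp_const m)
  have hπ := Real.pi_pos
  have hder : ∀ (n : ℕ) (t : ℝ), HasDerivAt (fun t => π * n * t / L) (π * n / L) t := by
    intro n t
    have := ((hasDerivAt_id t).const_mul (π * n)).div_const L
    simpa only [id_eq, mul_one] using this
  -- integrals of sin and cos over the period
  have hs : ∀ n : ℕ, (π * n / L) * ∫ t in (-L)..L, Real.sin (π * n * t / L) = 0 := by
    intro n
    rw [← intervalIntegral.integral_const_mul]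
    have : ∀ t ∈ uIcc (-L) L, HasDerivAt (fun t => - Real.cos (π * n * t / L))
        (π * n / L * Real.sin (π * n * t / L)) t := by
      intro t _
      have := ((hder n t).cos).neg
      rwa [neg_mul, neg_neg, mul_comm (Real.sin _)] at this
    rw [intervalIntegral.integral_eq_sub_of_hasDerivAt this
      (Continuous.intervalIntegrable (by fun_prop) _ _)]
    have : π * n * -L / L = - (π * n * L / L) := by ring
    rw [this, Real.cos_neg]
    ring
  have hc : ∀ n : ℕ, (π * n / L) * ∫ t in (-L)..L, Real.cos (π * n * t / L) = 0 := by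
    intro n
    rw [← intervalIntegral.integral_const_mul]
    have : ∀ t ∈ uIcc (-L) L, HasDerivAt (fun t => Real.sin (π * n * t / L))
        (π * n / L * Real.cos (π * n * t / L)) t := by
      intro t _
      have := ((hder n t).sin)
      rwa [mul_comm (Real.cos _)] at this
    rw [intervalIntegral.integral_eq_sub_of_hasDerivAt this
      (Continuous.intervalIntegrable (by fun_prop) _ _)]
    have e1 : π * n * L / L = n * π := by (clear * - hL; field_simp)
    have e2 : π * n * -L / L = - (n * π) := by field_simp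
    rw [e1, e2, Real.sin_neg, Real.sin_nat_mul_pi]
    ring
  refine wirtinger_zero hL hfm hh ?_ ?_ ?_
  · rw [intervalIntegral.integral_sub hfi intervalIntegrable_const,
      intervalIntegral.integral_const, hm, smul_eq_mul]
    field_simp
    ring
  · intro n
    rw [hcos n]
    have i1 : IntervalIntegrable (fun t => f t * Real.sin (π * n * t / L)) volume (-L) L :=
      hfi.mul_continuousOn (by fun_prop)
    have i2 : IntervalIntegrable (fun t => m * Real.sin (π * n * t / L)) volume (-L) L :=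
      Continuous.intervalIntegrable (by fun_prop) _ _
    simp only [sub_mul]
    rw [intervalIntegral.integral_sub i1 i2, intervalIntegral.integral_const_mul, mul_sub]
    have := hs n
    linear_combination m * this
  · intro n
    rw [hsin n]
    have i1 : IntervalIntegrable (fun t => f t * Real.cos (π * n * t / L)) volume (-L) L :=
      hfi.mul_continuousOn (by fun_prop)
    have i2 : IntervalIntegrable (fun t => m * Real.cos (π * n * t / L)) volume (-L) L :=
      Continuous.intervalIntegrable (by fun_prop) _ _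
    simp only [sub_mul]
    rw [intervalIntegral.integral_sub i1 i2, intervalIntegral.integral_const_mul, mul_sub]
    have := hc n
    linear_combination (-m) * this

end Vale.Agent.P128
end

section

open MeasureTheory Set Metric Function Filter
open scoped ENNReal ContDiff Topology Real

namespace Vale.Agent.P128

theorem deriv_smoothTransition_eq_zero {t : ℝ} (ht : t ∉ Icc (0 : ℝ) 1) :
    deriv Real.smoothTransition t = 0 := by
  rcases lt_or_ge t 0 with h | h
  · have : Real.smoothTransition =ᶠ[𝓝 t] fun _ => 0 := by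
      filter_upwards [Iio_mem_nhds h] with y hy
      exact Real.smoothTransition.zero_of_nonpos (le_of_lt hy)
    rw [this.deriv_eq]; simp
  · have h1 : 1 < t := by
      by_contra hcon
      exact ht ⟨h, not_lt.mp hcon⟩
    have : Real.smoothTransition =ᶠ[𝓝 t] fun _ => 1 := by
      filter_upwards [Ioi_mem_nhds h1] with y hy
      exact Real.smoothTransition.one_of_one_le (le_of_lt hy)
    rw [this.deriv_eq]; simp

theorem exists_bound_deriv_smoothTransition :
    ∃ C : ℝ, 0 ≤ C ∧ ∀ t, |deriv Real.smoothTransition t| ≤ C := by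
  have hc : Continuous (deriv Real.smoothTransition) :=
    (Real.smoothTransition.contDiff (n := 1)).continuous_deriv le_rfl
  obtain ⟨C, hC⟩ := (isCompact_Icc (a := (0 : ℝ)) (b := 1)).exists_bound_of_continuousOn
    hc.continuousOn
  refine ⟨max C 0, le_max_right _ _, fun t => ?_⟩
  by_cases ht : t ∈ Icc (0 : ℝ) 1
  · exact (hC t ht).trans (le_max_left _ _)
  · rw [deriv_smoothTransition_eq_zero ht, abs_zero]; exact le_max_right _ _

/-- Cut-off functions for an interval. -/
noncomputable def cut (a b k t : ℝ) : ℝ :=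
  Real.smoothTransition (k * (t - a) - 1) * Real.smoothTransition (k * (b - t) - 1)

theorem cut_contDiff (a b k : ℝ) : ContDiff ℝ ∞ (cut a b k) := by
  unfold cut
  refine ContDiff.mul ?_ ?_
  · exact Real.smoothTransition.contDiff.comp (by fun_prop)
  · exact Real.smoothTransition.contDiff.comp (by fun_prop)

theorem cut_abs_le (a b k t : ℝ) : |cut a b k t| ≤ 1 := by
  unfold cut
  rw [abs_mul, abs_of_nonneg (Real.smoothTransition.nonneg _),
    abs_of_nonneg (Real.smoothTransition.nonneg _)]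
  exact mul_le_one₀ (Real.smoothTransition.le_one _) (Real.smoothTransition.nonneg _)
    (Real.smoothTransition.le_one _)

theorem cut_hasDerivAt (a b k t : ℝ) : HasDerivAt (cut a b k)
    (k * deriv Real.smoothTransition (k * (t - a) - 1) * Real.smoothTransition (k * (b - t) - 1) -
      Real.smoothTransition (k * (t - a) - 1) *
        (k * deriv Real.smoothTransition (k * (b - t) - 1))) t := by
  have hs : ∀ y, HasDerivAt Real.smoothTransition (deriv Real.smoothTransition y) y := fun y =>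
    ((Real.smoothTransition.contDiff (n := 1)).differentiable one_ne_zero y).hasDerivAt
  have h1 : HasDerivAt (fun t => k * (t - a) - 1) k t := by
    have := (((hasDerivAt_id t).sub_const a).const_mul k).sub_const 1
    simpa using this
  have h2 : HasDerivAt (fun t => k * (b - t) - 1) (-k) t := by
    have := (((hasDerivAt_id t).const_sub b).const_mul k).sub_const 1
    simpa using this
  have h3 := (hs (k * (t - a) - 1)).comp t h1
  have h4 := (hs (k * (b - t) - 1)).comp t h2
  have h5 : HasDerivAt (cut a b k) _ t := h3.mul h4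
  refine h5.congr_deriv ?_
  simp only [comp_apply]
  ring

theorem cut_eq_zero {a b k t : ℝ} (hk : 0 < k) (ht : t ∉ Icc (a + 1 / k) (b - 1 / k)) :
    cut a b k t = 0 := by
  unfold cut
  by_cases h : a + 1 / k ≤ t
  · have h2 : b - 1 / k < t := by
      by_contra hcon
      exact ht ⟨h, not_lt.mp hcon⟩
    have : k * (b - t) - 1 ≤ 0 := by
      have : b - t < 1 / k := by linarith
      rw [lt_div_iff₀ hk] at this
      nlinarith
    rw [Real.smoothTransition.zero_of_nonpos this, mul_zero]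
  · push Not at h
    have : k * (t - a) - 1 ≤ 0 := by
      have : t - a < 1 / k := by linarith
      rw [lt_div_iff₀ hk] at this
      nlinarith
    rw [Real.smoothTransition.zero_of_nonpos this, zero_mul]

/-- The weak derivative relation extends to smooth functions vanishing at the end points. -/
theorem weak_deriv_ext {a b : ℝ} (hab : a < b) {f h : ℝ → ℝ} (hf : IntegrableOn f (Ioo a b))
    (hh : IntegrableOn h (Ioo a b))
    (hw : ∀ φ : ℝ → ℝ, ContDiff ℝ ∞ φ → HasCompactSupport φ → tsupport φ ⊆ Ioo a b →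
      ∫ t in Ioo a b, f t * deriv φ t = - ∫ t in Ioo a b, h t * φ t)
    {φ : ℝ → ℝ} (hφ : ContDiff ℝ ∞ φ) (ha : φ a = 0) (hb : φ b = 0) :
    ∫ t in Ioo a b, f t * deriv φ t = - ∫ t in Ioo a b, h t * φ t := by
  obtain ⟨Cσ, hCσ0, hCσ⟩ := exists_bound_deriv_smoothTransition
  have hφd : Continuous (deriv φ) := hφ.continuous_deriv (by simp)
  obtain ⟨C₁, hC₁⟩ := (isCompact_Icc (a := a) (b := b)).exists_bound_of_continuousOn
    hφd.continuousOn
  obtain ⟨C₀, hC₀⟩ := (isCompact_Icc (a := a) (b := b)).exists_bound_of_continuousOn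
    hφ.continuous.continuousOn
  have hC₁0 : 0 ≤ C₁ := (norm_nonneg _).trans (hC₁ a (left_mem_Icc.mpr hab.le))
  have hC₀0 : 0 ≤ C₀ := (norm_nonneg _).trans (hC₀ a (left_mem_Icc.mpr hab.le))
  have hdiff : ∀ t ∈ Icc a b, DifferentiableWithinAt ℝ φ (Icc a b) t := fun t _ =>
    (hφ.differentiable (by simp) t).differentiableWithinAt
  have hbdw : ∀ t ∈ Icc a b, ‖deriv φ t‖ ≤ C₁ := hC₁
  have hlipa : ∀ t ∈ Icc a b, |φ t| ≤ C₁ * (t - a) := by
    intro t ht
    have := (convex_Icc a b).norm_image_sub_le_of_norm_deriv_le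
      (f := φ) (C := C₁) (fun t _ => hφ.differentiable (by simp) t) hbdw
      (left_mem_Icc.mpr hab.le) ht
    rw [ha, sub_zero, Real.norm_eq_abs, Real.norm_eq_abs,
      abs_of_nonneg (sub_nonneg.mpr ht.1)] at this
    exact this
  have hlipb : ∀ t ∈ Icc a b, |φ t| ≤ C₁ * (b - t) := by
    intro t ht
    have := (convex_Icc a b).norm_image_sub_le_of_norm_deriv_le
      (f := φ) (C := C₁) (fun t _ => hφ.differentiable (by simp) t) hbdw
      ht (right_mem_Icc.mpr hab.le)
    rw [hb, zero_sub, norm_neg, Real.norm_eq_abs, Real.norm_eq_abs,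
      abs_of_nonneg (sub_nonneg.mpr ht.2)] at this
    exact this
  -- the approximating test functions
  let ψ : ℕ → ℝ → ℝ := fun k t => cut a b (k + 1) t * φ t
  have hψs : ∀ k, ContDiff ℝ ∞ (ψ k) := fun k => (cut_contDiff a b (k + 1)).mul hφ
  have hsup : ∀ k : ℕ, tsupport (ψ k) ⊆ Icc (a + 1 / (k + 1)) (b - 1 / (k + 1)) := by
    intro k
    refine closure_minimal (fun t ht => ?_) isClosed_Icc
    by_contra hcon
    refine ht ?_
    show cut a b (k + 1) t * φ t = 0
    rw [cut_eq_zero (by positivity) hcon, zero_mul]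
  have hw' : ∀ k, ∫ t in Ioo a b, f t * deriv (ψ k) t = - ∫ t in Ioo a b, h t * ψ k t := by
    intro k
    refine hw (ψ k) (hψs k) (isCompact_Icc.of_isClosed_subset (isClosed_tsupport _) (hsup k))
      ((hsup k).trans ?_)
    have : (0 : ℝ) < 1 / (k + 1) := by positivity
    exact fun t ht => ⟨by linarith [ht.1], by linarith [ht.2]⟩
  have hψd : ∀ (k : ℕ) (t : ℝ), deriv (ψ k) t = deriv (cut a b (k + 1)) t * φ t
      + cut a b (k + 1) t * deriv φ t := by
    intro k t
    have h1 := (cut_hasDerivAt a b (k + 1) t)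
    have h2 := (hφ.differentiable (by simp) t).hasDerivAt
    have h3 : HasDerivAt (ψ k) _ t := h1.mul h2
    rw [h3.deriv, h1.deriv]
  -- bound for cut' * φ
  have hbd : ∀ (k : ℕ), ∀ t ∈ Ioo a b, |deriv (cut a b (k + 1)) t * φ t| ≤ 4 * Cσ * C₁ := by
    intro k t ht
    have htI : t ∈ Icc a b := Ioo_subset_Icc_self ht
    have hk : (0 : ℝ) < (k : ℝ) + 1 := by positivity
    rw [(cut_hasDerivAt a b (k + 1) t).deriv]
    have A : |((k : ℝ) + 1) * deriv Real.smoothTransition ((k + 1) * (t - a) - 1) *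
        Real.smoothTransition ((k + 1) * (b - t) - 1) * φ t| ≤ 2 * Cσ * C₁ := by
      by_cases hm : ((k : ℝ) + 1) * (t - a) - 1 ∈ Icc (0 : ℝ) 1
      · rw [abs_mul, abs_mul, abs_mul, abs_of_pos hk,
          abs_of_nonneg (Real.smoothTransition.nonneg _)]
        have h1 : ((k : ℝ) + 1) * (t - a) ≤ 2 := by linarith [hm.2]
        calc ((k : ℝ) + 1) * |deriv Real.smoothTransition ((k + 1) * (t - a) - 1)| *
              Real.smoothTransition ((k + 1) * (b - t) - 1) * |φ t|
            ≤ ((k : ℝ) + 1) * Cσ * 1 * (C₁ * (t - a)) := by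
              gcongr
              · exact Real.smoothTransition.nonneg _
              · exact hCσ _
              · exact Real.smoothTransition.le_one _
              · exact hlipa t htI
          _ = Cσ * C₁ * (((k : ℝ) + 1) * (t - a)) := by ring
          _ ≤ Cσ * C₁ * 2 := by gcongr
          _ = 2 * Cσ * C₁ := by ring
      · rw [deriv_smoothTransition_eq_zero hm]
        simp
        positivity
    have B : |Real.smoothTransition ((k + 1) * (t - a) - 1) * (((k : ℝ) + 1) *
        deriv Real.smoothTransition ((k + 1) * (b - t) - 1)) * φ t| ≤ 2 * Cσ * C₁ := by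
      by_cases hm : ((k : ℝ) + 1) * (b - t) - 1 ∈ Icc (0 : ℝ) 1
      · rw [abs_mul, abs_mul, abs_mul, abs_of_pos hk,
          abs_of_nonneg (Real.smoothTransition.nonneg _)]
        have h1 : ((k : ℝ) + 1) * (b - t) ≤ 2 := by linarith [hm.2]
        calc Real.smoothTransition ((k + 1) * (t - a) - 1) * (((k : ℝ) + 1) *
              |deriv Real.smoothTransition ((k + 1) * (b - t) - 1)|) * |φ t|
            ≤ 1 * (((k : ℝ) + 1) * Cσ) * (C₁ * (b - t)) := by
              gcongr
              · exact Real.smoothTransition.le_one _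
              · exact hCσ _
              · exact hlipb t htI
          _ = Cσ * C₁ * (((k : ℝ) + 1) * (b - t)) := by ring
          _ ≤ Cσ * C₁ * 2 := by gcongr
          _ = 2 * Cσ * C₁ := by ring
      · rw [deriv_smoothTransition_eq_zero hm]
        simp
        positivity
    rw [sub_mul]
    refine (abs_sub _ _).trans ?_
    linarith
  -- eventually the cut-off is one near `t`
  have hev : ∀ t ∈ Ioo a b, ∀ᶠ k : ℕ in atTop, deriv (cut a b (k + 1)) t = 0 ∧
      cut a b (k + 1) t = 1 := by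
    intro t ht
    have h1 : Tendsto (fun k : ℕ => ((k : ℝ) + 1) * (t - a) - 1) atTop atTop := by
      refine tendsto_atTop_add_const_right _ _ ?_
      exact (tendsto_atTop_add_const_right _ _ tendsto_natCast_atTop_atTop).atTop_mul_const
        (by linarith [ht.1])
    have h2 : Tendsto (fun k : ℕ => ((k : ℝ) + 1) * (b - t) - 1) atTop atTop := by
      refine tendsto_atTop_add_const_right _ _ ?_
      exact (tendsto_atTop_add_const_right _ _ tendsto_natCast_atTop_atTop).atTop_mul_const
        (by linarith [ht.2])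
    filter_upwards [h1.eventually_gt_atTop 1, h2.eventually_gt_atTop 1] with k hk1 hk2
    constructor
    · rw [(cut_hasDerivAt a b (k + 1) t).deriv,
        deriv_smoothTransition_eq_zero (fun hh => by linarith [hh.2]),
        deriv_smoothTransition_eq_zero (fun hh => by linarith [hh.2])]
      ring
    · unfold cut
      rw [Real.smoothTransition.one_of_one_le hk1.le, Real.smoothTransition.one_of_one_le hk2.le,
        one_mul]
  have l1 : Tendsto (fun k : ℕ => ∫ t in Ioo a b, f t * deriv (ψ k) t) atTop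
      (𝓝 (∫ t in Ioo a b, f t * deriv φ t)) := by
    refine tendsto_integral_of_dominated_convergence (fun t => |f t| * (4 * Cσ * C₁ + C₁))
      (fun k => ?_) (hf.abs.mul_const _) (fun k => ?_) ?_
    · exact hf.1.mul ((hψs k).continuous_deriv (by simp)).aestronglyMeasurable
    · refine (ae_restrict_mem measurableSet_Ioo).mono fun t ht => ?_
      rw [norm_mul, Real.norm_eq_abs, Real.norm_eq_abs, hψd]
      gcongr
      refine (abs_add_le _ _).trans ?_
      gcongr
      · exact hbd k t ht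
      · rw [abs_mul]
        calc |cut a b (k + 1) t| * |deriv φ t| ≤ 1 * C₁ := by
              gcongr
              · exact cut_abs_le _ _ _ _
              · exact hC₁ t (Ioo_subset_Icc_self ht)
          _ = C₁ := one_mul _
    · refine (ae_restrict_mem measurableSet_Ioo).mono fun t ht => ?_
      refine Tendsto.const_mul _ ?_
      refine tendsto_const_nhds.congr' ?_
      filter_upwards [hev t ht] with k hk
      rw [hψd, hk.1, hk.2]; ring
  have l2 : Tendsto (fun k : ℕ => - ∫ t in Ioo a b, h t * ψ k t) atTop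
      (𝓝 (- ∫ t in Ioo a b, h t * φ t)) := by
    refine Tendsto.neg ?_
    refine tendsto_integral_of_dominated_convergence (fun t => |h t| * C₀)
      (fun k => ?_) (hh.abs.mul_const _) (fun k => ?_) ?_
    · exact hh.1.mul (hψs k).continuous.aestronglyMeasurable
    · refine (ae_restrict_mem measurableSet_Ioo).mono fun t ht => ?_
      rw [norm_mul, Real.norm_eq_abs, Real.norm_eq_abs]
      gcongr
      show |cut a b (k + 1) t * φ t| ≤ C₀
      rw [abs_mul]
      calc |cut a b (k + 1) t| * |φ t| ≤ 1 * C₀ := by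
            gcongr
            · exact cut_abs_le _ _ _ _
            · exact hC₀ t (Ioo_subset_Icc_self ht)
        _ = C₀ := one_mul _
    · refine (ae_restrict_mem measurableSet_Ioo).mono fun t ht => ?_
      refine Tendsto.const_mul _ ?_
      refine tendsto_const_nhds.congr' ?_
      filter_upwards [hev t ht] with k hk
      show φ t = cut a b (k + 1) t * φ t
      rw [hk.2, one_mul]
  exact tendsto_nhds_unique (by simpa only [hw'] using l1) l2

theorem integral_symm_split {L : ℝ} (hL : 0 < L) {Φ : ℝ → ℝ}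
    (hΦ : IntervalIntegrable Φ volume (-L) L) :
    ∫ t in (-L)..L, Φ t = ∫ t in (0 : ℝ)..L, (Φ t + Φ (-t)) := by
  have h1 : IntervalIntegrable Φ volume (-L) 0 :=
    hΦ.mono_set (by rw [uIcc_of_le (by linarith), uIcc_of_le (by linarith)]
                    exact Icc_subset_Icc le_rfl hL.le)
  have h2 : IntervalIntegrable Φ volume 0 L :=
    hΦ.mono_set (by rw [uIcc_of_le (by linarith), uIcc_of_le (by linarith)]
                    exact Icc_subset_Icc (by linarith) le_rfl)
  have h3 : IntervalIntegrable (fun t => Φ (-t)) volume 0 L := by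
    have := (IntervalIntegrable.iff_comp_neg).mp h1
    simpa using this.symm
  rw [intervalIntegral.integral_add h2 h3, intervalIntegral.integral_comp_neg (fun t => Φ t),
    neg_zero, add_comm, intervalIntegral.integral_add_adjacent_intervals h1 h2]

/-- Poincaré's inequality with the sharp constant on an interval, in weak form. -/
theorem arc_poincare {a b : ℝ} (hab : a < b) {f h : ℝ → ℝ}
    (hf : MemLp f 2 (volume.restrict (Ioo a b))) (hh : MemLp h 2 (volume.restrict (Ioo a b)))
    (hw : ∀ φ : ℝ → ℝ, ContDiff ℝ ∞ φ → HasCompactSupport φ → tsupport φ ⊆ Ioo a b →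
      ∫ t in Ioo a b, f t * deriv φ t = - ∫ t in Ioo a b, h t * φ t) :
    ∫ t in Ioo a b, (f t - (b - a)⁻¹ * ∫ t in Ioo a b, f t) ^ 2 ≤
      ((b - a) / π) ^ 2 * ∫ t in Ioo a b, h t ^ 2 := by
  obtain ⟨L, hLdef⟩ : ∃ L, L = b - a := ⟨_, rfl⟩
  have hL : 0 < L := by linarith
  have hπ := Real.pi_pos
  have hfin : IsFiniteMeasure (volume.restrict (Ioo a b)) := ⟨by simp⟩
  have hfi : IntegrableOn f (Ioo a b) := hf.integrable (by norm_num)
  have hhi : IntegrableOn h (Ioo a b) := hh.integrable (by norm_num)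
  have shift1 : ∀ {f : ℝ → ℝ}, MemLp f 2 (volume.restrict (Ioo a b)) →
      MemLp (fun t => f (a + t)) 2 (volume.restrict (Ioo 0 L)) := by
    intro f hf
    have mp := (measurePreserving_add_left (volume : Measure ℝ) a).restrict_preimage
      (measurableSet_Ioo (a := a) (b := b))
    have := hf.comp_measurePreserving mp
    rw [preimage_const_add_Ioo, sub_self, ← hLdef] at this
    exact this
  have shift2 : ∀ {f : ℝ → ℝ}, MemLp f 2 (volume.restrict (Ioo a b)) →
      MemLp (fun t => f (a - t)) 2 (volume.restrict (Ioo (-L) 0)) := by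
    intro f hf
    have mp := (Measure.measurePreserving_sub_left (volume : Measure ℝ) a).restrict_preimage
      (measurableSet_Ioo (a := a) (b := b))
    have := hf.comp_measurePreserving mp
    have e : (fun t => a - t) ⁻¹' Ioo a b = Ioo (-L) 0 := by
      ext t
      simp only [mem_preimage, mem_Ioo]
      constructor
      · rintro ⟨h1, h2⟩; exact ⟨by linarith, by linarith⟩
      · rintro ⟨h1, h2⟩; exact ⟨by linarith, by linarith⟩
    rw [e] at this
    exact this
  set F : ℝ → ℝ := fun t => (Ioo 0 L).indicator (fun t => f (a + t)) t +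
    (Ioo (-L) 0).indicator (fun t => f (a - t)) t with hF
  set H : ℝ → ℝ := fun t => (Ioo 0 L).indicator (fun t => h (a + t)) t -
    (Ioo (-L) 0).indicator (fun t => h (a - t)) t with hH
  have hFm : MemLp F 2 (volume.restrict (Ioc (-L) L)) :=
    (((memLp_indicator_iff_restrict measurableSet_Ioo).mpr (shift1 hf)).add
      ((memLp_indicator_iff_restrict measurableSet_Ioo).mpr (shift2 hf))).restrict _
  have hHm : MemLp H 2 (volume.restrict (Ioc (-L) L)) :=
    (((memLp_indicator_iff_restrict measurableSet_Ioo).mpr (shift1 hh)).sub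
      ((memLp_indicator_iff_restrict measurableSet_Ioo).mpr (shift2 hh))).restrict _
  have hFi := intervalIntegrable_of_memLp (by linarith : -L ≤ L) hFm
  have hHi := intervalIntegrable_of_memLp (by linarith : -L ≤ L) hHm
  have hFpos : ∀ t ∈ Ioo 0 L, F t = f (a + t) := by
    intro t ht
    have h2 : t ∉ Ioo (-L) 0 := fun h => by linarith [h.2, ht.1]
    simp only [hF, indicator_of_mem ht, indicator_of_notMem h2, add_zero]
  have hFneg : ∀ t ∈ Ioo 0 L, F (-t) = f (a + t) := by
    intro t ht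
    have h1 : -t ∉ Ioo 0 L := fun h => by linarith [h.1, ht.1]
    have h2 : -t ∈ Ioo (-L) 0 := ⟨by linarith [ht.2], by linarith [ht.1]⟩
    simp only [hF, indicator_of_notMem h1, indicator_of_mem h2, zero_add, sub_neg_eq_add]
  have hHpos : ∀ t ∈ Ioo 0 L, H t = h (a + t) := by
    intro t ht
    have h2 : t ∉ Ioo (-L) 0 := fun h => by linarith [h.2, ht.1]
    simp only [hH, indicator_of_mem ht, indicator_of_notMem h2, sub_zero]
  have hHneg : ∀ t ∈ Ioo 0 L, H (-t) = - h (a + t) := by
    intro t ht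
    have h1 : -t ∉ Ioo 0 L := fun h => by linarith [h.1, ht.1]
    have h2 : -t ∈ Ioo (-L) 0 := ⟨by linarith [ht.2], by linarith [ht.1]⟩
    simp only [hH, indicator_of_notMem h1, indicator_of_mem h2, zero_sub, sub_neg_eq_add]
  -- conversion of the half-line integrals
  have conv : ∀ Ψ : ℝ → ℝ, ∫ t in (0 : ℝ)..L, Ψ (a + t) = ∫ t in Ioo a b, Ψ t := by
    intro Ψ
    rw [intervalIntegral.integral_comp_add_left (fun t => Ψ t), add_zero,
      intervalIntegral.integral_of_le (by linarith), integral_Ioc_eq_integral_Ioo]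
    congr 3
    linarith
  have congrIoo : ∀ {Φ Ψ : ℝ → ℝ}, (∀ t ∈ Ioo 0 L, Φ t = Ψ t) →
      ∫ t in (0 : ℝ)..L, Φ t = ∫ t in (0 : ℝ)..L, Ψ t := by
    intro Φ Ψ hΦΨ
    rw [intervalIntegral.integral_of_le hL.le, intervalIntegral.integral_of_le hL.le,
      integral_Ioc_eq_integral_Ioo, integral_Ioc_eq_integral_Ioo]
    exact setIntegral_congr_fun measurableSet_Ioo hΦΨ
  have arg : ∀ (n : ℕ) (t : ℝ), π * n * (-t) / L = - (π * n * t / L) := fun n t => by ring
  have Fcos : ∀ n : ℕ, ∫ t in (-L)..L, F t * Real.cos (π * n * t / L) =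
      2 * ∫ t in Ioo a b, f t * Real.cos (π * n * (t - a) / L) := by
    intro n
    rw [integral_symm_split hL (hFi.mul_continuousOn (by fun_prop)),
      ← conv (fun t => f t * Real.cos (π * n * (t - a) / L)),
      ← intervalIntegral.integral_const_mul]
    refine congrIoo fun t ht => ?_
    rw [hFpos t ht, hFneg t ht, arg, Real.cos_neg]
    simp only [add_sub_cancel_left]
    ring
  have Fsin : ∀ n : ℕ, ∫ t in (-L)..L, F t * Real.sin (π * n * t / L) = 0 := by
    intro n
    rw [integral_symm_split hL (hFi.mul_continuousOn (by fun_prop))]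
    rw [congrIoo (Ψ := fun _ => 0) fun t ht => by
      rw [hFpos t ht, hFneg t ht, arg, Real.sin_neg]; ring]
    simp
  have Hcos : ∀ n : ℕ, ∫ t in (-L)..L, H t * Real.cos (π * n * t / L) = 0 := by
    intro n
    rw [integral_symm_split hL (hHi.mul_continuousOn (by fun_prop))]
    rw [congrIoo (Ψ := fun _ => 0) fun t ht => by
      rw [hHpos t ht, hHneg t ht, arg, Real.cos_neg]; ring]
    simp
  have Hsin : ∀ n : ℕ, ∫ t in (-L)..L, H t * Real.sin (π * n * t / L) =
      2 * ∫ t in Ioo a b, h t * Real.sin (π * n * (t - a) / L) := by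
    intro n
    rw [integral_symm_split hL (hHi.mul_continuousOn (by fun_prop)),
      ← conv (fun t => h t * Real.sin (π * n * (t - a) / L)),
      ← intervalIntegral.integral_const_mul]
    refine congrIoo fun t ht => ?_
    rw [hHpos t ht, hHneg t ht, arg, Real.sin_neg]
    simp only [add_sub_cancel_left]
    ring
  have Fint : ∫ t in (-L)..L, F t = 2 * ∫ t in Ioo a b, f t := by
    rw [integral_symm_split hL hFi, ← conv f, ← intervalIntegral.integral_const_mul]
    refine congrIoo fun t ht => ?_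
    rw [hFpos t ht, hFneg t ht]
    ring
  -- the weak derivative tested with sines
  have test : ∀ n : ℕ, ∫ t in Ioo a b, h t * Real.sin (π * n * (t - a) / L) =
      - (π * n / L * ∫ t in Ioo a b, f t * Real.cos (π * n * (t - a) / L)) := by
    intro n
    have hφ : ContDiff ℝ ∞ (fun t => Real.sin (π * n * (t - a) / L)) := by fun_prop
    have hφd : ∀ t, deriv (fun t => Real.sin (π * n * (t - a) / L)) t =
        Real.cos (π * n * (t - a) / L) * (π * n / L) := by
      intro t
      have h1 : HasDerivAt (fun t => π * n * (t - a) / L) (π * n / L) t := by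
        have := (((hasDerivAt_id t).sub_const a).const_mul (π * n)).div_const L
        simpa using this
      exact h1.sin.deriv
    have := weak_deriv_ext hab hfi hhi hw hφ (by simp) (by
      have : π * n * (b - a) / L = n * π := by rw [← hLdef]; field_simp
      simp only [this, Real.sin_nat_mul_pi])
    simp only [hφd] at this
    have e : ∫ t in Ioo a b, f t * (Real.cos (π * n * (t - a) / L) * (π * n / L)) =
        π * n / L * ∫ t in Ioo a b, f t * Real.cos (π * n * (t - a) / L) := by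
      rw [← integral_const_mul]
      refine integral_congr_ae (Eventually.of_forall fun t => ?_)
      ring
    rw [e] at this
    linarith
  have W := wirtinger_trig hL hFm hHm (fun n => by rw [Hcos, Fsin]; ring) (fun n => by
    rw [Hsin, Fcos, test]; ring)
  rw [Fint] at W
  have em : (2 * L)⁻¹ * (2 * ∫ t in Ioo a b, f t) = (b - a)⁻¹ * ∫ t in Ioo a b, f t := by
    rw [← hLdef]; field_simp
  rw [em] at W
  set m := (b - a)⁻¹ * ∫ t in Ioo a b, f t with hm
  have hfinL : IsFiniteMeasure (volume.restrict (Ioc (-L) L)) := ⟨by simp⟩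
  have sq1 : IntervalIntegrable (fun t => (F t - m) ^ 2) volume (-L) L := by
    rw [intervalIntegrable_iff_integrableOn_Ioc_of_le (by linarith)]
    exact (hFm.sub (memLp_const m)).integrable_sq
  have sq2 : IntervalIntegrable (fun t => (H t) ^ 2) volume (-L) L := by
    rw [intervalIntegrable_iff_integrableOn_Ioc_of_le (by linarith)]
    exact hHm.integrable_sq
  have e1 : ∫ t in (-L)..L, (F t - m) ^ 2 = 2 * ∫ t in Ioo a b, (f t - m) ^ 2 := by
    rw [integral_symm_split hL sq1, ← conv (fun t => (f t - m) ^ 2),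
      ← intervalIntegral.integral_const_mul]
    refine congrIoo fun t ht => ?_
    rw [hFpos t ht, hFneg t ht]
    ring
  have e2 : ∫ t in (-L)..L, (H t) ^ 2 = 2 * ∫ t in Ioo a b, h t ^ 2 := by
    rw [integral_symm_split hL sq2, ← conv (fun t => h t ^ 2),
      ← intervalIntegral.integral_const_mul]
    refine congrIoo fun t ht => ?_
    rw [hHpos t ht, hHneg t ht]
    ring
  rw [e1, e2, hLdef] at W
  linarith

/-- Wirtinger's inequality on the circle, in weak form. -/
theorem circle_wirtinger {f h : ℝ → ℝ}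
    (hf : MemLp f 2 (volume.restrict ang)) (hh : MemLp h 2 (volume.restrict ang))
    (hcos : ∀ n : ℕ, ∫ t in ang, h t * Real.cos (n * t) = n * ∫ t in ang, f t * Real.sin (n * t))
    (hsin : ∀ n : ℕ, ∫ t in ang, h t * Real.sin (n * t) =
      - (n * ∫ t in ang, f t * Real.cos (n * t))) :
    ∫ t in ang, (f t - (2 * π)⁻¹ * ∫ t in ang, f t) ^ 2 ≤ ∫ t in ang, h t ^ 2 := by
  have hπ := Real.pi_pos
  have conv : ∀ Ψ : ℝ → ℝ, ∫ t in (-π)..π, Ψ t = ∫ t in ang, Ψ t := by
    intro Ψ
    rw [intervalIntegral.integral_of_le (by linarith), integral_Ioc_eq_integral_Ioo]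
  have hr : (volume.restrict (Ioc (-π) π) : Measure ℝ) = volume.restrict ang :=
    Measure.restrict_congr_set Ioo_ae_eq_Ioc.symm
  have arg : ∀ (n : ℕ) (t : ℝ), π * n * t / π = n * t := fun n t => by field_simp
  have arg2 : ∀ (n : ℕ), π * n / π = n := fun n => by field_simp
  have W := wirtinger_trig hπ (f := f) (h := h) (by rwa [hr]) (by rwa [hr])
    (fun n => by simp only [arg, arg2, conv]; exact hcos n)
    (fun n => by simp only [arg, arg2, conv]; exact hsin n)
  simpa [conv, div_self hπ.ne'] using W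

end Vale.Agent.P128
end

section

open MeasureTheory Set Metric Filter
open scoped ENNReal NNReal Topology Real ContDiff

namespace Vale.Agent.P128

/-- The unit vector of angle `t`. -/
noncomputable def uc (t : ℝ) : ℂ := Complex.exp (t * Complex.I)

theorem uc_eq (t : ℝ) : circleMap 0 1 t = uc t := by
  rw [circleMap_zero, uc]; push_cast; ring

theorem uc_add (s t : ℝ) : uc (s + t) = uc s * uc t := by
  unfold uc; rw [← Complex.exp_add]; push_cast; ring_nf

theorem uc_zero : uc 0 = 1 := by simp [uc]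

theorem norm_uc (t : ℝ) : ‖uc t‖ = 1 := Complex.norm_exp_ofReal_mul_I t

theorem uc_ne_zero (t : ℝ) : uc t ≠ 0 := Complex.exp_ne_zero _

theorem uc_two_pi : uc (2 * π) = 1 := by
  unfold uc; push_cast; exact Complex.exp_two_pi_mul_I

theorem uc_neg_mul (t : ℝ) : uc (-t) * uc t = 1 := by
  rw [← uc_add, neg_add_cancel, uc_zero]

theorem continuous_uc : Continuous uc := by unfold uc; fun_prop

theorem uc_inj {s t : ℝ} (h : uc s = uc t) (hd : |s - t| < 2 * π) : s = t := by
  unfold uc at h
  rw [Complex.exp_eq_exp_iff_exists_int] at h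
  obtain ⟨n, hn⟩ := h
  have h1 : (s : ℂ) = t + n * (2 * π) := by
    have hI := Complex.I_ne_zero
    have : (s : ℂ) * Complex.I = (t + n * (2 * π)) * Complex.I := by rw [hn]; ring
    exact mul_right_cancel₀ hI this
  have h2 : s = t + n * (2 * π) := by exact_mod_cast h1
  have h3 : |(n : ℝ)| * (2 * π) < 2 * π := by
    have : |s - t| = |(n : ℝ)| * (2 * π) := by
      rw [h2, add_sub_cancel_left, abs_mul, abs_of_pos (a := 2 * π) (by (clear * -; positivity))]
    rwa [this] at hd
  have h4 : |(n : ℝ)| < 1 := by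
    have : (0 : ℝ) < 2 * π := by positivity
    nlinarith only [h3, this]
  have h5 : |n| < 1 := by exact_mod_cast h4
  rw [Int.abs_lt_one_iff] at h5
  rw [h2, h5]; simp

theorem uc_arg {p : ℂ} (hp : ‖p‖ = 1) : uc p.arg = p := by
  unfold uc
  have := Complex.norm_mul_exp_arg_mul_I p
  rw [hp] at this
  simpa using this

/-- Shift of the angular variable. -/
theorem integral_ang_shift {F : ℝ → ℝ} (hF : Function.Periodic F (2 * π)) (α : ℝ) :
    ∫ θ in ang, F θ = ∫ t in Ioo 0 (2 * π), F (α + t) := by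
  have hπ := Real.pi_pos
  rw [← integral_Ioc_eq_integral_Ioo, ← intervalIntegral.integral_of_le (by linarith only [hπ]),
    ← integral_Ioc_eq_integral_Ioo, ← intervalIntegral.integral_of_le (by linarith only [hπ]),
    intervalIntegral.integral_comp_add_left (fun t => F t) α]
  have := hF.intervalIntegral_add_eq (-π) α
  rw [show -π + 2 * π = π by ring] at this
  rw [this, add_zero]

theorem integrable_ang_shift {F : ℝ → ℝ} (hF : Function.Periodic F (2 * π))
    (hi : IntegrableOn F ang) (α : ℝ) : IntegrableOn (fun t => F (α + t)) (Ioo 0 (2 * π)) := by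
  have hπ := Real.pi_pos
  have h1 : IntervalIntegrable F volume (-π) (-π + 2 * π) := by
    rw [show -π + 2 * π = π by ring,
      intervalIntegrable_iff_integrableOn_Ioo_of_le (by linarith only [hπ])]
    exact hi
  have h2 := hF.intervalIntegrable (by positivity) h1 α (α + 2 * π)
  have h3 := h2.comp_add_left α
  rw [sub_self, add_sub_cancel_left,
    intervalIntegrable_iff_integrableOn_Ioo_of_le (by linarith only [hπ])] at h3
  exact h3

/-- The angular gap after `p`. -/
noncomputable def gap (Θ : Set ℂ) (p : ℂ) : ℝ := sInf {t | 0 < t ∧ p * uc t ∈ Θ}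

theorem finite_angles {Θ : Set ℂ} (hΘ : Θ.Finite) {p : ℂ} (hp : ‖p‖ = 1) (a : ℝ) :
    {t | t ∈ Ioc a (a + 2 * π) ∧ p * uc t ∈ Θ}.Finite := by
  refine Finite.of_finite_image (f := fun t => p * uc t) (hΘ.subset ?_) ?_
  · rintro _ ⟨t, ht, rfl⟩
    exact ht.2
  · intro s hs t ht hst
    have hp0 : p ≠ 0 := by
      rw [← norm_ne_zero_iff, hp]; exact one_ne_zero
    refine uc_inj (mul_left_cancel₀ hp0 hst) ?_
    rw [abs_lt]
    constructor <;> linarith only [hs.1.1, ht.1.2, hs.1.2, ht.1.1]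

theorem gap_spec {Θ : Set ℂ} (hΘ : Θ.Finite) {p : ℂ} (hp : p ∈ Θ) (hp1 : ‖p‖ = 1) :
    0 < gap Θ p ∧ gap Θ p ≤ 2 * π ∧ p * uc (gap Θ p) ∈ Θ ∧
      ∀ t, 0 < t → t < gap Θ p → p * uc t ∉ Θ := by
  have hπ := Real.pi_pos
  set D : Set ℝ := {t | 0 < t ∧ p * uc t ∈ Θ} with hD
  set D' : Set ℝ := {t | t ∈ Ioc 0 (0 + 2 * π) ∧ p * uc t ∈ Θ} with hD'
  have hfin : D'.Finite := finite_angles hΘ hp1 0
  have h2π : (2 * π) ∈ D' := by
    refine ⟨⟨by positivity, by linarith only []⟩, ?_⟩
    rw [uc_two_pi, mul_one]; exact hp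
  obtain ⟨m, hm, hmin⟩ := hfin.exists_minimalFor id D' ⟨_, h2π⟩
  have hmin' : ∀ t ∈ D', m ≤ t := by
    intro t ht
    rcases le_total m t with h | h
    · exact h
    · exact hmin ht h
  have hlb : ∀ t ∈ D, m ≤ t := by
    intro t ht
    rcases le_or_gt t (2 * π) with h | h
    · exact hmin' t ⟨⟨ht.1, by linarith only [h]⟩, ht.2⟩
    · exact (hmin' _ h2π).trans h.le
  have hgap : gap Θ p = m := by
    apply le_antisymm
    · exact csInf_le ⟨m, hlb⟩ ⟨hm.1.1, hm.2⟩
    · exact le_csInf ⟨m, hm.1.1, hm.2⟩ hlb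
  rw [hgap]
  refine ⟨hm.1.1, by linarith only [hm.1.2], hm.2, fun t ht0 htm h => ?_⟩
  exact absurd (hlb t ⟨ht0, h⟩) (not_le.mpr htm)

/-- The first point of `Θ` met when going backwards from `e`. -/
theorem exists_prev {Θ : Set ℂ} (hΘ : Θ.Finite) (hne : Θ.Nonempty) (h1 : ∀ w ∈ Θ, ‖w‖ = 1)
    {e : ℂ} (he : ‖e‖ = 1) :
    ∃ p ∈ Θ, ∃ t, 0 < t ∧ t ≤ gap Θ p ∧ e = p * uc t := by
  have hπ := Real.pi_pos
  have he0 : e ≠ 0 := by rw [← norm_ne_zero_iff, he]; exact one_ne_zero
  set D' : Set ℝ := {t | t ∈ Ioc (-(2 * π)) (-(2 * π) + 2 * π) ∧ e * uc t ∈ Θ} with hD'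
  have hfin : D'.Finite := finite_angles hΘ he _
  -- a point strictly behind `e`
  set D'' : Set ℝ := {t | t ∈ Ico (-(2 * π)) 0 ∧ e * uc t ∈ Θ} with hD''
  have hfin'' : D''.Finite := by
    have h2 : D'' ⊆ {t | t ∈ Ioc (-(2 * π) - 2 * π) (-(2 * π) - 2 * π + 2 * π) ∧ e * uc t ∈ Θ} ∪
        D' := by
      rintro t ⟨⟨ha, hb⟩, hc⟩
      rcases eq_or_lt_of_le ha with h | h
      · left; exact ⟨⟨by linarith, by linarith only [h]⟩, hc⟩
      · right; exact ⟨⟨h, by linarith only [hb]⟩, hc⟩
    exact ((finite_angles hΘ he _).union hfin).subset h2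
  have hne'' : D''.Nonempty := by
    obtain ⟨w, hw⟩ := hne
    have hw1 := h1 w hw
    have hq : ‖w / e‖ = 1 := by rw [norm_div, hw1, he, div_one]
    have hα := uc_arg hq
    have hα1 := Complex.neg_pi_lt_arg (w / e)
    have hα2 := Complex.arg_le_pi (w / e)
    have hmul : e * uc (w / e).arg = w := by rw [hα]; (clear * - he0; field_simp)
    rcases lt_or_ge (w / e).arg 0 with h | h
    · exact ⟨(w / e).arg, ⟨by linarith only [hα1, h], h⟩, by rw [hmul]; exact hw⟩
    · refine ⟨(w / e).arg + -(2 * π), ⟨by linarith only [h], by linarith only [hπ, hα2]⟩, ?_⟩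
      have h3 : uc (-(2 * π)) = 1 := by
        have := uc_neg_mul (2 * π)
        rwa [uc_two_pi, mul_one] at this
      rw [uc_add, h3, mul_one, hmul]
      exact hw
  obtain ⟨m, hm, hmax⟩ := hfin''.exists_maximalFor id D'' hne''
  have hmax' : ∀ t ∈ D'', t ≤ m := by
    intro t ht
    rcases le_total t m with h | h
    · exact h
    · exact hmax ht h
  refine ⟨e * uc m, hm.2, -m, by linarith only [hm.1.2], ?_, ?_⟩
  · have hp1 := h1 _ hm.2
    obtain ⟨g1, g2, g3, g4⟩ := gap_spec hΘ hm.2 hp1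
    by_contra hlt
    push Not at hlt
    have h5 : e * uc (m + gap Θ (e * uc m)) ∈ Θ := by
      rw [uc_add, ← mul_assoc]; exact g3
    have h6 := hmax' (m + gap Θ (e * uc m)) ⟨⟨by linarith only [g1, hm.1.1], by linarith⟩, h5⟩
    linarith
  · rw [mul_assoc, mul_comm (uc m), uc_neg_mul, mul_one]

/-- The open arc of the circle after `p`. -/
def arcAfter (Θ : Set ℂ) (p : ℂ) : Set ℂ := {w | ∃ t ∈ Ioo 0 (gap Θ p), w = p * uc t}

theorem arcAfter_disjoint {Θ : Set ℂ} (hΘ : Θ.Finite) (h1 : ∀ w ∈ Θ, ‖w‖ = 1) {p p' w : ℂ}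
    (hp : p ∈ Θ) (hp' : p' ∈ Θ) (hw : w ∈ arcAfter Θ p) (hw' : w ∈ arcAfter Θ p') : p = p' := by
  obtain ⟨t, ht, rfl⟩ := hw
  obtain ⟨t', ht', he⟩ := hw'
  wlog h : t ≤ t' generalizing p p' t t'
  · exact (this hp' hp t' ht' t ht he.symm (le_of_not_ge h)).symm
  obtain ⟨g1, g2, g3, g4⟩ := gap_spec hΘ hp' (h1 _ hp')
  have h2 : p = p' * uc (t' + -t) := by
    have h3 : p * uc t * uc (-t) = p' * uc t' * uc (-t) := by rw [he]
    rw [mul_assoc, mul_comm (uc t), uc_neg_mul, mul_one, mul_assoc, ← uc_add] at h3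
    exact h3
  rcases eq_or_lt_of_le h with h3 | h3
  · rw [h2, h3, add_neg_cancel, uc_zero, mul_one]
  · exfalso
    refine g4 (t' + -t) (by linarith only [h3]) (by linarith only [ht'.2, ht.1]) ?_
    rw [← h2]; exact hp

theorem exists_arcAfter {Θ : Set ℂ} (hΘ : Θ.Finite) (hne : Θ.Nonempty) (h1 : ∀ w ∈ Θ, ‖w‖ = 1)
    {e : ℂ} (he : ‖e‖ = 1) (heΘ : e ∉ Θ) : ∃ p ∈ Θ, e ∈ arcAfter Θ p := by
  obtain ⟨p, hp, t, ht0, htg, het⟩ := exists_prev hΘ hne h1 he
  refine ⟨p, hp, t, ⟨ht0, lt_of_le_of_ne htg fun h => heΘ ?_⟩, het⟩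
  rw [het, h]
  exact (gap_spec hΘ hp (h1 p hp)).2.2.1

end Vale.Agent.P128
end

section

open MeasureTheory Set Metric Filter
open scoped ENNReal NNReal Topology Real ContDiff

namespace Vale.Agent.P128

/-- Polar map with direction `q` and orientation `σ`. -/
noncomputable def pm (x q : ℂ) (σ : ℝ) (p : ℝ × ℝ) : ℂ := x + p.1 • (q * uc (σ * p.2))

theorem continuous_pm (x q : ℂ) (σ : ℝ) : Continuous (pm x q σ) := by
  unfold pm
  exact continuous_const.add (continuous_fst.smul
    (continuous_const.mul (continuous_uc.comp (continuous_const.mul continuous_snd))))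

theorem norm_pm_sub {x q : ℂ} (hq : ‖q‖ = 1) (σ : ℝ) {p : ℝ × ℝ} (hp : 0 ≤ p.1) :
    ‖pm x q σ p - x‖ = p.1 := by
  unfold pm
  rw [add_sub_cancel_left, norm_smul, norm_mul, hq, norm_uc, Real.norm_of_nonneg hp]
  ring

theorem isOpen_pm_image {x q : ℂ} (hq : q ≠ 0) {σ : ℝ} (hσ : σ * σ = 1) {S : Set (ℝ × ℝ)}
    (hS : IsOpen S) (hS0 : ∀ p ∈ S, 0 < p.1) : IsOpen (pm x q σ '' S) := by
  have hA : IsOpen {ς : ℂ | (Real.exp ς.re, σ * ς.im) ∈ S} := by
    refine hS.preimage (f := fun ς : ℂ => (Real.exp ς.re, σ * ς.im)) ?_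
    exact (Real.continuous_exp.comp Complex.continuous_re).prodMk
      (continuous_const.mul Complex.continuous_im)
  have hB : IsOpen (Complex.exp '' {ς : ℂ | (Real.exp ς.re, σ * ς.im) ∈ S}) :=
    Complex.isOpenMap_exp _ hA
  have hC : IsOpenMap (fun w : ℂ => x + q * w) :=
    ((Homeomorph.mulLeft₀ q hq).trans (Homeomorph.addLeft x)).isOpenMap
  have hD := hC _ hB
  have : pm x q σ '' S = (fun w : ℂ => x + q * w) ''
      (Complex.exp '' {ς : ℂ | (Real.exp ς.re, σ * ς.im) ∈ S}) := by
    ext z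
    constructor
    · rintro ⟨⟨r, t⟩, hp, rfl⟩
      have hr : 0 < r := hS0 _ hp
      refine ⟨(r : ℂ) * uc (σ * t), ⟨⟨Real.log r, σ * t⟩, ?_, ?_⟩, ?_⟩
      · change (Real.exp (Real.log r), σ * (σ * t)) ∈ S
        rw [Real.exp_log hr, ← mul_assoc, hσ, one_mul]
        exact hp
      · have h1 : (⟨Real.log r, σ * t⟩ : ℂ) = (Real.log r : ℝ) + ((σ * t : ℝ) : ℂ) * Complex.I := by
          apply Complex.ext <;> simp
        rw [h1, Complex.exp_add, ← Complex.ofReal_exp, Real.exp_log hr]
        rfl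
      · simp only [pm, Complex.real_smul]; ring
    · rintro ⟨_, ⟨ς, hς, rfl⟩, rfl⟩
      refine ⟨(Real.exp ς.re, σ * ς.im), hς, ?_⟩
      simp only [pm, Complex.real_smul]
      rw [← mul_assoc σ, hσ, one_mul]
      have h1 : Complex.exp ς = (Real.exp ς.re : ℝ) * uc ς.im := by
        unfold uc
        rw [Complex.ofReal_exp, ← Complex.exp_add, Complex.re_add_im]
      rw [h1]
      ring
  rw [this]
  exact hD

theorem isClosed_pm_image {x q : ℂ} (hq : ‖q‖ = 1) (σ : ℝ) {C : Set (ℝ × ℝ)} (hC : IsClosed C)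
    {α₁ α₂ : ℝ} (hC0 : ∀ p ∈ C, 0 ≤ p.1 ∧ p.2 ∈ Icc α₁ α₂) : IsClosed (pm x q σ '' C) := by
  refine isClosed_of_closure_subset fun z hz => ?_
  set R : ℝ := ‖z - x‖ + 1 with hR
  have hcomp : IsCompact (pm x q σ '' (C ∩ (Icc 0 R ×ˢ Icc α₁ α₂))) :=
    ((isCompact_Icc.prod isCompact_Icc).inter_left hC).image (continuous_pm x q σ)
  have h1 : z ∈ closure (ball z 1 ∩ pm x q σ '' C) :=
    isOpen_ball.inter_closure ⟨mem_ball_self one_pos, hz⟩
  have h2 : ball z 1 ∩ pm x q σ '' C ⊆ pm x q σ '' (C ∩ (Icc 0 R ×ˢ Icc α₁ α₂)) := by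
    rintro _ ⟨hb, p, hp, rfl⟩
    obtain ⟨hp1, hp2⟩ := hC0 p hp
    refine ⟨p, ⟨hp, ⟨hp1, ?_⟩, hp2⟩, rfl⟩
    rw [mem_ball, dist_eq_norm] at hb
    have h3 := norm_pm_sub (x := x) hq σ hp1
    have h4 : ‖pm x q σ p - x‖ ≤ ‖pm x q σ p - z‖ + ‖z - x‖ := by
      have := norm_add_le (pm x q σ p - z) (z - x)
      simpa only [ge_iff_le, sub_add_sub_cancel] using this
    rw [h3] at h4
    linarith only [hb, h4]
  have h3 := closure_mono h2 h1
  rw [hcomp.isClosed.closure_eq] at h3
  exact image_mono inter_subset_left h3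

theorem uc_cos_sin (t : ℝ) : uc t = Real.cos t + Real.sin t * Complex.I := by
  unfold uc; rw [Complex.exp_mul_I]; simp

/-- Parameters of a plain sector. -/
def secS (γ : ℝ) : Set (ℝ × ℝ) := {p | 0 < p.1 ∧ 0 < p.2 ∧ p.2 < γ}

theorem isOpen_secS (γ : ℝ) : IsOpen (secS γ) := by
  have e : secS γ = {p : ℝ × ℝ | 0 < p.1} ∩ ({p | 0 < p.2} ∩ {p | p.2 < γ}) := by
    ext p; simp only [secS, mem_ofPred_eq, mem_inter_iff]
  rw [e]
  exact (isOpen_lt continuous_const continuous_fst).inter
    ((isOpen_lt continuous_const continuous_snd).inter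
      (isOpen_lt continuous_snd continuous_const))

theorem closure_sec {x q : ℂ} (hq : ‖q‖ = 1) {γ : ℝ} {z : ℂ}
    (hz : z ∈ closure (pm x q 1 '' secS γ)) :
    z ∈ pm x q 1 '' secS γ ∨ (∃ ρ : ℝ, 0 ≤ ρ ∧ z = x + ρ • q) ∨
      (∃ ρ : ℝ, 0 ≤ ρ ∧ z = x + ρ • (q * uc γ)) := by
  set C : Set (ℝ × ℝ) := {p | 0 ≤ p.1 ∧ 0 ≤ p.2 ∧ p.2 ≤ γ} with hC
  have hCc : IsClosed C := by
    have e : C = {p : ℝ × ℝ | 0 ≤ p.1} ∩ ({p | 0 ≤ p.2} ∩ {p | p.2 ≤ γ}) := by
      ext p; simp only [hC, mem_ofPred_eq, mem_inter_iff]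
    rw [e]
    exact (isClosed_le continuous_const continuous_fst).inter
      ((isClosed_le continuous_const continuous_snd).inter
        (isClosed_le continuous_snd continuous_const))
  have hSC : secS γ ⊆ C := by
    rintro p ⟨h1, h2, h3⟩
    exact ⟨h1.le, h2.le, h3.le⟩
  have hcl := isClosed_pm_image (x := x) hq 1 hCc (α₁ := 0) (α₂ := γ)
    (fun p hp => ⟨hp.1, hp.2.1, hp.2.2⟩)
  obtain ⟨⟨r, t⟩, ⟨h1, h2, h3⟩, rfl⟩ := closure_minimal (image_mono hSC) hcl hz
  simp only at h1 h2 h3
  rcases eq_or_lt_of_le h1 with hr | hr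
  · right; left
    exact ⟨0, le_rfl, by simp only [pm, ← hr, one_mul, zero_smul, add_zero]⟩
  rcases eq_or_lt_of_le h2 with ht | ht
  · right; left
    exact ⟨r, h1, by simp [pm, ← ht, uc_zero]⟩
  rcases eq_or_lt_of_le h3 with ht' | ht'
  · right; right
    exact ⟨r, h1, by simp only [pm, ht', one_mul]⟩
  · left
    exact ⟨(r, t), ⟨hr, ht, ht'⟩, rfl⟩

end Vale.Agent.P128
end

section

open MeasureTheory Set Metric Filter
open scoped Topology Real

namespace Vale.Agent.P128

end Vale.Agent.P128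
end

section

open Set Metric Filter
open scoped Topology Real ComplexConjugate

namespace Vale.Agent.P128

/-- The closed arc of the circle of radius `s` about `x` from `x + s p`, of angular length `γ`. -/
def cArc (x : ℂ) (s : ℝ) (p : ℂ) (γ : ℝ) : Set ℂ := {z | ∃ t ∈ Icc 0 γ, z = x + s * (p * uc t)}

theorem isCompact_cArc (x : ℂ) (s : ℝ) (p : ℂ) (γ : ℝ) : IsCompact (cArc x s p γ) := by
  have : cArc x s p γ = (fun t : ℝ => x + s * (p * uc t)) '' Icc 0 γ := by
    ext z
    constructor
    · rintro ⟨t, ht, rfl⟩; exact ⟨t, ht, rfl⟩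
    · rintro ⟨t, ht, rfl⟩; exact ⟨t, ht, rfl⟩
  rw [this]
  have hc := continuous_uc
  exact isCompact_Icc.image (by fun_prop)

theorem uc_re (t : ℝ) : (uc t).re = Real.cos t := by
  unfold uc; rw [Complex.exp_ofReal_mul_I_re]

theorem uc_im (t : ℝ) : (uc t).im = Real.sin t := by
  unfold uc; rw [Complex.exp_ofReal_mul_I_im]

/-- Numerator of the rotated cross-ratio. -/
theorem sep_formula {p ζ : ℂ} (hp : ‖p‖ = 1) (s γ : ℝ) :
    ((ζ - s * p) * conj (ζ - s * (p * uc γ)) * uc (γ / 2)) =
      ((‖ζ‖ ^ 2 : ℝ) : ℂ) * uc (γ / 2) + ((s ^ 2 : ℝ) : ℂ) * conj (uc (γ / 2)) -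
        ((2 * s * (conj (p * uc (γ / 2)) * ζ).re : ℝ) : ℂ) := by
  have h1 : uc γ = uc (γ / 2) * uc (γ / 2) := by rw [← uc_add]; congr 1; ring
  have h2 : conj (uc (γ / 2)) * uc (γ / 2) = 1 := by
    rw [mul_comm, Complex.mul_conj, Complex.normSq_eq_norm_sq, norm_uc]; norm_num
  have h3 : conj p * p = 1 := by
    rw [mul_comm, Complex.mul_conj, Complex.normSq_eq_norm_sq, hp]; norm_num
  have h4 : ((‖ζ‖ ^ 2 : ℝ) : ℂ) = ζ * conj ζ := by
    rw [Complex.mul_conj, Complex.normSq_eq_norm_sq]
  have h5 : ((2 * s * (conj (p * uc (γ / 2)) * ζ).re : ℝ) : ℂ) =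
      s * (conj (p * uc (γ / 2)) * ζ + conj (conj (p * uc (γ / 2)) * ζ)) := by
    rw [Complex.add_conj]
    push_cast
    ring
  rw [h4, h5, h1]
  simp only [map_sub, map_mul, Complex.conj_ofReal, Complex.conj_conj, Complex.ofReal_pow]
  linear_combination (- conj p * s * ζ * conj (uc (γ / 2)) +
    conj (uc (γ / 2)) * s ^ 2 * p * conj p) * h2 + conj (uc (γ / 2)) * s ^ 2 * h3

theorem sep_im {p ζ : ℂ} (hp : ‖p‖ = 1) (s γ : ℝ) :
    ((ζ - s * p) * conj (ζ - s * (p * uc γ)) * uc (γ / 2)).im =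
      (‖ζ‖ ^ 2 - s ^ 2) * Real.sin (γ / 2) := by
  rw [sep_formula hp]
  simp only [Complex.sub_im, Complex.add_im, Complex.mul_im, Complex.ofReal_re, Complex.ofReal_im,
    Complex.conj_im, uc_im, zero_mul, add_zero, sub_zero]
  ring

theorem sep_re {p : ℂ} (hp : ‖p‖ = 1) (s γ t : ℝ) :
    ((s * (p * uc t) - s * p) * conj (s * (p * uc t) - s * (p * uc γ)) * uc (γ / 2)).re =
      2 * s ^ 2 * (Real.cos (γ / 2) - Real.cos (t - γ / 2)) := by
  rw [sep_formula hp]
  have h1 : ‖(s : ℂ) * (p * uc t)‖ ^ 2 = s ^ 2 := by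
    rw [norm_mul, norm_mul, hp, norm_uc, Complex.norm_real, Real.norm_eq_abs]; simp
  have h2 : conj (p * uc (γ / 2)) * (s * (p * uc t)) = s * uc (t - γ / 2) := by
    have h3 : conj p * p = 1 := by
      rw [mul_comm, Complex.mul_conj, Complex.normSq_eq_norm_sq, hp]; norm_num
    have h4 : conj (uc (γ / 2)) = uc (-(γ / 2)) := by
      apply Complex.ext
      · rw [Complex.conj_re, uc_re, uc_re, Real.cos_neg]
      · rw [Complex.conj_im, uc_im, uc_im, Real.sin_neg]
    have h5 : uc (t - γ / 2) = uc (-(γ / 2)) * uc t := by rw [← uc_add]; congr 1; ring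
    rw [map_mul, h4, h5]
    linear_combination s * uc (-(γ / 2)) * uc t * h3
  rw [h1, h2]
  simp only [Complex.sub_re, Complex.add_re, Complex.mul_re, Complex.ofReal_re, Complex.ofReal_im,
    Complex.conj_re, uc_re, zero_mul, sub_zero]
  ring

end Vale.Agent.P128
end
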