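import Vale.Agent.P128.MathlibUsed
import Vale.Agent.P128.Defs

set_option linter.all false

section

open MeasureTheory Set Metric Function
open scoped ENNReal ContDiff

namespace Vale.Agent.P128

/-- Classical gradient of a real function on the plane, as a vector. -/
noncomputable def grad (η : ℂ → ℝ) (z : ℂ) : ℂ := ⟨fderiv ℝ η z 1, fderiv ℝ η z Complex.I⟩

theorem inner_eq (a b : ℂ) : inner ℝ a b = a.re * b.re + a.im * b.im := by
  rw [Complex.inner]; simp [Complex.mul_re]; ring

theorem inner_grad (η : ℂ → ℝ) (z v : ℂ) : inner ℝ (grad η z) v = fderiv ℝ η z v := by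
  rw [inner_eq]
  have hv : v = v.re • (1 : ℂ) + v.im • Complex.I := by
    simp [Complex.re_add_im]
  conv_rhs => rw [hv, map_add, map_smul, map_smul]
  simp [grad, mul_comm]

theorem continuous_grad {η : ℂ → ℝ} (hη : ContDiff ℝ ∞ η) : Continuous (grad η) := by
  have h := hη.continuous_fderiv (by simp)
  have h1 : Continuous fun z => fderiv ℝ η z 1 := h.clm_apply continuous_const
  have h2 : Continuous fun z => fderiv ℝ η z Complex.I := h.clm_apply continuous_const
  have : grad η = fun z => (fderiv ℝ η z 1 : ℂ) + (fderiv ℝ η z Complex.I : ℂ) * Complex.I := by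
    funext z
    apply Complex.ext <;> simp [grad]
  rw [this]
  continuity

theorem grad_eq_zero_of_notMem {η : ℂ → ℝ} {z : ℂ} (hz : z ∉ tsupport η) : grad η z = 0 := by
  have : fderiv ℝ η z = 0 := by
    by_contra h
    exact hz (support_fderiv_subset ℝ (f := η) h)
  simp [grad, this, Complex.ext_iff]

theorem norm_inner_le' (a b : ℂ) : |inner ℝ a b| ≤ ‖a‖ * ‖b‖ := abs_real_inner_le_norm a b

/-- The weak gradient relation with integrals over the whole plane. -/
theorem IsWeakGrad.test {U : Set ℂ} {u : ℂ → ℝ} {G : ℂ → ℂ} (h : IsWeakGrad U u G)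
    {φ : ℂ → ℝ} (h1 : ContDiff ℝ ∞ φ) (h2 : HasCompactSupport φ) (h3 : tsupport φ ⊆ U) (v : ℂ) :
    ∫ z, u z * fderiv ℝ φ z v = - ∫ z, inner ℝ (G z) v * φ z := by
  have e1 : ∫ z in U, u z * fderiv ℝ φ z v = ∫ z, u z * fderiv ℝ φ z v := by
    refine setIntegral_eq_integral_of_forall_compl_eq_zero fun z hz => ?_
    have : fderiv ℝ φ z = 0 := by
      by_contra h
      exact hz (h3 (support_fderiv_subset ℝ (f := φ) h))
    simp [this]
  have e2 : ∫ z in U, inner ℝ (G z) v * φ z = ∫ z, inner ℝ (G z) v * φ z := by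
    refine setIntegral_eq_integral_of_forall_compl_eq_zero fun z hz => ?_
    have : φ z = 0 := image_eq_zero_of_notMem_tsupport fun h => hz (h3 h)
    simp [this]
  rw [← e1, ← e2]
  exact h φ h1 h2 h3 v

theorem isWeakGrad_of_test {U : Set ℂ} {u : ℂ → ℝ} {G : ℂ → ℂ}
    (h : ∀ φ : ℂ → ℝ, ContDiff ℝ ∞ φ → HasCompactSupport φ → tsupport φ ⊆ U → ∀ v : ℂ,
      ∫ z, u z * fderiv ℝ φ z v = - ∫ z, inner ℝ (G z) v * φ z) : IsWeakGrad U u G := by
  intro φ h1 h2 h3 v
  have e1 : ∫ z in U, u z * fderiv ℝ φ z v = ∫ z, u z * fderiv ℝ φ z v := by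
    refine setIntegral_eq_integral_of_forall_compl_eq_zero fun z hz => ?_
    have : fderiv ℝ φ z = 0 := by
      by_contra h
      exact hz (h3 (support_fderiv_subset ℝ (f := φ) h))
    simp [this]
  have e2 : ∫ z in U, inner ℝ (G z) v * φ z = ∫ z, inner ℝ (G z) v * φ z := by
    refine setIntegral_eq_integral_of_forall_compl_eq_zero fun z hz => ?_
    have : φ z = 0 := image_eq_zero_of_notMem_tsupport fun h => hz (h3 h)
    simp [this]
  rw [e1, e2]
  exact h φ h1 h2 h3 v

theorem IsWeakGrad.mono {U U' : Set ℂ} {u : ℂ → ℝ} {G : ℂ → ℂ} (h : IsWeakGrad U u G)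
    (hU : U' ⊆ U) : IsWeakGrad U' u G :=
  isWeakGrad_of_test fun _ h1 h2 h3 v => h.test h1 h2 (h3.trans hU) v

/-- Integrability of an `L¹_loc` function against a continuous compactly supported one. -/
theorem integrable_mul_cc {u ψ : ℂ → ℝ} (hu : LocallyIntegrable u) (hψ : Continuous ψ)
    (hc : HasCompactSupport ψ) : Integrable fun z => u z * ψ z := by
  have := hu.integrable_smul_left_of_hasCompactSupport hψ hc
  refine this.congr (Filter.Eventually.of_forall fun z => ?_)
  simp [mul_comm]

theorem locallyIntegrable_inner {G : ℂ → ℂ} (hG : LocallyIntegrable G) (v : ℂ) :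
    LocallyIntegrable fun z => (inner ℝ (G z) v : ℝ) := by
  have h : (fun z => (inner ℝ (G z) v : ℝ)) = fun z => (G z).re * v.re + (G z).im * v.im := by
    funext z; exact inner_eq _ _
  rw [h]
  intro z
  obtain ⟨s, hs, hi⟩ := hG z
  exact ⟨s, hs, (hi.re.mul_const _).add (hi.im.mul_const _)⟩

theorem IsWeakGrad.add {U : Set ℂ} {u u' : ℂ → ℝ} {G G' : ℂ → ℂ}
    (hu : LocallyIntegrable u) (hu' : LocallyIntegrable u')
    (hG : LocallyIntegrable G) (hG' : LocallyIntegrable G')
    (h : IsWeakGrad U u G) (h' : IsWeakGrad U u' G') :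
    IsWeakGrad U (fun z => u z + u' z) (fun z => G z + G' z) := by
  refine isWeakGrad_of_test fun φ h1 h2 h3 v => ?_
  have hc : Continuous fun z => fderiv ℝ φ z v :=
    (h1.continuous_fderiv (by simp)).clm_apply continuous_const
  have i1 := integrable_mul_cc hu hc (h2.fderiv_apply ℝ v)
  have i2 := integrable_mul_cc hu' hc (h2.fderiv_apply ℝ v)
  have i3 := integrable_mul_cc (locallyIntegrable_inner hG v) h1.continuous h2
  have i4 := integrable_mul_cc (locallyIntegrable_inner hG' v) h1.continuous h2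
  simp only [inner_add_left, add_mul]
  rw [integral_add i1 i2, integral_add i3 i4, h.test h1 h2 h3, h'.test h1 h2 h3]
  ring

theorem IsWeakGrad.const_mul {U : Set ℂ} {u : ℂ → ℝ} {G : ℂ → ℂ} (c : ℝ)
    (h : IsWeakGrad U u G) :
    IsWeakGrad U (fun z => c * u z) (fun z => c • G z) := by
  refine isWeakGrad_of_test fun φ h1 h2 h3 v => ?_
  simp only [inner_smul_left, mul_assoc]
  rw [integral_const_mul, h.test h1 h2 h3]
  simp only [conj_trivial, integral_const_mul]
  ring

/-- Product rule with a smooth factor. -/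
theorem IsWeakGrad.smooth_mul {U : Set ℂ} {u : ℂ → ℝ} {G : ℂ → ℂ}
    (hu : LocallyIntegrable u) (hG : LocallyIntegrable G) (h : IsWeakGrad U u G)
    {η : ℂ → ℝ} (hη : ContDiff ℝ ∞ η) :
    IsWeakGrad U (fun z => η z * u z) (fun z => η z • G z + u z • grad η z) := by
  refine isWeakGrad_of_test fun φ h1 h2 h3 v => ?_
  have hψ : ContDiff ℝ ∞ (fun z => η z * φ z) := hη.mul h1
  have hψc : HasCompactSupport (fun z => η z * φ z) := h2.mul_left
  have hψU : tsupport (fun z => η z * φ z) ⊆ U := (tsupport_mul_subset_right).trans h3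
  have key := h.test hψ hψc hψU v
  have hd : ∀ z, fderiv ℝ (fun z => η z * φ z) z v
      = η z * fderiv ℝ φ z v + φ z * fderiv ℝ η z v := by
    intro z
    have e1 := (hη.differentiable (by simp)) z
    have e2 := (h1.differentiable (by simp)) z
    rw [fderiv_fun_mul e1 e2]
    simp
  have hcφ : Continuous fun z => fderiv ℝ φ z v :=
    (h1.continuous_fderiv (by simp)).clm_apply continuous_const
  have hcη : Continuous fun z => fderiv ℝ η z v :=
    (hη.continuous_fderiv (by simp)).clm_apply continuous_const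
  have i1 : Integrable fun z => u z * (η z * fderiv ℝ φ z v) :=
    integrable_mul_cc hu (hη.continuous.mul hcφ) ((h2.fderiv_apply ℝ v).mul_left)
  have i2 : Integrable fun z => u z * (φ z * fderiv ℝ η z v) :=
    integrable_mul_cc hu (h1.continuous.mul hcη) h2.mul_right
  have i3 : Integrable fun z => inner ℝ (G z) v * (η z * φ z) :=
    integrable_mul_cc (locallyIntegrable_inner hG v) hψ.continuous hψc
  simp only [hd, mul_add] at key
  rw [integral_add i1 i2] at key
  have e3 : (∫ z, inner ℝ (η z • G z + u z • grad η z) v * φ z)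
      = (∫ z, inner ℝ (G z) v * (η z * φ z)) + ∫ z, u z * (φ z * fderiv ℝ η z v) := by
    rw [← integral_add i3 i2]
    refine integral_congr_ae (Filter.Eventually.of_forall fun z => ?_)
    simp only [inner_add_left, inner_smul_left, conj_trivial, inner_grad]
    ring
  have e4 : (∫ z, η z * u z * fderiv ℝ φ z v) = ∫ z, u z * (η z * fderiv ℝ φ z v) :=
    integral_congr_ae (Filter.Eventually.of_forall fun z => by ring)
  rw [e3, e4]
  linarith

/-- Constants have zero weak gradient. -/
theorem isWeakGrad_const (U : Set ℂ) (c : ℝ) : IsWeakGrad U (fun _ => c) (fun _ => 0) := by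
  refine isWeakGrad_of_test fun φ h1 h2 h3 v => ?_
  simp only [inner_zero_left, zero_mul, integral_zero, neg_zero]
  rw [integral_const_mul]
  have : ∫ z, fderiv ℝ φ z v = 0 := by
    have hd := (h1.differentiable (by simp))
    have hcφ : Continuous fun z => fderiv ℝ φ z v :=
      (h1.continuous_fderiv (by simp)).clm_apply continuous_const
    have h0 : Integrable fun z => fderiv ℝ φ z v :=
      hcφ.integrable_of_hasCompactSupport (h2.fderiv_apply ℝ v)
    have h5 : Integrable φ := h1.continuous.integrable_of_hasCompactSupport h2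
    have := integral_mul_fderiv_eq_neg_fderiv_mul_of_integrable (μ := (volume : Measure ℂ)) (𝕜 := ℝ)
      (f := fun _ : ℂ => (1 : ℝ)) (g := φ) (v := v) (by simp) (by simpa using h0)
      (by simpa using h5) (fun _ _ => by fun_prop) (fun z _ => hd z)
    simpa using this
  rw [this, mul_zero]

end Vale.Agent.P128
end

section

open MeasureTheory Set Metric Filter Function ContinuousLinearMap
open scoped ENNReal ContDiff Topology Convolution

namespace Vale.Agent.P128

/-- Mollification. -/
noncomputable def moll (ρ : ContDiffBump (0 : ℂ)) (h : ℂ → ℝ) : ℂ → ℝ :=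
  ρ.normed volume ⋆[lsmul ℝ ℝ, volume] h

theorem moll_def (ρ : ContDiffBump (0 : ℂ)) (h : ℂ → ℝ) (z : ℂ) :
    moll ρ h z = ∫ t, ρ.normed volume t * h (z - t) := by
  unfold moll
  rw [convolution_def]
  simp only [lsmul_apply, smul_eq_mul]

theorem integrable_normed (ρ : ContDiffBump (0 : ℂ)) :
    Integrable (ρ.normed (volume : Measure ℂ)) :=
  ρ.continuous_normed.integrable_of_hasCompactSupport ρ.hasCompactSupport_normed

theorem moll_sub (ρ : ContDiffBump (0 : ℂ)) {h k : ℂ → ℝ} (hh : LocallyIntegrable h)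
    (hk : LocallyIntegrable k) (z : ℂ) :
    moll ρ (fun z => h z - k z) z = moll ρ h z - moll ρ k z := by
  have e1 := ρ.hasCompactSupport_normed (μ := volume).convolutionExists_left (lsmul ℝ ℝ)
    ρ.continuous_normed hh z
  have e2 := ρ.hasCompactSupport_normed (μ := volume).convolutionExists_left (lsmul ℝ ℝ)
    ρ.continuous_normed hk z
  rw [moll_def, moll_def, moll_def, ← integral_sub]
  · refine integral_congr_ae (Eventually.of_forall fun t => ?_)
    simp only
    ring
  · simpa only [lsmul_apply, smul_eq_mul] using e1.integrable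
  · simpa only [lsmul_apply, smul_eq_mul] using e2.integrable

theorem continuous_moll (ρ : ContDiffBump (0 : ℂ)) {h : ℂ → ℝ} (hh : LocallyIntegrable h) :
    Continuous (moll ρ h) :=
  ρ.hasCompactSupport_normed.continuous_convolution_left _ ρ.continuous_normed hh

/-- Mollification is a contraction of `L¹`. -/
theorem integral_abs_moll_le (ρ : ContDiffBump (0 : ℂ)) {h : ℂ → ℝ} (hh : Integrable h) :
    Integrable (moll ρ h) ∧ ∫ z, |moll ρ h z| ≤ ∫ z, |h z| := by
  have i1 : Integrable (moll ρ h) := (integrable_normed ρ).integrable_convolution _ hh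
  have i2 : Integrable (moll ρ fun z => |h z|) := (integrable_normed ρ).integrable_convolution _ hh.abs
  refine ⟨i1, ?_⟩
  have h1 : ∫ z, moll ρ (fun z => |h z|) z = ∫ z, |h z| := by
    have := integral_convolution (lsmul ℝ ℝ) (integrable_normed ρ) hh.abs
    unfold moll
    rw [this, ρ.integral_normed]
    simp only [lsmul_apply, smul_eq_mul, one_mul]
  rw [← h1]
  refine integral_mono i1.abs i2 fun z => ?_
  simp only [moll_def]
  refine (abs_integral_le_integral_abs).trans (le_of_eq ?_)
  refine integral_congr_ae (Eventually.of_forall fun t => ?_)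
  simp only [abs_mul, abs_of_nonneg (ρ.nonneg_normed t)]

theorem abs_moll_le_of_bound (ρ : ContDiffBump (0 : ℂ)) {h : ℂ → ℝ} {C : ℝ}
    (hC : ∀ z, |h z| ≤ C) (z : ℂ) : |moll ρ h z| ≤ C := by
  have hC0 : 0 ≤ C := (abs_nonneg _).trans (hC 0)
  rw [moll_def]
  have h1 : ∀ t, ‖ρ.normed volume t * h (z - t)‖ ≤ C * ρ.normed volume t := by
    intro t
    rw [Real.norm_eq_abs, abs_mul, abs_of_nonneg (ρ.nonneg_normed t), mul_comm]
    exact mul_le_mul_of_nonneg_right (hC _) (ρ.nonneg_normed t)
  refine (norm_integral_le_of_norm_le ((integrable_normed ρ).const_mul C)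
    (Eventually.of_forall h1)).trans ?_
  rw [integral_const_mul, ρ.integral_normed, mul_one]

/-- Mollifiers converge in `L¹`. -/
theorem tendsto_integral_moll {h : ℂ → ℝ} (hm : Measurable h) (hh : Integrable h)
    {ρ : ℕ → ContDiffBump (0 : ℂ)} {A : ℝ}
    (hρ : Tendsto (fun n => (ρ n).rOut) atTop (𝓝 0)) (hA : ∀ n, (ρ n).rOut ≤ A * (ρ n).rIn) :
    Tendsto (fun n => ∫ z, |moll (ρ n) h z - h z|) atTop (𝓝 0) := by
  -- truncations
  let b : ℕ → ℂ → ℝ := fun k => ({z | |h z| ≤ k} ∩ ball 0 k).indicator h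
  have hbm : ∀ k : ℕ, MeasurableSet ({z | |h z| ≤ (k : ℝ)} ∩ ball (0 : ℂ) k) := fun k =>
    (measurableSet_le hm.abs measurable_const).inter measurableSet_ball
  have hbb : ∀ k z, |b k z| ≤ k := by
    intro k z
    by_cases hz : z ∈ {z | |h z| ≤ (k : ℝ)} ∩ ball (0 : ℂ) k
    · simp only [b, indicator_of_mem hz]; exact hz.1
    · simp only [b, indicator_of_notMem hz, abs_zero]; (clear * -; positivity)
  have hbi : ∀ k, Integrable (b k) := fun k => hh.indicator (hbm k)
  have hb0 : ∀ (k : ℕ) z, z ∉ ball (0 : ℂ) k → b k z = 0 := by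
    intro k z hz
    exact indicator_of_notMem (fun h => hz h.2) _
  -- convergence for the truncations
  have hT : ∀ k, Tendsto (fun n => ∫ z, |moll (ρ n) (b k) z - b k z|) atTop (𝓝 0) := by
    intro k
    have hae := ContDiffBump.ae_convolution_tendsto_right_of_locallyIntegrable (μ := volume) hρ
      (Eventually.of_forall hA) (hbi k).locallyIntegrable
    have hone : ∀ᶠ n in atTop, (ρ n).rOut < 1 := hρ.eventually (gt_mem_nhds one_pos)
    have := tendsto_integral_filter_of_dominated_convergence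
      (μ := (volume : Measure ℂ)) (F := fun n z => |moll (ρ n) (b k) z - b k z|)
      (f := fun _ => (0 : ℝ)) (l := atTop)
      ((ball (0 : ℂ) (k + 1)).indicator fun _ => 2 * (k : ℝ)) ?_ ?_ ?_ ?_
    · simpa only [integral_zero] using this
    · exact Eventually.of_forall fun n => (((continuous_moll (ρ n)
        (hbi k).locallyIntegrable).aestronglyMeasurable).sub (hbi k).1).norm
    · filter_upwards [hone] with n hn
      refine Eventually.of_forall fun z => ?_
      by_cases hz : z ∈ ball (0 : ℂ) (k + 1)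
      · rw [indicator_of_mem hz, Real.norm_eq_abs, abs_abs]
        have h1 := abs_moll_le_of_bound (ρ n) (hbb k) z
        have h2 := hbb k z
        have := abs_sub (moll (ρ n) (b k) z) (b k z)
        linarith
      · rw [indicator_of_notMem hz, Real.norm_eq_abs, abs_abs]
        have hzk : z ∉ ball (0 : ℂ) k := fun h => hz (ball_subset_ball (by linarith) h)
        rw [hb0 k z hzk, sub_zero, moll_def]
        have : ∀ t, (ρ n).normed volume t * b k (z - t) = 0 := by
          intro t
          by_cases ht : t ∈ ball (0 : ℂ) (ρ n).rOut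
          · rw [hb0 k (z - t), mul_zero]
            intro hc
            rw [mem_ball_zero_iff] at hc ht hz
            have h3 : ‖z‖ ≤ ‖z - t‖ + ‖t‖ := by
              calc ‖z‖ = ‖(z - t) + t‖ := by congr 1; ring
                _ ≤ _ := norm_add_le _ _
            exact hz (by linarith)
          · have : t ∉ support ((ρ n).normed (volume : Measure ℂ)) := by
              rw [(ρ n).support_normed_eq]; exact ht
            rw [notMem_support.mp this, zero_mul]
        simp only [this, integral_zero, abs_zero, le_refl]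
    · refine (integrable_indicator_iff measurableSet_ball).mpr ?_
      exact integrableOn_const (measure_ball_lt_top.ne)
    · filter_upwards [hae] with z hz
      have h1 : Tendsto (fun n => moll (ρ n) (b k) z - b k z) atTop (𝓝 (b k z - b k z)) :=
        hz.sub_const _
      rw [sub_self] at h1
      simpa only [abs_zero] using h1.abs
  -- smallness of the remainder
  have hR : Tendsto (fun k => ∫ z, |h z - b k z|) atTop (𝓝 0) := by
    have := tendsto_integral_filter_of_dominated_convergence
      (μ := (volume : Measure ℂ)) (F := fun (k : ℕ) z => |h z - b k z|)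
      (f := fun _ => (0 : ℝ)) (l := atTop) (fun z => |h z|) ?_ ?_ hh.abs ?_
    · simpa using this
    · exact Eventually.of_forall fun k => (hh.1.sub (hbi k).1).norm
    · refine Eventually.of_forall fun k => Eventually.of_forall fun z => ?_
      rw [Real.norm_eq_abs, abs_abs]
      by_cases hz : z ∈ {z | |h z| ≤ (k : ℝ)} ∩ ball (0 : ℂ) k
      · simp only [b, indicator_of_mem hz, sub_self, abs_zero]; (clear * -; positivity)
      · simp only [b, indicator_of_notMem hz, sub_zero, le_refl]
    · refine Eventually.of_forall fun z => ?_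
      have h1 : ∀ᶠ k : ℕ in atTop, |h z - b k z| = 0 := by
        filter_upwards [eventually_ge_atTop ⌈max |h z| (‖z‖ + 1)⌉₊] with k hk
        have h2 : max |h z| (‖z‖ + 1) ≤ k := Nat.ceil_le.mp hk
        have h3 : z ∈ {z | |h z| ≤ (k : ℝ)} ∩ ball (0 : ℂ) k := by
          refine ⟨(le_max_left _ _).trans h2, ?_⟩
          rw [mem_ball_zero_iff]
          linarith only [(le_max_right |h z| (‖z‖ + 1)).trans h2]
        simp only [b, indicator_of_mem h3, sub_self, abs_zero]
      exact tendsto_const_nhds.congr' (h1.mono fun k hk => hk.symm)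
  rw [Metric.tendsto_atTop]
  intro ε hε
  obtain ⟨k, hk⟩ := (Metric.tendsto_atTop.mp hR) (ε / 4) (by linarith only [hε])
  have hk := hk k le_rfl
  obtain ⟨n₀, hn₀⟩ := (Metric.tendsto_atTop.mp (hT k)) (ε / 4) (by linarith only [hε])
  refine ⟨n₀, fun n hn => ?_⟩
  have hn := hn₀ n hn
  rw [Real.dist_eq, sub_zero] at hk hn ⊢
  have hrk : Integrable fun z => h z - b k z := hh.sub (hbi k)
  obtain ⟨j1, j2⟩ := integral_abs_moll_le (ρ n) hrk
  have j3 : Integrable fun z => moll (ρ n) (b k) z - b k z :=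
    (integral_abs_moll_le (ρ n) (hbi k)).1.sub (hbi k)
  have hle : ∀ z, |moll (ρ n) h z - h z| ≤ |moll (ρ n) (fun z => h z - b k z) z| +
      |moll (ρ n) (b k) z - b k z| + |h z - b k z| := by
    intro z
    rw [moll_sub (ρ n) hh.locallyIntegrable (hbi k).locallyIntegrable z]
    have e : moll (ρ n) h z - h z = (moll (ρ n) h z - moll (ρ n) (b k) z) +
        (moll (ρ n) (b k) z - b k z) - (h z - b k z) := by ring
    rw [e]
    exact (abs_sub _ _).trans (add_le_add (abs_add_le _ _) le_rfl)
  have j4 : Integrable fun z => moll (ρ n) h z - h z := (integral_abs_moll_le (ρ n) hh).1.sub hh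
  have h5 : ∫ z, |moll (ρ n) h z - h z| ≤ (∫ z, |moll (ρ n) (fun z => h z - b k z) z|) +
      (∫ z, |moll (ρ n) (b k) z - b k z|) + ∫ z, |h z - b k z| := by
    have j13 : Integrable fun z => |moll (ρ n) (fun z => h z - b k z) z| +
        |moll (ρ n) (b k) z - b k z| := j1.abs.add j3.abs
    rw [← integral_add j1.abs j3.abs, ← integral_add j13 hrk.abs]
    exact integral_mono j4.abs (j13.add hrk.abs) hle
  have h6 : 0 ≤ ∫ z, |moll (ρ n) h z - h z| := integral_nonneg fun _ => abs_nonneg _
  rw [abs_of_nonneg h6]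
  have h7 := lt_of_abs_lt hk
  have h8 := lt_of_abs_lt hn
  linarith only [hε, j2, h5, h7, h8]

end Vale.Agent.P128
end

section

open MeasureTheory Set Metric Filter Function ContinuousLinearMap
open scoped ENNReal ContDiff Topology Convolution

namespace Vale.Agent.P128

theorem moll_swap (ρ : ContDiffBump (0 : ℂ)) (h : ℂ → ℝ) (z : ℂ) :
    moll ρ h z = ∫ t, ρ.normed volume (z - t) * h t := by
  unfold moll
  rw [convolution_eq_swap]
  simp only [lsmul_apply, smul_eq_mul]

theorem moll_eq_flip (ρ : ContDiffBump (0 : ℂ)) (h : ℂ → ℝ) :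
    moll ρ h = h ⋆[(lsmul ℝ ℝ).flip, volume] ρ.normed volume := by
  unfold moll
  rw [convolution_flip]

theorem contDiff_moll (ρ : ContDiffBump (0 : ℂ)) {h : ℂ → ℝ} (hh : LocallyIntegrable h) :
    ContDiff ℝ ∞ (moll ρ h) :=
  ρ.hasCompactSupport_normed.contDiff_convolution_left _ ρ.contDiff_normed hh

/-- Mollification commutes with the weak gradient. -/
theorem IsWeakGrad.fderiv_moll {U : Set ℂ} {u : ℂ → ℝ} {G : ℂ → ℂ}
    (hu : LocallyIntegrable u) (h : IsWeakGrad U u G) (ρ : ContDiffBump (0 : ℂ)) {z : ℂ}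
    (hz : closedBall z ρ.rOut ⊆ U) (v : ℂ) :
    fderiv ℝ (moll ρ u) z v = moll ρ (fun y => inner ℝ (G y) v) z := by
  have hρ : ContDiff ℝ ∞ (ρ.normed (volume : Measure ℂ)) := ρ.contDiff_normed
  have h1 := ρ.hasCompactSupport_normed (μ := volume).hasFDerivAt_convolution_right
    ((lsmul ℝ ℝ).flip : ℝ →L[ℝ] ℝ →L[ℝ] ℝ) hu (ρ.contDiff_normed (n := 1)) z
  rw [moll_eq_flip, h1.fderiv]
  rw [convolution_precompR_apply _ hu (ρ.hasCompactSupport_normed.fderiv ℝ)
    (hρ.continuous_fderiv (by simp))]
  set ψ : ℂ → ℝ := fun t => ρ.normed volume (z - t) with hψ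
  have ψs : ContDiff ℝ ∞ ψ := hρ.comp (contDiff_const.sub contDiff_id)
  have ψsup : support ψ = ball z ρ.rOut := by
    ext t
    rw [hψ, mem_support]
    have : (ρ.normed (volume : Measure ℂ) (z - t) ≠ 0) ↔ z - t ∈ ball (0 : ℂ) ρ.rOut := by
      rw [← ρ.support_normed_eq (μ := volume), mem_support]
    rw [this, mem_ball_zero_iff, mem_ball, dist_eq_norm, norm_sub_rev]
  have ψt : tsupport ψ ⊆ closedBall z ρ.rOut := by
    rw [tsupport, ψsup]; exact closure_ball_subset_closedBall
  have ψc : HasCompactSupport ψ :=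
    (isCompact_closedBall z ρ.rOut).of_isClosed_subset (isClosed_tsupport _) ψt
  have ψd : ∀ t, fderiv ℝ ψ t v = - fderiv ℝ (ρ.normed volume) (z - t) v := by
    intro t
    have hd := (hρ.differentiable (by simp) (z - t)).hasFDerivAt
    have h2 : HasFDerivAt (fun t : ℂ => z - t) (-(ContinuousLinearMap.id ℝ ℂ)) t :=
      (hasFDerivAt_id t).const_sub z
    have h3 := hd.comp t h2
    rw [show ψ = (ρ.normed volume) ∘ (fun t : ℂ => z - t) from rfl, h3.fderiv]
    simp only [comp_neg, ContinuousLinearMap.comp_id, neg_apply]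
  have key := h.test ψs ψc (ψt.trans hz) v
  simp only [ψd] at key
  rw [moll_swap]
  have e1 : (u ⋆[(lsmul ℝ ℝ).flip, volume] fun a => fderiv ℝ (ρ.normed volume) a v) z =
      ∫ t, u t * fderiv ℝ (ρ.normed volume) (z - t) v := by
    rw [convolution_def]
    refine integral_congr_ae (Eventually.of_forall fun t => ?_)
    simp only [lsmul_flip_apply, toSpanSingleton_apply, smul_eq_mul, mul_comm]
  rw [e1]
  have e2 : ∫ t, u t * -fderiv ℝ (ρ.normed volume) (z - t) v =
      - ∫ t, u t * fderiv ℝ (ρ.normed volume) (z - t) v := by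
    rw [← integral_neg]
    exact integral_congr_ae (Eventually.of_forall fun t => by simp only; ring)
  rw [e2] at key
  have e3 : ∫ t, inner ℝ (G t) v * ψ t = ∫ t, ρ.normed volume (z - t) * inner ℝ (G t) v :=
    integral_congr_ae (Eventually.of_forall fun t => by simp only [hψ]; ring)
  rw [e3] at key
  linarith only [key]

/-- The chain rule for bounded functions with bounded continuous derivative. -/
theorem IsWeakGrad.chain {U : Set ℂ} (hU : IsOpen U) {u : ℂ → ℝ} {G : ℂ → ℂ}
    (hu : LocallyIntegrable u) (Gm : Measurable G) (hG : LocallyIntegrable G)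
    (h : IsWeakGrad U u G) {F χ : ℝ → ℝ} (hF : ∀ t, HasDerivAt F (χ t) t) (hχ : Continuous χ)
    {C D : ℝ} (hC : ∀ t, |F t| ≤ C) (hD : ∀ t, |χ t| ≤ D) :
    IsWeakGrad U (fun z => F (u z)) (fun z => χ (u z) • G z) := by
  refine isWeakGrad_of_test fun φ h1 h2 h3 v => ?_
  have hFc : Continuous F := continuous_iff_continuousAt.mpr fun t => (hF t).continuousAt
  -- a compact neighbourhood of the support
  obtain ⟨ε, hε, hεU⟩ : ∃ ε > 0, cthickening ε (tsupport φ) ⊆ U :=
    h2.isCompact.exists_cthickening_subset_open hU h3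
  have hSc : IsCompact (cthickening ε (tsupport φ)) := h2.isCompact.cthickening
  have hSm : MeasurableSet (cthickening ε (tsupport φ)) := hSc.measurableSet
  set S := cthickening ε (tsupport φ) with hS
  -- mollifiers
  let ρ : ℕ → ContDiffBump (0 : ℂ) := fun n =>
    { rIn := ε / (n + 2) / 2
      rOut := ε / (n + 2)
      rIn_pos := by (clear * - hε; positivity)
      rIn_lt_rOut := by
        have : 0 < ε / ((n : ℝ) + 2) := by (clear * - hε; positivity)
        linarith only [this] }
  have hρ : Tendsto (fun n => (ρ n).rOut) atTop (𝓝 0) := by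
    have : Tendsto (fun n : ℕ => ε / ((n : ℝ) + 2)) atTop (𝓝 0) := by
      refine Tendsto.const_div_atTop ?_ ε
      exact tendsto_atTop_add_const_right _ _ tendsto_natCast_atTop_atTop
    exact this
  have hA : ∀ n, (ρ n).rOut ≤ 2 * (ρ n).rIn := fun n => by
    show ε / ((n : ℝ) + 2) ≤ 2 * (ε / (n + 2) / 2)
    linarith only []
  have hρε : ∀ n, (ρ n).rOut < ε := by
    intro n
    show ε / ((n : ℝ) + 2) < ε
    rw [div_lt_iff₀ (by (clear * -; positivity))]
    have : (0 : ℝ) ≤ n := Nat.cast_nonneg n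
    nlinarith only [hε]
  -- the localised gradient component
  set k : ℂ → ℝ := S.indicator fun z => inner ℝ (G z) v with hk
  have hGv : LocallyIntegrable fun z => (inner ℝ (G z) v : ℝ) := locallyIntegrable_inner hG v
  have km : Measurable k := (Gm.inner measurable_const).indicator hSm
  have ki : Integrable k := (integrable_indicator_iff hSm).mpr (hGv.integrableOn_isCompact hSc)
  have hcb : ∀ n, ∀ z ∈ tsupport φ, closedBall z (ρ n).rOut ⊆ S := by
    intro n z hz w hw
    have : w ∈ closedBall z ε := closedBall_subset_closedBall (hρε n).le hw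
    exact closedBall_subset_cthickening hz ε this
  have hmk : ∀ n, ∀ z ∈ tsupport φ, moll (ρ n) (fun y => inner ℝ (G y) v) z = moll (ρ n) k z := by
    intro n z hz
    rw [moll_swap, moll_swap]
    refine integral_congr_ae (Eventually.of_forall fun t => ?_)
    simp only
    by_cases ht : t ∈ S
    · rw [hk, indicator_of_mem ht]
    · have : z - t ∉ support ((ρ n).normed (volume : Measure ℂ)) := by
        rw [(ρ n).support_normed_eq, mem_ball_zero_iff]
        intro hc
        refine ht (hcb n z hz ?_)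
        rw [mem_closedBall, dist_eq_norm, norm_sub_rev]
        exact hc.le
      rw [notMem_support.mp this, zero_mul, zero_mul]
  -- bounds for the test function
  obtain ⟨P, hP⟩ := h1.continuous.bounded_above_of_compact_support h2
  have hP0 : 0 ≤ P := (norm_nonneg _).trans (hP 0)
  have hcφ : Continuous fun z => fderiv ℝ φ z v :=
    (h1.continuous_fderiv (by simp)).clm_apply continuous_const
  have hcφs : HasCompactSupport fun z => fderiv ℝ φ z v := h2.fderiv_apply ℝ v
  have hφi : Integrable fun z => fderiv ℝ φ z v := hcφ.integrable_of_hasCompactSupport hcφs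
  -- the identity for the mollified functions
  have hid : ∀ n, ∫ z, F (moll (ρ n) u z) * fderiv ℝ φ z v =
      - ∫ z, χ (moll (ρ n) u z) * moll (ρ n) k z * φ z := by
    intro n
    have hs := contDiff_moll (ρ n) hu
    have hd : ∀ z, HasFDerivAt (fun z => F (moll (ρ n) u z))
        (χ (moll (ρ n) u z) • fderiv ℝ (moll (ρ n) u) z) z := fun z =>
      (hF _).comp_hasFDerivAt z (hs.differentiable (by simp) z).hasFDerivAt
    have hcont : Continuous fun z => F (moll (ρ n) u z) := hFc.comp hs.continuous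
    have hfd : ∀ z, fderiv ℝ (fun z => F (moll (ρ n) u z)) z v * φ z =
        χ (moll (ρ n) u z) * fderiv ℝ (moll (ρ n) u) z v * φ z := by
      intro z
      rw [(hd z).fderiv]; simp only [smul_apply, smul_eq_mul]
    have hfd2 : ∀ z, χ (moll (ρ n) u z) * fderiv ℝ (moll (ρ n) u) z v * φ z =
        χ (moll (ρ n) u z) * moll (ρ n) k z * φ z := by
      intro z
      by_cases hz : z ∈ tsupport φ
      · rw [h.fderiv_moll hu (ρ n) ((hcb n z hz).trans hεU) v, hmk n z hz]
      · rw [image_eq_zero_of_notMem_tsupport hz, mul_zero, mul_zero]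
    have hcd : Continuous fun z => χ (moll (ρ n) u z) * fderiv ℝ (moll (ρ n) u) z v :=
      (hχ.comp hs.continuous).mul ((hs.continuous_fderiv (by simp)).clm_apply continuous_const)
    have := integral_mul_fderiv_eq_neg_fderiv_mul_of_integrable (μ := (volume : Measure ℂ))
      (𝕜 := ℝ) (f := fun z => F (moll (ρ n) u z)) (g := φ) (v := v)
      (by simp only [hfd]
          exact (hcd.mul h1.continuous).integrable_of_hasCompactSupport h2.mul_left)
      ((hcont.mul hcφ).integrable_of_hasCompactSupport hcφs.mul_left)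
      ((hcont.mul h1.continuous).integrable_of_hasCompactSupport h2.mul_left)
      (fun z _ => (hd z).differentiableAt) (fun z _ => h1.differentiable (by simp) z)
    rw [this]
    congr 1
    refine integral_congr_ae (Eventually.of_forall fun z => ?_)
    simp only [hfd, hfd2]
  -- limits
  have hae := ContDiffBump.ae_convolution_tendsto_right_of_locallyIntegrable (μ := volume) hρ
      (Eventually.of_forall hA) hu
  have hL1 := tendsto_integral_moll km ki hρ hA
  have lim1 : Tendsto (fun n => ∫ z, F (moll (ρ n) u z) * fderiv ℝ φ z v) atTop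
      (𝓝 (∫ z, F (u z) * fderiv ℝ φ z v)) := by
    refine tendsto_integral_filter_of_dominated_convergence (fun z => C * |fderiv ℝ φ z v|)
      ?_ ?_ ?_ ?_
    · exact Eventually.of_forall fun n =>
        ((hFc.comp (contDiff_moll (ρ n) hu).continuous).mul hcφ).aestronglyMeasurable
    · refine Eventually.of_forall fun n => Eventually.of_forall fun z => ?_
      rw [norm_mul, Real.norm_eq_abs, Real.norm_eq_abs]
      gcongr
      exact hC _
    · exact hφi.abs.const_mul C
    · filter_upwards [hae] with z hz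
      exact ((hFc.tendsto _).comp hz).mul_const _
  have lim2 : Tendsto (fun n => ∫ z, χ (moll (ρ n) u z) * k z * φ z) atTop
      (𝓝 (∫ z, χ (u z) * k z * φ z)) := by
    refine tendsto_integral_filter_of_dominated_convergence (fun z => D * P * |k z|)
      ?_ ?_ ?_ ?_
    · exact Eventually.of_forall fun n =>
        (((hχ.comp (contDiff_moll (ρ n) hu).continuous).aestronglyMeasurable.mul
          km.aestronglyMeasurable).mul h1.continuous.aestronglyMeasurable)
    · refine Eventually.of_forall fun n => Eventually.of_forall fun z => ?_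
      rw [norm_mul, norm_mul, Real.norm_eq_abs, Real.norm_eq_abs]
      have e1 := hD (moll (ρ n) u z)
      have e2 := hP z
      have e3 : 0 ≤ D := (abs_nonneg _).trans e1
      calc |χ (moll (ρ n) u z)| * |k z| * ‖φ z‖ ≤ D * |k z| * P := by (clear * - e1 e2 e3; gcongr)
        _ = D * P * |k z| := by ring
    · exact ki.abs.const_mul _
    · filter_upwards [hae] with z hz
      exact (((hχ.tendsto _).comp hz).mul_const _).mul_const _
  have lim3 : Tendsto (fun n => (∫ z, χ (moll (ρ n) u z) * moll (ρ n) k z * φ z) -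
      ∫ z, χ (moll (ρ n) u z) * k z * φ z) atTop (𝓝 0) := by
    have hb : ∀ n, |(∫ z, χ (moll (ρ n) u z) * moll (ρ n) k z * φ z) -
        ∫ z, χ (moll (ρ n) u z) * k z * φ z| ≤ D * P * ∫ z, |moll (ρ n) k z - k z| := by
      intro n
      have hs := contDiff_moll (ρ n) hu
      have i1 : Integrable fun z => χ (moll (ρ n) u z) * moll (ρ n) k z * φ z := by
        exact (((hχ.comp hs.continuous).mul
          (continuous_moll (ρ n) ki.locallyIntegrable)).mul
          h1.continuous).integrable_of_hasCompactSupport h2.mul_left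
      have i2 : Integrable fun z => χ (moll (ρ n) u z) * k z * φ z := by
        have : Integrable fun z => k z * (χ (moll (ρ n) u z) * φ z) :=
          integrable_mul_cc ki.locallyIntegrable ((hχ.comp hs.continuous).mul h1.continuous)
            h2.mul_left
        refine this.congr (Eventually.of_forall fun z => ?_)
        simp only; ring
      have i3 : Integrable fun z => moll (ρ n) k z - k z :=
        (integral_abs_moll_le (ρ n) ki).1.sub ki
      rw [← integral_sub i1 i2, ← integral_const_mul]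
      refine (abs_integral_le_integral_abs).trans ?_
      refine integral_mono (i1.sub i2).abs (i3.abs.const_mul _) fun z => ?_
      have e1 := hD (moll (ρ n) u z)
      have e2 := hP z
      rw [Real.norm_eq_abs] at e2
      have e3 : 0 ≤ D := (abs_nonneg _).trans e1
      have e4 : χ (moll (ρ n) u z) * moll (ρ n) k z * φ z - χ (moll (ρ n) u z) * k z * φ z =
        χ (moll (ρ n) u z) * (moll (ρ n) k z - k z) * φ z := by ring
      simp only
      rw [e4, abs_mul, abs_mul]
      calc |χ (moll (ρ n) u z)| * |moll (ρ n) k z - k z| * |φ z|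
          ≤ D * |moll (ρ n) k z - k z| * P := by (clear * - e1 e2 e3; gcongr)
        _ = D * P * |moll (ρ n) k z - k z| := by ring
    rw [tendsto_zero_iff_abs_tendsto_zero]
    refine squeeze_zero (fun n => abs_nonneg _) hb ?_
    simpa only [mul_zero] using hL1.const_mul (D * P)
  have lim4 : Tendsto (fun n => - ∫ z, χ (moll (ρ n) u z) * moll (ρ n) k z * φ z) atTop
      (𝓝 (- ∫ z, χ (u z) * k z * φ z)) := by
    have := (lim3.add lim2).neg
    simpa only [tendsto_neg_iff, sub_add_cancel, zero_add] using this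
  have hfinal := tendsto_nhds_unique (lim1.congr hid) lim4
  rw [hfinal]
  congr 1
  refine integral_congr_ae (Eventually.of_forall fun z => ?_)
  simp only [inner_smul_left, conj_trivial]
  by_cases hz : z ∈ tsupport φ
  · have : z ∈ S := self_subset_cthickening _ hz
    rw [hk, indicator_of_mem this]
  · rw [image_eq_zero_of_notMem_tsupport hz, mul_zero, mul_zero]

end Vale.Agent.P128
end

section

open MeasureTheory Set Metric Filter Function
open scoped ENNReal ContDiff Topology

namespace Vale.Agent.P128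

/-- Truncation at level `m`. -/
noncomputable def clampf (m t : ℝ) : ℝ := max (-m) (min m t)

/-- Continuous cut-off functions converging to the indicator function of `(-m, m)`. -/
noncomputable def chik (m : ℝ) (k : ℕ) (t : ℝ) : ℝ := max 0 (min 1 (k * (m - |t|)))

theorem continuous_chik (m : ℝ) (k : ℕ) : Continuous (chik m k) := by
  unfold chik; fun_prop

theorem chik_mem (m : ℝ) (k : ℕ) (t : ℝ) : 0 ≤ chik m k t ∧ chik m k t ≤ 1 :=
  ⟨le_max_left _ _, max_le zero_le_one (min_le_left _ _)⟩

theorem chik_eq_zero {m : ℝ} (k : ℕ) {t : ℝ} (h : m ≤ |t|) : chik m k t = 0 := by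
  unfold chik
  refine max_eq_left ((min_le_right _ _).trans ?_)
  exact mul_nonpos_of_nonneg_of_nonpos (Nat.cast_nonneg k) (by linarith)

theorem tendsto_chik (m t : ℝ) :
    Tendsto (fun k => chik m k t) atTop (𝓝 (if |t| < m then 1 else 0)) := by
  by_cases h : |t| < m
  · rw [if_pos h]
    refine tendsto_const_nhds.congr' ?_
    filter_upwards [eventually_ge_atTop ⌈1 / (m - |t|)⌉₊] with k hk
    have h0 : 0 < m - |t| := by linarith only [h]
    have h1 : 1 / (m - |t|) ≤ k := Nat.ceil_le.mp hk
    rw [div_le_iff₀ h0] at h1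
    unfold chik
    rw [min_eq_left h1, max_eq_right zero_le_one]
  · rw [if_neg h]
    simp only [chik_eq_zero _ (not_lt.mp h)]
    exact tendsto_const_nhds

noncomputable def Fk (m : ℝ) (k : ℕ) (t : ℝ) : ℝ := ∫ τ in (0 : ℝ)..t, chik m k τ

theorem hasDerivAt_Fk (m : ℝ) (k : ℕ) (t : ℝ) : HasDerivAt (Fk m k) (chik m k t) t :=
  intervalIntegral.integral_hasDerivAt_right ((continuous_chik m k).intervalIntegrable _ _)
    ((continuous_chik m k).stronglyMeasurableAtFilter _ _) (continuous_chik m k).continuousAt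

theorem integral_ind {m : ℝ} (hm : 0 < m) (t : ℝ) :
    ∫ τ in (0 : ℝ)..t, (if |τ| < m then (1 : ℝ) else 0) = clampf m t := by
  have hmeas : MeasurableSet {τ : ℝ | |τ| < m} := measurableSet_lt measurable_id.abs
    measurable_const
  have hm1 : Measurable fun τ : ℝ => if |τ| < m then (1 : ℝ) else 0 :=
    Measurable.ite hmeas measurable_const measurable_const
  have hint : ∀ a b : ℝ, IntervalIntegrable (fun τ : ℝ => if |τ| < m then (1 : ℝ) else 0)
      volume a b := by
    intro a b
    refine (intervalIntegrable_const (c := (1 : ℝ))).mono_fun hm1.aestronglyMeasurable ?_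
    refine Eventually.of_forall fun τ => ?_
    by_cases h : |τ| < m <;> simp [h]
  have inside : ∀ a b : ℝ, -m ≤ a → a ≤ m → -m ≤ b → b ≤ m →
      ∫ τ in a..b, (if |τ| < m then (1 : ℝ) else 0) = b - a := by
    intro a b ha ha' hb hb'
    have : ∫ τ in a..b, (if |τ| < m then (1 : ℝ) else 0) = ∫ τ in a..b, (1 : ℝ) := by
      refine intervalIntegral.integral_congr_ae ?_
      have hne : ∀ᵐ τ : ℝ, τ ≠ m ∧ τ ≠ -m := by
        exact (Measure.ae_ne volume m).and (Measure.ae_ne volume (-m))
      filter_upwards [hne] with τ hτ h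
      have h1 : -m ≤ τ ∧ τ ≤ m := by
        rcases le_total a b with h2 | h2
        · rw [uIoc_of_le h2] at h
          exact ⟨ha.trans h.1.le, h.2.trans hb'⟩
        · rw [uIoc_of_ge h2] at h
          exact ⟨hb.trans h.1.le, h.2.trans ha'⟩
      rw [if_pos]
      exact abs_lt.mpr ⟨lt_of_le_of_ne h1.1 (Ne.symm hτ.2), lt_of_le_of_ne h1.2 hτ.1⟩
    rw [this]; simp
  have outside : ∀ a b : ℝ, (m ≤ a ∧ m ≤ b) ∨ (a ≤ -m ∧ b ≤ -m) →
      ∫ τ in a..b, (if |τ| < m then (1 : ℝ) else 0) = 0 := by
    intro a b hab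
    have : ∫ τ in a..b, (if |τ| < m then (1 : ℝ) else 0) = ∫ τ in a..b, (0 : ℝ) := by
      refine intervalIntegral.integral_congr fun τ h => ?_
      rw [if_neg]
      rw [not_lt]
      rcases hab with ⟨h1, h2⟩ | ⟨h1, h2⟩
      · have : m ≤ τ := by
          rcases le_total a b with h3 | h3
          · rw [uIcc_of_le h3] at h; exact h1.trans h.1
          · rw [uIcc_of_ge h3] at h; exact h2.trans h.1
        exact this.trans (le_abs_self τ)
      · have : τ ≤ -m := by
          rcases le_total a b with h3 | h3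
          · rw [uIcc_of_le h3] at h; exact h.2.trans h2
          · rw [uIcc_of_ge h3] at h; exact h.2.trans h1
        have h4 := neg_le_abs τ
        linarith
    rw [this]; simp
  unfold clampf
  rcases le_total t (-m) with h1 | h1
  · rw [← intervalIntegral.integral_add_adjacent_intervals (hint 0 (-m)) (hint (-m) t),
      inside 0 (-m) (by linarith) hm.le le_rfl (by linarith), outside (-m) t (Or.inr ⟨le_rfl, h1⟩),
      max_eq_left ((min_le_right _ _).trans h1)]
    ring
  · rcases le_total t m with h2 | h2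
    · rw [inside 0 t (by linarith) hm.le h1 h2, min_eq_right h2, max_eq_right h1]
      ring
    · rw [← intervalIntegral.integral_add_adjacent_intervals (hint 0 m) (hint m t),
        inside 0 m (by linarith) hm.le (by linarith) le_rfl, outside m t (Or.inl ⟨le_rfl, h2⟩),
        min_eq_left h2, max_eq_right (by linarith only [hm])]
      ring

theorem tendsto_Fk {m : ℝ} (hm : 0 < m) (t : ℝ) :
    Tendsto (fun k => Fk m k t) atTop (𝓝 (clampf m t)) := by
  rw [← integral_ind hm t]
  unfold Fk
  refine intervalIntegral.tendsto_integral_filter_of_dominated_convergence (fun _ => (1 : ℝ))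
    ?_ ?_ ?_ ?_
  · exact Eventually.of_forall fun k => (continuous_chik m k).aestronglyMeasurable
  · refine Eventually.of_forall fun k => Eventually.of_forall fun τ _ => ?_
    rw [Real.norm_of_nonneg (chik_mem m k τ).1]
    exact (chik_mem m k τ).2
  · exact intervalIntegrable_const
  · exact Eventually.of_forall fun τ _ => tendsto_chik m τ

theorem abs_Fk_le {m : ℝ} (hm : 0 < m) (k : ℕ) (t : ℝ) : |Fk m k t| ≤ m := by
  have hm1 : Measurable fun τ : ℝ => if |τ| < m then (1 : ℝ) else 0 :=
    Measurable.ite (measurableSet_lt measurable_id.abs measurable_const) measurable_const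
      measurable_const
  have hint : ∀ a b : ℝ, IntervalIntegrable (fun τ : ℝ => if |τ| < m then (1 : ℝ) else 0)
      volume a b := by
    intro a b
    refine (intervalIntegrable_const (c := (1 : ℝ))).mono_fun hm1.aestronglyMeasurable ?_
    refine Eventually.of_forall fun τ => ?_
    by_cases h : |τ| < m <;> simp [h]
  have hle : ∀ τ, chik m k τ ≤ if |τ| < m then (1 : ℝ) else 0 := by
    intro τ
    by_cases h : |τ| < m
    · rw [if_pos h]; exact (chik_mem m k τ).2
    · rw [if_neg h, chik_eq_zero k (not_lt.mp h)]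
  have hclamp : |clampf m t| ≤ m := by
    unfold clampf
    rw [abs_le]
    exact ⟨le_max_left _ _, max_le (by linarith only [hm]) (min_le_left _ _)⟩
  unfold Fk
  rcases le_total 0 t with h | h
  · have h1 : ∫ τ in (0 : ℝ)..t, chik m k τ ≤ ∫ τ in (0 : ℝ)..t, (if |τ| < m then (1 : ℝ) else 0) :=
      intervalIntegral.integral_mono_on h ((continuous_chik m k).intervalIntegrable _ _)
        (hint 0 t) fun τ _ => hle τ
    have h2 : 0 ≤ ∫ τ in (0 : ℝ)..t, chik m k τ :=
      intervalIntegral.integral_nonneg h fun τ _ => (chik_mem m k τ).1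
    rw [integral_ind hm t] at h1
    rw [abs_of_nonneg h2]
    exact h1.trans ((le_abs_self _).trans hclamp)
  · have h1 : ∫ τ in t..(0 : ℝ), chik m k τ ≤ ∫ τ in t..(0 : ℝ), (if |τ| < m then (1 : ℝ) else 0) :=
      intervalIntegral.integral_mono_on h ((continuous_chik m k).intervalIntegrable _ _)
        (hint t 0) fun τ _ => hle τ
    have h2 : 0 ≤ ∫ τ in t..(0 : ℝ), chik m k τ :=
      intervalIntegral.integral_nonneg h fun τ _ => (chik_mem m k τ).1
    have h3 := integral_ind hm t
    rw [intervalIntegral.integral_symm] at h3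
    rw [intervalIntegral.integral_symm, abs_neg, abs_of_nonneg h2]
    refine h1.trans ?_
    have h4 : ∫ τ in t..(0 : ℝ), (if |τ| < m then (1 : ℝ) else 0) = - clampf m t := by linarith only [h3]
    rw [h4]
    exact (neg_le_abs _).trans hclamp

/-- The weak gradient of a truncated function. -/
theorem IsWeakGrad.clamp {U : Set ℂ} (hU : IsOpen U) {u : ℂ → ℝ} {G : ℂ → ℂ}
    (um : Measurable u) (hu : LocallyIntegrable u) (Gm : Measurable G)
    (hG : LocallyIntegrable G) (h : IsWeakGrad U u G) {m : ℝ} (hm : 0 < m) :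
    IsWeakGrad U (fun z => clampf m (u z))
      (fun z => (if |u z| < m then (1 : ℝ) else 0) • G z) := by
  refine isWeakGrad_of_test fun φ h1 h2 h3 v => ?_
  have hcφ : Continuous fun z => fderiv ℝ φ z v :=
    (h1.continuous_fderiv (by simp)).clm_apply continuous_const
  have hcφs : HasCompactSupport fun z => fderiv ℝ φ z v := h2.fderiv_apply ℝ v
  have hφi : Integrable fun z => fderiv ℝ φ z v := hcφ.integrable_of_hasCompactSupport hcφs
  have hFc : ∀ k, Continuous (Fk m k) := fun k =>
    continuous_iff_continuousAt.mpr fun t => (hasDerivAt_Fk m k t).continuousAt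
  have hid : ∀ k, ∫ z, Fk m k (u z) * fderiv ℝ φ z v =
      - ∫ z, inner ℝ (chik m k (u z) • G z) v * φ z := fun k =>
    (h.chain hU hu Gm hG (hasDerivAt_Fk m k) (continuous_chik m k) (abs_Fk_le hm k)
      (D := 1) (fun t => by rw [abs_of_nonneg (chik_mem m k t).1]; exact (chik_mem m k t).2)).test
      h1 h2 h3 v
  have hGφ : Integrable fun z => inner ℝ (G z) v * φ z :=
    integrable_mul_cc (locallyIntegrable_inner hG v) h1.continuous h2
  have lim1 : Tendsto (fun k => ∫ z, Fk m k (u z) * fderiv ℝ φ z v) atTop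
      (𝓝 (∫ z, clampf m (u z) * fderiv ℝ φ z v)) := by
    refine tendsto_integral_filter_of_dominated_convergence (fun z => m * |fderiv ℝ φ z v|)
      ?_ ?_ ?_ ?_
    · exact Eventually.of_forall fun k =>
        (((hFc k).measurable.comp um).mul hcφ.measurable).aestronglyMeasurable
    · refine Eventually.of_forall fun k => Eventually.of_forall fun z => ?_
      rw [norm_mul, Real.norm_eq_abs, Real.norm_eq_abs]
      gcongr
      exact abs_Fk_le hm k _
    · exact hφi.abs.const_mul m
    · exact Eventually.of_forall fun z => (tendsto_Fk hm (u z)).mul_const _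
  have lim2 : Tendsto (fun k => ∫ z, inner ℝ (chik m k (u z) • G z) v * φ z) atTop
      (𝓝 (∫ z, inner ℝ ((if |u z| < m then (1 : ℝ) else 0) • G z) v * φ z)) := by
    refine tendsto_integral_filter_of_dominated_convergence (fun z => |inner ℝ (G z) v * φ z|)
      ?_ ?_ ?_ ?_
    · refine Eventually.of_forall fun k => ?_
      exact ((((continuous_chik m k).measurable.comp um).smul Gm).inner
        measurable_const |>.mul h1.continuous.measurable).aestronglyMeasurable
    · refine Eventually.of_forall fun k => Eventually.of_forall fun z => ?_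
      rw [inner_smul_left, conj_trivial, Real.norm_eq_abs, mul_assoc, abs_mul,
        abs_of_nonneg (chik_mem m k (u z)).1]
      exact mul_le_of_le_one_left (abs_nonneg _) (chik_mem m k (u z)).2
    · exact hGφ.abs
    · refine Eventually.of_forall fun z => ?_
      simp only [inner_smul_left, conj_trivial]
      exact ((tendsto_chik m (u z)).mul_const _).mul_const _
  exact tendsto_nhds_unique (lim1.congr hid) lim2.neg

end Vale.Agent.P128
end

section

open MeasureTheory Set Metric
open scoped ENNReal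

namespace Vale.Agent.P128

theorem Admissible.measurableSet {Ω K : Set ℂ} {u : ℂ → ℝ} {G : ℂ → ℂ} (hΩ : IsOpen Ω)
    (h : Admissible Ω u G K) : MeasurableSet K := by
  have : K = Ω ∩ closure K :=
    Subset.antisymm (fun z hz => ⟨h.subset hz, subset_closure hz⟩) h.relClosed
  rw [this]
  exact hΩ.measurableSet.inter isClosed_closure.measurableSet

theorem Admissible.isOpen_diff {Ω K : Set ℂ} {u : ℂ → ℝ} {G : ℂ → ℂ} (hΩ : IsOpen Ω)
    (h : Admissible Ω u G K) : IsOpen (Ω \ K) := by
  have : Ω \ K = Ω ∩ (closure K)ᶜ := by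
    ext z
    constructor
    · rintro ⟨h1, h2⟩
      exact ⟨h1, fun h3 => h2 (h.relClosed ⟨h1, h3⟩)⟩
    · rintro ⟨h1, h2⟩
      exact ⟨h1, fun h3 => h2 (subset_closure h3)⟩
  rw [this]
  exact hΩ.inter isClosed_closure.isOpen_compl

theorem IsWeakGrad.congr {U : Set ℂ} {u u' : ℂ → ℝ} {G G' : ℂ → ℂ}
    (hu : u =ᵐ[volume.restrict U] u') (hG : G =ᵐ[volume.restrict U] G')
    (h : IsWeakGrad U u G) : IsWeakGrad U u' G' := by
  intro φ h1 h2 h3 v
  have e1 : ∫ z in U, u' z * fderiv ℝ φ z v = ∫ z in U, u z * fderiv ℝ φ z v :=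
    integral_congr_ae (by filter_upwards [hu] with z hz; rw [hz])
  have e2 : ∫ z in U, inner ℝ (G' z) v * φ z = ∫ z in U, inner ℝ (G z) v * φ z :=
    integral_congr_ae (by filter_upwards [hG] with z hz; rw [hz])
  rw [e1, e2]
  exact h φ h1 h2 h3 v

/-- Normalised data: everywhere defined Borel representatives, extended by zero. -/
structure Nice (Ω : Set ℂ) (g u : ℂ → ℝ) (G : ℂ → ℂ) (K : Set ℂ) (M : ℝ) : Prop where
  isOpen : IsOpen Ω
  M_nonneg : 0 ≤ M
  gm : Measurable g
  um : Measurable u
  Gm : Measurable G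
  gb : ∀ z, |g z| ≤ M
  g0 : ∀ z ∉ Ω, g z = 0
  u0 : ∀ z ∉ Ω, u z = 0
  G0 : ∀ z ∉ Ω \ K, G z = 0
  min : IsMinimizer Ω g u G K

theorem energy_congr {Ω K V : Set ℂ} {g g' u u' : ℂ → ℝ} {G G' : ℂ → ℂ}
    (hV : V ⊆ Ω) (hg : g =ᵐ[volume.restrict Ω] g')
    (hu : u =ᵐ[volume.restrict Ω] u')
    (hG : G =ᵐ[volume.restrict (Ω \ K)] G') :
    energy g u G K V = energy g' u' G' K V := by
  unfold energy
  have h1 : ∫⁻ z in V \ K, ENNReal.ofReal (‖G z‖ ^ 2) =
      ∫⁻ z in V \ K, ENNReal.ofReal (‖G' z‖ ^ 2) := by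
    refine lintegral_congr_ae ?_
    have := ae_mono (Measure.restrict_mono (sdiff_subset_sdiff_left (t := K) hV) le_rfl) hG
    filter_upwards [this] with z hz; rw [hz]
  have h2 : ∫⁻ z in V, ENNReal.ofReal ((u z - g z) ^ 2) =
      ∫⁻ z in V, ENNReal.ofReal ((u' z - g' z) ^ 2) := by
    refine lintegral_congr_ae ?_
    filter_upwards [ae_mono (Measure.restrict_mono hV le_rfl) hu,
      ae_mono (Measure.restrict_mono hV le_rfl) hg] with z hz hz'
    rw [hz, hz']
  rw [h1, h2]

theorem normalize {Ω K : Set ℂ} (hΩ : IsOpen Ω) {g u : ℂ → ℝ} {G : ℂ → ℂ}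
    (hg : MemLp g ⊤ (volume.restrict Ω)) (h : IsMinimizer Ω g u G K) :
    ∃ (M : ℝ) (g' u' : ℂ → ℝ) (G' : ℂ → ℂ), Nice Ω g' u' G' K M := by
  obtain ⟨hadm, hmin⟩ := h
  have hK := hadm.measurableSet hΩ
  have hΩK : IsOpen (Ω \ K) := hadm.isOpen_diff hΩ
  set C : ℝ := (eLpNorm g ⊤ (volume.restrict Ω)).toReal with hC
  have hC0 : 0 ≤ C := ENNReal.toReal_nonneg
  have hgC : ∀ᵐ z ∂(volume.restrict Ω), |g z| ≤ C := by
    have h1 : ∀ᵐ z ∂(volume.restrict Ω), ‖g z‖ₑ ≤ eLpNormEssSup g (volume.restrict Ω) :=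
      ae_le_eLpNormEssSup
    filter_upwards [h1] with z hz
    rw [← eLpNorm_exponent_top] at hz
    have := ENNReal.toReal_mono hg.2.ne hz
    rwa [toReal_enorm, Real.norm_eq_abs] at this
  let g₀ := hg.1.mk g
  let u₀ := hadm.memLp.1.mk u
  let G₀ := hadm.grad_memLp.1.mk G
  have hg₀ : Measurable g₀ := hg.1.stronglyMeasurable_mk.measurable
  have hu₀ : Measurable u₀ := hadm.memLp.1.stronglyMeasurable_mk.measurable
  have hG₀ : Measurable G₀ := hadm.grad_memLp.1.stronglyMeasurable_mk.measurable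
  let g' : ℂ → ℝ := Ω.indicator fun z => max (-C) (min C (g₀ z))
  let u' : ℂ → ℝ := Ω.indicator u₀
  let G' : ℂ → ℂ := (Ω \ K).indicator G₀
  have eg : g =ᵐ[volume.restrict Ω] g' := by
    filter_upwards [hgC, hg.1.ae_eq_mk, ae_restrict_mem hΩ.measurableSet] with z h1 h2 h3
    have h4 : g₀ z = g z := h2.symm
    have h5 := abs_le.mp h1
    simp only [g', indicator_of_mem h3, h4]
    rw [min_eq_right h5.2, max_eq_right h5.1]
  have eu : u =ᵐ[volume.restrict Ω] u' := by
    filter_upwards [hadm.memLp.1.ae_eq_mk, ae_restrict_mem hΩ.measurableSet] with z h2 h3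
    simp only [u', indicator_of_mem h3, u₀, h2]
  have eG : G =ᵐ[volume.restrict (Ω \ K)] G' := by
    filter_upwards [hadm.grad_memLp.1.ae_eq_mk, ae_restrict_mem hΩK.measurableSet] with z h2 h3
    simp only [G', indicator_of_mem h3, G₀, h2]
  refine ⟨C, g', u', G', ?_⟩
  refine
    { isOpen := hΩ
      M_nonneg := hC0
      gm := Measurable.indicator (measurable_const.max (measurable_const.min hg₀)) hΩ.measurableSet
      um := hu₀.indicator hΩ.measurableSet
      Gm := hG₀.indicator hΩK.measurableSet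
      gb := ?_
      g0 := fun z hz => indicator_of_notMem hz _
      u0 := fun z hz => indicator_of_notMem hz _
      G0 := fun z hz => indicator_of_notMem hz _
      min := ⟨?_, ?_⟩ }
  · intro z
    by_cases hz : z ∈ Ω
    · simp only [g', indicator_of_mem hz]
      rw [abs_le]
      exact ⟨le_max_left _ _, max_le (by linarith only [hC0]) (min_le_left _ _)⟩
    · simp only [g', indicator_of_notMem hz]; simpa only [abs_zero] using hC0
  · refine
      { subset := hadm.subset
        relClosed := hadm.relClosed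
        finite := hadm.finite
        memLp := hadm.memLp.ae_eq eu
        grad_memLp := hadm.grad_memLp.ae_eq eG
        weak := hadm.weak.congr
          (ae_mono (Measure.restrict_mono sdiff_subset le_rfl) eu) eG }
  · intro V hV hVc hVΩ w H L hadm' ⟨Cc, hCc, hCV, hsd, hae⟩
    have hVΩ' : V ⊆ Ω := subset_closure.trans hVΩ
    have e1 := energy_congr (K := K) hVΩ' eg eu eG
    have e2 := energy_congr (K := L) hVΩ' eg
      (Filter.EventuallyEq.refl _ w) (Filter.EventuallyEq.refl _ H)
    rw [← e1, ← e2]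
    refine hmin V hV hVc hVΩ w H L hadm' ⟨Cc, hCc, hCV, hsd, ?_⟩
    filter_upwards [hae, eu] with z h1 h2 h3
    rw [h1 h3, h2]

end Vale.Agent.P128
end

section

/-! Functions in `W^{1,2}_loc(U)` with an explicit weak gradient. -/

open MeasureTheory Set Metric Filter Function
open scoped ENNReal ContDiff Topology

namespace Vale.Agent.P128

/-- `u ∈ W^{1,2}_loc(U)` with weak gradient `G`. -/
structure Sob (U : Set ℂ) (u : ℂ → ℝ) (G : ℂ → ℂ) : Prop where
  isOpen : IsOpen U
  ul : ∀ C ⊆ U, IsCompact C → MemLp u 2 (volume.restrict C)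
  gl : ∀ C ⊆ U, IsCompact C → MemLp G 2 (volume.restrict C)
  weak : IsWeakGrad U u G

theorem memLp_ind {E : Type*} [NormedAddCommGroup E] {f : ℂ → E} {V C : Set ℂ}
    (hf : MemLp f 2 (volume.restrict C)) (hV : MeasurableSet V) (hVC : V ⊆ C) :
    MemLp (V.indicator f) 2 (volume : Measure ℂ) :=
  (memLp_indicator_iff_restrict hV).2 (hf.mono_measure (Measure.restrict_mono hVC le_rfl))

theorem memLp_union {E : Type*} [NormedAddCommGroup E] {f : ℂ → E} {A B : Set ℂ}
    (hA : MeasurableSet A) (hB : MeasurableSet B)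
    (h1 : MemLp f 2 (volume.restrict A)) (h2 : MemLp f 2 (volume.restrict B)) :
    MemLp f 2 (volume.restrict (A ∪ B)) := by
  rw [← memLp_indicator_iff_restrict (hA.union hB)]
  have e : (A ∪ B).indicator f = A.indicator f + (B \ A).indicator f := by
    rw [← union_sdiff_self, indicator_union_of_disjoint disjoint_sdiff_right]
    rfl
  rw [e]
  exact ((memLp_indicator_iff_restrict hA).2 h1).add
    (memLp_ind h2 (hB.diff hA) sdiff_subset)

theorem memLp_of_contOn {E : Type*} [NormedAddCommGroup E] {f : ℂ → E}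
    {C : Set ℂ} (hC : IsCompact C) (hf : ContinuousOn f C) : MemLp f 2 (volume.restrict C) := by
  obtain ⟨M, hM⟩ := hC.exists_bound_of_continuousOn hf
  have : IsFiniteMeasure (volume.restrict C : Measure ℂ) :=
    ⟨by rw [Measure.restrict_apply_univ]; exact hC.measure_lt_top⟩
  exact MemLp.of_bound (hf.aestronglyMeasurable hC.measurableSet) M
    ((ae_restrict_iff' hC.measurableSet).2 (Eventually.of_forall fun z hz => hM z hz))

theorem IsWeakGrad.congr_on {U : Set ℂ} (hU : MeasurableSet U) {u u' : ℂ → ℝ} {G G' : ℂ → ℂ}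
    (h : IsWeakGrad U u G) (hu : EqOn u u' U) (hG : EqOn G G' U) : IsWeakGrad U u' G' :=
  h.congr ((ae_restrict_iff' hU).2 (Eventually.of_forall fun _ hz => hu hz))
    ((ae_restrict_iff' hU).2 (Eventually.of_forall fun _ hz => hG hz))

theorem isWeakGrad_of_local {U : Set ℂ} (hU : IsOpen U) {u : ℂ → ℝ} {G : ℂ → ℂ}
    (h : ∀ V, IsOpen V → IsCompact (closure V) → closure V ⊆ U → IsWeakGrad V u G) :
    IsWeakGrad U u G := by
  refine isWeakGrad_of_test fun φ h1 h2 h3 v => ?_
  obtain ⟨V, hVo, hKV, hVU, hVc⟩ := exists_open_between_and_isCompact_closure h2 hU h3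
  exact (h V hVo hVc hVU).test h1 h2 hKV v

namespace Sob

variable {U V : Set ℂ} {u u' : ℂ → ℝ} {G G' : ℂ → ℂ}

theorem mono (h : Sob U u G) (hV : IsOpen V) (hVU : V ⊆ U) : Sob V u G :=
  ⟨hV, fun C hC => h.ul C (hC.trans hVU), fun C hC => h.gl C (hC.trans hVU), h.weak.mono hVU⟩

theorem memLp_u (h : Sob U u G) (hV : IsOpen V) (hc : IsCompact (closure V))
    (hVU : closure V ⊆ U) : MemLp (V.indicator u) 2 (volume : Measure ℂ) :=
  memLp_ind (h.ul _ hVU hc) hV.measurableSet subset_closure

theorem memLp_G (h : Sob U u G) (hV : IsOpen V) (hc : IsCompact (closure V))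
    (hVU : closure V ⊆ U) : MemLp (V.indicator G) 2 (volume : Measure ℂ) :=
  memLp_ind (h.gl _ hVU hc) hV.measurableSet subset_closure

theorem li_u (h : Sob U u G) (hV : IsOpen V) (hc : IsCompact (closure V))
    (hVU : closure V ⊆ U) : LocallyIntegrable (V.indicator u) (volume : Measure ℂ) :=
  (h.memLp_u hV hc hVU).locallyIntegrable (by norm_num)

theorem li_G (h : Sob U u G) (hV : IsOpen V) (hc : IsCompact (closure V))
    (hVU : closure V ⊆ U) : LocallyIntegrable (V.indicator G) (volume : Measure ℂ) :=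
  (h.memLp_G hV hc hVU).locallyIntegrable (by norm_num)

theorem weak_ind (h : Sob U u G) (hV : IsOpen V) (hVU : closure V ⊆ U) :
    IsWeakGrad V (V.indicator u) (V.indicator G) :=
  (h.weak.mono (subset_closure.trans hVU)).congr_on hV.measurableSet
    (fun z hz => by rw [indicator_of_mem hz]) (fun z hz => by rw [indicator_of_mem hz])

theorem add (h : Sob U u G) (h' : Sob U u' G') :
    Sob U (fun z => u z + u' z) (fun z => G z + G' z) := by
  refine ⟨h.isOpen, fun C hC hCc => (h.ul C hC hCc).add (h'.ul C hC hCc),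
    fun C hC hCc => (h.gl C hC hCc).add (h'.gl C hC hCc),
    isWeakGrad_of_local h.isOpen fun V hV hc hVU => ?_⟩
  have := IsWeakGrad.add (h.li_u hV hc hVU) (h'.li_u hV hc hVU) (h.li_G hV hc hVU)
    (h'.li_G hV hc hVU) (h.weak_ind hV hVU) (h'.weak_ind hV hVU)
  exact this.congr_on hV.measurableSet
    (fun z hz => by simp only [indicator_of_mem hz])
    (fun z hz => by simp only [indicator_of_mem hz])

end Sob

end Vale.Agent.P128
end

section

open MeasureTheory Set Metric Function
open scoped ENNReal ContDiff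

namespace Vale.Agent.P128

theorem integrable_inner_of_memLp {μ : Measure ℂ} {G Ξ : ℂ → ℂ} (hG : MemLp G 2 μ)
    (hΞ : MemLp Ξ 2 μ) : Integrable (fun z => (inner ℝ (G z) (Ξ z) : ℝ)) μ := by
  have h := hG.norm.integrable_mul hΞ.norm
  refine h.mono (hG.1.inner hΞ.1) (Filter.Eventually.of_forall fun z => ?_)
  have := norm_inner_le_norm (𝕜 := ℝ) (G z) (Ξ z)
  simpa [abs_mul] using this

theorem Nice.u_memLp {Ω K : Set ℂ} {g u : ℂ → ℝ} {G : ℂ → ℂ} {M : ℝ}
    (N : Nice Ω g u G K M) : MemLp u 2 volume := by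
  have h := N.min.1.memLp
  rw [← memLp_indicator_iff_restrict N.isOpen.measurableSet] at h
  have e : Ω.indicator u = u := by
    funext z
    by_cases hz : z ∈ Ω
    · rw [indicator_of_mem hz]
    · rw [indicator_of_notMem hz, N.u0 z hz]
  rwa [e] at h

theorem Nice.G_memLp {Ω K : Set ℂ} {g u : ℂ → ℝ} {G : ℂ → ℂ} {M : ℝ}
    (N : Nice Ω g u G K M) : MemLp G 2 volume := by
  have h := N.min.1.grad_memLp
  have hm : MeasurableSet (Ω \ K) := (N.min.1.isOpen_diff N.isOpen).measurableSet
  rw [← memLp_indicator_iff_restrict hm] at h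
  have e : (Ω \ K).indicator G = G := by
    funext z
    by_cases hz : z ∈ Ω \ K
    · rw [indicator_of_mem hz]
    · rw [indicator_of_notMem hz, N.G0 z hz]
  rwa [e] at h

theorem Nice.g_memLp {Ω K : Set ℂ} {g u : ℂ → ℝ} {G : ℂ → ℂ} {M : ℝ}
    (N : Nice Ω g u G K M) {B : Set ℂ} (hB : volume B ≠ ⊤) :
    MemLp g 2 (volume.restrict B) := by
  have : IsFiniteMeasure (volume.restrict B) := ⟨by simpa only [MeasurableSet.univ, Measure.restrict_apply, univ_inter] using hB.lt_top⟩
  exact MemLp.of_bound N.gm.aestronglyMeasurable M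
    (Filter.Eventually.of_forall fun z => by simpa only [Real.norm_eq_abs] using N.gb z)

/-- The energy as a sum of real integrals. -/
theorem energy_eq_ofReal {K V : Set ℂ} {g w : ℂ → ℝ} {H : ℂ → ℂ}
    (hH : Integrable (fun z => ‖H z‖ ^ 2) (volume.restrict (V \ K)))
    (hw : Integrable (fun z => (w z - g z) ^ 2) (volume.restrict V)) :
    energy g w H K V = ENNReal.ofReal (∫ z in V \ K, ‖H z‖ ^ 2) + μH[1] (K ∩ V)
      + ENNReal.ofReal (∫ z in V, (w z - g z) ^ 2) := by
  unfold energy
  rw [← ofReal_integral_eq_lintegral_ofReal hH (Filter.Eventually.of_forall fun _ => by (clear * -; positivity)),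
    ← ofReal_integral_eq_lintegral_ofReal hw (Filter.Eventually.of_forall fun _ => by (clear * -; positivity))]

theorem quad_zero {L Q : ℝ} (h : ∀ t : ℝ, 0 ≤ 2 * t * L + t ^ 2 * Q) : L = 0 := by
  by_contra hL
  have hQ : 0 ≤ Q := by
    by_contra hQ
    push Not at hQ
    have h1 := h 1
    have h2 := h (-1)
    linarith
  have h1 := h (-L / (Q + 1))
  have hQ1 : 0 < Q + 1 := by linarith only [hQ]
  have : 2 * (-L / (Q + 1)) * L + (-L / (Q + 1)) ^ 2 * Q = - (L ^ 2 * (Q + 2)) / (Q + 1) ^ 2 := by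
    field_simp
    ring
  rw [this] at h1
  have hL2 : 0 < L ^ 2 := by positivity
  have : - (L ^ 2 * (Q + 2)) / (Q + 1) ^ 2 < 0 := by
    apply div_neg_of_neg_of_pos
    · linarith only [mul_nonneg (le_of_lt (sub_pos.2 hL2)) (sub_nonneg.2 hQ), hL2]
    · positivity
  linarith only [h1, this]

/-- First variation in the function, the set `K` being fixed. -/
theorem Nice.first_variation {Ω K : Set ℂ} {g u : ℂ → ℝ} {G : ℂ → ℂ} {M : ℝ}
    (N : Nice Ω g u G K M) {x : ℂ} {R : ℝ} (hR : closedBall x R ⊆ Ω)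
    {ξ : ℂ → ℝ} {Ξ : ℂ → ℂ} (hξ : MemLp ξ 2 volume) (hΞ : MemLp Ξ 2 volume)
    (hw : IsWeakGrad (Ω \ K) ξ Ξ) {C : Set ℂ} (hC : IsCompact C) (hCR : C ⊆ ball x R)
    (hξ0 : ∀ z ∉ C, ξ z = 0) (hΞ0 : ∀ z ∉ C, Ξ z = 0) :
    (∫ z, (inner ℝ (G z) (Ξ z) : ℝ)) + ∫ z, (u z - g z) * ξ z = 0 := by
  have hK : MeasurableSet K := N.min.1.measurableSet N.isOpen
  have hV : MeasurableSet (ball x R) := isOpen_ball.measurableSet
  have hVK : MeasurableSet (ball x R \ K) := hV.diff hK
  have hVΩ : ball x R ⊆ Ω := ball_subset_closedBall.trans hR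
  have hG := N.G_memLp
  have hu := N.u_memLp
  have hugV : MemLp (fun z => u z - g z) 2 (volume.restrict (ball x R)) :=
    (hu.restrict _).sub (N.g_memLp measure_ball_lt_top.ne)
  -- integrability facts
  have i1 : Integrable (fun z => ‖G z‖ ^ 2) (volume.restrict (ball x R \ K)) :=
    ((hG.restrict _).norm).integrable_sq
  have i2 : Integrable (fun z => (inner ℝ (G z) (Ξ z) : ℝ)) (volume.restrict (ball x R \ K)) :=
    integrable_inner_of_memLp (hG.restrict _) (hΞ.restrict _)
  have i3 : Integrable (fun z => ‖Ξ z‖ ^ 2) (volume.restrict (ball x R \ K)) :=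
    ((hΞ.restrict _).norm).integrable_sq
  have j1 : Integrable (fun z => (u z - g z) ^ 2) (volume.restrict (ball x R)) :=
    hugV.integrable_sq
  have j2 : Integrable (fun z => (u z - g z) * ξ z) (volume.restrict (ball x R)) :=
    hugV.integrable_mul (hξ.restrict _)
  have j3 : Integrable (fun z => ξ z ^ 2) (volume.restrict (ball x R)) :=
    (hξ.restrict _).integrable_sq
  set L : ℝ := (∫ z in ball x R \ K, (inner ℝ (G z) (Ξ z) : ℝ))
    + ∫ z in ball x R, (u z - g z) * ξ z with hL
  set Q : ℝ := (∫ z in ball x R \ K, ‖Ξ z‖ ^ 2) + ∫ z in ball x R, ξ z ^ 2 with hQ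
  have e1 : (∫ z, (inner ℝ (G z) (Ξ z) : ℝ)) = ∫ z in ball x R \ K, (inner ℝ (G z) (Ξ z) : ℝ) := by
    symm
    refine setIntegral_eq_integral_of_forall_compl_eq_zero fun z hz => ?_
    by_cases hzC : z ∈ C
    · have : z ∉ Ω \ K := fun h => hz ⟨hCR hzC, h.2⟩
      rw [N.G0 z this, inner_zero_left]
    · rw [hΞ0 z hzC, inner_zero_right]
  have e2 : (∫ z, (u z - g z) * ξ z) = ∫ z in ball x R, (u z - g z) * ξ z := by
    symm
    refine setIntegral_eq_integral_of_forall_compl_eq_zero fun z hz => ?_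
    have hzC : z ∉ C := fun h => hz (hCR h)
    rw [hξ0 z hzC, mul_zero]
  rw [e1, e2]
  refine quad_zero (Q := Q) fun t => ?_
  -- the competitor
  have hwt : MemLp (fun z => u z + t * ξ z) 2 volume := hu.add (hξ.const_mul t)
  have hHt : MemLp (fun z => G z + t • Ξ z) 2 volume := hG.add (hΞ.const_smul t)
  have hadm : Admissible Ω (fun z => u z + t * ξ z) (fun z => G z + t • Ξ z) K :=
    { subset := N.min.1.subset
      relClosed := N.min.1.relClosed
      finite := N.min.1.finite
      memLp := hwt.restrict _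
      grad_memLp := hHt.restrict _
      weak := IsWeakGrad.add (hu.locallyIntegrable (by norm_num))
        ((hξ.const_mul t).locallyIntegrable (by norm_num))
        (hG.locallyIntegrable (by norm_num))
        ((hΞ.const_smul t).locallyIntegrable (by norm_num)) N.min.1.weak (hw.const_mul t) }
  have hcl : closure (ball x R) ⊆ closedBall x R := closure_ball_subset_closedBall
  have hmin := N.min.2 (ball x R) isOpen_ball
    ((isCompact_closedBall x R).of_isClosed_subset isClosed_closure hcl) (hcl.trans hR)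
    _ _ K hadm ⟨C, hC, hCR, by simp only [symmDiff_self, bot_eq_empty, empty_subset], Filter.Eventually.of_forall fun z hz => by
      simp [hξ0 z hz]⟩
  have k1 : (fun z => ‖G z + t • Ξ z‖ ^ 2) =
      fun z => ‖G z‖ ^ 2 + (2 * t * inner ℝ (G z) (Ξ z) + t ^ 2 * ‖Ξ z‖ ^ 2) := by
    funext z
    rw [norm_add_sq_real, inner_smul_right, norm_smul, mul_pow, Real.norm_eq_abs, sq_abs]
    ring
  have k2 : (fun z => (u z + t * ξ z - g z) ^ 2) =
      fun z => (u z - g z) ^ 2 + (2 * t * ((u z - g z) * ξ z) + t ^ 2 * ξ z ^ 2) := by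
    funext z; ring
  have I2 : Integrable (fun z => 2 * t * inner ℝ (G z) (Ξ z) + t ^ 2 * ‖Ξ z‖ ^ 2)
      (volume.restrict (ball x R \ K)) := (i2.const_mul _).add (i3.const_mul _)
  have J2 : Integrable (fun z => 2 * t * ((u z - g z) * ξ z) + t ^ 2 * ξ z ^ 2)
      (volume.restrict (ball x R)) := (j2.const_mul _).add (j3.const_mul _)
  have I1 : Integrable (fun z => ‖G z + t • Ξ z‖ ^ 2) (volume.restrict (ball x R \ K)) := by
    rw [k1]; exact i1.add I2
  have J1 : Integrable (fun z => (u z + t * ξ z - g z) ^ 2) (volume.restrict (ball x R)) := by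
    rw [k2]; exact j1.add J2
  rw [energy_eq_ofReal i1 j1, energy_eq_ofReal I1 J1] at hmin
  have hfin : μH[1] (K ∩ ball x R) ≠ ⊤ :=
    ((measure_mono inter_subset_left).trans_lt N.min.1.finite).ne
  have e3 : (∫ z in ball x R \ K, ‖G z + t • Ξ z‖ ^ 2) = (∫ z in ball x R \ K, ‖G z‖ ^ 2) +
      (2 * t * (∫ z in ball x R \ K, (inner ℝ (G z) (Ξ z) : ℝ))
        + t ^ 2 * ∫ z in ball x R \ K, ‖Ξ z‖ ^ 2) := by
    rw [k1, integral_add i1 I2, integral_add (i2.const_mul _) (i3.const_mul _),
      integral_const_mul, integral_const_mul]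
  have e4 : (∫ z in ball x R, (u z + t * ξ z - g z) ^ 2) = (∫ z in ball x R, (u z - g z) ^ 2) +
      (2 * t * (∫ z in ball x R, (u z - g z) * ξ z)
        + t ^ 2 * ∫ z in ball x R, ξ z ^ 2) := by
    rw [k2, integral_add j1 J2, integral_add (j2.const_mul _) (j3.const_mul _),
      integral_const_mul, integral_const_mul]
  have p1 : 0 ≤ ∫ z in ball x R \ K, ‖G z‖ ^ 2 := integral_nonneg fun _ => by (clear * -; positivity)
  have p2 : 0 ≤ ∫ z in ball x R, (u z - g z) ^ 2 := integral_nonneg fun _ => by (clear * -; positivity)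
  have p3 : 0 ≤ ∫ z in ball x R \ K, ‖G z + t • Ξ z‖ ^ 2 := integral_nonneg fun _ => by (clear * -; positivity)
  have p4 : 0 ≤ ∫ z in ball x R, (u z + t * ξ z - g z) ^ 2 := integral_nonneg fun _ => by (clear * -; positivity)
  have hreal : (∫ z in ball x R \ K, ‖G z‖ ^ 2) + (∫ z in ball x R, (u z - g z) ^ 2) ≤
      (∫ z in ball x R \ K, ‖G z + t • Ξ z‖ ^ 2) + ∫ z in ball x R, (u z + t * ξ z - g z) ^ 2 := by
    have h1 : ENNReal.ofReal (∫ z in ball x R \ K, ‖G z‖ ^ 2) + μH[1] (K ∩ ball x R)
      + ENNReal.ofReal (∫ z in ball x R, (u z - g z) ^ 2) =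
      ENNReal.ofReal ((∫ z in ball x R \ K, ‖G z‖ ^ 2) + (∫ z in ball x R, (u z - g z) ^ 2))
        + μH[1] (K ∩ ball x R) := by
      rw [ENNReal.ofReal_add p1 p2]; ring
    have h2 : ENNReal.ofReal (∫ z in ball x R \ K, ‖G z + t • Ξ z‖ ^ 2) + μH[1] (K ∩ ball x R)
      + ENNReal.ofReal (∫ z in ball x R, (u z + t * ξ z - g z) ^ 2) =
      ENNReal.ofReal ((∫ z in ball x R \ K, ‖G z + t • Ξ z‖ ^ 2)
        + (∫ z in ball x R, (u z + t * ξ z - g z) ^ 2)) + μH[1] (K ∩ ball x R) := by
      rw [ENNReal.ofReal_add p3 p4]; ring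
    rw [h1, h2] at hmin
    have := (ENNReal.add_le_add_iff_right hfin).mp hmin
    exact (ENNReal.ofReal_le_ofReal_iff (by (clear * -; positivity))).mp this
  rw [e3, e4] at hreal
  rw [hQ]
  linarith only [hreal]

end Vale.Agent.P128
end

section

open MeasureTheory Set Metric Filter
open scoped ENNReal Topology

namespace Vale.Agent.P128

variable {X : Type*} [MetricSpace X] [MeasurableSpace X] [BorelSpace X]

/-- One step of the Eilenberg inequality: points separated by more than `r`. -/
theorem eilenberg_step {f : X → ℝ} (hf : LipschitzWith 1 f) {E : Set X} {m : ℕ} {S : Set ℝ}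
    {r : ℝ} (hr : 0 < r)
    (hS : ∀ s ∈ S, ∃ F : Finset X, F.card = m ∧ (∀ x ∈ F, x ∈ E ∧ f x = s) ∧
      ∀ x ∈ F, ∀ y ∈ F, x ≠ y → r < dist x y) :
    (m : ℝ≥0∞) * volume S ≤ μH[1] E := by
  rw [Measure.hausdorffMeasure_apply]
  refine le_iSup₂_of_le (ENNReal.ofReal r) (by simpa using hr) ?_
  refine le_iInf fun t => le_iInf fun ht => le_iInf fun htd => ?_
  -- measurable hulls of the images
  let J : ℕ → Set ℝ := fun n => closure (f '' t n)
  have hJm : ∀ n, MeasurableSet (J n) := fun n => isClosed_closure.measurableSet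
  have hJv : ∀ n, volume (J n) ≤ ⨆ _ : (t n).Nonempty, ediam (t n) ^ (1 : ℝ) := by
    intro n
    by_cases hn : (t n).Nonempty
    · simp only [hn, ciSup_pos, ENNReal.rpow_one]
      calc volume (J n) ≤ ediam (J n) := Real.volume_le_diam _
        _ = ediam (f '' t n) := ediam_closure _
        _ ≤ 1 * ediam (t n) := hf.ediam_image_le _
        _ = ediam (t n) := one_mul _
    · have : t n = ∅ := Set.not_nonempty_iff_eq_empty.mp hn
      simp [J, this]
  have key : ∀ s ∈ S, (m : ℝ≥0∞) ≤ ∑' n, (J n).indicator (fun _ => (1 : ℝ≥0∞)) s := by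
    intro s hs
    obtain ⟨F, hFc, hFE, hFd⟩ := hS s hs
    have hmem : ∀ x ∈ F, ∃ n, x ∈ t n := by
      intro x hx
      have := ht (hFE x hx).1
      simpa using this
    choose! N hN using hmem
    have hinj : Set.InjOn N F := by
      intro x hx y hy hxy
      by_contra hne
      have h1 : r < dist x y := hFd x hx y hy hne
      have h2 : edist x y ≤ ediam (t (N x)) :=
        edist_le_ediam_of_mem (hN x hx) (by rw [hxy]; exact hN y hy)
      have h3 : edist x y ≤ ENNReal.ofReal r := h2.trans (htd _)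
      rw [edist_dist] at h3
      have h4 := (ENNReal.ofReal_le_ofReal_iff hr.le).mp h3
      linarith
    calc (m : ℝ≥0∞) = ∑ n ∈ F.image N, (1 : ℝ≥0∞) := by
          rw [Finset.sum_const, Finset.card_image_of_injOn hinj, hFc]; simp
      _ = ∑ n ∈ F.image N, (J n).indicator (fun _ => (1 : ℝ≥0∞)) s := by
          refine Finset.sum_congr rfl fun n hn => ?_
          obtain ⟨x, hx, rfl⟩ := Finset.mem_image.mp hn
          have : s ∈ J (N x) := subset_closure ⟨x, hN x hx, (hFE x hx).2⟩
          simp [this]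
      _ ≤ _ := ENNReal.sum_le_tsum _
  calc (m : ℝ≥0∞) * volume S = ∫⁻ _ in S, (m : ℝ≥0∞) := by rw [setLIntegral_const]
    _ ≤ ∫⁻ s in S, ∑' n, (J n).indicator (fun _ => (1 : ℝ≥0∞)) s := by
        refine setLIntegral_mono ?_ key
        exact Measurable.ennreal_tsum fun n => measurable_const.indicator (hJm n)
    _ ≤ ∫⁻ s, ∑' n, (J n).indicator (fun _ => (1 : ℝ≥0∞)) s := setLIntegral_le_lintegral _ _
    _ = ∑' n, ∫⁻ s, (J n).indicator (fun _ => (1 : ℝ≥0∞)) s :=
        lintegral_tsum fun n => (measurable_const.indicator (hJm n)).aemeasurable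
    _ = ∑' n, volume (J n) := by
        congr 1; ext n; rw [lintegral_indicator (hJm n)]; simp
    _ ≤ _ := ENNReal.tsum_le_tsum hJv

/-- Eilenberg's inequality for a `1`-Lipschitz real function, in counting form. -/
theorem eilenberg {f : X → ℝ} (hf : LipschitzWith 1 f) {E : Set X} {m : ℕ} {S : Set ℝ}
    (hS : ∀ s ∈ S, (m : ℕ∞) ≤ (E ∩ f ⁻¹' {s}).encard) :
    (m : ℝ≥0∞) * volume S ≤ μH[1] (E ∩ f ⁻¹' S) := by
  classical
  let T : ℕ → Set ℝ := fun k => {s ∈ S | ∃ F : Finset X, F.card = m ∧
    (∀ x ∈ F, x ∈ E ∩ f ⁻¹' S ∧ f x = s) ∧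
      ∀ x ∈ F, ∀ y ∈ F, x ≠ y → (1 : ℝ) / (k + 1) < dist x y}
  have hTmono : Monotone T := by
    intro k l hkl s hs
    obtain ⟨hsS, F, h1, h2, h3⟩ := hs
    refine ⟨hsS, F, h1, h2, fun x hx y hy hxy => lt_of_le_of_lt ?_ (h3 x hx y hy hxy)⟩
    exact one_div_le_one_div_of_le (by positivity) (by exact_mod_cast Nat.succ_le_succ hkl)
  have hTU : S ⊆ ⋃ k, T k := by
    intro s hs
    obtain ⟨F, hF, hFc⟩ := Set.exists_subset_encard_eq (hS s hs)
    have hfin : F.Finite := Set.finite_of_encard_eq_coe hFc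
    let F' := hfin.toFinset
    have hF'c : F'.card = m := by
      have : (F'.card : ℕ∞) = m := by
        rw [← hFc, ← Set.encard_coe_eq_coe_finsetCard, Set.Finite.coe_toFinset]
      exact_mod_cast this
    -- a positive lower bound for distances of distinct points of F'
    obtain ⟨r, hr0, hr⟩ : ∃ r > (0 : ℝ), ∀ x ∈ F', ∀ y ∈ F', x ≠ y → r < dist x y := by
      let D := ((F' ×ˢ F').filter fun p => p.1 ≠ p.2).image fun p => dist p.1 p.2
      by_cases hD : D.Nonempty
      · refine ⟨D.min' hD / 2, ?_, ?_⟩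
        · have : 0 < D.min' hD := by
            obtain ⟨p, hp, hpe⟩ := Finset.mem_image.mp (D.min'_mem hD)
            rw [← hpe]
            exact dist_pos.mpr (Finset.mem_filter.mp hp).2
          positivity
        · intro x hx y hy hxy
          have hm : dist x y ∈ D := Finset.mem_image.mpr
            ⟨(x, y), Finset.mem_filter.mpr ⟨Finset.mk_mem_product hx hy, hxy⟩, rfl⟩
          have h1 := D.min'_le _ hm
          have h2 : 0 < dist x y := dist_pos.mpr hxy
          have h3 : 0 < D.min' hD := by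
            obtain ⟨p, hp, hpe⟩ := Finset.mem_image.mp (D.min'_mem hD)
            rw [← hpe]
            exact dist_pos.mpr (Finset.mem_filter.mp hp).2
          linarith
      · refine ⟨1, one_pos, ?_⟩
        intro x hx y hy hxy
        exact absurd ⟨dist x y, Finset.mem_image.mpr
            ⟨(x, y), Finset.mem_filter.mpr ⟨Finset.mk_mem_product hx hy, hxy⟩, rfl⟩⟩ hD
    obtain ⟨k, hk⟩ := exists_nat_one_div_lt hr0
    refine mem_iUnion.mpr ⟨k, hs, F', hF'c, ?_, ?_⟩
    · intro x hx
      have hxF : x ∈ F := by simpa [F'] using hx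
      have := hF hxF
      exact ⟨⟨this.1, by rw [mem_preimage, this.2]; exact hs⟩, this.2⟩
    · intro x hx y hy hxy
      exact hk.trans (hr x hx y hy hxy)
  have hTS : ⋃ k, T k = S := Subset.antisymm (iUnion_subset fun k s hs => hs.1) hTU
  have hsup : volume S = ⨆ k, volume (T k) := by
    rw [← hTS]
    exact (directed_of_isDirected_le hTmono).measure_iUnion
  rw [hsup, ENNReal.mul_iSup]
  refine iSup_le fun k => ?_
  exact eilenberg_step hf (r := 1 / (k + 1)) (by positivity) fun s hs => hs.2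

end Vale.Agent.P128
end

section

open MeasureTheory Set Metric Function Filter
open scoped ENNReal ContDiff Topology Real

namespace Vale.Agent.P128

/-- Radii of the circles around `x` that meet `K` in at least `j` points. -/
def lev (K : Set ℂ) (x : ℂ) (j : ℕ) : Set ℝ := {s | (j : ℕ∞) ≤ (K ∩ sphere x s).encard}

theorem lev_measurable_compact {E : Set ℂ} (hE : IsCompact E) (x : ℂ) (j : ℕ) :
    MeasurableSet (lev E x (j + 1)) := by
  let C : ℕ → Set (Fin (j + 1) → ℂ) := fun k =>
    {F | (∀ i, F i ∈ E) ∧ (∀ i, dist (F i) x = dist (F 0) x) ∧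
      ∀ i i', i ≠ i' → (1 : ℝ) / (k + 1) ≤ dist (F i) (F i')}
  have hC : ∀ k, IsCompact (C k) := by
    intro k
    have h1 : IsCompact (Set.pi univ fun _ : Fin (j + 1) => E) := isCompact_univ_pi fun _ => hE
    refine h1.of_isClosed_subset ?_ fun F hF i _ => hF.1 i
    have e : C k = {F | ∀ i, F i ∈ E} ∩ {F | ∀ i, dist (F i) x = dist (F 0) x} ∩
        {F | ∀ i i', i ≠ i' → (1 : ℝ) / (k + 1) ≤ dist (F i) (F i')} := by
      ext F; simp only [ne_eq, one_div, mem_ofPred_eq, mem_inter_iff, and_assoc, C]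
    rw [e]
    refine (IsClosed.inter ?_ ?_).inter ?_
    · have : {F : Fin (j + 1) → ℂ | ∀ i, F i ∈ E} = ⋂ i, (fun F => F i) ⁻¹' E := by
        ext F; simp
      rw [this]
      exact isClosed_iInter fun i => hE.isClosed.preimage (continuous_apply i)
    · have : {F : Fin (j + 1) → ℂ | ∀ i, dist (F i) x = dist (F 0) x} =
          ⋂ i, {F | dist (F i) x = dist (F 0) x} := by
        ext F; simp only [mem_ofPred_eq, mem_iInter]
      rw [this]
      exact isClosed_iInter fun i => isClosed_eq (by fun_prop) (by fun_prop)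
    · have : {F : Fin (j + 1) → ℂ | ∀ i i', i ≠ i' → (1 : ℝ) / (k + 1) ≤ dist (F i) (F i')} =
          ⋂ i, ⋂ i', ⋂ (_ : i ≠ i'), {F | (1 : ℝ) / (k + 1) ≤ dist (F i) (F i')} := by
        ext F; simp only [ne_eq, one_div, mem_ofPred_eq, mem_iInter]
      rw [this]
      exact isClosed_iInter fun i => isClosed_iInter fun i' => isClosed_iInter fun _ =>
        isClosed_le continuous_const (by fun_prop)
  have hU : lev E x (j + 1) = ⋃ k, (fun F : Fin (j + 1) → ℂ => dist (F 0) x) '' C k := by
    ext s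
    constructor
    · intro hs
      have hs' : ((j + 1 : ℕ) : ℕ∞) ≤ (E ∩ sphere x s).encard := hs
      obtain ⟨t, hts, htc⟩ := exists_subset_encard_eq hs'
      have htf : t.Finite := finite_of_encard_eq_coe htc
      obtain ⟨F, hF⟩ : ∃ F : Fin (j + 1) ≃ t, True := by
        have : Nat.card t = j + 1 := by
          rw [Nat.card_coe_set_eq, ncard_def, htc]
          simp
        have hfin : Finite t := htf
        exact ⟨(Finite.equivFinOfCardEq this).symm, trivial⟩
      have hinj : Injective fun i => (F i : ℂ) := Subtype.val_injective.comp F.injective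
      -- minimal distance
      obtain ⟨k, hk⟩ : ∃ k : ℕ, ∀ i i' : Fin (j + 1), i ≠ i' →
          (1 : ℝ) / (k + 1) ≤ dist (F i : ℂ) (F i') := by
        have h1 : ∀ p : Fin (j + 1) × Fin (j + 1), ∃ k : ℕ, p.1 ≠ p.2 →
            (1 : ℝ) / (k + 1) ≤ dist (F p.1 : ℂ) (F p.2) := by
          intro p
          by_cases hp : p.1 = p.2
          · exact ⟨0, fun h => absurd hp h⟩
          · have hpos : 0 < dist (F p.1 : ℂ) (F p.2) := dist_pos.mpr fun h => hp (hinj h)
            obtain ⟨k, hk⟩ := exists_nat_one_div_lt hpos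
            exact ⟨k, fun _ => hk.le⟩
        choose kk hkk using h1
        refine ⟨Finset.univ.sup kk, fun i i' hii' => le_trans ?_ (hkk (i, i') hii')⟩
        have : kk (i, i') ≤ Finset.univ.sup kk := Finset.le_sup (Finset.mem_univ _)
        exact one_div_le_one_div_of_le (by (clear * -; positivity)) (by exact_mod_cast Nat.succ_le_succ this)
      refine mem_iUnion.mpr ⟨k, fun i => (F i : ℂ), ⟨fun i => (hts (F i).2).1, fun i => ?_, hk⟩, ?_⟩
      · rw [mem_sphere.mp (hts (F i).2).2, mem_sphere.mp (hts (F 0).2).2]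
      · exact mem_sphere.mp (hts (F 0).2).2
    · intro hs
      obtain ⟨k, F, ⟨h1, h2, h3⟩, rfl⟩ := mem_iUnion.mp hs
      have hinj : Injective F := by
        intro i i' hii'
        by_contra hne
        have := h3 i i' hne
        rw [hii', dist_self] at this
        have : (0 : ℝ) < 1 / (k + 1) := by (clear * -; positivity)
        (clear E hE x j C hC F h1 h2 h3 hs i i' hii' hne; linarith)
      have hsub : range F ⊆ E ∩ sphere x (dist (F 0) x) := by
        rintro _ ⟨i, rfl⟩
        exact ⟨h1 i, mem_sphere.mpr (h2 i)⟩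
      have hcard : (range F).encard = ((j + 1 : ℕ) : ℕ∞) := by
        rw [← image_univ, hinj.encard_image, encard_univ]
        simp only [ENat.card_eq_coe_fintype_card, Fintype.card_fin, Nat.cast_add, Nat.cast_one]
      show ((j + 1 : ℕ) : ℕ∞) ≤ _
      rw [← hcard]
      exact encard_le_encard hsub
  rw [hU]
  refine MeasurableSet.iUnion fun k => IsClosed.measurableSet (IsCompact.isClosed ?_)
  exact (hC k).image (by fun_prop)

theorem Admissible.isCompact_inter {Ω K : Set ℂ} {u : ℂ → ℝ} {G : ℂ → ℂ}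
    (h : Admissible Ω u G K) {x : ℂ} {R : ℝ} (hR : closedBall x R ⊆ Ω) :
    IsCompact (K ∩ closedBall x R) := by
  have : K ∩ closedBall x R = closure K ∩ closedBall x R := by
    ext z
    constructor
    · rintro ⟨h1, h2⟩; exact ⟨subset_closure h1, h2⟩
    · rintro ⟨h1, h2⟩; exact ⟨h.relClosed ⟨hR h2, h1⟩, h2⟩
  rw [this]
  exact (isCompact_closedBall x R).inter_left isClosed_closure

theorem lev_inter_Ioo {K : Set ℂ} {x : ℂ} {R : ℝ} (j : ℕ) :
    lev K x j ∩ Iic R = lev (K ∩ closedBall x R) x j ∩ Iic R := by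
  ext s
  simp only [mem_inter_iff, mem_Iic, and_congr_left_iff]
  intro hs
  have : K ∩ closedBall x R ∩ sphere x s = K ∩ sphere x s := by
    ext z
    simp only [mem_inter_iff, mem_closedBall, mem_sphere]
    constructor
    · rintro ⟨⟨h1, -⟩, h3⟩; exact ⟨h1, h3⟩
    · rintro ⟨h1, h3⟩; exact ⟨⟨h1, h3.le.trans hs⟩, h3⟩
  unfold lev
  simp only [mem_ofPred_eq, this]

theorem Admissible.lev_measurable {Ω K : Set ℂ} {u : ℂ → ℝ} {G : ℂ → ℂ}
    (h : Admissible Ω u G K) {x : ℂ} {R : ℝ} (hR : closedBall x R ⊆ Ω) (j : ℕ) :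
    MeasurableSet (lev K x j ∩ Iic R) := by
  rw [lev_inter_Ioo]
  rcases j with _ | j
  · have : lev (K ∩ closedBall x R) x 0 = univ := by
      ext s; simp only [lev, CharP.cast_eq_zero, zero_le, ofPred_true, mem_univ]
    rw [this, univ_inter]; exact measurableSet_Iic
  · exact (lev_measurable_compact (h.isCompact_inter hR) x j).inter measurableSet_Iic

/-- The number of points of `K` on the circle, truncated at `m`. -/
noncomputable def cnt (K : Set ℂ) (x : ℂ) (m : ℕ) (s : ℝ) : ℝ :=
  ∑ j ∈ Finset.range m, (lev K x (j + 1)).indicator (fun _ => (1 : ℝ)) s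

theorem lev_antitone (K : Set ℂ) (x : ℂ) {i j : ℕ} (h : i ≤ j) : lev K x j ⊆ lev K x i := by
  intro s hs
  have h2 : (j : ℕ∞) ≤ (K ∩ sphere x s).encard := hs
  have h1 : (i : ℕ∞) ≤ j := by exact_mod_cast h
  exact h1.trans h2

theorem cnt_nonneg (K : Set ℂ) (x : ℂ) (m : ℕ) (s : ℝ) : 0 ≤ cnt K x m s :=
  Finset.sum_nonneg fun _ _ => indicator_nonneg (fun _ _ => zero_le_one) _

theorem cnt_eq_zero {K : Set ℂ} {x : ℂ} (m : ℕ) {s : ℝ} (h : K ∩ sphere x s = ∅) :
    cnt K x m s = 0 := by
  unfold cnt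
  refine Finset.sum_eq_zero fun j _ => indicator_of_notMem ?_ _
  unfold lev
  rw [mem_ofPred_eq, h, encard_empty]
  simp only [Nat.cast_add, Nat.cast_one, nonpos_iff_eq_zero, add_eq_zero, Nat.cast_eq_zero, one_ne_zero, and_false, not_false_eq_true]

theorem le_cnt {K : Set ℂ} {x : ℂ} {m i : ℕ} (him : i ≤ m) {s : ℝ} (h : s ∈ lev K x i) :
    (i : ℝ) ≤ cnt K x m s := by
  unfold cnt
  calc (i : ℝ) = ∑ j ∈ Finset.range i, (1 : ℝ) := by simp only [Finset.sum_const, Finset.card_range, nsmul_eq_mul, mul_one]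
    _ = ∑ j ∈ Finset.range i, (lev K x (j + 1)).indicator (fun _ => (1 : ℝ)) s := by
        refine Finset.sum_congr rfl fun j hj => ?_
        rw [indicator_of_mem]
        exact lev_antitone K x (Finset.mem_range.mp hj) h
    _ ≤ ∑ j ∈ Finset.range m, (lev K x (j + 1)).indicator (fun _ => (1 : ℝ)) s := by
        refine Finset.sum_le_sum_of_subset_of_nonneg (Finset.range_mono him) fun _ _ _ => ?_
        exact indicator_nonneg (fun _ _ => zero_le_one) _

/-- Eilenberg's inequality, summed over levels. -/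
theorem sum_lev_le {Ω K : Set ℂ} {u : ℂ → ℝ} {G : ℂ → ℂ} (hΩ : IsOpen Ω)
    (h : Admissible Ω u G K) {x : ℂ} {R : ℝ} (hR : closedBall x R ⊆ Ω) (m : ℕ) :
    ∀ I : Set ℝ, MeasurableSet I → I ⊆ Iic R →
      ∑ j ∈ Finset.range m, volume (lev K x (j + 1) ∩ I) ≤ μH[1] (K ∩ {z | dist z x ∈ I}) := by
  have hK := h.measurableSet hΩ
  induction m with
  | zero => intro I _ _; simp only [Finset.range_zero, Finset.sum_empty, zero_le]
  | succ m ih =>
    intro I hI hIR
    set A := I ∩ lev K x (m + 1) with hA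
    set B := I \ lev K x (m + 1) with hB
    have hlm : MeasurableSet (lev K x (m + 1) ∩ Iic R) := h.lev_measurable hR (m + 1)
    have hAm : MeasurableSet A := by
      have : A = I ∩ (lev K x (m + 1) ∩ Iic R) := by
        rw [hA]; ext s; simp only [mem_inter_iff, mem_Iic]
        constructor
        · rintro ⟨h1, h2⟩; exact ⟨h1, h2, hIR h1⟩
        · rintro ⟨h1, h2, -⟩; exact ⟨h1, h2⟩
      rw [this]; exact hI.inter hlm
    have hBm : MeasurableSet B := by
      have : B = I \ A := by
        rw [hA, hB]; ext s; simp only [Set.mem_sdiff, mem_inter_iff]; (clear * -; tauto)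
      rw [this]; exact hI.diff hAm
    have hAB : Disjoint A B := by
      rw [Set.disjoint_left]; rintro s ⟨_, h1⟩ ⟨_, h2⟩; exact h2 h1
    have hIU : I = A ∪ B := by
      ext s; simp only [hA, hB, mem_union, mem_inter_iff, Set.mem_sdiff]; (clear * -; tauto)
    have hpre : ∀ S : Set ℝ, MeasurableSet S → MeasurableSet {z : ℂ | dist z x ∈ S} := fun S hS =>
      (measurable_id.dist measurable_const) hS
    -- right-hand side is additive
    have hR2 : μH[1] (K ∩ {z | dist z x ∈ I}) =
        μH[1] (K ∩ {z | dist z x ∈ A}) + μH[1] (K ∩ {z | dist z x ∈ B}) := by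
      have : K ∩ {z | dist z x ∈ I} = (K ∩ {z | dist z x ∈ A}) ∪ (K ∩ {z | dist z x ∈ B}) := by
        rw [hIU]; ext z; simp only [mem_inter_iff, mem_ofPred_eq, mem_union]; (clear * -; tauto)
      rw [this, measure_union _ (hK.inter (hpre B hBm))]
      rw [Set.disjoint_left]
      rintro z ⟨_, h1⟩ ⟨_, h2⟩
      exact Set.disjoint_left.mp hAB h1 h2
    have hEil : ((m + 1 : ℕ) : ℝ≥0∞) * volume A ≤ μH[1] (K ∩ {z | dist z x ∈ A}) := by
      have := eilenberg (X := ℂ) (f := fun z => dist z x)
        (LipschitzWith.dist_left x) (E := K) (m := m + 1) (S := A) (by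
          intro s hs
          exact hs.2)
      exact this
    have hsplit : ∀ j ∈ Finset.range (m + 1), volume (lev K x (j + 1) ∩ I) =
        volume A + volume (lev K x (j + 1) ∩ B) := by
      intro j hj
      have hsub : A ⊆ lev K x (j + 1) := fun s hs =>
        lev_antitone K x (Finset.mem_range.mp hj) hs.2
      have : lev K x (j + 1) ∩ I = A ∪ (lev K x (j + 1) ∩ B) := by
        rw [hIU]; ext s; simp only [mem_inter_iff, mem_union]
        constructor
        · rintro ⟨h1, h2 | h2⟩
          · left; exact h2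
          · right; exact ⟨h1, h2⟩
        · rintro (h1 | ⟨h1, h2⟩)
          · exact ⟨hsub h1, Or.inl h1⟩
          · exact ⟨h1, Or.inr h2⟩
      rw [this, measure_union' (hAB.mono_right inter_subset_right) hAm]
    rw [Finset.sum_congr rfl hsplit, Finset.sum_add_distrib, hR2]
    refine add_le_add ?_ ?_
    · simpa only [Finset.sum_const, Finset.card_range, nsmul_eq_mul, Nat.cast_add, Nat.cast_one] using hEil
    · rw [Finset.sum_range_succ]
      have h0 : lev K x (m + 1) ∩ B = ∅ := by
        ext s; simp only [hB, mem_inter_iff, Set.mem_sdiff, mem_empty_iff_false, iff_false]; (clear * -; tauto)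
      rw [h0, measure_empty, add_zero]
      exact ih B hBm (sdiff_subset.trans hIR)

end Vale.Agent.P128
end

section

/-! unit vectors -/

open MeasureTheory Set Metric Filter
open scoped ENNReal NNReal Topology

namespace Vale.Agent.P128.GM

open Vale.Agent.P128

variable {K : Set ℂ}

/-- The unit vector in the direction of `p + q`. -/
lemma netVec_dir {s : ℝ} (hs : 0 < s) {p q : ℂ} {c : ℝ} (hc : 0 < c)
    (h : c ^ 2 ≤ ‖p + q‖ ^ 2) :
    ∃ e : ℂ, ‖e‖ = 1 ∧ inner ℝ p e / s + inner ℝ q e / s = ‖p + q‖ / s ∧ c ≤ ‖p + q‖ := by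
  have hn : 0 ≤ ‖p + q‖ := norm_nonneg _
  have h1 : c ≤ ‖p + q‖ := by (by_contra nlg; linarith only [nlg, mul_nonneg (le_of_lt (sub_pos.2 (not_le.1 nlg))) (sub_nonneg.2 hn), mul_pos (sub_pos.2 (not_le.1 nlg)) (sub_pos.2 hc), h])
  have h0 : 0 < ‖p + q‖ := hc.trans_le h1
  refine ⟨(‖p + q‖⁻¹ : ℝ) • (p + q), ?_, ?_, h1⟩
  · rw [norm_smul, norm_inv, norm_norm, inv_mul_cancel₀ h0.ne']
  · rw [← add_div, ← inner_add_left, real_inner_smul_right, real_inner_self_eq_norm_sq]
    field_simp

theorem exists_dir_of_four {s : ℝ} (hs : 0 < s) {F : Finset ℂ} (hF : ∀ q ∈ F, ‖q‖ = s)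
    (h4 : 4 ≤ F.card) : ∃ e : ℂ, ‖e‖ = 1 ∧ √2 ≤ ∑ q ∈ F, max (inner ℝ q e / s) 0 := by
  -- two vectors with nonnegative inner product
  have hpair : ∃ p ∈ F, ∃ q ∈ F, p ≠ q ∧ 0 ≤ (inner ℝ p q : ℝ) := by
    by_contra hcon
    push Not at hcon
    obtain ⟨d, hd⟩ : F.Nonempty := Finset.card_pos.1 (by omega)
    have hcard : 2 < (F.erase d).card := by
      rw [Finset.card_erase_of_mem hd]; omega
    obtain ⟨a, ha, b, hb, c, hc, hab, hac, hbc⟩ := Finset.two_lt_card.1 hcard
    rw [Finset.mem_erase] at ha hb hc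
    have ida := hcon d hd a ha.2 ha.1.symm
    have idb := hcon d hd b hb.2 hb.1.symm
    have idc := hcon d hd c hc.2 hc.1.symm
    have iab := hcon a ha.2 b hb.2 hab
    have iac := hcon a ha.2 c hc.2 hac
    have ibc := hcon b hb.2 c hc.2 hbc
    have hdn : ‖d‖ ^ 2 = d.re * d.re + d.im * d.im := by
      rw [← Complex.normSq_eq_norm_sq, Complex.normSq_apply]
    have hds : 0 < d.re * d.re + d.im * d.im := by
      rw [← hdn, hF d hd]; positivity
    simp only [Complex.inner, Complex.mul_re, Complex.conj_re, Complex.conj_im]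
      at ida idb idc iab iac ibc
    -- coordinates in the frame `d`, `I d`
    set a1 := d.re * a.re + d.im * a.im with ha1
    set b1 := d.re * b.re + d.im * b.im with hb1
    set c1 := d.re * c.re + d.im * c.im with hc1
    set a2 := d.re * a.im - d.im * a.re with ha2
    set b2 := d.re * b.im - d.im * b.re with hb2
    set c2 := d.re * c.im - d.im * c.re with hc2
    have e1 : a1 < 0 := by simp only [ha1]; linarith
    have e2 : b1 < 0 := by simp only [hb1]; linarith
    have e3 : c1 < 0 := by simp only [hc1]; linarith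
    have f1 : a1 * b1 + a2 * b2 = (d.re * d.re + d.im * d.im) * (a.re * b.re + a.im * b.im) := by
      simp only [ha1, hb1, ha2, hb2]; ring
    have f2 : a1 * c1 + a2 * c2 = (d.re * d.re + d.im * d.im) * (a.re * c.re + a.im * c.im) := by
      simp only [ha1, hc1, ha2, hc2]; ring
    have f3 : b1 * c1 + b2 * c2 = (d.re * d.re + d.im * d.im) * (b.re * c.re + b.im * c.im) := by
      simp only [hb1, hc1, hb2, hc2]; ring
    have g1 : a2 * b2 < 0 := by
      have := mul_pos_of_neg_of_neg e1 e2
      have := mul_neg_of_pos_of_neg hds (show a.re * b.re + a.im * b.im < 0 by linarith)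
      linarith
    have g2 : a2 * c2 < 0 := by
      have := mul_pos_of_neg_of_neg e1 e3
      have := mul_neg_of_pos_of_neg hds (show a.re * c.re + a.im * c.im < 0 by linarith)
      linarith
    have g3 : b2 * c2 < 0 := by
      have := mul_pos_of_neg_of_neg e2 e3
      have := mul_neg_of_pos_of_neg hds (show b.re * c.re + b.im * c.im < 0 by linarith)
      linarith
    have := mul_neg_of_pos_of_neg (mul_pos_of_neg_of_neg g1 g2) g3
    have e4 : a2 * b2 * (a2 * c2) * (b2 * c2) = (a2 * b2 * c2) ^ 2 := by ring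
    rw [e4] at this
    exact absurd (sq_nonneg (a2 * b2 * c2)) (not_le.2 this)
  obtain ⟨p, hp, q, hq, hpq, hin⟩ := hpair
  have hnorm : (√2 * s) ^ 2 ≤ ‖p + q‖ ^ 2 := by
    rw [norm_add_sq_real, hF p hp, hF q hq, mul_pow, Real.sq_sqrt (by norm_num)]
    linarith
  obtain ⟨e, he, h1, h2⟩ := netVec_dir hs (by positivity) hnorm
  refine ⟨e, he, ?_⟩
  classical
  calc √2 ≤ ‖p + q‖ / s := by rw [le_div_iff₀ hs]; exact h2
    _ = inner ℝ p e / s + inner ℝ q e / s := h1.symm
    _ ≤ max (inner ℝ p e / s) 0 + max (inner ℝ q e / s) 0 :=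
        add_le_add (le_max_left _ _) (le_max_left _ _)
    _ = ∑ x ∈ {p, q}, max (inner ℝ x e / s) 0 := by rw [Finset.sum_pair hpq]
    _ ≤ ∑ x ∈ F, max (inner ℝ x e / s) 0 := by
        apply Finset.sum_le_sum_of_subset_of_nonneg
        · intro x hx
          rw [Finset.mem_insert, Finset.mem_singleton] at hx
          rcases hx with rfl | rfl
          · exact hp
          · exact hq
        · intro x _ _
          exact le_max_right _ _

theorem exists_dir_of_angle {s : ℝ} (hs : 0 < s) {p q : ℂ} (hp : ‖p‖ = s) (hq : ‖q‖ = s)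
    (h : -(s ^ 2 / 2) < inner ℝ p q) :
    ∃ e : ℂ, ‖e‖ = 1 ∧ 1 < inner ℝ p e / s + inner ℝ q e / s := by
  have h1 : s ^ 2 < ‖p + q‖ ^ 2 := by
    rw [norm_add_sq_real, hp, hq]
    linarith
  obtain ⟨e, he, h2, h3⟩ := netVec_dir hs hs h1.le
  refine ⟨e, he, ?_⟩
  rw [h2, lt_div_iff₀ hs, one_mul]
  (by_contra nlg; linarith only [nlg, mul_nonneg (sub_nonneg.2 h3) (sub_nonneg.2 h3), mul_nonneg (sub_nonneg.2 (not_lt.1 nlg)) (sub_nonneg.2 (norm_nonneg (p + q))), h1])

theorem add_eq_zero_of_inner {s : ℝ} {a b c : ℂ} (ha : ‖a‖ = s) (hb : ‖b‖ = s)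
    (hc : ‖c‖ = s) (hab : inner ℝ a b ≤ -(s ^ 2 / 2)) (hbc : inner ℝ b c ≤ -(s ^ 2 / 2))
    (hca : inner ℝ c a ≤ -(s ^ 2 / 2)) : a + b + c = 0 := by
  have h1 : ‖a + b + c‖ ^ 2 ≤ 0 := by
    rw [norm_add_sq_real, norm_add_sq_real, ha, hb, hc, inner_add_left]
    have := real_inner_comm c a
    linarith only [this, hca, hbc, hab]
  have h2 : ‖a + b + c‖ = 0 := by
    have := norm_nonneg (a + b + c)
    nlinarith
  exact norm_eq_zero.1 h2

end Vale.Agent.P128.GM
end

section

open Set Metric

namespace Vale.Agent.P128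

/-- In the disk of radius `s` about `x`, the set `K` and the segment of length `s` from `x` in the
direction `w` are each within `ε s` of the other. -/
def NearRay (K : Set ℂ) (x : ℂ) (s ε : ℝ) : Prop :=
  ∃ w : ℂ, ‖w‖ = 1 ∧ (∀ y ∈ K ∩ closedBall x s, ∃ ρ ∈ Icc 0 s, dist y (x + ρ • w) ≤ ε * s) ∧
    ∀ ρ ∈ Icc 0 s, ∃ y ∈ K, dist y (x + ρ • w) ≤ ε * s

end Vale.Agent.P128
end

section

/-! P128, Q1, Part III: TyRay -/

open MeasureTheory Set Metric Filter InnerProductSpace
open scoped ENNReal NNReal ContDiff Topology Real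

namespace Vale.Agent.P128.Q1

open Vale.Agent.P128

variable {Ω : Set ℂ} {g u : ℂ → ℝ} {G : ℂ → ℂ} {K : Set ℂ} {M : ℝ} {x₀ : ℂ} {R₀ : ℝ}

theorem tyRay_shift {x y z w : ℂ} {σ τ t ρ : ℝ} (ht : t = σ - τ)
    (hy : dist y (x + τ • w) ≤ 1 / 10000 * (2 * ρ))
    (hz : dist z (x + σ • w) ≤ 1 / 10000 * (2 * ρ)) (hρ : 0 ≤ ρ) :
    dist z (y + t * w) ≤ ρ / 1000 := by
  have h1 : dist (x + σ • w) (y + t * w) = dist y (x + τ • w) := by
    rw [dist_eq_norm, dist_eq_norm, ← norm_neg]
    congr 1
    subst ht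
    simp only [Complex.real_smul]
    push_cast
    ring
  have h2 := dist_triangle z (x + σ • w) (y + t * w)
  rw [h1] at h2
  linarith only [h2, hρ, hz, hy]

theorem away_of_ray {x : ℂ} {r₁ : ℝ} (hr₁ : 0 < r₁)
    (h : ∀ r, 0 < r → r ≤ r₁ → NearRay K x r (1 / 10000)) :
    ∃ r₂ > 0, ∀ y ∈ K ∩ closedBall x r₂, y ≠ x → ∃ e : ℂ, ‖e‖ = 1 ∧
      (∀ z ∈ K ∩ closedBall y (dist y x / 2), ∃ t : ℝ, dist z (y + t * e) ≤ dist y x / 1000) ∧
      ∀ t : ℝ, |t| ≤ dist y x / 2 → ∃ z ∈ K, dist z (y + t * e) ≤ dist y x / 1000 := by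
  refine ⟨r₁ / 2, by positivity, ?_⟩
  rintro y ⟨hyK, hyb⟩ hne
  have hρ : 0 < dist y x := dist_pos.2 hne
  rw [mem_closedBall] at hyb
  obtain ⟨w, hw, h1, h2⟩ := h (2 * dist y x) (by positivity) (by linarith)
  obtain ⟨τ, ⟨hτ0, hτ1⟩, hτ⟩ := h1 y ⟨hyK, by rw [mem_closedBall]; linarith⟩
  refine ⟨w, hw, ?_, ?_⟩
  · rintro z ⟨hzK, hzb⟩
    rw [mem_closedBall] at hzb
    obtain ⟨σ, -, hσ⟩ := h1 z ⟨hzK, by
      rw [mem_closedBall]
      have := dist_triangle z y x
      linarith⟩
    exact ⟨σ - τ, tyRay_shift rfl hτ hσ hρ.le⟩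
  · intro t ht
    have h3 : dist (x + τ • w) x = τ := by
      rw [dist_eq_norm, add_sub_cancel_left, norm_smul, hw, mul_one, Real.norm_eq_abs,
        abs_of_nonneg hτ0]
    have h4 := dist_triangle y (x + τ • w) x
    have h5 := dist_triangle (x + τ • w) y x
    rw [dist_comm (x + τ • w) y] at h5
    rw [h3] at h4 h5
    have ht' := abs_le.1 ht
    obtain ⟨z, hzK, hz⟩ := h2 (τ + t) ⟨by linarith only [ht'.1, h4, hτ, hρ], by linarith [ht'.2]⟩
    exact ⟨z, hzK, tyRay_shift (by ring) hτ hz hρ.le⟩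

end Vale.Agent.P128.Q1
end
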