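import Vale.Agent.P128.MathlibUsed

set_option linter.all false

section

open MeasureTheory Set Metric Filter
open scoped ENNReal NNReal Topology

namespace Vale.Agent.P128

/-- The length of a circle is at most `2 π s`. -/
theorem hausdorff_sphere_le (x : ℂ) {s : ℝ} (hs : 0 ≤ s) :
    μH[1] (sphere x s) ≤ ENNReal.ofReal (2 * Real.pi * s) := by
  have h1 : circleMap x s '' Ioc 0 (2 * Real.pi) = sphere x s := by
    rw [image_circleMap_Ioc, abs_of_nonneg hs]
  have h2 := (lipschitzWith_circleMap x s).hausdorffMeasure_image_le (d := 1) zero_le_one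
    (Ioc 0 (2 * Real.pi))
  rw [h1, hausdorffMeasure_real, Real.volume_Ioc, ENNReal.rpow_one] at h2
  refine h2.trans (le_of_eq ?_)
  rw [sub_zero, mul_comm (2 * Real.pi) s, ENNReal.ofReal_mul hs]
  congr 1
  rw [Real.nnabs_of_nonneg hs]
  rfl

end Vale.Agent.P128
end

section

open MeasureTheory Set Filter
open scoped Topology

namespace Vale.Agent.P128

/-- A function whose increments dominate the integral of `p` has derivative at least `p`. -/
theorem ae_le_deriv {f p : ℝ → ℝ} {a b : ℝ} (hab : a < b)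
    (hp : IntervalIntegrable p volume a b)
    (hfp : ∀ s t, a ≤ s → s ≤ t → t ≤ b → ∫ r in s..t, p r ≤ f t - f s) :
    ∀ᵐ s, s ∈ Ioo a b → DifferentiableAt ℝ f s ∧ p s ≤ deriv f s := by
  have hsub : ∀ s t, a ≤ s → s ≤ t → t ≤ b → IntervalIntegrable p volume s t := by
    intro s t hs hst ht
    refine hp.mono_set ?_
    rw [uIcc_of_le hst, uIcc_of_le hab.le]
    exact Icc_subset_Icc hs ht
  have hD : MonotoneOn (fun s => f s - ∫ r in a..s, p r) (Icc a b) := by
    intro s hs t ht hst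
    have h1 := hfp s t hs.1 hst ht.2
    have h2 : (∫ r in a..s, p r) + ∫ r in s..t, p r = ∫ r in a..t, p r :=
      intervalIntegral.integral_add_adjacent_intervals (hsub a s le_rfl hs.1 hs.2)
        (hsub s t hs.1 hst ht.2)
    show f s - ∫ r in a..s, p r ≤ f t - ∫ r in a..t, p r
    linarith only [h1, h2]
  filter_upwards [hD.ae_differentiableWithinAt_of_mem, hp.ae_hasDerivAt_integral] with s h1 h2 hs
  have hsI : s ∈ Icc a b := Ioo_subset_Icc_self hs
  have hnhds : Icc a b ∈ 𝓝 s := Icc_mem_nhds hs.1 hs.2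
  have d1 : DifferentiableAt ℝ (fun s => f s - ∫ r in a..s, p r) s :=
    (h1 hsI).differentiableAt hnhds
  have d2 : HasDerivAt (fun s => ∫ r in a..s, p r) (p s) s :=
    h2 (by rwa [uIcc_of_le hab.le]) a left_mem_uIcc
  have h3 : 0 ≤ deriv (fun s => f s - ∫ r in a..s, p r) s := by
    rw [← derivWithin_of_mem_nhds hnhds]
    exact hD.derivWithin_nonneg
  have d3 : HasDerivAt f (deriv (fun s => f s - ∫ r in a..s, p r) s + p s) s := by
    have := d1.hasDerivAt.add d2
    refine this.congr_of_eventuallyEq (Eventually.of_forall fun y => ?_)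
    simp
  refine ⟨d3.differentiableAt, ?_⟩
  rw [d3.deriv]
  linarith only [h3]

/-- Integral of a lower bound for the derivative of a monotone function. -/
theorem integral_le_of_le_deriv {F γ : ℝ → ℝ} {a b : ℝ} (hab : a < b)
    (hF : MonotoneOn F (Icc a b)) (hγ : IntervalIntegrable γ volume a b)
    (h : ∀ᵐ s, s ∈ Ioo a b → γ s ≤ deriv F s) :
    ∫ s in a..b, γ s ≤ F b - F a := by
  have h1 : MonotoneOn F (uIcc a b) := by rwa [uIcc_of_le hab.le]
  have h2 := h1.intervalIntegral_deriv_mem_uIcc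
  have h3 : 0 ≤ F b - F a := sub_nonneg.mpr
    (hF (left_mem_Icc.mpr hab.le) (right_mem_Icc.mpr hab.le) hab.le)
  rw [uIcc_of_le h3] at h2
  refine le_trans ?_ h2.2
  refine intervalIntegral.integral_mono_ae_restrict hab.le hγ h1.intervalIntegrable_deriv ?_
  rw [Filter.EventuallyLE, ← restrict_Ioo_eq_restrict_Icc, ae_restrict_iff' measurableSet_Ioo]
  exact h

/-- Logarithmic growth. -/
theorem log_growth {V q γ : ℝ → ℝ} {a b : ℝ} (hab : a < b)
    (hV : ∀ s ∈ Icc a b, 0 < V s)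
    (hq : IntervalIntegrable q volume a b) (hq0 : ∀ s ∈ Icc a b, 0 ≤ q s)
    (hVq : ∀ s t, a ≤ s → s ≤ t → t ≤ b → ∫ r in s..t, q r ≤ V t - V s)
    (hγ : IntervalIntegrable γ volume a b)
    (h : ∀ᵐ s, s ∈ Ioo a b → γ s ≤ q s / V s) :
    ∫ s in a..b, γ s ≤ Real.log (V b) - Real.log (V a) := by
  have hmono : ∀ s t, a ≤ s → s ≤ t → t ≤ b → V s ≤ V t := by
    intro s t hs hst ht
    have h1 := hVq s t hs hst ht
    have h2 : 0 ≤ ∫ r in s..t, q r := intervalIntegral.integral_nonneg hst fun r hr =>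
      hq0 r ⟨hs.trans hr.1, hr.2.trans ht⟩
    linarith only [h1, h2]
  have hF : MonotoneOn (fun s => Real.log (V s)) (Icc a b) := by
    intro s hs t ht hst
    exact Real.log_le_log (hV s hs) (hmono s t hs.1 hst ht.2)
  refine integral_le_of_le_deriv (F := fun s => Real.log (V s)) hab hF hγ ?_
  filter_upwards [ae_le_deriv hab hq hVq, h] with s h1 h2 hs
  obtain ⟨h3, h4⟩ := h1 hs
  have hVs : 0 < V s := hV s (Ioo_subset_Icc_self hs)
  rw [(h3.hasDerivAt.log hVs.ne').deriv]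
  refine (h2 hs).trans ?_
  (clear * - h4 hVs; gcongr)

/-- Growth of `f(s)/s`. -/
theorem ratio_growth {f p γ : ℝ → ℝ} {a b Λ : ℝ} (ha : 0 < a) (hab : a < b)
    (hf0 : ∀ s ∈ Icc a b, 0 ≤ f s) (hfΛ : ∀ s ∈ Icc a b, f s ≤ Λ * s)
    (hp : IntervalIntegrable p volume a b) (hp0 : ∀ s ∈ Icc a b, 0 ≤ p s)
    (hfp : ∀ s t, a ≤ s → s ≤ t → t ≤ b → ∫ r in s..t, p r ≤ f t - f s)
    (hγ : IntervalIntegrable γ volume a b)
    (h : ∀ᵐ s, s ∈ Ioo a b → f s / s ≤ p s - γ s) :
    ∫ s in a..b, γ s / s ≤ f b / b - f a / a := by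
  have hmono : ∀ s t, a ≤ s → s ≤ t → t ≤ b → f s ≤ f t := by
    intro s t hs hst ht
    have h1 := hfp s t hs hst ht
    have h2 : 0 ≤ ∫ r in s..t, p r := intervalIntegral.integral_nonneg hst fun r hr =>
      hp0 r ⟨hs.trans hr.1, hr.2.trans ht⟩
    linarith only [h1, h2]
  have hb : 0 < b := ha.trans hab
  have hF : MonotoneOn (fun s => f s / s + Λ * Real.log s) (Icc a b) := by
    intro s hs t ht hst
    have hs0 : 0 < s := lt_of_lt_of_le ha hs.1
    have ht0 : 0 < t := lt_of_lt_of_le ha ht.1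
    have h1 : f s ≤ f t := hmono s t hs.1 hst ht.2
    have h2 : Real.log (s / t) ≤ s / t - 1 := Real.log_le_sub_one_of_pos (by (clear * - hs0 ht0; positivity))
    rw [Real.log_div hs0.ne' ht0.ne'] at h2
    have h3 : 0 ≤ f s := hf0 s hs
    have h4 : f s / s ≤ Λ := by rw [div_le_iff₀ hs0]; exact hfΛ s hs
    have h5 : f s / t ≤ f t / t := by (clear * - h1 ht0; gcongr)
    have h6 : f s / s - f s / t = (f s / s) * (1 - s / t) := by (clear * - ht0 hs0; field_simp)
    have h7 : 0 ≤ 1 - s / t := by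
      rw [sub_nonneg, div_le_one ht0]; exact hst
    have h8 : (f s / s) * (1 - s / t) ≤ Λ * (1 - s / t) := by (clear * - h4 h7; gcongr)
    have h9 : Λ * (Real.log s - Real.log t) ≤ Λ * (s / t - 1) := by
      have : 0 ≤ Λ := le_trans (by (clear * - h3 hs0; positivity)) h4
      (clear * - h2 this; gcongr)
    show f s / s + Λ * Real.log s ≤ f t / t + Λ * Real.log t
    linarith
  have hcont : ContinuousOn (fun s : ℝ => s⁻¹) (uIcc a b) := by
    rw [uIcc_of_le hab.le]
    exact continuousOn_inv₀.mono fun s hs => (lt_of_lt_of_le ha hs.1).ne'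
  have hint1 : IntervalIntegrable (fun s => γ s / s) volume a b := by
    simp only [div_eq_mul_inv]
    exact hγ.mul_continuousOn hcont
  have hint2 : IntervalIntegrable (fun s : ℝ => Λ * s⁻¹) volume a b :=
    (hcont.intervalIntegrable).const_mul Λ
  have key := integral_le_of_le_deriv (γ := fun s => γ s / s + Λ * s⁻¹) hab hF
    (hint1.add hint2) (by
      filter_upwards [ae_le_deriv hab hp hfp, h] with s h1 h2 hs
      obtain ⟨h3, h4⟩ := h1 hs
      have hs0 : 0 < s := ha.trans hs.1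
      have hd : HasDerivAt (fun s => f s / s + Λ * Real.log s)
          ((deriv f s * s - f s * 1) / s ^ 2 + Λ * s⁻¹) s :=
        (h3.hasDerivAt.div (hasDerivAt_id s) hs0.ne').add
          ((Real.hasDerivAt_log hs0.ne').const_mul Λ)
      rw [hd.deriv]
      have h5 := h2 hs
      have h6 : γ s / s ≤ (deriv f s * s - f s * 1) / s ^ 2 := by
        rw [div_le_div_iff₀ hs0 (by (clear * - hs0; positivity))]
        rw [div_le_iff₀ hs0] at h5
        have h7 : γ s * s ≤ deriv f s * s - f s := by linarith only [mul_nonneg (sub_nonneg.2 h4) (le_of_lt (sub_pos.2 hs0)), h5]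
        linarith only [mul_nonneg (le_of_lt (sub_pos.2 hs0)) (sub_nonneg.2 h5), mul_nonneg (sq_nonneg (s : ℝ)) (sub_nonneg.2 h4)]
      linarith only [h6])
  rw [intervalIntegral.integral_add hint1 hint2, intervalIntegral.integral_const_mul,
    integral_inv_of_pos ha hb, Real.log_div hb.ne' ha.ne'] at key
  show ∫ s in a..b, γ s / s ≤ f b / b - f a / a
  have : (fun s => f s / s + Λ * Real.log s) b - (fun s => f s / s + Λ * Real.log s) a =
    f b / b - f a / a + Λ * (Real.log b - Real.log a) := by simp only; ring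
  linarith only [key]

/-- Once the ratio `f(s)/s + C s` is below one it stays so at smaller scales. -/
theorem ratio_mono {f p : ℝ → ℝ} {R C : ℝ} (hC : 0 ≤ C)
    (hf0 : ∀ s, 0 < s → s ≤ R → 0 ≤ f s)
    (hp : ∀ a, 0 < a → a ≤ R → IntervalIntegrable p volume a R) (hp0 : ∀ s, 0 < s → 0 ≤ p s)
    (hfp : ∀ s t, 0 < s → s ≤ t → t ≤ R → ∫ r in s..t, p r ≤ f t - f s)
    (h : ∀ᵐ s, s ∈ Ioo 0 R → 1 ≤ p s ∨ f s / s ≤ p s + C * s)
    {s₀ : ℝ} (hs₀R : s₀ ≤ R) (h1 : f s₀ / s₀ + C * s₀ < 1) :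
    ∀ s, 0 < s → s ≤ s₀ → f s / s + C * s ≤ f s₀ / s₀ + C * s₀ := by
  have hmono : ∀ s t, 0 < s → s ≤ t → t ≤ R → f s ≤ f t := by
    intro s t hs hst ht
    have h1 := hfp s t hs hst ht
    have h2 : 0 ≤ ∫ r in s..t, p r := intervalIntegral.integral_nonneg hst fun r hr =>
      hp0 r (lt_of_lt_of_le hs hr.1)
    linarith only [h1, h2]
  have hsub : ∀ a b, 0 < a → a ≤ b → b ≤ R → IntervalIntegrable p volume a b := by
    intro a b ha hab hb
    refine (hp a ha (hab.trans hb)).mono_set ?_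
    rw [uIcc_of_le hab, uIcc_of_le (hab.trans hb)]
    exact Icc_subset_Icc le_rfl hb
  -- monotonicity on intervals where `f ≤ s`
  have claimA : ∀ a b, 0 < a → a < b → b ≤ R → (∀ s ∈ Icc a b, f s ≤ s) →
      f a / a + C * a ≤ f b / b + C * b := by
    intro a b ha hab hb hle
    have := ratio_growth (f := f) (p := p) (γ := fun s => -(C * s)) (Λ := 1) ha hab
      (fun s hs => hf0 s (lt_of_lt_of_le ha hs.1) (hs.2.trans hb))
      (fun s hs => by rw [one_mul]; exact hle s hs) (hsub a b ha hab.le hb)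
      (fun s hs => hp0 s (lt_of_lt_of_le ha hs.1))
      (fun s t hs hst ht => hfp s t (lt_of_lt_of_le ha hs) hst (ht.trans hb))
      (Continuous.intervalIntegrable (by fun_prop) _ _) (by
        filter_upwards [h] with s h2 hs
        have hs0 : 0 < s := ha.trans hs.1
        rcases h2 ⟨hs0, hs.2.trans_le hb⟩ with h3 | h3
        · have h4 : f s / s ≤ 1 := by
            rw [div_le_one hs0]; exact hle s (Ioo_subset_Icc_self hs)
          have : 0 ≤ C * s := by (clear * - hC hs0; positivity)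
          linarith only [h3, h4, this]
        · linarith only [h3])
    have e : ∫ s in a..b, -(C * s) / s = -(C * (b - a)) := by
      have : ∫ s in a..b, -(C * s) / s = ∫ s in a..b, -C := by
        refine intervalIntegral.integral_congr fun s hs => ?_
        rw [uIcc_of_le hab.le] at hs
        have hs0 : s ≠ 0 := (lt_of_lt_of_le ha hs.1).ne'
        (clear * - hs0; field_simp)
      rw [this, intervalIntegral.integral_const, smul_eq_mul]
      ring
    rw [e] at this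
    linarith only [this]
  by_contra hcon
  push Not at hcon
  obtain ⟨t₀, ht₀, ht₀s, ht₀ψ⟩ := hcon
  set T : Set ℝ := {s | 0 < s ∧ s ≤ s₀ ∧ f s₀ / s₀ + C * s₀ < f s / s + C * s} with hT
  have hTne : T.Nonempty := ⟨t₀, ht₀, ht₀s, ht₀ψ⟩
  have hTb : BddAbove T := ⟨s₀, fun s hs => hs.2.1⟩
  set s₁ := sSup T with hs₁
  have hs₁pos : 0 < s₁ := lt_of_lt_of_le ht₀ (le_csSup hTb ⟨ht₀, ht₀s, ht₀ψ⟩)
  have hs₁le : s₁ ≤ s₀ := csSup_le hTne fun s hs => hs.2.1
  -- the inequality at `s₁`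
  have hat : f s₁ / s₁ + C * s₁ ≤ f s₀ / s₀ + C * s₀ := by
    rcases hs₁le.eq_or_lt with heq | hlt
    · rw [heq]
    · have hup : ∀ t, s₁ < t → t ≤ s₀ → f t / t + C * t ≤ f s₀ / s₀ + C * s₀ := by
        intro t ht ht'
        by_contra hc
        push Not at hc
        have : t ∈ T := ⟨hs₁pos.trans ht, ht', hc⟩
        exact absurd (le_csSup hTb this) (not_le.mpr ht)
      have hlim : ∀ᶠ t in 𝓝[>] s₁, f s₁ ≤ t * (f s₀ / s₀ + C * s₀ - C * t) := by
        filter_upwards [self_mem_nhdsWithin, mem_nhdsWithin_of_mem_nhds (Iio_mem_nhds hlt)]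
          with t ht ht'
        have ht0 : 0 < t := hs₁pos.trans ht
        have h2 := hup t ht (le_of_lt ht')
        have h3 : f t / t ≤ f s₀ / s₀ + C * s₀ - C * t := by linarith only [h2]
        rw [div_le_iff₀ ht0] at h3
        have h4 : f s₁ ≤ f t := hmono s₁ t hs₁pos (le_of_lt ht) ((le_of_lt ht').trans hs₀R)
        linarith only [h3, h4]
      have hten : Tendsto (fun t => t * (f s₀ / s₀ + C * s₀ - C * t)) (𝓝[>] s₁)
          (𝓝 (s₁ * (f s₀ / s₀ + C * s₀ - C * s₁))) := by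
        have : Continuous fun t => t * (f s₀ / s₀ + C * s₀ - C * t) := by fun_prop
        exact (this.tendsto s₁).mono_left nhdsWithin_le_nhds
      have h5 := ge_of_tendsto hten hlim
      have h6 : f s₁ / s₁ ≤ f s₀ / s₀ + C * s₀ - C * s₁ := by
        rw [div_le_iff₀ hs₁pos]; linarith only [h5]
      linarith only [h6]
  have hr : f s₁ / s₁ < 1 := by
    have : 0 ≤ C * s₁ := by (clear * - hC hs₁pos; positivity)
    linarith only [h1, hat, this]
  have hq : max (f s₁ / s₁) (1 / 2) * s₁ < s₁ := by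
    have : max (f s₁ / s₁) (1 / 2) < 1 := max_lt hr (by norm_num)
    nlinarith only [hs₁pos, this]
  obtain ⟨t, htT, htlt⟩ := exists_lt_of_lt_csSup hTne hq
  have htle : t ≤ s₁ := le_csSup hTb htT
  have hne : t ≠ s₁ := by
    intro he
    rw [he] at htT
    exact absurd hat (not_le.mpr htT.2.2)
  have hlt : t < s₁ := lt_of_le_of_ne htle hne
  have := claimA t s₁ htT.1 hlt (hs₁le.trans hs₀R) (by
    intro s hs
    have h2 : f s ≤ f s₁ := hmono s s₁ (lt_of_lt_of_le htT.1 hs.1) hs.2 (hs₁le.trans hs₀R)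
    have h3 : f s₁ ≤ max (f s₁ / s₁) (1 / 2) * s₁ := by
      calc f s₁ = f s₁ / s₁ * s₁ := by (clear * - hs₁pos; field_simp)
        _ ≤ max (f s₁ / s₁) (1 / 2) * s₁ := by gcongr; exact le_max_left _ _
    linarith only [htlt, h2, h3, hs.1])
  have h7 := htT.2.2
  linarith only [hat, this, h7]

end Vale.Agent.P128
end

section

open MeasureTheory Set Metric Function Filter
open scoped ENNReal ContDiff Topology Real

namespace Vale.Agent.P128

/-- Radial unit vector at `x`. -/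
noncomputable def nu (x z : ℂ) : ℂ := (z - x) / ‖z - x‖

theorem nu_circleMap (x : ℂ) {s : ℝ} (hs : 0 < s) (θ : ℝ) :
    nu x (circleMap x s θ) = Complex.exp (θ * Complex.I) := by
  unfold nu
  rw [circleMap_sub_center, norm_circleMap_zero, abs_of_pos hs, circleMap_zero]
  have : (s : ℂ) ≠ 0 := by exact_mod_cast hs.ne'
  (clear * - this; field_simp)

theorem measurable_nu (x : ℂ) : Measurable (nu x) := by
  unfold nu; fun_prop

theorem norm_nu_le (x z : ℂ) : ‖nu x z‖ ≤ 1 := by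
  unfold nu
  rw [norm_div, Complex.norm_real, norm_norm]
  exact div_self_le_one _

/-- A smooth function of one variable that is constant near `(-∞, 0]`, composed with the
distance to `x`, is smooth. -/
theorem contDiff_radial {h : ℝ → ℝ} (hh : ContDiff ℝ ∞ h) {ε : ℝ} (hε : 0 < ε) {k : ℝ}
    (hk : ∀ s < ε, h s = k) (x : ℂ) : ContDiff ℝ ∞ fun y : ℂ => h ‖y - x‖ := by
  rw [contDiff_iff_contDiffAt]
  intro y
  by_cases hy : y = x
  · have : (fun y : ℂ => h ‖y - x‖) =ᶠ[𝓝 y] fun _ => k := by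
      have : ball x ε ∈ 𝓝 y := by rw [hy]; exact ball_mem_nhds x hε
      filter_upwards [this] with z hz
      exact hk _ (by simpa [dist_eq_norm] using hz)
    exact contDiffAt_const.congr_of_eventuallyEq this
  · exact hh.contDiffAt.comp y
      ((contDiffAt_id.sub contDiffAt_const).norm ℝ (sub_ne_zero.mpr hy))

theorem hasFDerivAt_norm_sub {x y : ℂ} (hy : y ≠ x) :
    HasFDerivAt (fun z : ℂ => ‖z - x‖) (innerSL ℝ (nu x y)) y := by
  have h1 : HasFDerivAt (fun z : ℂ => ‖z - x‖ ^ 2) (2 • (innerSL ℝ (y - x)).comp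
      (ContinuousLinearMap.id ℝ ℂ)) y := ((hasFDerivAt_id y).sub_const x).norm_sq
  have hne : ‖y - x‖ ^ 2 ≠ 0 := by
    have := sub_ne_zero.mpr hy
    positivity
  have h2 := h1.sqrt hne
  have h3 : (fun z : ℂ => √(‖z - x‖ ^ 2)) = fun z => ‖z - x‖ := by
    funext z; exact Real.sqrt_sq (norm_nonneg _)
  rw [h3] at h2
  have e : (1 / (2 * √(‖y - x‖ ^ 2))) • 2 • (innerSL ℝ (y - x)).comp
      (ContinuousLinearMap.id ℝ ℂ) = innerSL ℝ (nu x y) := by
    refine ContinuousLinearMap.ext fun v => ?_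
    rw [Real.sqrt_sq (norm_nonneg _)]
    have hn : ‖y - x‖ ≠ 0 := by simpa using sub_ne_zero.mpr hy
    have e1 : nu x y = (1 / ‖y - x‖ : ℝ) • (y - x) := by
      unfold nu
      rw [Complex.real_smul]
      push_cast
      ring
    rw [e1]
    simp only [ContinuousLinearMap.smul_apply, ContinuousLinearMap.comp_apply,
      ContinuousLinearMap.id_apply, innerSL_apply_apply, inner_smul_left, conj_trivial,
      smul_eq_mul, nsmul_eq_mul]
    field_simp
    push_cast
    ring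
  rw [← e]
  exact h2

theorem fderiv_radial {h : ℝ → ℝ} {h' : ℝ} {x y : ℂ} (hy : y ≠ x)
    (hd : HasDerivAt h h' ‖y - x‖) (v : ℂ) :
    fderiv ℝ (fun z : ℂ => h ‖z - x‖) y v = h' * inner ℝ (nu x y) v := by
  have := hd.comp_hasFDerivAt y (hasFDerivAt_norm_sub hy)
  have h2 : HasFDerivAt (fun z : ℂ => h ‖z - x‖) (h' • innerSL ℝ (nu x y)) y := this
  rw [h2.fderiv]
  simp

end Vale.Agent.P128
end

section

open MeasureTheory Set Metric Function Filter
open scoped ENNReal ContDiff Topology Real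

namespace Vale.Agent.P128

theorem exists_Icc_of_compact {S : Set ℝ} (hS : IsCompact S) {R : ℝ} (hR : 0 < R)
    (h : S ⊆ Ioo 0 R) : ∃ a b : ℝ, 0 < a ∧ b < R ∧ S ⊆ Icc a b := by
  rcases S.eq_empty_or_nonempty with h0 | hne
  · exact ⟨R / 2, R / 2, by linarith, by linarith, by simp [h0]⟩
  · obtain ⟨a, ha, ha'⟩ := hS.exists_isLeast hne
    obtain ⟨b, hb, hb'⟩ := hS.exists_isGreatest hne
    exact ⟨a, b, (h ha).1, (h hb).2, fun s hs => ⟨ha' hs, hb' hs⟩⟩

/-- A primitive of a test function in `(0, R)`, vanishing near `R`. -/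
theorem exists_primitive {ψ : ℝ → ℝ} (h1 : ContDiff ℝ ∞ ψ) (h2 : HasCompactSupport ψ) {R : ℝ}
    (hR : 0 < R) (h3 : tsupport ψ ⊆ Ioo 0 R) :
    ∃ (h : ℝ → ℝ) (a b k : ℝ), 0 < a ∧ b < R ∧ ContDiff ℝ ∞ h ∧ (∀ s, HasDerivAt h (ψ s) s) ∧
      (∀ s < a, h s = k) ∧ (∀ s, b < s → h s = 0) ∧
      (∀ s, 0 ≤ s → h s = - ∫ t in Ioi s, ψ t) := by
  obtain ⟨a, b, ha, hb, hab⟩ := exists_Icc_of_compact h2.isCompact hR h3
  have hint : Integrable ψ := h1.continuous.integrable_of_hasCompactSupport h2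
  have hz : ∀ s, s ∉ Icc a b → ψ s = 0 := fun s hs =>
    image_eq_zero_of_notMem_tsupport fun h => hs (hab h)
  have hd : ∀ s, HasDerivAt (fun s => (∫ t in (0 : ℝ)..s, ψ t) - ∫ t, ψ t) (ψ s) s := fun s =>
    (intervalIntegral.integral_hasDerivAt_right (h1.continuous.intervalIntegrable _ _)
      h1.continuous.aestronglyMeasurable.stronglyMeasurableAtFilter
      h1.continuous.continuousAt).sub_const _
  have hform : ∀ s, 0 ≤ s → (∫ t in (0 : ℝ)..s, ψ t) - ∫ t, ψ t = - ∫ t in Ioi s, ψ t := by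
    intro s hs
    have e1 : ∫ t, ψ t = ∫ t in Ioi (0 : ℝ), ψ t := by
      symm
      refine setIntegral_eq_integral_of_forall_compl_eq_zero fun t ht => hz t fun h => ht ?_
      exact lt_of_lt_of_le ha h.1
    have e2 := intervalIntegral.integral_interval_add_Ioi (a := 0) (b := s)
      (hint.integrableOn (s := Ioi 0)) (hint.integrableOn (s := Ioi s))
    rw [e1, ← e2]; ring
  refine ⟨fun s => (∫ t in (0 : ℝ)..s, ψ t) - ∫ t, ψ t, a, b, - ∫ t, ψ t, ha, hb, ?_, hd, ?_, ?_,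
    hform⟩
  · rw [contDiff_infty_iff_deriv]
    refine ⟨fun s => (hd s).differentiableAt, ?_⟩
    have : deriv (fun s => (∫ t in (0 : ℝ)..s, ψ t) - ∫ t, ψ t) = ψ := funext fun s => (hd s).deriv
    rw [this]
    exact h1
  · intro s hs
    have : ∫ t in (0 : ℝ)..s, ψ t = 0 := by
      rw [intervalIntegral.integral_zero_ae]
      refine Eventually.of_forall fun t ht => hz t fun h => ?_
      rcases le_total 0 s with h0 | h0
      · rw [uIoc_of_le h0] at ht
        linarith [ht.2, h.1]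
      · rw [uIoc_of_ge h0] at ht
        linarith [ht.2, h.1]
    simp [this]
  · intro s hs
    by_cases h0 : 0 ≤ s
    · show (∫ t in (0 : ℝ)..s, ψ t) - ∫ t, ψ t = 0
      rw [hform s h0, neg_eq_zero]
      refine setIntegral_eq_zero_of_forall_eq_zero fun t ht => hz t fun h => ?_
      have : s < t := ht
      linarith [h.2]
    · push Not at h0
      have hψ0 : ψ = 0 := by
        funext t
        exact hz t fun h => by linarith [h.1, h.2]
      simp [hψ0]

end Vale.Agent.P128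
end

section

open MeasureTheory Set Metric Filter
open scoped Topology Real

namespace Vale.Agent.P128

end Vale.Agent.P128
end

section

/-!
P128-Q, task C1: extraction of subsequences (diagonal compactness; Hausdorff limits of sets).
-/

open Set Metric Filter
open scoped Topology

namespace Vale.Agent.P128.Q

/-- C1: diagonal extraction for eventually bounded sequences. -/
theorem exists_subseq_of_bdd {a : ℕ → ℕ → ℝ} {B : ℕ → ℝ} (h : ∀ k, ∀ᶠ j in atTop, |a k j| ≤ B k) :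
    ∃ φ : ℕ → ℕ, StrictMono φ ∧ ∀ k, ∃ l, Tendsto (fun j => a k (φ j)) atTop (𝓝 l) := by
  have hc : IsCompact (Set.pi univ fun k => Icc (-|B k|) |B k|) :=
    isCompact_univ_pi fun k => isCompact_Icc
  have hb : ∀ k, (-|B k| : ℝ) ≤ |B k| := fun k => neg_le_self (abs_nonneg _)
  obtain ⟨x, -, φ, hφ, hx⟩ := hc.tendsto_subseq
    (x := fun j k => max (-|B k|) (min |B k| (a k j))) (fun j => by
      rw [Set.mem_univ_pi]
      intro k
      exact ⟨le_max_left _ _, max_le (hb k) (min_le_left _ _)⟩)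
  refine ⟨φ, hφ, fun k => ⟨x k, ?_⟩⟩
  have h1 := (tendsto_pi_nhds.mp hx) k
  refine h1.congr' ?_
  filter_upwards [hφ.tendsto_atTop.eventually (h k)] with j hj
  have h2 : |a k (φ j)| ≤ |B k| := hj.trans (le_abs_self _)
  simp only [Function.comp_apply]
  rw [min_eq_right (le_of_abs_le h2), max_eq_right (neg_le_of_abs_le h2)]

/-- C1: subsequences with a Hausdorff limit (locally). -/
theorem exists_haus_lim (K : ℕ → Set ℂ) (h0 : ∀ j, (0 : ℂ) ∈ K j) :
    ∃ φ : ℕ → ℕ, StrictMono φ ∧ ∃ K₀ : Set ℂ, IsClosed K₀ ∧ (0 : ℂ) ∈ K₀ ∧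
      (∀ z ∈ K₀, ∀ ε > 0, ∀ᶠ j in atTop, ∃ y ∈ K (φ j), dist y z < ε) ∧
      ∀ C : Set ℂ, IsCompact C → C ⊆ K₀ᶜ → ∀ᶠ j in atTop, Disjoint C (K (φ j)) := by
  have hne : ∀ j, (K j).Nonempty := fun j => ⟨0, h0 j⟩
  obtain ⟨φ, hφ, hl⟩ := exists_subseq_of_bdd
    (a := fun k j => infDist (TopologicalSpace.denseSeq ℂ k) (K j))
    (B := fun k => ‖TopologicalSpace.denseSeq ℂ k‖) (fun k => Eventually.of_forall fun j => by
      rw [abs_of_nonneg infDist_nonneg, ← dist_zero_right]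
      exact infDist_le_dist_of_mem (h0 j))
  have hlip : ∀ j z w, |infDist z (K j) - infDist w (K j)| ≤ dist z w := fun j z w => by
    have h1 := (lipschitz_infDist_pt (K j)).dist_le_mul z w
    rwa [NNReal.coe_one, one_mul, Real.dist_eq] at h1
  -- pointwise convergence everywhere
  have hconv : ∀ z : ℂ, ∃ l, Tendsto (fun j => infDist z (K (φ j))) atTop (𝓝 l) := by
    intro z
    refine cauchySeq_tendsto_of_complete (Metric.cauchySeq_iff.mpr fun ε hε => ?_)
    obtain ⟨k, hk⟩ := (TopologicalSpace.denseRange_denseSeq ℂ).exists_dist_lt z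
      (show (0 : ℝ) < ε / 3 by positivity)
    obtain ⟨l, hl1⟩ := hl k
    obtain ⟨N, hN⟩ := Metric.cauchySeq_iff.mp hl1.cauchySeq (ε / 3) (by positivity)
    refine ⟨N, fun m hm n hn => ?_⟩
    have h1 := hN m hm n hn
    have h2 := hlip (φ m) z (TopologicalSpace.denseSeq ℂ k)
    have h3 := hlip (φ n) z (TopologicalSpace.denseSeq ℂ k)
    rw [Real.dist_eq] at h1 ⊢
    rw [abs_le] at h2 h3
    rw [abs_lt] at h1 ⊢
    constructor <;> linarith [h1.1, h1.2, h2.1, h2.2, h3.1, h3.2]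
  choose d₀ hd₀ using hconv
  have hd0lip : ∀ z w, |d₀ z - d₀ w| ≤ dist z w := fun z w =>
    le_of_tendsto ((hd₀ z).sub (hd₀ w)).abs (Eventually.of_forall fun j => hlip (φ j) z w)
  have hd0cont : Continuous d₀ := by
    have : LipschitzWith 1 d₀ := LipschitzWith.of_dist_le_mul fun z w => by
      rw [NNReal.coe_one, one_mul, Real.dist_eq]
      exact hd0lip z w
    exact this.continuous
  have hd0nn : ∀ z, 0 ≤ d₀ z := fun z =>
    ge_of_tendsto (hd₀ z) (Eventually.of_forall fun j => infDist_nonneg)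
  refine ⟨φ, hφ, {z | d₀ z = 0}, isClosed_eq hd0cont continuous_const, ?_, ?_, ?_⟩
  · have h1 : Tendsto (fun j => infDist (0 : ℂ) (K (φ j))) atTop (𝓝 0) := by
      simp only [infDist_zero_of_mem (h0 _)]
      exact tendsto_const_nhds
    exact tendsto_nhds_unique (hd₀ 0) h1
  · intro z hz ε hε
    have h1 : Tendsto (fun j => infDist z (K (φ j))) atTop (𝓝 0) := by
      have h2 := hd₀ z
      rwa [show d₀ z = 0 from hz] at h2
    filter_upwards [h1.eventually (gt_mem_nhds hε)] with j hj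
    obtain ⟨y, hy, hyz⟩ := (infDist_lt_iff (hne _)).mp hj
    exact ⟨y, hy, by rwa [dist_comm]⟩
  · intro C hC hCK
    rcases C.eq_empty_or_nonempty with rfl | hCne
    · exact Eventually.of_forall fun j => Set.empty_disjoint _
    obtain ⟨x₀, hx₀, hmin⟩ := hC.exists_isMinOn hCne hd0cont.continuousOn
    have hδ : 0 < d₀ x₀ := lt_of_le_of_ne (hd0nn x₀) fun h => hCK hx₀ h.symm
    obtain ⟨T, hT, hCT⟩ := hC.elim_nhds_subcover (fun x => ball x (d₀ x₀ / 4))
      fun x _ => ball_mem_nhds x (by positivity)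
    have hev : ∀ᶠ j in atTop, ∀ t ∈ T, |infDist t (K (φ j)) - d₀ t| < d₀ x₀ / 4 := by
      rw [Filter.eventually_all_finset]
      intro t _
      have h1 := (Metric.tendsto_nhds.mp (hd₀ t)) (d₀ x₀ / 4) (by positivity)
      simpa only [Real.dist_eq] using h1
    filter_upwards [hev] with j hj
    rw [Set.disjoint_left]
    intro x hxC hxK
    have h1 := hCT hxC
    rw [Set.mem_iUnion₂] at h1
    obtain ⟨t, ht, hxt⟩ := h1
    rw [mem_ball] at hxt
    have h2 := hj t ht
    have h3 := hlip (φ j) x t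
    have h4 : d₀ x₀ ≤ d₀ t := hmin (hT t ht)
    have h5 : infDist x (K (φ j)) = 0 := infDist_zero_of_mem hxK
    rw [abs_lt] at h2
    rw [abs_le] at h3
    linarith only [h3.1, h2.2, h2.1, h5, h4, hxt]

end Vale.Agent.P128.Q
end

section

/-! P128, Q1: tangents of a set with decaying flatness. -/

open Set Metric Filter ComplexConjugate
open scoped Topology Real

namespace Vale.Agent.P128.Q1

/-- Decaying flatness and two-sided crossings of `K` at the point `y` and the scales up to `ρ`. -/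
structure Reg (K : Set ℂ) (C : ℝ) (y : ℂ) (ρ : ℝ) : Prop where
  pos : 0 < ρ
  beta : ∀ s, 0 < s → s ≤ ρ → ∃ e : ℂ, ‖e‖ = 1 ∧
    ∀ z ∈ K, dist z y ≤ s → |(conj e * (z - y)).im| ≤ C * (s / ρ) ^ (1 / 4 : ℝ) * s
  cross : ∀ s, 0 < s → s ≤ ρ → ∃ e : ℂ, ‖e‖ = 1 ∧
    (∀ z ∈ K, dist z y ≤ s → |(conj e * (z - y)).im| ≤ s / 10) ∧
    (∃ p ∈ K, dist p y = s ∧ 0 < (conj e * (p - y)).re) ∧
    ∃ q ∈ K, dist q y = s ∧ (conj e * (q - y)).re < 0

/-- `K` has at the point `y` the tangent direction `e`, up to the scale `ρ`. -/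
structure Tan (K : Set ℂ) (A : ℝ) (y : ℂ) (ρ : ℝ) (e : ℂ) : Prop where
  pos : 0 < ρ
  norm : ‖e‖ = 1
  est : ∀ z ∈ K, dist z y ≤ ρ →
    |(conj e * (z - y)).im| ≤ A * (dist z y / ρ) ^ (1 / 4 : ℝ) * dist z y
  cross : ∀ s, 0 < s → s ≤ ρ → A * (s / ρ) ^ (1 / 4 : ℝ) ≤ 1 / 10 →
    (∃ p ∈ K, dist p y = s ∧ 0 < (conj e * (p - y)).re) ∧
    ∃ q ∈ K, dist q y = s ∧ (conj e * (q - y)).re < 0

theorem norm_sq_sub_sq {v e : ℂ} (hv : ‖v‖ = 1) (he : ‖e‖ = 1) :
    ‖v ^ 2 - e ^ 2‖ = 2 * |(conj e * v).im| := by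
  set w := conj e * v with hw
  have hw1 : ‖w‖ = 1 := by rw [hw, norm_mul, Complex.norm_conj, he, hv, mul_one]
  have hee : conj e * e = 1 := by
    rw [mul_comm, Complex.mul_conj, Complex.normSq_eq_norm_sq, he]; norm_num
  have hww : w * conj w = 1 := by
    rw [Complex.mul_conj, Complex.normSq_eq_norm_sq, hw1]; norm_num
  have hv' : v = e * w := by
    rw [hw, ← mul_assoc, mul_comm e, hee, one_mul]
  have e1 : v ^ 2 - e ^ 2 = e ^ 2 * (w * (w - conj w)) := by
    rw [hv']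
    linear_combination e ^ 2 * hww
  have e2 : w - conj w = ((2 * w.im : ℝ) : ℂ) * Complex.I := by
    apply Complex.ext <;> simp
    ring
  rw [e1, e2, norm_mul, norm_mul, norm_pow, he, hw1, norm_mul, Complex.norm_real, Complex.norm_I,
    Real.norm_eq_abs, abs_mul]
  norm_num

theorem conj_mul_self_of_norm {e : ℂ} (he : ‖e‖ = 1) : conj e * e = 1 := by
  rw [mul_comm, Complex.mul_conj, Complex.normSq_eq_norm_sq, he]; norm_num

/-- Existence of the tangent, the estimate. -/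
theorem Reg.tangent_est {K : Set ℂ} {C : ℝ} {y : ℂ} {ρ : ℝ} (hC : 0 ≤ C) (h : Reg K C y ρ) :
    ∃ ε : ℂ, ‖ε‖ = 1 ∧ ∀ z ∈ K, dist z y ≤ ρ →
      |(conj ε * (z - y)).im| ≤ 50 * C * (dist z y / ρ) ^ (1 / 4 : ℝ) * dist z y := by
  have hρ := h.pos
  obtain ⟨θ, hθ⟩ : ∃ θ : ℝ, θ = (1 / 2 : ℝ) ^ (1 / 4 : ℝ) := ⟨_, rfl⟩
  have hθ0 : 0 < θ := by rw [hθ]; positivity
  have hθ4 : θ ^ 4 = 1 / 2 := by
    rw [hθ, ← Real.rpow_natCast, ← Real.rpow_mul (by norm_num)]
    norm_num
  have hθ1 : θ ≤ 17 / 20 := by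
    by_contra hcon
    push Not at hcon
    have : (17 / 20 : ℝ) ^ 4 < θ ^ 4 := by gcongr
    rw [hθ4] at this
    norm_num at this
  have hθ2 : 4 / 5 ≤ θ := by
    by_contra hcon
    push Not at hcon
    have : θ ^ 4 < (4 / 5 : ℝ) ^ 4 := by gcongr
    rw [hθ4] at this
    norm_num at this
  have hpow : ∀ k : ℕ, ((1 / 2 : ℝ) ^ k) ^ (1 / 4 : ℝ) = θ ^ k := by
    intro k
    rw [hθ, ← Real.rpow_natCast, ← Real.rpow_natCast, ← Real.rpow_mul (by norm_num),
      ← Real.rpow_mul (by norm_num), mul_comm]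
  -- scales
  obtain ⟨s, hs⟩ : ∃ s : ℕ → ℝ, s = fun k => (1 / 2 : ℝ) ^ k * ρ := ⟨_, rfl⟩
  have hs0 : ∀ k, 0 < s k := fun k => by rw [hs]; positivity
  have hsρ : ∀ k, s k ≤ ρ := fun k => by
    rw [hs]
    have : (1 / 2 : ℝ) ^ k ≤ 1 := pow_le_one₀ (by norm_num) (by norm_num)
    simp only
    (by_contra nlg; linarith only [nlg, mul_nonneg (le_of_lt (sub_pos.2 hρ)) (sub_nonneg.2 this), mul_nonneg (le_of_lt (sub_pos.2 (not_le.1 nlg))) (sub_nonneg.2 hθ1), mul_pos (sub_pos.2 (not_le.1 nlg)) (sub_pos.2 hθ0)])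
  have hsr : ∀ k, (s k / ρ) ^ (1 / 4 : ℝ) = θ ^ k := fun k => by
    rw [← hpow k, hs]
    simp only
    rw [mul_div_assoc, div_self hρ.ne', mul_one]
  have hss : ∀ k, s (k + 1) = s k / 2 := fun k => by
    rw [hs]; simp only; rw [pow_succ]; ring
  choose e he hb using fun k => h.beta (s k) (hs0 k) (hsρ k)
  -- unit vectors
  have key : ∀ k, ∀ z ∈ K, dist z y ≤ s k → 0 < dist z y →
      ‖((z - y) / (dist z y : ℝ)) ^ 2 - e k ^ 2‖ ≤ 2 * (C * θ ^ k * (s k / dist z y)) := by
    intro k z hz hzy hz0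
    have hv : ‖(z - y) / ((dist z y : ℝ) : ℂ)‖ = 1 := by
      rw [norm_div, Complex.norm_real, Real.norm_of_nonneg dist_nonneg, ← dist_eq_norm,
        div_self hz0.ne']
    rw [norm_sq_sub_sq hv (he k)]
    have h1 := hb k z hz hzy
    rw [hsr k] at h1
    have e1 : conj (e k) * ((z - y) / ((dist z y : ℝ) : ℂ)) =
        ((1 / dist z y : ℝ) : ℂ) * (conj (e k) * (z - y)) := by
      push_cast
      ring
    rw [e1, Complex.im_ofReal_mul, abs_mul, abs_of_pos (by positivity)]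
    have h2 : 1 / dist z y * |(conj (e k) * (z - y)).im| ≤
        1 / dist z y * (C * θ ^ k * s k) := mul_le_mul_of_nonneg_left h1 (by positivity)
    have e2 : 1 / dist z y * (C * θ ^ k * s k) = C * θ ^ k * (s k / dist z y) := by ring
    linarith only [e2, h2]
  have hcau : ∀ k, dist (e k ^ 2) (e (k + 1) ^ 2) ≤ 6 * C * θ ^ k := by
    intro k
    obtain ⟨e', he', -, ⟨p, hp, hpd, -⟩, -⟩ := h.cross (s (k + 1)) (hs0 _) (hsρ _)
    have hp0 : 0 < dist p y := by rw [hpd]; exact hs0 _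
    have h1 := key k p hp (by rw [hpd, hss]; linarith [hs0 k]) hp0
    have h2 := key (k + 1) p hp hpd.le hp0
    rw [hpd] at h1 h2
    rw [div_self (hs0 _).ne', mul_one, pow_succ θ k] at h2
    have e1 : s k / s (k + 1) = 2 := by
      rw [hss]
      have := (hs0 k).ne'
      field_simp
    rw [e1] at h1
    rw [dist_eq_norm]
    have h3 : ‖e k ^ 2 - e (k + 1) ^ 2‖ ≤
        ‖((p - y) / ((s (k + 1) : ℝ) : ℂ)) ^ 2 - e k ^ 2‖ +
        ‖((p - y) / ((s (k + 1) : ℝ) : ℂ)) ^ 2 - e (k + 1) ^ 2‖ := by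
      have := norm_sub_le (((p - y) / ((s (k + 1) : ℝ) : ℂ)) ^ 2 - e (k + 1) ^ 2)
        (((p - y) / ((s (k + 1) : ℝ) : ℂ)) ^ 2 - e k ^ 2)
      rw [show (((p - y) / ((s (k + 1) : ℝ) : ℂ)) ^ 2 - e (k + 1) ^ 2) -
        (((p - y) / ((s (k + 1) : ℝ) : ℂ)) ^ 2 - e k ^ 2) = e k ^ 2 - e (k + 1) ^ 2 by ring] at this
      linarith only [this]
    have h4 : 0 ≤ C * θ ^ k := by positivity
    have h5 : C * (θ ^ k * θ) ≤ C * θ ^ k := by
      rw [← mul_assoc]
      (by_contra nlg; linarith only [nlg, mul_nonneg (sub_nonneg.2 hθ2) (sub_nonneg.2 h4), mul_nonneg (sub_nonneg.2 hθ1) (sub_nonneg.2 h4), mul_nonneg (le_of_lt (sub_pos.2 (not_le.1 nlg))) (sub_nonneg.2 hθ1), mul_pos (sub_pos.2 (not_le.1 nlg)) (sub_pos.2 hθ0)])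
    linarith
  have hθlt : θ < 1 := by linarith
  obtain ⟨q, hq⟩ := cauchySeq_tendsto_of_complete
    (cauchySeq_of_le_geometric θ (6 * C) hθlt hcau)
  have hqd : ∀ k, dist (e k ^ 2) q ≤ 40 * C * θ ^ k := by
    intro k
    refine (dist_le_of_le_geometric_of_tendsto θ (6 * C) hθlt hcau hq k).trans ?_
    rw [div_le_iff₀ (by linarith)]
    have h4 : 0 ≤ C * θ ^ k := by positivity
    (by_contra nlg; linarith only [nlg, mul_nonneg (sub_nonneg.2 hθ1) (sub_nonneg.2 h4), mul_pos (sub_pos.2 (not_le.1 nlg)) (sub_pos.2 hθlt), mul_nonneg (le_of_lt (sub_pos.2 (not_le.1 nlg))) (sub_nonneg.2 hθ2)])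
  have hq1 : ‖q‖ = 1 := by
    have h1 : Tendsto (fun k => ‖e k ^ 2‖) atTop (𝓝 ‖q‖) := hq.norm
    have h2 : (fun k => ‖e k ^ 2‖) = fun _ => (1 : ℝ) := by
      funext k; rw [norm_pow, he k, one_pow]
    rw [h2] at h1
    exact (tendsto_nhds_unique h1 tendsto_const_nhds)
  obtain ⟨ε, hε⟩ : ∃ ε : ℂ, ε ^ 2 = q := by
    obtain ⟨ε, hε⟩ := IsAlgClosed.exists_pow_nat_eq q (n := 2) (by norm_num)
    exact ⟨ε, hε⟩
  have hε1 : ‖ε‖ = 1 := by
    have h1 : ‖ε‖ ^ 2 = 1 := by rw [← norm_pow, hε, hq1]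
    have h2 := norm_nonneg ε
    nlinarith
  have hest : ∀ z ∈ K, dist z y ≤ ρ →
      |(conj ε * (z - y)).im| ≤ 50 * C * (dist z y / ρ) ^ (1 / 4 : ℝ) * dist z y := by
    intro z hz hzρ
    rcases (dist_nonneg (x := z) (y := y)).eq_or_lt with h0 | h0
    · have : z = y := dist_eq_zero.1 h0.symm
      rw [this]
      simp
    have hx1 : dist z y / ρ ≤ 1 := (div_le_one hρ).2 hzρ
    have hx0 : 0 < dist z y / ρ := by positivity
    obtain ⟨k, hk1, hk2⟩ := exists_nat_pow_near_of_lt_one hx0 hx1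
      (by norm_num : (0 : ℝ) < 1 / 2) (by norm_num)
    have hsk1 : s (k + 1) < dist z y := by
      rw [hs]; simp only
      rwa [lt_div_iff₀ hρ] at hk1
    have hsk2 : dist z y ≤ s k := by
      rw [hs]; simp only
      rwa [div_le_iff₀ hρ] at hk2
    have h1 := key k z hz hsk2 h0
    have h2 : s k / dist z y ≤ 2 := by
      rw [div_le_iff₀ h0]
      rw [hss] at hsk1
      linarith only [hsk1]
    have h3 := hqd k
    rw [dist_eq_norm] at h3
    have h4 : 0 ≤ C * θ ^ k := by positivity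
    have hv : ‖(z - y) / ((dist z y : ℝ) : ℂ)‖ = 1 := by
      rw [norm_div, Complex.norm_real, Real.norm_of_nonneg dist_nonneg, ← dist_eq_norm,
        div_self h0.ne']
    have h5 : ‖((z - y) / ((dist z y : ℝ) : ℂ)) ^ 2 - ε ^ 2‖ ≤ 44 * (C * θ ^ k) := by
      rw [hε]
      have h6 := norm_add_le (((z - y) / ((dist z y : ℝ) : ℂ)) ^ 2 - e k ^ 2) (e k ^ 2 - q)
      rw [sub_add_sub_cancel] at h6
      have h7 : 2 * (C * θ ^ k * (s k / dist z y)) ≤ 4 * (C * θ ^ k) := by (by_contra nlg; linarith only [nlg, mul_nonneg (sub_nonneg.2 h2) (sub_nonneg.2 h4), mul_pos (sub_pos.2 (not_le.1 nlg)) (sub_pos.2 hx0), mul_nonneg (le_of_lt (sub_pos.2 (not_le.1 nlg))) (sub_nonneg.2 hx1)])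
      linarith only [h7, h6, h3, h1]
    rw [norm_sq_sub_sq hv hε1] at h5
    have e1 : conj ε * ((z - y) / ((dist z y : ℝ) : ℂ)) =
        ((1 / dist z y : ℝ) : ℂ) * (conj ε * (z - y)) := by
      push_cast
      ring
    rw [e1, Complex.im_ofReal_mul, abs_mul, abs_of_pos (by positivity)] at h5
    have h6 : |(conj ε * (z - y)).im| ≤ 22 * (C * θ ^ k) * dist z y := by
      have e2 : 2 * (1 / dist z y * |(conj ε * (z - y)).im|) =
        2 * |(conj ε * (z - y)).im| / dist z y := by ring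
      rw [e2, div_le_iff₀ h0] at h5
      linarith only [h5]
    have h7 : θ ^ (k + 1) ≤ (dist z y / ρ) ^ (1 / 4 : ℝ) := by
      rw [← hpow (k + 1)]
      exact Real.rpow_le_rpow (by positivity) hk1.le (by norm_num)
    rw [pow_succ] at h7
    have h8 : 22 * (C * θ ^ k) ≤ 50 * C * (dist z y / ρ) ^ (1 / 4 : ℝ) := by
      have h9 : C * (θ ^ k * θ) ≤ C * (dist z y / ρ) ^ (1 / 4 : ℝ) :=
        mul_le_mul_of_nonneg_left h7 hC
      have h10 : C * θ ^ k * (4 / 5) ≤ C * (θ ^ k * θ) := by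
        rw [← mul_assoc]
        exact mul_le_mul_of_nonneg_left hθ2 h4
      linarith only [h10, h9, h4]
    exact h6.trans (mul_le_mul_of_nonneg_right h8 dist_nonneg)
  exact ⟨ε, hε1, hest⟩

/-- Sum of the squares of the components. -/
theorem re_sq_add_im_sq {a b : ℂ} (ha : ‖a‖ = 1) (hb : ‖b‖ = 1) :
    (conj a * b).re ^ 2 + (conj a * b).im ^ 2 = 1 := by
  have h1 : Complex.normSq (conj a * b) = 1 := by
    rw [Complex.normSq_eq_norm_sq, norm_mul, Complex.norm_conj, ha, hb]; norm_num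
  rw [Complex.normSq_apply] at h1
  linarith [h1, sq (conj a * b).re, sq (conj a * b).im]

/-- Comparison of the sides with respect to two nearly parallel directions. -/
theorem side_compare {e' ε v v' : ℂ} (he' : ‖e'‖ = 1) (hε1 : ‖ε‖ = 1) (hv1 : ‖v‖ = 1)
    (hv1' : ‖v'‖ = 1) (a1 : |(conj e' * v).im| ≤ 1 / 10) (a1' : |(conj e' * v').im| ≤ 1 / 10)
    (a2 : |(conj ε * v).im| ≤ 1 / 5) (a2' : |(conj ε * v').im| ≤ 1 / 5)
    (b1 : 0 < (conj e' * v).re) (b1' : (conj e' * v').re < 0) :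
    (0 < (conj ε * v).re ∧ (conj ε * v').re < 0) ∨
      ((conj ε * v).re < 0 ∧ 0 < (conj ε * v').re) := by
  have c1 := re_sq_add_im_sq he' hv1
  have c1' := re_sq_add_im_sq he' hv1'
  have a1s := sq_le_sq' (abs_le.1 a1).1 (abs_le.1 a1).2
  have a1s' := sq_le_sq' (abs_le.1 a1').1 (abs_le.1 a1').2
  have d1 : 9 / 10 ≤ (conj e' * v).re := by
    by_contra hcon
    push Not at hcon
    linarith only [mul_pos (sub_pos.2 hcon) (sub_pos.2 hcon), mul_nonneg (sub_nonneg.2 a1s) (le_of_lt (sub_pos.2 hcon)), mul_eq_zero_of_left (sub_eq_zero.2 c1) (9 / 10 - (((starRingEnd ℂ) e' * v).re)), mul_pos (sub_pos.2 b1) (sub_pos.2 hcon), mul_nonneg (le_of_lt (sub_pos.2 b1)) (sub_nonneg.2 a1s), mul_eq_zero_of_left (sub_eq_zero.2 c1) (((starRingEnd ℂ) e' * v).re - (0))]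
  have d1' : (conj e' * v').re ≤ -(9 / 10) := by
    by_contra hcon
    push Not at hcon
    linarith only [mul_pos (sub_pos.2 hcon) (sub_pos.2 hcon), mul_nonneg (sub_nonneg.2 a1s') (le_of_lt (sub_pos.2 hcon)), mul_eq_zero_of_left (sub_eq_zero.2 c1') (((starRingEnd ℂ) e' * v').re - (-(9 / 10))), mul_pos (sub_pos.2 b1') (sub_pos.2 hcon), mul_nonneg (le_of_lt (sub_pos.2 b1')) (sub_nonneg.2 a1s'), mul_eq_zero_of_left (sub_eq_zero.2 c1') (0 - (((starRingEnd ℂ) e' * v').re))]
  have hvv : conj v * v' = conj (conj e' * v) * (conj e' * v') := by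
    rw [map_mul, Complex.conj_conj]
    have := conj_mul_self_of_norm he'
    linear_combination (-(conj v * v')) * this
  have hvv' : conj v * v' = conj (conj ε * v) * (conj ε * v') := by
    rw [map_mul, Complex.conj_conj]
    have := conj_mul_self_of_norm hε1
    linear_combination (-(conj v * v')) * this
  have e1 : (conj v * v').re = (conj e' * v).re * (conj e' * v').re +
      (conj e' * v).im * (conj e' * v').im := by
    rw [hvv, Complex.mul_re, Complex.conj_re, Complex.conj_im]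
    ring
  have n2 : (conj v * v').re = (conj ε * v).re * (conj ε * v').re +
      (conj ε * v).im * (conj ε * v').im := by
    rw [hvv', Complex.mul_re, Complex.conj_re, Complex.conj_im]
    ring
  have m1 : (conj e' * v).im * (conj e' * v').im ≤ 1 / 100 := by
    have := (le_abs_self ((conj e' * v).im * (conj e' * v').im))
    rw [abs_mul] at this
    have h2 : |(conj e' * v).im| * |(conj e' * v').im| ≤ 1 / 10 * (1 / 10) :=
      mul_le_mul a1 a1' (abs_nonneg _) (by norm_num)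
    linarith only [h2, this]
  have m2 : -(1 / 25) ≤ (conj ε * v).im * (conj ε * v').im := by
    have := (neg_abs_le ((conj ε * v).im * (conj ε * v').im))
    rw [abs_mul] at this
    have h2 : |(conj ε * v).im| * |(conj ε * v').im| ≤ 1 / 5 * (1 / 5) :=
      mul_le_mul a2 a2' (abs_nonneg _) (by norm_num)
    linarith only [h2, this]
  have m3 : (conj e' * v).re * (conj e' * v').re ≤ -(81 / 100) := by
    have h1 : 9 / 10 * (9 / 10) ≤ (conj e' * v).re * (-(conj e' * v').re) :=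
      mul_le_mul d1 (by linarith only [d1']) (by norm_num) b1.le
    linarith only [h1]
  have n3 : (conj ε * v).re * (conj ε * v').re < 0 := by linarith only [m3, m2, m1, n2, e1]
  rcases mul_neg_iff.1 n3 with h | h
  · exact Or.inl h
  · exact Or.inr h

/-- Existence of the tangent. -/
theorem Reg.tangent {K : Set ℂ} {C : ℝ} {y : ℂ} {ρ : ℝ} (hC : 0 ≤ C) (h : Reg K C y ρ) :
    ∃ e, Tan K (50 * C) y ρ e := by
  obtain ⟨ε, hε1, hest⟩ := h.tangent_est hC
  refine ⟨ε, h.pos, hε1, hest, ?_⟩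
  intro t ht htρ htA
  obtain ⟨e', he', hflat, ⟨p, hp, hpd, hp0⟩, ⟨r, hr, hrd, hr0⟩⟩ := h.cross t ht htρ
  set v : ℂ := (p - y) / (t : ℂ) with hvdef
  have htc : (t : ℂ) ≠ 0 := by exact_mod_cast ht.ne'
  have hpy : p - y = t * v := by rw [hvdef]; field_simp
  set v' : ℂ := (r - y) / (t : ℂ) with hvdef'
  have hry : r - y = t * v' := by rw [hvdef']; field_simp
  have hv1 : ‖v‖ = 1 := by
    rw [hvdef, norm_div, Complex.norm_real, Real.norm_of_nonneg ht.le, ← dist_eq_norm, hpd,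
      div_self ht.ne']
  have hv1' : ‖v'‖ = 1 := by
    rw [hvdef', norm_div, Complex.norm_real, Real.norm_of_nonneg ht.le, ← dist_eq_norm, hrd,
      div_self ht.ne']
  have hmul : ∀ (a b : ℂ), conj a * (t * b) = (t : ℂ) * (conj a * b) := fun a b => by ring
  have him : ∀ a b : ℂ, |(conj a * (t * b)).im| = t * |(conj a * b).im| := fun a b => by
    rw [hmul, Complex.im_ofReal_mul, abs_mul, abs_of_pos ht]
  have hre : ∀ a b : ℂ, (conj a * (t * b)).re = t * (conj a * b).re := fun a b => by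
    rw [hmul, Complex.re_ofReal_mul]
  have a1 : |(conj e' * v).im| ≤ 1 / 10 := by
    have := hflat p hp hpd.le
    rw [hpy, him] at this
    refine le_of_mul_le_mul_left ?_ ht
    linarith only [this]
  have a1' : |(conj e' * v').im| ≤ 1 / 10 := by
    have := hflat r hr hrd.le
    rw [hry, him] at this
    refine le_of_mul_le_mul_left ?_ ht
    linarith only [this]
  have a2 : |(conj ε * v).im| ≤ 1 / 10 := by
    have := hest p hp (hpd.le.trans htρ)
    rw [hpd, hpy, him] at this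
    refine le_of_mul_le_mul_left ?_ ht
    have h2 := mul_le_mul_of_nonneg_right htA ht.le
    linarith only [h2, this]
  have a2' : |(conj ε * v').im| ≤ 1 / 10 := by
    have := hest r hr (hrd.le.trans htρ)
    rw [hrd, hry, him] at this
    refine le_of_mul_le_mul_left ?_ ht
    have h2 := mul_le_mul_of_nonneg_right htA ht.le
    linarith
  rw [hpy, hre] at hp0
  rw [hry, hre] at hr0
  have b1 : 0 < (conj e' * v).re := (pos_iff_pos_of_mul_pos hp0).1 ht
  have b1' : (conj e' * v').re < 0 := by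
    by_contra hcon
    push Not at hcon
    have := mul_nonneg ht.le hcon
    linarith only [this, hr0]
  rcases side_compare he' hε1 hv1 hv1' a1 a1' (a2.trans (by norm_num))
      (a2'.trans (by norm_num)) b1 b1' with ⟨h1, h2⟩ | ⟨h1, h2⟩
  · refine ⟨⟨p, hp, hpd, ?_⟩, ⟨r, hr, hrd, ?_⟩⟩
    · rw [hpy, hre]; exact mul_pos ht h1
    · rw [hry, hre]; exact mul_neg_of_pos_of_neg ht h2
  · refine ⟨⟨r, hr, hrd, ?_⟩, ⟨p, hp, hpd, ?_⟩⟩
    · rw [hry, hre]; exact mul_pos ht h2
    · rw [hpy, hre]; exact mul_neg_of_pos_of_neg ht h1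

end Vale.Agent.P128.Q1
end
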