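import Vale.Agent.P128.Bdl.B2

open MeasureTheory Set Metric Filter InnerProductSpace
open scoped ENNReal NNReal ContDiff Topology Real

namespace Vale.Agent.P128.GM

open Vale.Agent.P128

/-- `u ∈ W^{1,2}_loc(U)` with weak gradient `G`, for an open set `U` of the plane. -/
structure W12loc (U : Set ℂ) (u : ℂ → ℝ) (G : ℂ → ℂ) : Prop where
  memLp : ∀ C : Set ℂ, IsCompact C → C ⊆ U → MemLp u 2 (volume.restrict C)
  grad_memLp : ∀ C : Set ℂ, IsCompact C → C ⊆ U → MemLp G 2 (volume.restrict C)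
  weak : IsWeakGrad U u G

/-- `∫_{V∖K} |∇u|² + H¹(K ∩ V)`. -/
noncomputable def genergy (G : ℂ → ℂ) (K V : Set ℂ) : ℝ≥0∞ :=
  (∫⁻ z in V \ K, ENNReal.ofReal (‖G z‖ ^ 2)) + μH[1] (K ∩ V)

/-- `(u, K)` is a global minimizer of the Mumford-Shah functional in the plane, with locally finite
energy; `G` is the weak gradient of `u` on the complement of `K`. -/
structure IsGlobalMin (u : ℂ → ℝ) (G : ℂ → ℂ) (K : Set ℂ) : Prop where
  closed : IsClosed K
  sobolev : W12loc Kᶜ u G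
  finite : ∀ (x : ℂ) (r : ℝ), genergy G K (ball x r) < ⊤
  minimal : ∀ (x : ℂ) (r : ℝ) (v : ℂ → ℝ) (H : ℂ → ℂ) (L : Set ℂ),
    IsClosed L → W12loc Lᶜ v H →
    (∃ C : Set ℂ, IsCompact C ∧ C ⊆ ball x r ∧ symmDiff L K ⊆ C ∧ ∀ᵐ z, z ∉ C → v z = u z) →
    (∀ p q : ℂ, p ∉ ball x r ∪ K → q ∉ ball x r ∪ K →
      q ∉ connectedComponentIn Kᶜ p → q ∉ connectedComponentIn Lᶜ p) →
    genergy G K (ball x r) ≤ genergy H L (ball x r)

/-- A reduced global minimizer with connected complement, `u` being the harmonic representative. -/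
structure GMin (u : ℂ → ℝ) (K : Set ℂ) : Prop where
  gm : IsGlobalMin u (grad u) K
  harm : HarmonicOnNhd u Kᶜ
  conn : IsPreconnected Kᶜ
  red : ∀ x ∈ K, ∀ r > 0, 0 < μH[1] (K ∩ ball x r)

/-- Dirichlet energy in the disk of radius `R` about the origin. -/
noncomputable def En (v : ℂ → ℝ) (R : ℝ) : ℝ := ∫ z in ball (0 : ℂ) R, ‖grad v z‖ ^ 2

/-- Length in the disk of radius `R` about the origin. -/
noncomputable def Len (K : Set ℂ) (R : ℝ) : ℝ := (μH[1] (K ∩ ball (0 : ℂ) R)).toReal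

/-- `v` is locally Lipschitz on the open set `U`. -/
def LocLip (U : Set ℂ) (v : ℂ → ℝ) : Prop :=
  ∀ z ∈ U, ∃ (M : ℝ≥0) (r : ℝ), 0 < r ∧ ball z r ⊆ U ∧ LipschitzOnWith M v (ball z r)

/-- The Laplacian as an iterated derivative. -/
noncomputable def lap (f : ℂ → ℝ) (z : ℂ) : ℝ :=
  fderiv ℝ (fun w => fderiv ℝ f w 1) z 1 + fderiv ℝ (fun w => fderiv ℝ f w Complex.I) z Complex.I

end Vale.Agent.P128.GM
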