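import Vale.Agent.P128.MathlibUsed
import Vale.Agent.P128.Bdl.K_GM_Defs
import Vale.Agent.P128.Bdl.B2
import Vale.Agent.P128.Bdl.B1
import Vale.Agent.P098.R.H3
import Vale.Agent.P128.Bdl.B3

set_option linter.all false

section

/-! Locally Lipschitz functions: gradient calculus and the weak gradient. -/

open MeasureTheory Set Metric Filter
open scoped ENNReal NNReal ContDiff Topology Real

namespace Vale.Agent.P128.GM

open Vale.Agent.P128

/-! ### Gradient calculus -/

theorem norm_grad (f : ℂ → ℝ) (z : ℂ) : ‖grad f z‖ = ‖fderiv ℝ f z‖ := by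
  apply le_antisymm
  · have h1 : ‖grad f z‖ * ‖grad f z‖ ≤ ‖fderiv ℝ f z‖ * ‖grad f z‖ := by
      have := (fderiv ℝ f z).le_opNorm (grad f z)
      rw [← inner_grad, real_inner_self_eq_norm_mul_norm, Real.norm_eq_abs,
        abs_of_nonneg (by positivity)] at this
      exact this
    by_cases h0 : ‖grad f z‖ = 0
    · rw [h0]; exact norm_nonneg _
    · exact le_of_mul_le_mul_right h1 (lt_of_le_of_ne (norm_nonneg _) (Ne.symm h0))
  · refine ContinuousLinearMap.opNorm_le_bound _ (norm_nonneg _) fun v => ?_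
    rw [← inner_grad]
    exact abs_real_inner_le_norm _ _

theorem measurable_grad (f : ℂ → ℝ) : Measurable (grad f) := by
  have h1 := measurable_fderiv_apply_const ℝ f (1 : ℂ)
  have h2 := measurable_fderiv_apply_const ℝ f Complex.I
  have : grad f = fun z => (fderiv ℝ f z 1 : ℂ) + (fderiv ℝ f z Complex.I : ℂ) * Complex.I := by
    funext z
    apply Complex.ext <;> simp [grad]
  rw [this]
  exact (Complex.measurable_ofReal.comp h1).add ((Complex.measurable_ofReal.comp h2).mul_const _)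

theorem grad_congr {f g : ℂ → ℝ} {z : ℂ} (h : f =ᶠ[𝓝 z] g) : grad f z = grad g z := by
  unfold grad; rw [h.fderiv_eq]

theorem grad_add {f g : ℂ → ℝ} {z : ℂ} (hf : DifferentiableAt ℝ f z)
    (hg : DifferentiableAt ℝ g z) : grad (fun w => f w + g w) z = grad f z + grad g z := by
  unfold grad
  rw [fderiv_fun_add hf hg]
  apply Complex.ext <;> simp

theorem grad_sub {f g : ℂ → ℝ} {z : ℂ} (hf : DifferentiableAt ℝ f z)
    (hg : DifferentiableAt ℝ g z) : grad (fun w => f w - g w) z = grad f z - grad g z := by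
  unfold grad
  rw [fderiv_fun_sub hf hg]
  apply Complex.ext <;> simp

theorem grad_const (c : ℝ) (z : ℂ) : grad (fun _ => c) z = 0 := by
  unfold grad
  rw [fderiv_fun_const]
  apply Complex.ext <;> simp

theorem grad_const_mul {f : ℂ → ℝ} {z : ℂ} (hf : DifferentiableAt ℝ f z) (c : ℝ) :
    grad (fun w => c * f w) z = c • grad f z := by
  unfold grad
  rw [fderiv_const_mul hf]
  apply Complex.ext <;> simp

theorem grad_mul {f g : ℂ → ℝ} {z : ℂ} (hf : DifferentiableAt ℝ f z)
    (hg : DifferentiableAt ℝ g z) :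
    grad (fun w => f w * g w) z = f z • grad g z + g z • grad f z := by
  unfold grad
  rw [fderiv_fun_mul hf hg]
  apply Complex.ext <;> simp

theorem grad_translate (f : ℂ → ℝ) (t z : ℂ) : grad (fun w => f (w - t)) z = grad f (z - t) := by
  unfold grad
  rw [fderiv_comp_sub]

/-! ### Locally Lipschitz functions -/

namespace LocLip

variable {U V : Set ℂ} {v w : ℂ → ℝ}

theorem locallyLipschitzOn (h : LocLip U v) : LocallyLipschitzOn U v := by
  intro z hz
  obtain ⟨M, r, hr, hrU, hL⟩ := h z hz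
  exact ⟨M, ball z r, mem_nhdsWithin_of_mem_nhds (ball_mem_nhds z hr), hL⟩

theorem of_locallyLipschitzOn (hU : IsOpen U) (h : LocallyLipschitzOn U v) : LocLip U v := by
  intro z hz
  obtain ⟨M, t, ht, hL⟩ := h hz
  rw [hU.nhdsWithin_eq hz] at ht
  obtain ⟨r, hr, hb⟩ := Metric.mem_nhds_iff.1 (inter_mem ht (hU.mem_nhds hz))
  exact ⟨M, r, hr, hb.trans inter_subset_right, hL.mono (hb.trans inter_subset_left)⟩

theorem continuousOn (h : LocLip U v) : ContinuousOn v U := h.locallyLipschitzOn.continuousOn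

theorem mono (h : LocLip U v) (hV : IsOpen V) (hVU : V ⊆ U) : LocLip V v :=
  of_locallyLipschitzOn hV (h.locallyLipschitzOn.mono hVU)

theorem of_local' (h : ∀ z ∈ U, ∃ V, IsOpen V ∧ z ∈ V ∧ V ⊆ U ∧ LocLip V v) : LocLip U v := by
  intro z hz
  obtain ⟨V, hV, hzV, hVU, hL⟩ := h z hz
  obtain ⟨M, r, hr, hrV, hL⟩ := hL z hzV
  exact ⟨M, r, hr, hrV.trans hVU, hL⟩

/-- locality -/
theorem of_local (h : ∀ z ∈ U, ∃ V v', IsOpen V ∧ z ∈ V ∧ V ⊆ U ∧ LocLip V v' ∧ EqOn v v' V) :
    LocLip U v := by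
  intro z hz
  obtain ⟨V, v', hV, hzV, hVU, hL, he⟩ := h z hz
  obtain ⟨M, r, hr, hrV, hL⟩ := hL z hzV
  refine ⟨M, r, hr, hrV.trans hVU, fun x hx y hy => ?_⟩
  rw [he (hrV hx), he (hrV hy)]
  exact hL hx hy

theorem congr (h : LocLip U v) (he : EqOn v w U) : LocLip U w := by
  intro z hz
  obtain ⟨M, r, hr, hrU, hL⟩ := h z hz
  refine ⟨M, r, hr, hrU, fun x hx y hy => ?_⟩
  rw [← he (hrU hx), ← he (hrU hy)]
  exact hL hx hy

theorem union (hU : LocLip U v) (hV : LocLip V v) : LocLip (U ∪ V) v := by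
  intro z hz
  rcases hz with hz | hz
  · obtain ⟨M, r, hr, hrU, hL⟩ := hU z hz
    exact ⟨M, r, hr, hrU.trans subset_union_left, hL⟩
  · obtain ⟨M, r, hr, hrU, hL⟩ := hV z hz
    exact ⟨M, r, hr, hrU.trans subset_union_right, hL⟩

theorem of_contDiffOn (hU : IsOpen U) (h : ContDiffOn ℝ 1 v U) : LocLip U v := by
  refine of_locallyLipschitzOn hU fun z hz => ?_
  obtain ⟨M, t, ht, hL⟩ := (h.contDiffAt (hU.mem_nhds hz)).exists_lipschitzOnWith
  exact ⟨M, t, mem_nhdsWithin_of_mem_nhds ht, hL⟩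

theorem of_contDiff (h : ContDiff ℝ ∞ v) (hU : IsOpen U) : LocLip U v :=
  of_contDiffOn hU (h.contDiffOn.of_le (by simp))

theorem const (hU : IsOpen U) (c : ℝ) : LocLip U fun _ => c := of_contDiff contDiff_const hU

/-- on a neighbourhood of a compact set `v` agrees with a Lipschitz function. -/
theorem exists_global (hU : IsOpen U) (h : LocLip U v) {C : Set ℂ} (hC : IsCompact C)
    (hCU : C ⊆ U) : ∃ (V : Set ℂ) (M : ℝ≥0) (f : ℂ → ℝ), IsOpen V ∧ C ⊆ V ∧ closure V ⊆ U ∧
      IsCompact (closure V) ∧ LipschitzWith M f ∧ EqOn v f (closure V) := by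
  obtain ⟨V, hVo, hCV, hVU, hVc⟩ := exists_open_between_and_isCompact_closure hC hU hCU
  obtain ⟨M, hM⟩ := (h.locallyLipschitzOn.mono hVU).exists_lipschitzOnWith_of_compact hVc
  obtain ⟨f, hf, he⟩ := hM.extend_real
  exact ⟨V, M, f, hVo, hCV, hVU, hVc, hf, he⟩

theorem exists_bound (hU : IsOpen U) (h : LocLip U v) {C : Set ℂ} (hC : IsCompact C)
    (hCU : C ⊆ U) : ∃ M : ℝ, ∀ z ∈ C, ‖grad v z‖ ≤ M := by
  obtain ⟨V, M, f, hVo, hCV, -, -, hf, he⟩ := h.exists_global hU hC hCU
  refine ⟨M, fun z hz => ?_⟩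
  have : v =ᶠ[𝓝 z] f := by
    filter_upwards [hVo.mem_nhds (hCV hz)] with y hy using he (subset_closure hy)
  rw [grad_congr this, norm_grad]
  exact norm_fderiv_le_of_lipschitz ℝ hf

theorem ae_diff (_hU : IsOpen U) (h : LocLip U v) :
    ∀ᵐ z, z ∈ U → DifferentiableAt ℝ v z := by
  -- countable cover by balls on which `v` is Lipschitz
  have hloc : ∀ z ∈ U, ∃ s ∈ 𝓝[U] z, ∀ᵐ y ∂(volume : Measure ℂ), y ∈ s → DifferentiableAt ℝ v y := by
    intro z hz
    obtain ⟨M, r, hr, hrU, hL⟩ := h z hz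
    refine ⟨ball z r, mem_nhdsWithin_of_mem_nhds (ball_mem_nhds z hr), ?_⟩
    filter_upwards [hL.ae_differentiableWithinAt_of_mem (μ := (volume : Measure ℂ))] with y hy hyb
    exact (hy hyb).differentiableAt (isOpen_ball.mem_nhds hyb)
  choose! s hs hs' using hloc
  obtain ⟨T, hTU, hTc, hT⟩ := TopologicalSpace.countable_cover_nhdsWithin hs
  have : ∀ᵐ y ∂(volume : Measure ℂ), ∀ z ∈ T, y ∈ s z → DifferentiableAt ℝ v y :=
    (ae_ball_iff hTc).2 fun z hz => hs' z (hTU hz)
  filter_upwards [this] with y hy hyU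
  obtain ⟨z, hz, hyz⟩ := mem_iUnion₂.1 (hT hyU)
  exact hy z hz hyz

theorem isWeakGrad (hU : IsOpen U) (h : LocLip U v) : IsWeakGrad U v (grad v) := by
  refine isWeakGrad_of_test fun φ h1 h2 h3 d => ?_
  obtain ⟨V, M, f, hVo, hCV, hVU, -, hf, he⟩ := h.exists_global hU h2 h3
  obtain ⟨D, hD⟩ := (h1.of_le (m := 1) (by simp)).lipschitzWith_of_hasCompactSupport h2 (by simp)
  have key := hf.integral_lineDeriv_mul_eq (μ := (volume : Measure ℂ)) hD h2 d
  have e1 : ∫ z, lineDeriv ℝ φ z (-d) * f z = - ∫ z, v z * fderiv ℝ φ z d := by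
    rw [← integral_neg]
    refine integral_congr_ae (Eventually.of_forall fun z => ?_)
    simp only
    rw [((h1.differentiable (by simp)) z).lineDeriv_eq_fderiv, map_neg]
    by_cases hz : z ∈ tsupport φ
    · rw [he (subset_closure (hCV hz))]; ring
    · have : fderiv ℝ φ z = 0 := by
        by_contra hne
        exact hz (support_fderiv_subset ℝ (f := φ) hne)
      rw [this]; simp
  have e2 : ∫ z, lineDeriv ℝ f z d * φ z = ∫ z, inner ℝ (grad v z) d * φ z := by
    refine integral_congr_ae ?_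
    filter_upwards [hf.ae_differentiableAt (μ := (volume : Measure ℂ))] with z hz
    by_cases hz' : z ∈ tsupport φ
    · have : v =ᶠ[𝓝 z] f := by
        filter_upwards [hVo.mem_nhds (hCV hz')] with y hy using he (subset_closure hy)
      rw [grad_congr this, inner_grad, hz.lineDeriv_eq_fderiv]
    · rw [image_eq_zero_of_notMem_tsupport hz']; simp
  rw [← e2, key, e1, neg_neg]

theorem w12loc (hU : IsOpen U) (h : LocLip U v) : W12loc U v (grad v) := by
  refine ⟨fun C hC hCU => memLp_of_contOn hC (h.continuousOn.mono hCU), fun C hC hCU => ?_,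
    h.isWeakGrad hU⟩
  obtain ⟨M, hM⟩ := h.exists_bound hU hC hCU
  have : IsFiniteMeasure (volume.restrict C : Measure ℂ) :=
    ⟨by rw [Measure.restrict_apply_univ]; exact hC.measure_lt_top⟩
  exact MemLp.of_bound (measurable_grad v).aestronglyMeasurable M
    ((ae_restrict_iff' hC.measurableSet).2 (Eventually.of_forall fun z hz => hM z hz))

theorem add (hv : LocLip U v) (hw : LocLip U w) : LocLip U fun z => v z + w z := by
  intro z hz
  obtain ⟨M, r, hr, hrU, hL⟩ := hv z hz
  obtain ⟨N, s, hs, hsU, hL'⟩ := hw z hz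
  exact ⟨M + N, min r s, lt_min hr hs, (ball_subset_ball (min_le_left _ _)).trans hrU,
    (hL.mono (ball_subset_ball (min_le_left _ _))).add
      (hL'.mono (ball_subset_ball (min_le_right _ _)))⟩

theorem neg (hv : LocLip U v) : LocLip U fun z => - v z := by
  intro z hz
  obtain ⟨M, r, hr, hrU, hL⟩ := hv z hz
  exact ⟨M, r, hr, hrU, hL.neg⟩

theorem sub (hv : LocLip U v) (hw : LocLip U w) : LocLip U fun z => v z - w z := by
  simpa only [sub_eq_add_neg] using hv.add hw.neg

theorem mul (hv : LocLip U v) (hw : LocLip U w) : LocLip U fun z => v z * w z := by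
  intro z hz
  obtain ⟨M, r, hr, hrU, hL⟩ := hv z hz
  obtain ⟨N, s, hs, hsU, hL'⟩ := hw z hz
  -- bounds near `z`
  obtain ⟨t, ht, htb⟩ := Metric.mem_nhds_iff.1 ((hL.continuousOn.continuousAt
    (ball_mem_nhds z hr)).norm.eventually (gt_mem_nhds (lt_add_one ‖v z‖)))
  obtain ⟨t', ht', htb'⟩ := Metric.mem_nhds_iff.1 ((hL'.continuousOn.continuousAt
    (ball_mem_nhds z hs)).norm.eventually (gt_mem_nhds (lt_add_one ‖w z‖)))
  set ρ := min (min r s) (min t t') with hρ
  have hr1 : ρ ≤ r := (min_le_left _ _).trans (min_le_left _ _)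
  have hr2 : ρ ≤ s := (min_le_left _ _).trans (min_le_right _ _)
  have hr3 : ρ ≤ t := (min_le_right _ _).trans (min_le_left _ _)
  have hr4 : ρ ≤ t' := (min_le_right _ _).trans (min_le_right _ _)
  refine ⟨M * (‖w z‖₊ + 1) + N * (‖v z‖₊ + 1), ρ, by positivity,
    (ball_subset_ball hr1).trans hrU, ?_⟩
  refine LipschitzOnWith.of_dist_le_mul fun x hx y hy => ?_
  have h1 := hL.dist_le_mul x (ball_subset_ball hr1 hx) y (ball_subset_ball hr1 hy)
  have h2 := hL'.dist_le_mul x (ball_subset_ball hr2 hx) y (ball_subset_ball hr2 hy)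
  have h3 : ‖w x‖ < ‖w z‖ + 1 := htb' (ball_subset_ball hr4 hx)
  have h4 : ‖v y‖ < ‖v z‖ + 1 := htb (ball_subset_ball hr3 hy)
  rw [Real.dist_eq] at h1 h2 ⊢
  rw [Real.norm_eq_abs] at h3 h4
  have e : v x * w x - v y * w y = (v x - v y) * w x + v y * (w x - w y) := by ring
  rw [e]
  push_cast
  rw [Real.norm_eq_abs, Real.norm_eq_abs] at *
  calc |(v x - v y) * w x + v y * (w x - w y)|
      ≤ |v x - v y| * |w x| + |v y| * |w x - w y| := by
        rw [← abs_mul, ← abs_mul]; exact abs_add_le _ _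
    _ ≤ (M * dist x y) * (|w z| + 1) + (|v z| + 1) * (N * dist x y) := by
        gcongr
    _ = (M * (|w z| + 1) + N * (|v z| + 1)) * dist x y := by ring

theorem const_mul (hU : IsOpen U) (hv : LocLip U v) (c : ℝ) : LocLip U fun z => c * v z :=
  (const hU c).mul hv

theorem comp_lipschitz (hv : LocLip U v) {F : ℝ → ℝ} {N : ℝ≥0} (hF : LipschitzWith N F) :
    LocLip U fun z => F (v z) := by
  intro z hz
  obtain ⟨M, r, hr, hrU, hL⟩ := hv z hz
  exact ⟨N * M, r, hr, hrU, hF.comp_lipschitzOnWith hL⟩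

theorem translate (hv : LocLip U v) (t : ℂ) :
    LocLip ((fun z => z - t) ⁻¹' U) fun z => v (z - t) := by
  intro z hz
  obtain ⟨M, r, hr, hrU, hL⟩ := hv (z - t) hz
  have hb : ∀ y ∈ ball z r, y - t ∈ ball (z - t) r := by
    intro y hy
    rw [mem_ball, dist_sub_right]; exact hy
  refine ⟨M, r, hr, fun y hy => hrU (hb y hy), fun x hx y hy => ?_⟩
  have := hL (hb x hx) (hb y hy)
  rwa [edist_sub_right] at this

end LocLip

end Vale.Agent.P128.GM
end

section

open MeasureTheory Set Metric Filter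
open scoped ENNReal NNReal ContDiff Topology Real

namespace Vale.Agent.P128.GM

open Vale.Agent.P128

noncomputable def un (u : ℂ → ℝ) (s θ : ℝ) : ℝ :=
  inner ℝ (grad u (circleMap 0 s θ)) (Complex.exp (θ * Complex.I))

noncomputable def ut (u : ℂ → ℝ) (s θ : ℝ) : ℝ :=
  inner ℝ (grad u (circleMap 0 s θ)) (Complex.I * Complex.exp (θ * Complex.I))

/-- `∫_{∂B_s} |∂_ν u|²` -/
noncomputable def NN (u : ℂ → ℝ) (s : ℝ) : ℝ := s * ∫ θ in (-π)..π, un u s θ ^ 2

/-- `∫_{∂B_s} |∂_τ u|²` -/
noncomputable def TT (u : ℂ → ℝ) (s : ℝ) : ℝ := s * ∫ θ in (-π)..π, ut u s θ ^ 2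

theorem inner_sq_add (g : ℂ) (θ : ℝ) :
    (inner ℝ g (Complex.exp (θ * Complex.I)) : ℝ) ^ 2 +
      (inner ℝ g (Complex.I * Complex.exp (θ * Complex.I)) : ℝ) ^ 2 = ‖g‖ ^ 2 := by
  have h1 : (Complex.exp (θ * Complex.I)).re = Real.cos θ := by
    simp [Complex.exp_ofReal_mul_I_re]
  have h2 : (Complex.exp (θ * Complex.I)).im = Real.sin θ := by
    simp [Complex.exp_ofReal_mul_I_im]
  rw [inner_eq, inner_eq, Complex.sq_norm, Complex.normSq_apply]
  simp only [Complex.mul_re, Complex.mul_im, Complex.I_re, Complex.I_im, h1, h2]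
  nlinarith [Real.sin_sq_add_cos_sq θ]

theorem un_sq_add_ut_sq (u : ℂ → ℝ) (s θ : ℝ) :
    un u s θ ^ 2 + ut u s θ ^ 2 = ‖grad u (circleMap 0 s θ)‖ ^ 2 := inner_sq_add _ _

theorem measurable_un (u : ℂ → ℝ) (s : ℝ) : Measurable (un u s) := by
  unfold un
  have h1 : Measurable fun θ : ℝ => grad u (circleMap 0 s θ) :=
    (measurable_grad u).comp (continuous_circleMap 0 s).measurable
  exact h1.inner (by fun_prop)

theorem measurable_ut (u : ℂ → ℝ) (s : ℝ) : Measurable (ut u s) := by
  unfold ut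
  have h1 : Measurable fun θ : ℝ => grad u (circleMap 0 s θ) :=
    (measurable_grad u).comp (continuous_circleMap 0 s).measurable
  exact h1.inner (by fun_prop)

theorem NN_nonneg (u : ℂ → ℝ) {s : ℝ} (hs : 0 ≤ s) : 0 ≤ NN u s := by
  unfold NN
  refine mul_nonneg hs (intervalIntegral.integral_nonneg (by linarith [Real.pi_pos]) ?_)
  intro θ _
  positivity

theorem TT_nonneg (u : ℂ → ℝ) {s : ℝ} (hs : 0 ≤ s) : 0 ≤ TT u s := by
  unfold TT
  refine mul_nonneg hs (intervalIntegral.integral_nonneg (by linarith [Real.pi_pos]) ?_)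
  intro θ _
  positivity

theorem polar_ae {u : ℂ → ℝ} (hi : ∀ R : ℝ, IntegrableOn (fun z => ‖grad u z‖ ^ 2) (ball 0 R)) :
    ∀ᵐ s : ℝ, 0 < s → IntegrableOn (fun θ => ‖grad u (circleMap 0 s θ)‖ ^ 2) ang := by
  have h : ∀ n : ℕ, ∀ᵐ s : ℝ, 0 < s → s < n →
      IntegrableOn (fun θ => ‖grad u (circleMap 0 s θ)‖ ^ 2) ang := by
    intro n
    have hFm : Measurable ((ball (0 : ℂ) n).indicator fun z => ‖grad u z‖ ^ 2) :=
      ((measurable_grad u).norm.pow_const 2).indicator measurableSet_ball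
    have hF : Integrable ((ball (0 : ℂ) n).indicator fun z => ‖grad u z‖ ^ 2) :=
      (integrable_indicator_iff measurableSet_ball).mpr (hi n)
    filter_upwards [ae_integrable_circle 0 hFm hF] with s hs hs0 hsn
    refine (hs hs0).congr (Eventually.of_forall fun θ => ?_)
    simp only
    rw [indicator_of_mem]
    rw [mem_ball_zero_iff, norm_circleMap_zero, abs_of_pos hs0]
    exact hsn
  rw [← ae_all_iff] at h
  filter_upwards [h] with s hs hs0
  obtain ⟨n, hn⟩ := exists_nat_gt s
  exact hs n hs0 hn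

theorem NN_add_TT {u : ℂ → ℝ} {s : ℝ}
    (h : IntegrableOn (fun θ => ‖grad u (circleMap 0 s θ)‖ ^ 2) ang) :
    NN u s + TT u s = s * ∫ θ in ang, ‖grad u (circleMap 0 s θ)‖ ^ 2 := by
  have hpi : (-π) ≤ π := by linarith [Real.pi_pos]
  have h1 : IntegrableOn (fun θ => un u s θ ^ 2) ang := by
    refine Integrable.mono' h ((measurable_un u s).pow_const 2).aestronglyMeasurable ?_
    refine Eventually.of_forall fun θ => ?_
    rw [Real.norm_of_nonneg (by positivity), ← un_sq_add_ut_sq]
    linarith only [sq_nonneg (ut u s θ)]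
  have h2 : IntegrableOn (fun θ => ut u s θ ^ 2) ang := by
    refine Integrable.mono' h ((measurable_ut u s).pow_const 2).aestronglyMeasurable ?_
    refine Eventually.of_forall fun θ => ?_
    rw [Real.norm_of_nonneg (by positivity), ← un_sq_add_ut_sq]
    nlinarith [sq_nonneg (un u s θ)]
  unfold NN TT
  rw [intervalIntegral.integral_of_le hpi, intervalIntegral.integral_of_le hpi,
    integral_Ioc_eq_integral_Ioo, integral_Ioc_eq_integral_Ioo, ← mul_add,
    ← integral_add h1 h2]
  simp only [un_sq_add_ut_sq]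

theorem polar_of_integrable {u : ℂ → ℝ}
    (hi : ∀ R : ℝ, IntegrableOn (fun z => ‖grad u z‖ ^ 2) (ball 0 R)) {a b : ℝ} (ha : 0 < a)
    (hab : a ≤ b) :
    IntervalIntegrable (fun s => NN u s + TT u s) volume a b ∧
      En u b - En u a = ∫ s in a..b, (NN u s + TT u s) := by
  set S : Set ℂ := ball 0 b \ ball 0 a with hS
  have hSm : MeasurableSet S := measurableSet_ball.diff measurableSet_ball
  set F : ℂ → ℝ := S.indicator fun z => ‖grad u z‖ ^ 2 with hFdef
  have hFm : Measurable F := ((measurable_grad u).norm.pow_const 2).indicator hSm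
  have hF : Integrable F :=
    (integrable_indicator_iff hSm).mpr ((hi b).mono_set sdiff_subset)
  have hval : ∀ s : ℝ, 0 < s → ∀ θ : ℝ, F (circleMap 0 s θ) =
      (Ico a b).indicator (fun s => ‖grad u (circleMap 0 s θ)‖ ^ 2) s := by
    intro s hs θ
    have hn : ‖circleMap 0 s θ‖ = s := by rw [norm_circleMap_zero, abs_of_pos hs]
    by_cases h : s ∈ Ico a b
    · rw [indicator_of_mem h, hFdef, indicator_of_mem]
      refine ⟨?_, ?_⟩
      · rw [mem_ball_zero_iff, hn]; exact h.2
      · rw [mem_ball_zero_iff, hn]; exact not_lt.mpr h.1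
    · rw [indicator_of_notMem h, hFdef, indicator_of_notMem]
      rintro ⟨h1, h2⟩
      rw [mem_ball_zero_iff, hn] at h1 h2
      exact h ⟨not_lt.mp h2, h1⟩
  have hint : ∀ s : ℝ, 0 < s → ∫ θ in ang, F (circleMap 0 s θ) =
      (Ico a b).indicator (fun s => ∫ θ in ang, ‖grad u (circleMap 0 s θ)‖ ^ 2) s := by
    intro s hs
    by_cases h : s ∈ Ico a b
    · simp only [hval s hs, indicator_of_mem h]
    · simp only [hval s hs, indicator_of_notMem h]
      simp
  have hae := polar_ae hi
  have hsub : Ico a b ⊆ Ioi (0 : ℝ) := fun s hs => lt_of_lt_of_le ha hs.1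
  have h1 : Integrable (fun s : ℝ => ∫ θ in ang, s * F (circleMap 0 s θ))
      (volume.restrict (Ioi 0)) := (integrable_polar 0 hFm hF).integral_prod_left
  have h2 : (fun s : ℝ => ∫ θ in ang, s * F (circleMap 0 s θ)) =ᵐ[volume.restrict (Ioi 0)]
      (Ico a b).indicator (fun s => NN u s + TT u s) := by
    rw [Filter.EventuallyEq, ae_restrict_iff' measurableSet_Ioi]
    filter_upwards [hae] with s hs hs0
    rw [integral_const_mul, hint s hs0]
    by_cases h : s ∈ Ico a b
    · rw [indicator_of_mem h, indicator_of_mem h, NN_add_TT (hs hs0)]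
    · rw [indicator_of_notMem h, indicator_of_notMem h, mul_zero]
  have h3 : IntegrableOn (fun s => NN u s + TT u s) (Ico a b) := by
    have h4 := h1.congr h2
    rw [integrable_indicator_iff measurableSet_Ico] at h4
    rw [IntegrableOn, Measure.restrict_restrict measurableSet_Ico] at h4
    rwa [inter_eq_left.mpr hsub] at h4
  refine ⟨?_, ?_⟩
  · rw [intervalIntegrable_iff_integrableOn_Ico_of_le hab]
    exact h3
  · have h5 := integral_polar 0 hFm hF
    have h6 : ∫ z, F z = En u b - En u a := by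
      rw [hFdef, integral_indicator hSm, hS]
      unfold En
      rw [setIntegral_sdiff measurableSet_ball (hi b) (ball_subset_ball hab)]
    rw [← h6, h5, intervalIntegral.integral_of_le hab, integral_Ioc_eq_integral_Ioo,
      ← integral_Ico_eq_integral_Ioo]
    have h7 : ∫ s in Ioi (0 : ℝ), s * ∫ θ in ang, F (circleMap 0 s θ) =
        ∫ s in Ioi (0 : ℝ), (Ico a b).indicator (fun s => NN u s + TT u s) s := by
      refine integral_congr_ae (h2.symm.trans (Eventually.of_forall fun s => ?_)).symm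
      simp only [integral_const_mul]
    rw [h7, setIntegral_indicator measurableSet_Ico]
    rw [inter_eq_right.mpr hsub]

end Vale.Agent.P128.GM
end

section

/-! Basic facts on global minimizers and comparison with locally Lipschitz competitors. -/

open MeasureTheory Set Metric Filter
open scoped ENNReal NNReal ContDiff Topology Real

namespace Vale.Agent.P128.GM

open Vale.Agent.P128

/-- Sets of finite length have zero area. -/
theorem volume_eq_zero_of_hausdorff {S : Set ℂ} (h : μH[1] S ≠ ⊤) :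
    volume S = 0 := by
  have h2 : μH[2] S = 0 := (Measure.hausdorffMeasure_zero_or_top (by norm_num : (1 : ℝ) < 2) S).resolve_right h
  set e : ℂ → (Fin 2 → ℝ) := ⇑Complex.measurableEquivPi with he
  have hlip : LipschitzWith 1 e := by
    refine LipschitzWith.of_dist_le_mul fun z w => ?_
    rw [NNReal.coe_one, one_mul, dist_pi_le_iff dist_nonneg]
    intro i
    rw [Real.dist_eq, Complex.dist_eq]
    fin_cases i
    · have := Complex.abs_re_le_norm (z - w)
      simpa [he, Complex.measurableEquivPi_apply] using this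
    · have := Complex.abs_im_le_norm (z - w)
      simpa [he, Complex.measurableEquivPi_apply] using this
  have h3 := hlip.hausdorffMeasure_image_le (d := 2) (by norm_num) S
  rw [h2, mul_zero] at h3
  have h4 : μH[((Fintype.card (Fin 2) : ℕ) : ℝ)] (e '' S) = 0 := by
    have : ((Fintype.card (Fin 2) : ℕ) : ℝ) = 2 := by simp
    rw [this]; exact le_antisymm h3 bot_le
  rw [hausdorffMeasure_pi_real] at h4
  have h5 := Complex.volume_preserving_equiv_pi.symm.measure_preimage_equiv S
  rw [← h5]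
  have : (Complex.measurableEquivPi.symm : (Fin 2 → ℝ) → ℂ) ⁻¹' S = e '' S := by
    rw [he]
    exact (Complex.measurableEquivPi.image_eq_preimage_symm S).symm
  rw [this, h4]

/-- Closed sets of locally finite length have zero area. -/
theorem vol_zero_of_len {K : Set ℂ} (_hK : IsClosed K)
    (h : ∀ R : ℝ, μH[1] (K ∩ ball 0 R) < ⊤) : volume K = 0 := by
  have : K = ⋃ n : ℕ, K ∩ ball 0 (n : ℝ) := by
    rw [← inter_iUnion, iUnion_ball_nat, inter_univ]
  rw [this]
  exact measure_iUnion_null fun n => volume_eq_zero_of_hausdorff (h n).ne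

namespace IsGlobalMin

variable {u v : ℂ → ℝ} {G H : ℂ → ℂ} {K L : Set ℂ}

theorem len_fin (h : IsGlobalMin u G K) (x : ℂ) (r : ℝ) : μH[1] (K ∩ ball x r) ≠ ⊤ :=
  (lt_of_le_of_lt le_add_self (h.finite x r)).ne

theorem en_fin (h : IsGlobalMin u G K) (x : ℂ) (r : ℝ) :
    ∫⁻ z in ball x r \ K, ENNReal.ofReal (‖G z‖ ^ 2) ≠ ⊤ :=
  (lt_of_le_of_lt le_self_add (h.finite x r)).ne

theorem volume_zero (h : IsGlobalMin u G K) : volume K = 0 := by
  have : K = ⋃ n : ℕ, K ∩ ball 0 (n : ℝ) := by
    rw [← inter_iUnion, iUnion_ball_nat, inter_univ]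
  rw [this]
  exact measure_iUnion_null fun n => volume_eq_zero_of_hausdorff (h.len_fin 0 n)

theorem ae_compl (h : IsGlobalMin u G K) : ∀ᵐ z : ℂ, z ∉ K := by
  rw [ae_iff]; simpa using h.volume_zero

theorem restrict_compl (h : IsGlobalMin u G K) (V : Set ℂ) :
    volume.restrict (V \ K) = (volume.restrict V : Measure ℂ) := by
  rw [Measure.restrict_congr_set]
  exact sdiff_null_ae_eq_self h.volume_zero

theorem compare (h : IsGlobalMin u G K) (hc : IsPreconnected Kᶜ) {x : ℂ} {r : ℝ} {C : Set ℂ}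
    (hL : IsClosed L) (hv : W12loc Lᶜ v H) (hC : IsCompact C) (hCb : C ⊆ ball x r)
    (hLK : symmDiff L K ⊆ C) (hvu : ∀ᵐ z : ℂ, z ∉ C → v z = u z) :
    genergy G K (ball x r) ≤ genergy H L (ball x r) := by
  refine h.minimal x r v H L hL hv ⟨C, hC, hCb, hLK, hvu⟩ fun p q hp hq hpq => ?_
  exfalso
  apply hpq
  rw [mem_union, not_or] at hp hq
  rw [hc.connectedComponentIn hp.2]
  exact hq.2

end IsGlobalMin

namespace GMin

variable {u v : ℂ → ℝ} {K L : Set ℂ}

theorem closed (h : GMin u K) : IsClosed K := h.gm.closed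

theorem isOpen_compl (h : GMin u K) : IsOpen Kᶜ := h.gm.closed.isOpen_compl

theorem volume_zero (h : GMin u K) : volume K = 0 := h.gm.volume_zero

theorem ae_compl (h : GMin u K) : ∀ᵐ z : ℂ, z ∉ K := h.gm.ae_compl

theorem len_fin (h : GMin u K) (x : ℂ) (r : ℝ) : μH[1] (K ∩ ball x r) ≠ ⊤ := h.gm.len_fin x r

theorem locLip (h : GMin u K) : LocLip Kᶜ u := by
  refine LocLip.of_contDiffOn h.isOpen_compl ?_
  exact (InnerProductSpace.HarmonicOnNhd.contDiffOn h.harm).of_le (by norm_num)

theorem lint_fin (h : GMin u K) (x : ℂ) (r : ℝ) :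
    ∫⁻ z in ball x r, ENNReal.ofReal (‖grad u z‖ ^ 2) ≠ ⊤ := by
  have := h.gm.en_fin x r
  rwa [h.gm.restrict_compl] at this

theorem integrableOn' (h : GMin u K) (x : ℂ) (r : ℝ) :
    IntegrableOn (fun z => ‖grad u z‖ ^ 2) (ball x r) := by
  refine ⟨((measurable_grad u).norm.pow_const 2).aestronglyMeasurable, ?_⟩
  rw [hasFiniteIntegral_iff_norm]
  refine lt_of_le_of_lt (lintegral_mono fun z => ?_) (lt_top_iff_ne_top.2 (h.lint_fin x r))
  rw [Real.norm_of_nonneg (by positivity)]

theorem memLp (h : GMin u K) (x : ℂ) (r : ℝ) :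
    MemLp (grad u) 2 (volume.restrict (ball x r)) := by
  rw [memLp_two_iff_integrable_sq_norm (measurable_grad u).aestronglyMeasurable]
  exact h.integrableOn' x r

/-- Comparison with locally Lipschitz competitors, extended form. -/
theorem compare_gen (h : GMin u K) {x : ℂ} {r : ℝ} {C : Set ℂ}
    (hL : IsClosed L) (hv : LocLip Lᶜ v) (hC : IsCompact C) (hCb : C ⊆ ball x r)
    (hLK : symmDiff L K ⊆ C) (hvu : ∀ z ∉ C, z ∉ K → v z = u z) :
    genergy (grad u) K (ball x r) ≤ genergy (grad v) L (ball x r) :=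
  h.gm.compare h.conn hL (hv.w12loc hL.isOpen_compl) hC hCb hLK
    (h.ae_compl.mono fun z hz hzC => hvu z hzC hz)

theorem lintegral_grad {f : ℂ → ℝ} {S : Set ℂ} (hf : IntegrableOn (fun z => ‖grad f z‖ ^ 2) S) :
    ∫⁻ z in S, ENNReal.ofReal (‖grad f z‖ ^ 2) = ENNReal.ofReal (∫ z in S, ‖grad f z‖ ^ 2) :=
  (ofReal_integral_eq_lintegral_ofReal hf (Eventually.of_forall fun _ => by positivity)).symm

/-- Comparison with locally Lipschitz competitors, real form. -/
theorem compare_real (h : GMin u K) {x : ℂ} {r : ℝ} {C : Set ℂ}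
    (hL : IsClosed L) (hv : LocLip Lᶜ v) (hC : IsCompact C) (hCb : C ⊆ ball x r)
    (hLK : symmDiff L K ⊆ C) (hvu : ∀ z ∉ C, z ∉ K → v z = u z)
    (hint : IntegrableOn (fun z => ‖grad v z‖ ^ 2) (ball x r))
    (hlen : μH[1] (L ∩ ball x r) ≠ ⊤) :
    (∫ z in ball x r, ‖grad u z‖ ^ 2) + (μH[1] (K ∩ ball x r)).toReal ≤
      (∫ z in ball x r, ‖grad v z‖ ^ 2) + (μH[1] (L ∩ ball x r)).toReal := by
  have key := h.compare_gen hL hv hC hCb hLK hvu
  unfold genergy at key
  rw [h.gm.restrict_compl, lintegral_grad (h.integrableOn' x r)] at key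
  have h2 : ∫⁻ z in ball x r \ L, ENNReal.ofReal (‖grad v z‖ ^ 2) ≤
      ENNReal.ofReal (∫ z in ball x r, ‖grad v z‖ ^ 2) := by
    rw [← lintegral_grad hint]
    exact lintegral_mono_set sdiff_subset
  have h3 := key.trans (add_le_add_left h2 _)
  rw [← ENNReal.ofReal_toReal (h.len_fin x r), ← ENNReal.ofReal_toReal hlen,
    ← ENNReal.ofReal_add (by positivity) (by positivity),
    ← ENNReal.ofReal_add (by positivity) (by positivity)] at h3
  exact (ENNReal.ofReal_le_ofReal_iff (by positivity)).1 h3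

theorem vol_zero (h : GMin u K) : volume K = 0 := h.volume_zero

theorem integrableOn (h : GMin u K) (R : ℝ) :
    IntegrableOn (fun z => ‖grad u z‖ ^ 2) (ball 0 R) := h.integrableOn' 0 R

theorem len_lt (h : GMin u K) (R : ℝ) : μH[1] (K ∩ ball 0 R) < ⊤ :=
  lt_top_iff_ne_top.2 (h.len_fin 0 R)

/-- Comparison in a disk about the origin. -/
theorem compare (h : GMin u K) {R : ℝ} {v : ℂ → ℝ} {L : Set ℂ} (hL : IsClosed L)
    (hv : LocLip Lᶜ v) (hfin : IntegrableOn (fun z => ‖grad v z‖ ^ 2) (ball 0 R))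
    (hlen : μH[1] (L ∩ ball 0 R) < ⊤)
    (hC : ∃ C, IsCompact C ∧ C ⊆ ball 0 R ∧ symmDiff L K ⊆ C ∧ ∀ z, z ∉ C → z ∉ K → v z = u z) :
    En u R + Len K R ≤ En v R + Len L R := by
  obtain ⟨C, h1, h2, h3, h4⟩ := hC
  exact h.compare_real hL hv h1 h2 h3 h4 hfin hlen.ne

end GMin

end Vale.Agent.P128.GM
end

section

open MeasureTheory Set Metric Filter InnerProductSpace
open scoped ENNReal NNReal ContDiff Topology Real

namespace Vale.Agent.P128.GM

open Vale.Agent.P128

theorem fderiv_fderiv_apply {f : ℂ → ℝ} {z : ℂ} (h : ContDiffAt ℝ 2 f z) (a b : ℂ) :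
    fderiv ℝ (fun w => fderiv ℝ f w a) z b = fderiv ℝ (fderiv ℝ f) z b a := by
  have h1 : DifferentiableAt ℝ (fderiv ℝ f) z :=
    (h.fderiv_right (m := 1) (by norm_num)).differentiableAt (by norm_num)
  have : (fun w => fderiv ℝ f w a) = fun w => (ContinuousLinearMap.apply ℝ ℝ a) (fderiv ℝ f w) := rfl
  rw [this]
  have h2 := ((ContinuousLinearMap.apply ℝ ℝ a).hasFDerivAt (x := fderiv ℝ f z)).comp z
    h1.hasFDerivAt
  have h3 : HasFDerivAt (fun w => (ContinuousLinearMap.apply ℝ ℝ a) (fderiv ℝ f w))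
      ((ContinuousLinearMap.apply ℝ ℝ a).comp (fderiv ℝ (fderiv ℝ f) z)) z := h2
  rw [h3.fderiv]
  rfl

theorem lap_eq_laplacian {f : ℂ → ℝ} {z : ℂ} (h : ContDiffAt ℝ 2 f z) :
    Laplacian.laplacian f z = lap f z := by
  rw [laplacian_eq_iteratedFDeriv_complexPlane]
  simp only [iteratedFDeriv_two_apply]
  unfold lap
  rw [fderiv_fderiv_apply h, fderiv_fderiv_apply h]
  simp only [Fin.isValue, Matrix.cons_val_zero, Matrix.cons_val_one, Matrix.cons_val_fin_one]

theorem harmonicOnNhd_of_lap {U : Set ℂ} (hU : IsOpen U) {f : ℂ → ℝ} (hf : ContDiffOn ℝ 2 f U)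
    (h : ∀ z ∈ U, lap f z = 0) : HarmonicOnNhd f U := by
  intro z hz
  refine ⟨hf.contDiffAt (hU.mem_nhds hz), ?_⟩
  filter_upwards [hU.mem_nhds hz] with w hw
  rw [lap_eq_laplacian (hf.contDiffAt (hU.mem_nhds hw)), h w hw]
  rfl

theorem HarmonicOnNhd.lap_eq {U : Set ℂ} {f : ℂ → ℝ} (hf : HarmonicOnNhd f U) {z : ℂ}
    (hz : z ∈ U) : lap f z = 0 := by
  obtain ⟨h1, h2⟩ := hf z hz
  rw [← lap_eq_laplacian h1]
  exact h2.self_of_nhds

theorem HarmonicOnNhd.smooth {U : Set ℂ} {f : ℂ → ℝ} (hf : HarmonicOnNhd f U) :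
    ContDiffOn ℝ ∞ f U := fun z hz =>
  (HarmonicAt.analyticAt (hf z hz)).contDiffAt.contDiffWithinAt

theorem grad_re (f : ℂ → ℝ) (z : ℂ) : (grad f z).re = fderiv ℝ f z 1 := rfl
theorem grad_im (f : ℂ → ℝ) (z : ℂ) : (grad f z).im = fderiv ℝ f z Complex.I := rfl

theorem contDiff_fderiv_apply {w : ℂ → ℝ} (hw : ContDiff ℝ ∞ w) (v : ℂ) :
    ContDiff ℝ ∞ (fun z => fderiv ℝ w z v) :=
  (hw.fderiv_right (m := ∞) (by simp)).clm_apply contDiff_const

theorem hasCompactSupport_fderiv_apply {w : ℂ → ℝ} (hw : HasCompactSupport w) (v : ℂ) :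
    HasCompactSupport (fun z => fderiv ℝ w z v) :=
  (hw.fderiv (𝕜 := ℝ)).comp_left (g := fun L : ℂ →L[ℝ] ℝ => L v) rfl

/-- Integration by parts, one direction. -/
theorem ibp {f φ : ℂ → ℝ} (hf : ContDiff ℝ 1 f) (hφ : ContDiff ℝ 1 φ)
    (hc : HasCompactSupport φ) (v : ℂ) :
    ∫ z, f z * fderiv ℝ φ z v = - ∫ z, fderiv ℝ f z v * φ z := by
  have h1 : Continuous fun z => fderiv ℝ f z v := (hf.continuous_fderiv (by simp)).clm_apply continuous_const
  have h2 : Continuous fun z => fderiv ℝ φ z v := (hφ.continuous_fderiv (by simp)).clm_apply continuous_const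
  have h3 : HasCompactSupport (fun z => fderiv ℝ φ z v) := hasCompactSupport_fderiv_apply hc v
  have e := integral_mul_fderiv_eq_neg_fderiv_mul_of_integrable (𝕜 := ℝ) (μ := (volume : Measure ℂ))
    (f := f) (g := φ) (v := v)
    ((h1.mul hφ.continuous).integrable_of_hasCompactSupport hc.mul_left)
    ((hf.continuous.mul h2).integrable_of_hasCompactSupport h3.mul_left)
    ((hf.continuous.mul hφ.continuous).integrable_of_hasCompactSupport hc.mul_left)
    (fun x _ => hf.differentiable (by simp) x) (fun x _ => hφ.differentiable (by simp) x)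
  simpa only using e

/-- Green: integration by parts against a compactly supported smooth function -/
theorem green {w φ : ℂ → ℝ} (hw : ContDiff ℝ ∞ w) (hφ : ContDiff ℝ ∞ φ)
    (hc : HasCompactSupport φ) :
    ∫ z, inner ℝ (grad w z) (grad φ z) = - ∫ z, lap w z * φ z := by
  have e1 := ibp (f := fun z => fderiv ℝ w z 1) (φ := φ)
    ((contDiff_fderiv_apply hw 1).of_le (by simp only [WithTop.one_le_coe, le_top])) (hφ.of_le (by simp only [WithTop.one_le_coe, le_top])) hc 1
  have e2 := ibp (f := fun z => fderiv ℝ w z Complex.I) (φ := φ)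
    ((contDiff_fderiv_apply hw Complex.I).of_le (by simp only [WithTop.one_le_coe, le_top])) (hφ.of_le (by simp only [WithTop.one_le_coe, le_top])) hc Complex.I
  have c1 : ∀ v : ℂ, Continuous fun z => fderiv ℝ φ z v := fun v =>
    (contDiff_fderiv_apply hφ v).continuous
  have c2 : ∀ v : ℂ, Continuous fun z => fderiv ℝ w z v := fun v =>
    (contDiff_fderiv_apply hw v).continuous
  have c3 : ∀ v a : ℂ, Continuous fun z => fderiv ℝ (fun z => fderiv ℝ w z v) z a := fun v a =>
    (contDiff_fderiv_apply (contDiff_fderiv_apply hw v) a).continuous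
  have i1 : Integrable fun z => fderiv ℝ w z 1 * fderiv ℝ φ z 1 :=
    ((c2 1).mul (c1 1)).integrable_of_hasCompactSupport (hasCompactSupport_fderiv_apply hc 1).mul_left
  have i2 : Integrable fun z => fderiv ℝ w z Complex.I * fderiv ℝ φ z Complex.I :=
    ((c2 _).mul (c1 _)).integrable_of_hasCompactSupport
      (hasCompactSupport_fderiv_apply hc Complex.I).mul_left
  have i3 : Integrable fun z => fderiv ℝ (fun w_1 => fderiv ℝ w w_1 1) z 1 * φ z :=
    ((c3 _ _).mul hφ.continuous).integrable_of_hasCompactSupport hc.mul_left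
  have i4 : Integrable fun z => fderiv ℝ (fun w_1 => fderiv ℝ w w_1 Complex.I) z Complex.I * φ z :=
    ((c3 _ _).mul hφ.continuous).integrable_of_hasCompactSupport hc.mul_left
  calc ∫ z, inner ℝ (grad w z) (grad φ z)
      = ∫ z, (fderiv ℝ w z 1 * fderiv ℝ φ z 1 + fderiv ℝ w z Complex.I * fderiv ℝ φ z Complex.I) := by
        refine integral_congr_ae (Eventually.of_forall fun z => ?_)
        simp only [inner_eq, grad_re, grad_im]
    _ = (∫ z, fderiv ℝ w z 1 * fderiv ℝ φ z 1) + ∫ z, fderiv ℝ w z Complex.I * fderiv ℝ φ z Complex.I :=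
        integral_add i1 i2
    _ = -(∫ z, fderiv ℝ (fun w_1 => fderiv ℝ w w_1 1) z 1 * φ z)
        - ∫ z, fderiv ℝ (fun w_1 => fderiv ℝ w w_1 Complex.I) z Complex.I * φ z := by
        rw [e1, e2]; ring
    _ = - ∫ z, lap w z * φ z := by
        unfold lap
        rw [← neg_add', ← integral_add i3 i4]
        congr 1
        refine integral_congr_ae (Eventually.of_forall fun z => ?_)
        simp only []
        ring

end Vale.Agent.P128.GM
end

section

/-! The classical representative of a global minimizer: first variation, Weyl's lemma. -/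

set_option linter.all false

open MeasureTheory Set Metric Filter InnerProductSpace
open scoped ENNReal NNReal ContDiff Topology Real

namespace Vale.Agent.P128.GM

open Vale.Agent.P128

variable {u : ℂ → ℝ} {G : ℂ → ℂ} {K U : Set ℂ}

/-- Integrability against compactly supported continuous functions. -/
theorem clInt {f : ℂ → ℝ} (hf : ∀ C : Set ℂ, IsCompact C → C ⊆ U → MemLp f 2 (volume.restrict C))
    {ψ : ℂ → ℝ} (hψ : Continuous ψ) (hc : HasCompactSupport ψ) (hs : tsupport ψ ⊆ U) :
    Integrable fun z => f z * ψ z := by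
  have h1 : IntegrableOn f (tsupport ψ) := by
    haveI : IsFiniteMeasure (volume.restrict (tsupport ψ) : Measure ℂ) :=
      ⟨by rw [Measure.restrict_apply_univ]; exact hc.isCompact.measure_lt_top⟩
    exact (hf _ hc.isCompact hs).integrable (by norm_num)
  have h2 : IntegrableOn (fun z => f z * ψ z) (tsupport ψ) :=
    h1.mul_continuousOn hψ.continuousOn hc.isCompact
  refine (integrableOn_iff_integrable_of_support_subset fun z hz => ?_).1 h2
  refine subset_tsupport ψ ?_
  rw [Function.mem_support] at hz ⊢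
  exact right_ne_zero_of_mul hz

theorem clInner {G : ℂ → ℂ} {C : Set ℂ} (hG : MemLp G 2 (volume.restrict C)) (v : ℂ) :
    MemLp (fun z => (inner ℝ (G z) v : ℝ)) 2 (volume.restrict C) := by
  have h : (fun z => (inner ℝ (G z) v : ℝ)) = fun z => (G z).re * v.re + (G z).im * v.im := by
    funext z; exact inner_eq _ _
  rw [h]
  exact (hG.re.mul_const v.re).add (hG.im.mul_const v.im)

theorem clTsupp {φ : ℂ → ℝ} (v : ℂ) : tsupport (fun z => fderiv ℝ φ z v) ⊆ tsupport φ := by
  refine closure_minimal (fun z hz => ?_) (isClosed_tsupport φ)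
  refine support_fderiv_subset ℝ (f := φ) ?_
  rw [Function.mem_support] at hz ⊢
  intro h
  exact hz (by rw [h]; rfl)

theorem clMemGrad {φ : ℂ → ℝ} (hφ : ContDiff ℝ ∞ φ) (hc : HasCompactSupport φ) (S : Set ℂ) :
    MemLp (grad φ) 2 (volume.restrict S) := by
  refine ((continuous_grad hφ).memLp_of_hasCompactSupport ?_).restrict S
  refine HasCompactSupport.intro hc.isCompact fun z hz => grad_eq_zero_of_notMem hz

theorem clW12 (h : W12loc U u G) {φ : ℂ → ℝ} (hφ : ContDiff ℝ ∞ φ) (hc : HasCompactSupport φ)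
    (t : ℝ) : W12loc U (fun z => u z + t * φ z) (fun z => G z + t • grad φ z) := by
  refine ⟨fun C hC hCU => ?_, fun C hC hCU => ?_, ?_⟩
  · exact (h.memLp C hC hCU).add
      (((hφ.continuous.memLp_of_hasCompactSupport hc).restrict C).const_mul t)
  · exact (h.grad_memLp C hC hCU).add ((clMemGrad hφ hc C).const_smul t)
  · refine isWeakGrad_of_test fun ψ h1 h2 h3 v => ?_
    have cψ : Continuous fun z => fderiv ℝ ψ z v := (contDiff_fderiv_apply h1 v).continuous
    have sψ : HasCompactSupport fun z => fderiv ℝ ψ z v := hasCompactSupport_fderiv_apply h2 v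
    have i1 : Integrable fun z => u z * fderiv ℝ ψ z v :=
      clInt h.memLp cψ sψ ((clTsupp v).trans h3)
    have i2 : Integrable fun z => φ z * fderiv ℝ ψ z v :=
      (hφ.continuous.mul cψ).integrable_of_hasCompactSupport sψ.mul_left
    have i3 : Integrable fun z => inner ℝ (G z) v * ψ z :=
      clInt (fun C hC hCU => clInner (h.grad_memLp C hC hCU) v) h1.continuous h2 h3
    have cφ : Continuous fun z => fderiv ℝ φ z v := (contDiff_fderiv_apply hφ v).continuous
    have i4 : Integrable fun z => fderiv ℝ φ z v * ψ z :=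
      (cφ.mul h1.continuous).integrable_of_hasCompactSupport h2.mul_left
    have e1 : (∫ z, (u z + t * φ z) * fderiv ℝ ψ z v) =
        (∫ z, u z * fderiv ℝ ψ z v) + t * ∫ z, φ z * fderiv ℝ ψ z v := by
      rw [← integral_const_mul, ← integral_add i1 (i2.const_mul t)]
      refine integral_congr_ae (Eventually.of_forall fun z => ?_)
      simp only []
      ring
    have e2 : (∫ z, inner ℝ (G z + t • grad φ z) v * ψ z) =
        (∫ z, inner ℝ (G z) v * ψ z) + t * ∫ z, fderiv ℝ φ z v * ψ z := by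
      rw [← integral_const_mul, ← integral_add i3 (i4.const_mul t)]
      refine integral_congr_ae (Eventually.of_forall fun z => ?_)
      simp only [inner_add_left, inner_smul_left, conj_trivial, inner_grad]
      ring
    rw [e1, e2, h.weak.test h1 h2 h3 v,
      ibp (hφ.of_le (by simp)) (h1.of_le (by simp)) h2 v]
    ring

/-- First variation. -/
theorem IsGlobalMin.first_variation (h : IsGlobalMin u G K) (hc : IsPreconnected Kᶜ)
    {φ : ℂ → ℝ} (hφ : ContDiff ℝ ∞ φ) (hφc : HasCompactSupport φ) (hs : tsupport φ ⊆ Kᶜ) :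
    ∫ z, (inner ℝ (G z) (grad φ z) : ℝ) = 0 := by
  obtain ⟨r, hr⟩ := hφc.isCompact.isBounded.subset_ball (0 : ℂ)
  set C : Set ℂ := tsupport φ with hC
  have hCm : MeasurableSet C := (isClosed_tsupport φ).measurableSet
  have hG : MemLp G 2 (volume.restrict C) := h.sobolev.grad_memLp C hφc.isCompact hs
  have hφ2 : MemLp (grad φ) 2 (volume.restrict C) := clMemGrad hφ hφc C
  have hCB : (ball (0 : ℂ) r \ K) ∩ C = C := by
    refine inter_eq_right.2 fun z hz => ⟨hr hz, hs hz⟩
  -- comparison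
  have key : ∀ t : ℝ, ∫ z in C, ‖G z‖ ^ 2 ≤ ∫ z in C, ‖G z + t • grad φ z‖ ^ 2 := by
    intro t
    have h1 := h.compare (x := 0) (r := r) (C := C) hc h.closed (clW12 h.sobolev hφ hφc t)
      hφc.isCompact hr (by simp) (Eventually.of_forall fun z hz => by
        rw [image_eq_zero_of_notMem_tsupport hz]; ring)
    unfold genergy at h1
    have h2 := (ENNReal.add_le_add_iff_right (h.len_fin 0 r)).1 h1
    rw [← lintegral_inter_add_sdiff (fun z => ENNReal.ofReal (‖G z‖ ^ 2)) (ball (0 : ℂ) r \ K) hCm,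
      ← lintegral_inter_add_sdiff (fun z => ENNReal.ofReal (‖G z + t • grad φ z‖ ^ 2))
        (ball (0 : ℂ) r \ K) hCm, hCB] at h2
    have h3 : ∫⁻ z in (ball (0 : ℂ) r \ K) \ C, ENNReal.ofReal (‖G z + t • grad φ z‖ ^ 2) =
        ∫⁻ z in (ball (0 : ℂ) r \ K) \ C, ENNReal.ofReal (‖G z‖ ^ 2) := by
      refine setLIntegral_congr_fun
        (((measurableSet_ball).diff h.closed.measurableSet).diff hCm) fun z hz => ?_
      rw [grad_eq_zero_of_notMem hz.2, smul_zero, add_zero]
    rw [h3] at h2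
    have hfin : ∫⁻ z in (ball (0 : ℂ) r \ K) \ C, ENNReal.ofReal (‖G z‖ ^ 2) ≠ ⊤ :=
      ne_top_of_le_ne_top (h.en_fin 0 r) (lintegral_mono_set sdiff_subset)
    have h4 := (ENNReal.add_le_add_iff_right hfin).1 h2
    have i1 : Integrable (fun z => ‖G z‖ ^ 2) (volume.restrict C) :=
      hG.integrable_norm_pow (by norm_num)
    have i2 : Integrable (fun z => ‖G z + t • grad φ z‖ ^ 2) (volume.restrict C) :=
      (hG.add (hφ2.const_smul t)).integrable_norm_pow (by norm_num)
    rw [← ofReal_integral_eq_lintegral_ofReal i1 (Eventually.of_forall fun _ => by positivity),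
      ← ofReal_integral_eq_lintegral_ofReal i2 (Eventually.of_forall fun _ => by positivity)] at h4
    exact (ENNReal.ofReal_le_ofReal_iff (by positivity)).1 h4
  have i1 : Integrable (fun z => ‖G z‖ ^ 2) (volume.restrict C) :=
    hG.integrable_norm_pow (by norm_num)
  have i2 : Integrable (fun z => (inner ℝ (G z) (grad φ z) : ℝ)) (volume.restrict C) := by
    have e : (fun z => (inner ℝ (G z) (grad φ z) : ℝ)) =
        fun z => (G z).re * (grad φ z).re + (G z).im * (grad φ z).im := by
      funext z; exact inner_eq _ _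
    rw [e]
    exact (hG.re.integrable_mul hφ2.re).add (hG.im.integrable_mul hφ2.im)
  have i3 : Integrable (fun z => ‖grad φ z‖ ^ 2) (volume.restrict C) :=
    hφ2.integrable_norm_pow (by norm_num)
  set a : ℝ := ∫ z in C, (inner ℝ (G z) (grad φ z) : ℝ) with ha
  set b : ℝ := ∫ z in C, ‖grad φ z‖ ^ 2 with hb
  have hb0 : 0 ≤ b := integral_nonneg fun _ => by positivity
  have key2 : ∀ t : ℝ, 0 ≤ 2 * t * a + t ^ 2 * b := by
    intro t
    have h1 := key t
    have e : (∫ z in C, ‖G z + t • grad φ z‖ ^ 2) =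
        (∫ z in C, ‖G z‖ ^ 2) + (2 * t) * a + t ^ 2 * b := by
      have i4 : Integrable (fun z => ‖G z‖ ^ 2 + 2 * t * (inner ℝ (G z) (grad φ z) : ℝ))
          (volume.restrict C) := i1.add (i2.const_mul _)
      rw [ha, hb, ← integral_const_mul, ← integral_const_mul, ← integral_add i1 (i2.const_mul _),
        ← integral_add i4 (i3.const_mul _)]
      refine integral_congr_ae (Eventually.of_forall fun z => ?_)
      simp only []
      rw [norm_add_sq_real, norm_smul, inner_smul_right, mul_pow, Real.norm_eq_abs, sq_abs]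
      ring
    rw [e] at h1
    linarith
  have ha0 : a = 0 := by
    by_contra hne
    have h1 := key2 (-a / (b + 1))
    have hb1 : 0 < b + 1 := by linarith
    have h2 : 2 * (-a / (b + 1)) * a + (-a / (b + 1)) ^ 2 * b =
        - (a ^ 2 * (b + 2)) / (b + 1) ^ 2 := by
      field_simp
      ring
    rw [h2] at h1
    have h3 : 0 < a ^ 2 * (b + 2) / (b + 1) ^ 2 := by (clear * - hne; positivity)
    rw [neg_div] at h1
    linarith
  have e : ∫ z, (inner ℝ (G z) (grad φ z) : ℝ) = a := by
    rw [ha]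
    refine (setIntegral_eq_integral_of_forall_compl_eq_zero fun z hz => ?_).symm
    rw [grad_eq_zero_of_notMem hz, inner_zero_right]
  rw [e, ha0]

/-- `u` is weakly harmonic off `K`. -/
theorem IsGlobalMin.weak_harm (h : IsGlobalMin u G K) (hc : IsPreconnected Kᶜ)
    {φ : ℂ → ℝ} (hφ : ContDiff ℝ ∞ φ) (hφc : HasCompactSupport φ) (hs : tsupport φ ⊆ Kᶜ) :
    ∫ z, u z * lap φ z = 0 := by
  have c : ∀ v : ℂ, ContDiff ℝ ∞ fun z => fderiv ℝ φ z v := contDiff_fderiv_apply hφ
  have s : ∀ v : ℂ, HasCompactSupport fun z => fderiv ℝ φ z v := hasCompactSupport_fderiv_apply hφc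
  have ts : ∀ v : ℂ, tsupport (fun z => fderiv ℝ φ z v) ⊆ Kᶜ := fun v => (clTsupp v).trans hs
  have e : ∀ v : ℂ, ∫ z, u z * fderiv ℝ (fun w => fderiv ℝ φ w v) z v =
      - ∫ z, inner ℝ (G z) v * fderiv ℝ φ z v := fun v =>
    h.sobolev.weak.test (c v) (s v) (ts v) v
  have i : ∀ v : ℂ, Integrable fun z => u z * fderiv ℝ (fun w => fderiv ℝ φ w v) z v := fun v =>
    clInt h.sobolev.memLp (contDiff_fderiv_apply (c v) v).continuous
      (hasCompactSupport_fderiv_apply (s v) v) ((clTsupp v).trans (ts v))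
  have j : ∀ v : ℂ, Integrable fun z => inner ℝ (G z) v * fderiv ℝ φ z v := fun v =>
    clInt (fun C hC hCU => clInner (h.sobolev.grad_memLp C hC hCU) v) (c v).continuous (s v) (ts v)
  have h1 := h.first_variation hc hφ hφc hs
  have h2 : ∫ z, (inner ℝ (G z) (grad φ z) : ℝ) =
      (∫ z, inner ℝ (G z) 1 * fderiv ℝ φ z 1) +
        ∫ z, inner ℝ (G z) Complex.I * fderiv ℝ φ z Complex.I := by
    rw [← integral_add (j 1) (j Complex.I)]
    refine integral_congr_ae (Eventually.of_forall fun z => ?_)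
    simp only [inner_eq, grad_re, grad_im, Complex.one_re, Complex.one_im, Complex.I_re,
      Complex.I_im]
    ring
  have h3 : ∫ z, u z * lap φ z =
      (∫ z, u z * fderiv ℝ (fun w => fderiv ℝ φ w 1) z 1) +
        ∫ z, u z * fderiv ℝ (fun w => fderiv ℝ φ w Complex.I) z Complex.I := by
    rw [← integral_add (i 1) (i Complex.I)]
    refine integral_congr_ae (Eventually.of_forall fun z => ?_)
    simp only [lap]
    ring
  rw [h3, e 1, e Complex.I]
  rw [h2] at h1
  linarith

/-- The standard isometry between the complex plane and Euclidean two-space. -/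
noncomputable def clE : ℂ ≃ₗᵢ[ℝ] Vale.Agent.P098.E 2 := Complex.orthonormalBasisOneI.repr

theorem clE_one : clE 1 = Vale.Agent.P098.ee (d := 2) 0 := by
  unfold clE
  have h := Complex.orthonormalBasisOneI.repr_self 0
  simp only [Complex.coe_orthonormalBasisOneI, Matrix.cons_val_zero] at h
  exact h

theorem clE_I : clE Complex.I = Vale.Agent.P098.ee (d := 2) 1 := by
  unfold clE
  have h := Complex.orthonormalBasisOneI.repr_self 1
  simp only [Complex.coe_orthonormalBasisOneI, Matrix.cons_val_one, Matrix.cons_val_zero] at h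
  exact h

theorem clFd (φ : Vale.Agent.P098.E 2 → ℝ) (z v : ℂ) :
    fderiv ℝ (fun w => φ (clE w)) z v = fderiv ℝ φ (clE z) (clE v) := by
  have h := clE.toContinuousLinearEquiv.comp_right_fderiv (f := φ) (x := z)
  have h2 : (φ ∘ clE.toContinuousLinearEquiv) = fun w => φ (clE w) := rfl
  rw [h2] at h
  rw [h]
  rfl

theorem clLap (φ : Vale.Agent.P098.E 2 → ℝ) (z : ℂ) :
    lap (fun w => φ (clE w)) z = Vale.Agent.P098.lap φ (clE z) := by
  unfold lap Vale.Agent.P098.lap
  rw [Fin.sum_univ_two]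
  have e : ∀ (v : ℂ) (i : Fin 2), clE v = Vale.Agent.P098.ee (d := 2) i →
      fderiv ℝ (fun w => fderiv ℝ (fun w => φ (clE w)) w v) z v =
        Vale.Agent.P098.P2 φ i i (clE z) := by
    intro v i hv
    have h1 : (fun w => fderiv ℝ (fun w => φ (clE w)) w v) =
        fun w => (Vale.Agent.P098.P1 φ i) (clE w) := by
      funext w
      rw [clFd, hv]
      rfl
    rw [h1, clFd, hv]
    rfl
  rw [e 1 0 clE_one, e Complex.I 1 clE_I]

/-- Weyl's lemma in the plane. -/
theorem clWeyl {U : Set ℂ} (hU : IsOpen U) {f : ℂ → ℝ} (hf : LocallyIntegrableOn f U)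
    (h : ∀ φ : ℂ → ℝ, ContDiff ℝ ∞ φ → HasCompactSupport φ → tsupport φ ⊆ U →
      ∫ z, f z * lap φ z = 0) :
    ∃ g : ℂ → ℝ, HarmonicOnNhd g U ∧ ∀ᵐ z ∂(volume.restrict U), f z = g z := by
  have hmp : MeasurePreserving clE (volume : Measure ℂ) volume := clE.measurePreserving
  have hmp' : MeasurePreserving clE.symm volume (volume : Measure ℂ) := clE.symm.measurePreserving
  set Ω : Set (Vale.Agent.P098.E 2) := clE.symm ⁻¹' U with hΩd
  have hΩ : IsOpen Ω := hU.preimage clE.symm.continuous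
  have hmem : ∀ z, clE z ∈ Ω ↔ z ∈ U := fun z => by simp [hΩd]
  have hf' : LocallyIntegrableOn (fun x => f (clE.symm x)) Ω := by
    rw [locallyIntegrableOn_iff hΩ.isLocallyClosed]
    intro k hkΩ hk
    have h1 : IsCompact (clE.symm '' k) := hk.image clE.symm.continuous
    have h2 : clE.symm '' k ⊆ U := by
      rintro _ ⟨x, hx, rfl⟩
      exact hkΩ hx
    have h3 : IntegrableOn f (clE.symm '' k) :=
      (locallyIntegrableOn_iff hU.isLocallyClosed).1 hf _ h2 h1
    have h4 := (hmp'.integrableOn_comp_preimage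
      clE.symm.toHomeomorph.measurableEmbedding (f := f) (s := clE.symm '' k)).2 h3
    rwa [show (clE.symm : _ → ℂ) ⁻¹' (clE.symm '' k) = k from
      preimage_image_eq k clE.symm.injective] at h4
  obtain ⟨g, hg, hae⟩ := Vale.Agent.P098.weyl hΩ hf' (by
    intro φ h1 h2 h3
    have h4 := h (fun w => φ (clE w)) (h1.comp clE.contDiff)
      (h2.comp_homeomorph clE.toHomeomorph) (by
        have : tsupport (fun w => φ (clE w)) = clE ⁻¹' tsupport φ :=
          tsupport_comp_eq_preimage φ clE.toHomeomorph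
        rw [this]
        intro z hz
        exact (hmem z).1 (h3 hz))
    rw [← h4, ← hmp.integral_comp clE.toHomeomorph.measurableEmbedding]
    refine integral_congr_ae (Eventually.of_forall fun z => ?_)
    simp only [LinearIsometryEquiv.symm_apply_apply]
    rw [clLap])
  refine ⟨fun z => g (clE z), harmonicOnNhd_of_lap hU ?_ fun z hz => ?_, ?_⟩
  · refine ContDiffOn.comp (hg.1.of_le (WithTop.coe_le_coe.2 (le_top : (2 : ℕ∞) ≤ ⊤))) clE.contDiff.contDiffOn fun z hz => ?_
    exact (hmem z).2 hz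
  · rw [clLap]
    exact hg.2 _ ((hmem z).2 hz)
  · rw [ae_restrict_iff' hΩ.measurableSet] at hae
    rw [ae_restrict_iff' hU.measurableSet]
    have h5 := hmp.quasiMeasurePreserving.ae hae
    filter_upwards [h5] with z hz hzU
    have := hz ((hmem z).2 hzU)
    simpa using this

theorem clLI {f : ℂ → ℝ} (hU : IsOpen U)
    (hf : ∀ C : Set ℂ, IsCompact C → C ⊆ U → MemLp f 2 (volume.restrict C)) :
    LocallyIntegrableOn f U := by
  rw [locallyIntegrableOn_iff hU.isLocallyClosed]
  intro k hk1 hk2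
  haveI : IsFiniteMeasure (volume.restrict k : Measure ℂ) :=
    ⟨by rw [Measure.restrict_apply_univ]; exact hk2.measure_lt_top⟩
  exact (hf _ hk2 hk1).integrable (by norm_num)

/-- Uniqueness of weak gradients. -/
theorem clUniq {v : ℂ → ℝ} {H : ℂ → ℂ} (hU : IsOpen U) (h : W12loc U u G) (h' : W12loc U v H)
    (huv : ∀ᵐ z, z ∈ U → u z = v z) : ∀ᵐ z, z ∈ U → G z = H z := by
  have key : ∀ w : ℂ, ∀ᵐ z, z ∈ U → (inner ℝ (G z) w : ℝ) - inner ℝ (H z) w = 0 := by
    intro w
    have li : ∀ {G : ℂ → ℂ}, (∀ C : Set ℂ, IsCompact C → C ⊆ U → MemLp G 2 (volume.restrict C)) →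
        ∀ C : Set ℂ, IsCompact C → C ⊆ U →
          MemLp (fun z => (inner ℝ (G z) w : ℝ)) 2 (volume.restrict C) :=
      fun hG C hC hCU => clInner (hG C hC hCU) w
    refine IsOpen.ae_eq_zero_of_integral_contDiff_smul_eq_zero hU
      ((clLI hU (li h.grad_memLp)).sub (clLI hU (li h'.grad_memLp))) fun φ h1 h2 h3 => ?_
    have e1 := h.weak.test h1 h2 h3 w
    have e2 := h'.weak.test h1 h2 h3 w
    have e3 : ∫ z, u z * fderiv ℝ φ z w = ∫ z, v z * fderiv ℝ φ z w := by
      refine integral_congr_ae ?_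
      filter_upwards [huv] with z hz
      by_cases hzU : z ∈ U
      · simp only [hz hzU]
      · have : fderiv ℝ φ z w = 0 := by
          by_contra hne
          exact hzU (h3 (clTsupp w (subset_tsupport _ hne)))
        simp [this]
    have i1 := clInt (li h.grad_memLp) h1.continuous h2 h3
    have i2 := clInt (li h'.grad_memLp) h1.continuous h2 h3
    have e4 : (∫ z, φ z • ((inner ℝ (G z) w : ℝ) - inner ℝ (H z) w)) =
        (∫ z, inner ℝ (G z) w * φ z) - ∫ z, inner ℝ (H z) w * φ z := by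
      rw [← integral_sub i1 i2]
      refine integral_congr_ae (Eventually.of_forall fun z => ?_)
      simp only [smul_eq_mul]
      ring
    rw [e4]
    linarith
  filter_upwards [key 1, key Complex.I] with z h1 h2 hz
  have a1 := h1 hz
  have a2 := h2 hz
  simp only [inner_eq, Complex.one_re, Complex.one_im, Complex.I_re, Complex.I_im] at a1 a2
  apply Complex.ext <;> linarith

end Vale.Agent.P128.GM
end

section

/-! The Euler-Lagrange equation of a global minimizer. -/

open MeasureTheory Set Metric Filter InnerProductSpace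
open scoped ENNReal NNReal ContDiff Topology Real

namespace Vale.Agent.P128.GM

open Vale.Agent.P128

variable {u : ℂ → ℝ} {K : Set ℂ}

theorem integrable_inner_of_sq {μ : Measure ℂ} {f g : ℂ → ℂ} (hfm : AEStronglyMeasurable f μ)
    (hgm : AEStronglyMeasurable g μ) (hf : Integrable (fun z => ‖f z‖ ^ 2) μ)
    (hg : Integrable (fun z => ‖g z‖ ^ 2) μ) : Integrable (fun z => (inner ℝ (f z) (g z) : ℝ)) μ :=
  integrable_inner_of_memLp ((memLp_two_iff_integrable_sq_norm hfm).2 hf)
    ((memLp_two_iff_integrable_sq_norm hgm).2 hg)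

theorem GMin.grad_ae (h : GMin u K) {ψ : ℂ → ℝ} (hψ : LocLip Kᶜ ψ) (t : ℝ) :
    ∀ᵐ z, grad (fun w => u w + t * ψ w) z = grad u z + t • grad ψ z := by
  filter_upwards [h.ae_compl, h.locLip.ae_diff h.isOpen_compl, hψ.ae_diff h.isOpen_compl]
    with z hz h1 h2
  rw [grad_add (h1 hz) ((h2 hz).const_mul t), grad_const_mul (h2 hz)]

theorem GMin.el (h : GMin u K) {ψ : ℂ → ℝ} (hψ : LocLip Kᶜ ψ)
    (hs : ∃ R : ℝ, ∀ z, z ∉ K → R ≤ ‖z‖ → ψ z = 0)
    (hi : Integrable (fun z => ‖grad ψ z‖ ^ 2)) :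
    ∫ z, inner ℝ (grad u z) (grad ψ z) = 0 := by
  obtain ⟨R₀, hR₀⟩ := hs
  set R : ℝ := max R₀ 0 with hR
  have hR0 : 0 ≤ R := le_max_right _ _
  have hRψ : ∀ z, z ∉ K → R ≤ ‖z‖ → ψ z = 0 := fun z hz h1 => hR₀ z hz ((le_max_left _ _).trans h1)
  -- the gradient of `ψ` vanishes far away
  have hg0 : ∀ z, z ∉ K → R < ‖z‖ → grad ψ z = 0 := by
    intro z hz hzR
    have hev : ψ =ᶠ[𝓝 z] fun _ => (0 : ℝ) := by
      have h1 : {w : ℂ | R < ‖w‖} ∈ 𝓝 z := (isOpen_lt continuous_const continuous_norm).mem_nhds hzR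
      filter_upwards [h1, h.isOpen_compl.mem_nhds hz] with w hw hwK
      exact hRψ w hwK (le_of_lt hw)
    rw [grad_congr hev, grad_const]
  set B : Set ℂ := ball 0 (R + 1) with hB
  have hfull : ∫ z, (inner ℝ (grad u z) (grad ψ z) : ℝ) =
      ∫ z in B, (inner ℝ (grad u z) (grad ψ z) : ℝ) := by
    symm
    rw [← integral_indicator measurableSet_ball]
    refine integral_congr_ae ?_
    filter_upwards [h.ae_compl] with z hz
    by_cases hzB : z ∈ B
    · rw [indicator_of_mem hzB]
    · rw [indicator_of_notMem hzB]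
      have : R < ‖z‖ := by
        rw [hB, mem_ball_zero_iff, not_lt] at hzB
        linarith only [hzB]
      simp [hg0 z hz this]
  rw [hfull]
  have hum := (measurable_grad u).aestronglyMeasurable (μ := (volume.restrict B : Measure ℂ))
  have hψm := (measurable_grad ψ).aestronglyMeasurable (μ := (volume.restrict B : Measure ℂ))
  have i1 : Integrable (fun z => ‖grad u z‖ ^ 2) (volume.restrict B) := h.integrableOn (R + 1)
  have i3 : Integrable (fun z => ‖grad ψ z‖ ^ 2) (volume.restrict B) := hi.restrict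
  have i2 := integrable_inner_of_sq hum hψm i1 i3
  refine quad_zero (Q := ∫ z in B, ‖grad ψ z‖ ^ 2) fun t => ?_
  have hae : ∀ᵐ z ∂(volume.restrict B : Measure ℂ), ‖grad (fun w => u w + t * ψ w) z‖ ^ 2 =
      ‖grad u z‖ ^ 2 + (2 * t * inner ℝ (grad u z) (grad ψ z) + t ^ 2 * ‖grad ψ z‖ ^ 2) := by
    filter_upwards [ae_restrict_of_ae (h.grad_ae hψ t)] with z hz
    rw [hz, norm_add_sq_real, inner_smul_right, norm_smul, mul_pow, Real.norm_eq_abs, sq_abs]
    ring
  have I2 : Integrable (fun z => 2 * t * inner ℝ (grad u z) (grad ψ z) + t ^ 2 * ‖grad ψ z‖ ^ 2)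
      (volume.restrict B) := (i2.const_mul (2 * t)).add (i3.const_mul (t ^ 2))
  have I1 : IntegrableOn (fun z => ‖grad (fun w => u w + t * ψ w) z‖ ^ 2) B :=
    (i1.add I2).congr (hae.mono fun z hz => hz.symm)
  have hv : LocLip Kᶜ fun w => u w + t * ψ w := h.locLip.add (hψ.const_mul h.isOpen_compl t)
  have hcmp := h.compare (R := R + 1) h.closed hv I1 (h.len_lt _)
    ⟨closedBall 0 R, isCompact_closedBall _ _, closedBall_subset_ball (by linarith only []), by simp only [symmDiff_self, bot_eq_empty, empty_subset],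
      fun z hz hzK => by
        have : R ≤ ‖z‖ := by
          rw [mem_closedBall_zero_iff, not_le] at hz
          exact hz.le
        simp only [hRψ z hzK this, mul_zero, add_zero]⟩
  have hE : En (fun w => u w + t * ψ w) (R + 1) = En u (R + 1) +
      (2 * t * (∫ z in B, (inner ℝ (grad u z) (grad ψ z) : ℝ))
        + t ^ 2 * ∫ z in B, ‖grad ψ z‖ ^ 2) := by
    unfold En
    rw [integral_congr_ae hae]
    rw [integral_add i1 I2]
    congr 1
    rw [← integral_const_mul, ← integral_const_mul]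
    exact integral_add (i2.const_mul (2 * t)) (i3.const_mul (t ^ 2))
  rw [hE] at hcmp
  linarith only [hcmp]

end Vale.Agent.P128.GM
end

section

/-! The energy identity on almost every circle. -/

open MeasureTheory Set Metric Filter Function InnerProductSpace
open scoped ENNReal NNReal ContDiff Topology Real

namespace Vale.Agent.P128.GM

open Vale.Agent.P128

variable {u : ℂ → ℝ} {K : Set ℂ}

/-- From an identity tested with all radial functions to almost every circle. -/
theorem flux_core (x : ℂ) {F1 F2 : ℂ → ℝ} (m1 : Measurable F1) (m2 : Measurable F2)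
    (i1 : Integrable F1) (i2 : Integrable F2) {R : ℝ} (hR0 : 0 < R)
    (hEL : ∀ (ψ h : ℝ → ℝ) (a b k : ℝ), ContDiff ℝ ∞ ψ → HasCompactSupport ψ →
      tsupport ψ ⊆ Ioo 0 R → 0 < a → b < R → ContDiff ℝ ∞ h → (∀ s, HasDerivAt h (ψ s) s) →
      (∀ s < a, h s = k) → (∀ s, b < s → h s = 0) →
      (∫ z, h ‖z - x‖ * F1 z) + ∫ z, ψ ‖z - x‖ * F2 z = 0) :
    ∀ᵐ s ∂(volume : Measure ℝ), s ∈ Ioo 0 R →
      ∫ z in ball x s, F1 z = s * ∫ θ in ang, F2 (circleMap x s θ) := by
  set B : ℝ → ℝ := fun s => s * ∫ θ in ang, F2 (circleMap x s θ) with hB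
  set D : ℝ → ℝ := fun s => ∫ z in ball x s, F1 z with hD
  have iB : Integrable B (volume.restrict (Ioi 0)) := by
    have h := (integrable_polar x m2 i2).integral_prod_left
    refine h.congr (Eventually.of_forall fun s => ?_)
    simp only [hB, integral_const_mul]
  -- Fubini for `D`
  have hset : MeasurableSet {p : ℝ × ℂ | ‖p.2 - x‖ < p.1} :=
    measurableSet_lt (by fun_prop) measurable_fst
  have iprod : ∀ ψ : ℝ → ℝ, Continuous ψ → Integrable ψ →
      Integrable (fun p : ℝ × ℂ => ({p : ℝ × ℂ | ‖p.2 - x‖ < p.1}.indicator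
        (fun p => ψ p.1 * F1 p.2)) p) (volume.prod volume) := fun ψ _ hi =>
    (hi.mul_prod i1).indicator hset
  have hDind : ∀ t, D t = ∫ z, (ball x t).indicator F1 z := fun t =>
    (integral_indicator measurableSet_ball).symm
  have hsec : ∀ (ψ : ℝ → ℝ) (t : ℝ), (∫ z, ({p : ℝ × ℂ | ‖p.2 - x‖ < p.1}.indicator
        (fun p => ψ p.1 * F1 p.2)) (t, z)) = ψ t * D t := by
    intro ψ t
    rw [hDind, ← integral_const_mul]
    refine integral_congr_ae (Eventually.of_forall fun z => ?_)
    by_cases hz : ‖z - x‖ < t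
    · have h1 : (t, z) ∈ {p : ℝ × ℂ | ‖p.2 - x‖ < p.1} := hz
      have h2 : z ∈ ball x t := by simpa only [mem_ball, dist_eq_norm] using hz
      simp only [indicator_of_mem h1, indicator_of_mem h2]
    · have h1 : (t, z) ∉ {p : ℝ × ℂ | ‖p.2 - x‖ < p.1} := hz
      have h2 : z ∉ ball x t := by simpa only [mem_ball, dist_eq_norm, not_lt] using hz
      simp only [indicator_of_notMem h1, indicator_of_notMem h2, mul_zero]
  have locD : LocallyIntegrableOn D (Ioo 0 R) := by
    -- `D` is measurable and bounded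
    have hmeas : AEStronglyMeasurable D (volume : Measure ℝ) := by
      have hm : StronglyMeasurable (uncurry fun (t : ℝ) (z : ℂ) =>
          ({p : ℝ × ℂ | ‖p.2 - x‖ < p.1}.indicator (fun p => F1 p.2)) (t, z)) :=
        ((m1.comp measurable_snd).indicator hset).stronglyMeasurable
      have := (hm.integral_prod_right (ν := (volume : Measure ℂ))).aestronglyMeasurable
        (μ := (volume : Measure ℝ))
      refine this.congr (Eventually.of_forall fun t => ?_)
      have := hsec (fun _ => 1) t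
      simpa only [one_mul] using this
    have hbd : ∀ t, ‖D t‖ ≤ ∫ z, ‖F1 z‖ := fun t =>
      (norm_integral_le_integral_norm _).trans
        (setIntegral_le_integral i1.norm (Eventually.of_forall fun _ => norm_nonneg _))
    have : IntegrableOn D (Ioo 0 R) := by
      have : IsFiniteMeasure (volume.restrict (Ioo (0 : ℝ) R)) := ⟨by simp only [MeasurableSet.univ, Measure.restrict_apply, univ_inter, Real.volume_Ioo, sub_zero, ENNReal.ofReal_lt_top]⟩
      exact Integrable.of_bound hmeas.restrict _ (Eventually.of_forall hbd)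
    exact this.locallyIntegrableOn
  have locB : LocallyIntegrableOn B (Ioo 0 R) :=
    (IntegrableOn.mono_set iB Ioo_subset_Ioi_self).locallyIntegrableOn
  have key : ∀ᵐ s ∂(volume : Measure ℝ), s ∈ Ioo 0 R → B s - D s = 0 := by
    refine isOpen_Ioo.ae_eq_zero_of_integral_contDiff_smul_eq_zero (locB.sub locD) ?_
    intro ψ h1 h2 h3
    obtain ⟨h, a, b, k, ha, hb, hsm, hder, hk, hb0, hform⟩ := exists_primitive h1 h2 hR0 h3
    have hψint : Integrable ψ := h1.continuous.integrable_of_hasCompactSupport h2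
    have hψ0 : ∀ s, s ∉ Ioo 0 R → ψ s = 0 := fun s hs =>
      image_eq_zero_of_notMem_tsupport fun hh => hs (h3 hh)
    obtain ⟨Cψ, hCψ⟩ := h1.continuous.bounded_above_of_compact_support h2
    have q2 : Integrable (fun z => ψ ‖z - x‖ * F2 z) :=
      i2.bdd_mul (h1.continuous.comp (continuous_id.sub continuous_const).norm).aestronglyMeasurable
        (Eventually.of_forall fun z => hCψ _)
    have hsum := hEL ψ h a b k h1 h2 h3 ha hb hsm hder hk hb0
    -- polar coordinates for the second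
    have hpol : ∫ z, ψ ‖z - x‖ * F2 z = ∫ s in Ioi (0 : ℝ), ψ s * B s := by
      have hmeas : Measurable fun z => ψ ‖z - x‖ * F2 z :=
        (h1.continuous.measurable.comp (measurable_id.sub_const x).norm).mul m2
      rw [integral_polar x hmeas q2]
      refine setIntegral_congr_fun measurableSet_Ioi fun s hs => ?_
      have hs' : (0 : ℝ) < s := hs
      have : ∀ θ, ‖circleMap x s θ - x‖ = s := fun θ => by
        rw [circleMap_sub_center, norm_circleMap_zero, abs_of_nonneg hs'.le]
      simp only [this, hB, integral_const_mul]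
      ring
    -- Fubini for the first
    have hfub : ∫ z, h ‖z - x‖ * F1 z = - ∫ t, ψ t * D t := by
      have hsw := integral_integral_swap (f := fun (t : ℝ) (z : ℂ) =>
        ({p : ℝ × ℂ | ‖p.2 - x‖ < p.1}.indicator (fun p => ψ p.1 * F1 p.2)) (t, z))
        (μ := (volume : Measure ℝ)) (ν := (volume : Measure ℂ))
        (iprod ψ h1.continuous hψint)
      simp only [hsec] at hsw
      rw [hsw, ← integral_neg]
      refine integral_congr_ae (Eventually.of_forall fun z => ?_)
      have e1 : (∫ t, ({p : ℝ × ℂ | ‖p.2 - x‖ < p.1}.indicator (fun p => ψ p.1 * F1 p.2)) (t, z))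
          = (∫ t in Ioi ‖z - x‖, ψ t) * F1 z := by
        rw [← integral_mul_const, ← integral_indicator measurableSet_Ioi]
        refine integral_congr_ae (Eventually.of_forall fun t => ?_)
        by_cases ht : ‖z - x‖ < t
        · have h1 : (t, z) ∈ {p : ℝ × ℂ | ‖p.2 - x‖ < p.1} := ht
          have h2 : t ∈ Ioi ‖z - x‖ := ht
          simp only [indicator_of_mem h1, indicator_of_mem h2]
        · have h1 : (t, z) ∉ {p : ℝ × ℂ | ‖p.2 - x‖ < p.1} := ht
          have h2 : t ∉ Ioi ‖z - x‖ := ht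
          simp only [indicator_of_notMem h1, indicator_of_notMem h2]
      simp only [e1]
      simp only [hform _ (norm_nonneg (z - x))]
      ring
    rw [hpol, hfub] at hsum
    have r1 : (∫ s in Ioi (0 : ℝ), ψ s * B s) = ∫ s, ψ s * B s := by
      refine setIntegral_eq_integral_of_forall_compl_eq_zero fun s hs => ?_
      rw [hψ0 s fun hh => hs hh.1, zero_mul]
    rw [r1] at hsum
    have s1 : Integrable (fun s => ψ s * B s) := by
      have : IntegrableOn (fun s => ψ s * B s) (Ioi 0) :=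
        iB.bdd_mul h1.continuous.aestronglyMeasurable (Eventually.of_forall hCψ)
      refine (integrableOn_iff_integrable_of_support_subset ?_).mp this
      intro s hs
      by_contra hcon
      exact hs (by simp [hψ0 s fun hh => hcon hh.1])
    have s2 : Integrable (fun s => ψ s * D s) := by
      have := (iprod ψ h1.continuous hψint).integral_prod_left
      refine this.congr (Eventually.of_forall fun t => ?_)
      exact hsec ψ t
    simp only [smul_eq_mul, mul_sub]
    rw [integral_sub s1 s2]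
    linarith only [hsum]
  filter_upwards [key] with s hs hsR
  have h0 := hs hsR
  simp only [hB, hD] at h0 ⊢
  linarith only [h0]

/-- A null closed set misses almost every point of almost every circle. -/
theorem ae_circle_compl (hK : IsClosed K) (h0 : volume K = 0) :
    ∀ᵐ s : ℝ, 0 < s → ∀ᵐ θ ∂(volume.restrict ang : Measure ℝ), circleMap 0 s θ ∉ K := by
  have hm : Measurable (K.indicator (1 : ℂ → ℝ≥0∞)) := measurable_one.indicator hK.measurableSet
  have h1 := lintegral_polar 0 hm
  rw [lintegral_indicator_one hK.measurableSet, h0] at h1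
  have hm2 : Measurable fun s : ℝ => ENNReal.ofReal s *
      ∫⁻ θ in ang, K.indicator (1 : ℂ → ℝ≥0∞) (circleMap 0 s θ) := by
    refine ENNReal.measurable_ofReal.mul ?_
    exact (hm.comp (continuous_circleMap_uncurry 0).measurable).lintegral_prod_right'
  have h2 := (lintegral_eq_zero_iff hm2).1 h1.symm
  rw [Filter.EventuallyEq, ae_restrict_iff' measurableSet_Ioi] at h2
  filter_upwards [h2] with s hs hs0
  have h3 := hs hs0
  simp only [Pi.zero_apply, mul_eq_zero, ENNReal.ofReal_eq_zero] at h3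
  have h4 := h3.resolve_left (not_le.2 hs0)
  have hm3 : Measurable fun θ : ℝ => K.indicator (1 : ℂ → ℝ≥0∞) (circleMap 0 s θ) :=
    hm.comp (measurable_circleMap 0 s)
  filter_upwards [(lintegral_eq_zero_iff hm3).1 h4] with θ hθ hK'
  simp [indicator_of_mem hK'] at hθ

/-- The energy identity on circles of radius `< R`. -/
theorem GMin.green_ball (h : GMin u K)
    (hb : ∀ R : ℝ, ∃ M : ℝ, ∀ z ∈ ball (0 : ℂ) R, z ∉ K → |u z| ≤ M)
    {R : ℝ} (hR0 : 0 < R) :
    ∀ᵐ s ∂(volume : Measure ℝ), s ∈ Ioo 0 R →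
      IntegrableOn (fun θ => u (circleMap 0 s θ) * un u s θ) ang ∧
      En u s = s * ∫ θ in ang, u (circleMap 0 s θ) * un u s θ := by
  classical
  obtain ⟨M, hM⟩ := hb R
  set U : ℂ → ℝ := Kᶜ.indicator u with hU
  have hUm : Measurable U := by
    rw [hU, ← Set.piecewise_eq_indicator]
    exact h.locLip.continuousOn.measurable_piecewise continuousOn_const h.isOpen_compl.measurableSet
  have hUu : ∀ z, z ∉ K → U z = u z := fun z hz => indicator_of_mem (s := Kᶜ) hz u
  set F1 : ℂ → ℝ := (ball (0 : ℂ) R).indicator fun z => ‖grad u z‖ ^ 2 with hF1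
  set F2 : ℂ → ℝ := (ball (0 : ℂ) R).indicator fun z => U z * inner ℝ (grad u z) (nu 0 z) with hF2
  have m1 : Measurable F1 := ((measurable_grad u).norm.pow_const 2).indicator measurableSet_ball
  have m2 : Measurable F2 :=
    (hUm.mul ((measurable_grad u).inner (measurable_nu 0))).indicator measurableSet_ball
  have i1 : Integrable F1 := by
    rw [hF1, integrable_indicator_iff measurableSet_ball]
    exact h.integrableOn R
  have hfinB : IsFiniteMeasure (volume.restrict (ball (0 : ℂ) R) : Measure ℂ) :=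
    ⟨by simpa only [MeasurableSet.univ, Measure.restrict_apply, univ_inter, Complex.volume_ball] using     measure_ball_lt_top (μ := (volume : Measure ℂ)) (x := 0) (r := R)⟩
  have i2 : Integrable F2 := by
    rw [hF2, integrable_indicator_iff measurableSet_ball]
    have hL1 : Integrable (grad u) (volume.restrict (ball (0 : ℂ) R)) :=
      (h.memLp 0 R).integrable (by norm_num)
    refine Integrable.mono' (hL1.norm.const_mul |M|)
      (hUm.mul ((measurable_grad u).inner (measurable_nu 0))).aestronglyMeasurable ?_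
    rw [ae_restrict_iff' measurableSet_ball]
    filter_upwards [h.ae_compl] with z hz hzB
    rw [norm_mul, Real.norm_eq_abs]
    have e1 : |U z| ≤ |M| := by
      rw [hUu z hz]
      exact (hM z hzB hz).trans (le_abs_self M)
    have e2 : ‖(inner ℝ (grad u z) (nu 0 z) : ℝ)‖ ≤ ‖grad u z‖ :=
      calc ‖(inner ℝ (grad u z) (nu 0 z) : ℝ)‖ ≤ ‖grad u z‖ * ‖nu 0 z‖ := norm_inner_le_norm _ _
        _ ≤ ‖grad u z‖ * 1 := by gcongr; exact norm_nu_le 0 z
        _ = ‖grad u z‖ := mul_one _
    (clear * - e1 e2; gcongr)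
  have core := flux_core 0 m1 m2 i1 i2 hR0 ?_
  · filter_upwards [core, ae_integrable_circle 0 m2 i2, ae_circle_compl h.closed h.volume_zero]
      with s hs his hcK hsR
    have hball : ∀ θ, circleMap 0 s θ ∈ ball (0 : ℂ) R := fun θ => by
      rw [mem_ball_zero_iff, norm_circleMap_zero, abs_of_pos hsR.1]; exact hsR.2
    have hae : ∀ᵐ θ ∂(volume.restrict ang : Measure ℝ),
        F2 (circleMap 0 s θ) = u (circleMap 0 s θ) * un u s θ := by
      filter_upwards [hcK hsR.1] with θ hθ
      simp only [hF2, indicator_of_mem (hball θ), nu_circleMap 0 hsR.1, hUu _ hθ]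
      rfl
    refine ⟨(his hsR.1).congr hae, ?_⟩
    have e1 : ∫ z in ball (0 : ℂ) s, F1 z = En u s := by
      unfold En
      refine setIntegral_congr_fun measurableSet_ball fun z hz => ?_
      simp only [hF1, indicator_of_mem (ball_subset_ball hsR.2.le hz)]
    rw [← e1, hs hsR, integral_congr_ae hae]
  · intro ψ hh a b k h1 h2 h3 ha hb' hsm hder hk hb0
    set η : ℂ → ℝ := fun z => hh ‖z - 0‖ with hη
    have hηs : ContDiff ℝ ∞ η := contDiff_radial hsm ha hk 0
    have hCR : closedBall (0 : ℂ) b ⊆ ball 0 R := closedBall_subset_ball hb'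
    have hsupp : tsupport η ⊆ closedBall 0 b := by
      refine closure_minimal (fun z hz => ?_) isClosed_closedBall
      by_contra hcon
      rw [mem_closedBall, dist_eq_norm, not_le] at hcon
      exact hz (hb0 _ hcon)
    have hcs : HasCompactSupport η :=
      (isCompact_closedBall (0 : ℂ) b).of_isClosed_subset (isClosed_tsupport η) hsupp
    obtain ⟨Cη, hCη⟩ := hηs.continuous.bounded_above_of_compact_support hcs
    obtain ⟨Cg, hCg⟩ := (continuous_grad hηs).bounded_above_of_compact_support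
      (HasCompactSupport.intro hcs.isCompact fun z hz => grad_eq_zero_of_notMem hz)
    obtain ⟨Cψ, hCψ⟩ := h1.continuous.bounded_above_of_compact_support h2
    have hφ : LocLip Kᶜ fun z => η z * u z :=
      (LocLip.of_contDiff hηs h.isOpen_compl).mul h.locLip
    have hgφ : ∀ᵐ z, grad (fun z => η z * u z) z = η z • grad u z + u z • grad η z := by
      filter_upwards [h.ae_compl, h.locLip.ae_diff h.isOpen_compl] with z hz hzd
      exact grad_mul ((hηs.differentiable (by simp)) z) (hzd hz)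
    -- the gradient of the test function is square integrable
    have hi : Integrable fun z => ‖grad (fun z => η z * u z) z‖ ^ 2 := by
      have hbd : Integrable ((ball (0 : ℂ) R).indicator fun z =>
          2 * Cη ^ 2 * ‖grad u z‖ ^ 2 + 2 * (M ^ 2 * Cg ^ 2)) := by
        rw [integrable_indicator_iff measurableSet_ball]
        exact ((h.integrableOn R).const_mul _).add (integrable_const _)
      refine Integrable.mono' hbd ((measurable_grad _).norm.pow_const 2).aestronglyMeasurable ?_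
      filter_upwards [h.ae_compl, hgφ] with z hz hzg
      rw [Real.norm_of_nonneg (by (clear * -; positivity)), hzg]
      by_cases hzB : z ∈ ball (0 : ℂ) R
      · rw [indicator_of_mem hzB]
        have e1 : ‖η z • grad u z + u z • grad η z‖ ≤ Cη * ‖grad u z‖ + |M| * Cg := by
          refine (norm_add_le _ _).trans ?_
          rw [norm_smul, norm_smul]
          have hu : ‖u z‖ ≤ |M| := by
            rw [Real.norm_eq_abs]; exact (hM z hzB hz).trans (le_abs_self M)
          have h4 := hCη z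
          have h5 := hCg z
          (clear * - h4 hu h5; gcongr)
        have e2 : 0 ≤ ‖η z • grad u z + u z • grad η z‖ := norm_nonneg _
        calc ‖η z • grad u z + u z • grad η z‖ ^ 2 ≤ (Cη * ‖grad u z‖ + |M| * Cg) ^ 2 := by
              (clear * - e1; gcongr)
          _ ≤ 2 * Cη ^ 2 * ‖grad u z‖ ^ 2 + 2 * (M ^ 2 * Cg ^ 2) := by
              rw [← sq_abs M]
              linarith only [sq_nonneg (Cη * ‖grad u z‖ - |M| * Cg)]
      · have hzC : z ∉ tsupport η := fun hh => hzB (hCR (hsupp hh))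
        rw [indicator_of_notMem hzB, image_eq_zero_of_notMem_tsupport hzC,
          grad_eq_zero_of_notMem hzC]
        simp
    have EL := h.el hφ ⟨R, fun z _ hzR => by
      have : η z = 0 := hb0 _ (by rw [sub_zero]; linarith only [hb', hzR])
      simp only [this, zero_mul]⟩ hi
    have q1 : Integrable (fun z => η z * F1 z) :=
      i1.bdd_mul hηs.continuous.aestronglyMeasurable (Eventually.of_forall hCη)
    have q2 : Integrable (fun z => ψ ‖z - 0‖ * F2 z) :=
      i2.bdd_mul (h1.continuous.comp (continuous_id.sub continuous_const).norm).aestronglyMeasurable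
        (Eventually.of_forall fun z => hCψ _)
    have hne0 : ∀ᵐ z : ℂ, z ≠ 0 := by
      rw [ae_iff]
      simp
    show (∫ z, η z * F1 z) + ∫ z, ψ ‖z - 0‖ * F2 z = 0
    rw [← integral_add q1 q2, ← EL]
    refine integral_congr_ae ?_
    filter_upwards [h.ae_compl, hgφ, hne0] with z hz hzg hz0
    rw [hzg]
    by_cases hzB : z ∈ ball (0 : ℂ) R
    · have hgrad : (inner ℝ (grad u z) (grad η z) : ℝ) = ψ ‖z - 0‖ * inner ℝ (grad u z) (nu 0 z) := by
        rw [real_inner_comm, inner_grad, hη, fderiv_radial hz0 (hder _), real_inner_comm]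
      simp only [hF1, hF2, indicator_of_mem hzB, hUu z hz]
      rw [inner_add_right, inner_smul_right, inner_smul_right, hgrad,
        real_inner_self_eq_norm_sq]
      ring
    · have hzC : z ∉ tsupport η := fun hh => hzB (hCR (hsupp hh))
      simp only [hF1, hF2, indicator_of_notMem hzB]
      rw [image_eq_zero_of_notMem_tsupport hzC, grad_eq_zero_of_notMem hzC]
      simp

/-- The energy identity on almost every circle, boundedness on disks being given. -/
theorem GMin.green_circle_of (h : GMin u K)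
    (hb : ∀ R : ℝ, ∃ M : ℝ, ∀ z ∈ ball (0 : ℂ) R, z ∉ K → |u z| ≤ M) :
    ∀ᵐ s : ℝ, 0 < s →
      IntervalIntegrable (fun θ => u (circleMap 0 s θ) * un u s θ) volume (-π) π ∧
      En u s = s * ∫ θ in (-π)..π, u (circleMap 0 s θ) * un u s θ := by
  have h1 : ∀ n : ℕ, ∀ᵐ s : ℝ, s ∈ Ioo (0 : ℝ) (n + 1) →
      IntegrableOn (fun θ => u (circleMap 0 s θ) * un u s θ) ang ∧
      En u s = s * ∫ θ in ang, u (circleMap 0 s θ) * un u s θ := fun n =>
    h.green_ball hb (by (clear * -; positivity))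
  rw [← ae_all_iff] at h1
  filter_upwards [h1] with s hs hs0
  obtain ⟨n, hn⟩ := exists_nat_gt s
  obtain ⟨h2, h3⟩ := hs n ⟨hs0, by linarith only [hn]⟩
  have hpi : (-π) ≤ π := by linarith only [Real.pi_pos]
  refine ⟨(intervalIntegrable_iff_integrableOn_Ioo_of_le hpi).2 h2, ?_⟩
  rw [h3, intervalIntegral.integral_of_le hpi, integral_Ioc_eq_integral_Ioo]

end Vale.Agent.P128.GM
end

section

/-! Part VI.2 (translation inequality at a tip): definitions. -/

open MeasureTheory Set Metric Filter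
open scoped ENNReal NNReal ContDiff Topology Real

namespace Vale.Agent.P128.Q1

open Vale.Agent.P128

/-- Radial cut-off: `1` on the disk of radius `s`, `0` off the disk of radius `s + η`. -/
noncomputable def tpChi (x : ℂ) (s η : ℝ) (z : ℂ) : ℝ := max 0 (min 1 ((s + η - dist z x) / η))

/-- The displacement by `t * e` of the disk of radius `s`, cut off between `s` and `s + η`. -/
noncomputable def tpMap (x e : ℂ) (s η t : ℝ) (z : ℂ) : ℂ :=
  z + ((t * tpChi x s η z : ℝ) : ℂ) * e

/-- `Ψ` is the displacement, as a homeomorphism. -/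
structure Disp (x e : ℂ) (s η t : ℝ) (Ψ : ℂ ≃ₜ ℂ) : Prop where
  e1 : ‖e‖ = 1
  s0 : 0 < s
  η0 : 0 < η
  t0 : 0 < t
  tη : 2 * t ≤ η
  eq : ∀ z, Ψ z = tpMap x e s η t z

/-- The displaced function. -/
noncomputable def tpU (u : ℂ → ℝ) (Ψ : ℂ ≃ₜ ℂ) (z : ℂ) : ℝ := u (Ψ.symm z)

/-- The gradient of the displaced function. -/
noncomputable def tpG (Ω : Set ℂ) (u : ℂ → ℝ) (K : Set ℂ) (Ψ : ℂ ≃ₜ ℂ) : ℂ → ℂ :=
  (Ω \ Ψ '' K).indicator (grad (tpU u Ψ))

/-- The density of the first variation of the energy: `2 (∂_ν u) (∂_e u) - |∇u|² (ν · e)`. -/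
noncomputable def tq (G : ℂ → ℂ) (x e z : ℂ) : ℝ :=
  2 * inner ℝ (G z) (dirn x z) * inner ℝ (G z) e - ‖G z‖ ^ 2 * inner ℝ (dirn x z) e

end Vale.Agent.P128.Q1
end

section

/-! Part VI.2: the displacement is a bi-Lipschitz homeomorphism. -/

open MeasureTheory Set Metric Filter
open scoped ENNReal NNReal ContDiff Topology Real

namespace Vale.Agent.P128.Q1

open Vale.Agent.P128

variable {Ω : Set ℂ} {g u : ℂ → ℝ} {G : ℂ → ℂ} {K : Set ℂ} {M : ℝ} {x₀ : ℂ} {R₀ : ℝ}
variable {x e : ℂ} {s η t : ℝ} {Ψ : ℂ ≃ₜ ℂ}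

theorem tpChi_nonneg (z : ℂ) : 0 ≤ tpChi x s η z := le_max_left _ _

theorem tpChi_le_one (z : ℂ) : tpChi x s η z ≤ 1 := max_le zero_le_one (min_le_left _ _)

theorem tpChi_sub (hη : 0 < η) (z w : ℂ) :
    |tpChi x s η z - tpChi x s η w| ≤ dist z w / η := by
  unfold tpChi
  refine (abs_max_sub_max_le_max _ _ _ _).trans ?_
  rw [sub_self, abs_zero]
  refine max_le (div_nonneg dist_nonneg hη.le) ?_
  refine (abs_min_sub_min_le_max _ _ _ _).trans ?_
  rw [sub_self, abs_zero]
  refine max_le (div_nonneg dist_nonneg hη.le) ?_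
  rw [← sub_div, abs_div, abs_of_pos hη]
  gcongr
  have h1 := abs_dist_sub_le z w x
  rw [abs_le] at h1 ⊢
  constructor <;> linarith [h1.1, h1.2]

theorem tpMap_sub (he : ‖e‖ = 1) (hη : 0 < η) (ht : 0 < t) (htη : 2 * t ≤ η) (z w : ℂ) :
    ‖tpMap x e s η t z - tpMap x e s η t w - (z - w)‖ ≤ 1 / 2 * ‖z - w‖ := by
  have h1 : tpMap x e s η t z - tpMap x e s η t w - (z - w)
      = ((t * (tpChi x s η z - tpChi x s η w) : ℝ) : ℂ) * e := by
    unfold tpMap
    push_cast
    ring
  rw [h1, norm_mul, he, mul_one, Complex.norm_real, Real.norm_eq_abs, abs_mul, abs_of_pos ht]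
  have h2 := tpChi_sub (x := x) (s := s) hη z w
  rw [dist_eq_norm] at h2
  calc t * |tpChi x s η z - tpChi x s η w| ≤ t * (‖z - w‖ / η) := by gcongr
    _ = (t / η) * ‖z - w‖ := by ring
    _ ≤ 1 / 2 * ‖z - w‖ := by
        refine mul_le_mul_of_nonneg_right ?_ (norm_nonneg _)
        rw [div_le_div_iff₀ hη two_pos]
        linarith

theorem exists_disp (he : ‖e‖ = 1) (hs : 0 < s) (hη : 0 < η) (ht : 0 < t) (htη : 2 * t ≤ η) :
    ∃ Ψ : ℂ ≃ₜ ℂ, Disp x e s η t Ψ := by
  have hf : ApproximatesLinearOn (tpMap x e s η t)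
      ((ContinuousLinearEquiv.refl ℝ ℂ : ℂ ≃L[ℝ] ℂ) : ℂ →L[ℝ] ℂ) univ (1 / 2) := by
    intro z _ w _
    have := tpMap_sub (x := x) (s := s) he hη ht htη z w
    simpa using this
  have hc : Subsingleton ℂ ∨ (1 / 2 : ℝ≥0) <
      ‖(((ContinuousLinearEquiv.refl ℝ ℂ : ℂ ≃L[ℝ] ℂ).symm : ℂ ≃L[ℝ] ℂ) : ℂ →L[ℝ] ℂ)‖₊⁻¹ := by
    right
    have h1 : ‖(((ContinuousLinearEquiv.refl ℝ ℂ : ℂ ≃L[ℝ] ℂ).symm : ℂ ≃L[ℝ] ℂ) :
        ℂ →L[ℝ] ℂ)‖₊ = 1 := by
      have h2 : (((ContinuousLinearEquiv.refl ℝ ℂ : ℂ ≃L[ℝ] ℂ).symm : ℂ ≃L[ℝ] ℂ) :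
        ℂ →L[ℝ] ℂ) = ContinuousLinearMap.id ℝ ℂ := rfl
      rw [h2]
      exact ContinuousLinearMap.nnnorm_id
    rw [h1, inv_one]
    exact half_lt_self one_pos
  exact ⟨hf.toHomeomorph (tpMap x e s η t) hc, ⟨he, hs, hη, ht, htη, fun z => rfl⟩⟩

theorem Disp.inner_eq (h : Disp x e s η t Ψ) {z : ℂ} (hz : dist z x ≤ s) : Ψ z = z + t * e := by
  have h1 : tpChi x s η z = 1 := by
    unfold tpChi
    have h2 : 1 ≤ (s + η - dist z x) / η := by
      rw [le_div_iff₀ h.η0]
      linarith
    rw [min_eq_left h2, max_eq_right zero_le_one]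
  rw [h.eq, tpMap, h1, mul_one]

theorem Disp.outer_eq (h : Disp x e s η t Ψ) {z : ℂ} (hz : s + η ≤ dist z x) : Ψ z = z := by
  have h1 : tpChi x s η z = 0 := by
    unfold tpChi
    have h2 : (s + η - dist z x) / η ≤ 0 := div_nonpos_of_nonpos_of_nonneg (by linarith) h.η0.le
    exact max_eq_left ((min_le_right _ _).trans h2)
  rw [h.eq, tpMap, h1, mul_zero, Complex.ofReal_zero, zero_mul, add_zero]

theorem Disp.mid_eq (h : Disp x e s η t Ψ) {z : ℂ} (h1 : s ≤ dist z x) (h2 : dist z x ≤ s + η) :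
    Ψ z = z + ((t * ((s + η - dist z x) / η) : ℝ) : ℂ) * e := by
  have h3 : tpChi x s η z = (s + η - dist z x) / η := by
    unfold tpChi
    have h4 : (s + η - dist z x) / η ≤ 1 := by
      rw [div_le_iff₀ h.η0]
      linarith
    have h5 : 0 ≤ (s + η - dist z x) / η := div_nonneg (by linarith) h.η0.le
    rw [min_eq_right h4, max_eq_right h5]
  rw [h.eq, tpMap, h3]

theorem Disp.outer_symm (h : Disp x e s η t Ψ) {z : ℂ} (hz : s + η ≤ dist z x) :
    Ψ.symm z = z := by
  rw [Homeomorph.symm_apply_eq]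
  exact (h.outer_eq hz).symm

theorem Disp.mem_ball (h : Disp x e s η t Ψ) {z : ℂ} :
    dist (Ψ z) x < s + η ↔ dist z x < s + η := by
  constructor
  · intro h1
    by_contra h2
    rw [h.outer_eq (not_lt.mp h2)] at h1
    exact h2 h1
  · intro h1
    by_contra h2
    have h3 := Ψ.injective (h.outer_eq (not_lt.mp h2))
    rw [h3] at h2
    exact h2 h1

theorem Disp.symm_eq (h : Disp x e s η t Ψ) (z : ℂ) :
    ∃ τ ∈ Icc 0 t, Ψ.symm z = z - τ * e := by
  refine ⟨t * tpChi x s η (Ψ.symm z), ⟨mul_nonneg h.t0.le (tpChi_nonneg _), ?_⟩, ?_⟩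
  · exact mul_le_of_le_one_right h.t0.le (tpChi_le_one _)
  · have h1 := h.eq (Ψ.symm z)
    rw [Ψ.apply_symm_apply, tpMap] at h1
    nth_rewrite 2 [h1]
    push_cast
    ring

theorem Disp.lip (h : Disp x e s η t Ψ) : LipschitzWith 2 Ψ := by
  refine LipschitzWith.of_dist_le_mul fun z w => ?_
  rw [h.eq, h.eq, dist_eq_norm, dist_eq_norm]
  have h1 := tpMap_sub (x := x) (s := s) h.e1 h.η0 h.t0 h.tη z w
  have h2 : ‖tpMap x e s η t z - tpMap x e s η t w‖
      ≤ ‖tpMap x e s η t z - tpMap x e s η t w - (z - w)‖ + ‖z - w‖ := by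
    simpa using norm_add_le (tpMap x e s η t z - tpMap x e s η t w - (z - w)) (z - w)
  have h3 := norm_nonneg (z - w)
  have h4 : ((2 : ℝ≥0) : ℝ) = 2 := rfl
  rw [h4]
  linarith

theorem Disp.lip_symm (h : Disp x e s η t Ψ) : LipschitzWith 2 Ψ.symm := by
  refine LipschitzWith.of_dist_le_mul fun a b => ?_
  obtain ⟨z, rfl⟩ := Ψ.surjective a
  obtain ⟨w, rfl⟩ := Ψ.surjective b
  rw [Ψ.symm_apply_apply, Ψ.symm_apply_apply, h.eq, h.eq, dist_eq_norm, dist_eq_norm]
  have h1 := tpMap_sub (x := x) (s := s) h.e1 h.η0 h.t0 h.tη z w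
  have h2 : ‖z - w‖ ≤ ‖tpMap x e s η t z - tpMap x e s η t w‖
      + ‖tpMap x e s η t z - tpMap x e s η t w - (z - w)‖ := by
    have := norm_sub_le (tpMap x e s η t z - tpMap x e s η t w)
      (tpMap x e s η t z - tpMap x e s η t w - (z - w))
    simpa using this
  have h4 : ((2 : ℝ≥0) : ℝ) = 2 := rfl
  rw [h4]
  linarith

/-- derivative in the annulus -/
theorem Disp.hasFDerivAt (h : Disp x e s η t Ψ) {z : ℂ} (h1 : s < dist z x)
    (h2 : dist z x < s + η) :
    HasFDerivAt Ψ (ContinuousLinearMap.id ℝ ℂ -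
      (t / η) • (innerSL ℝ (dirn x z)).smulRight e) z := by
  have hz : z ≠ x := by
    rintro rfl
    rw [dist_self] at h1
    exact absurd h.s0 (not_lt.mpr h1.le)
  have hr : HasFDerivAt (fun z : ℂ => ‖z - x‖) (innerSL ℝ (dirn x z)) z := by
    have h3 : HasFDerivAt (fun z : ℂ => ‖z - x‖) (fderiv ℝ (fun z => ‖z - x‖) z) z :=
      ((contDiffAt_rho hz).differentiableAt (by simp)).hasFDerivAt
    have h4 : fderiv ℝ (fun z => ‖z - x‖) z = innerSL ℝ (dirn x z) := by
      ext v
      rw [fderiv_rho hz, innerSL_apply_apply]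
    rwa [h4] at h3
  have h5 : HasFDerivAt (fun w : ℂ => w + (t * ((s + η - ‖w - x‖) / η)) • e)
      (ContinuousLinearMap.id ℝ ℂ - (t / η) • (innerSL ℝ (dirn x z)).smulRight e) z := by
    have h6 : HasFDerivAt (fun w : ℂ => t * ((s + η - ‖w - x‖) / η))
        (-((t / η) • innerSL ℝ (dirn x z))) z := by
      have h7 := (hr.const_sub (s + η)).const_mul (t / η)
      have h9 : (fun w : ℂ => t * ((s + η - ‖w - x‖) / η))
          = fun w : ℂ => t / η * (s + η - ‖w - x‖) := by
        funext w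
        ring
      rw [h9, ← smul_neg]
      exact h7
    have h8 := (hasFDerivAt_id z).add (h6.smul_const e)
    have h9 : ContinuousLinearMap.id ℝ ℂ - (t / η) • (innerSL ℝ (dirn x z)).smulRight e
        = ContinuousLinearMap.id ℝ ℂ + (-((t / η) • innerSL ℝ (dirn x z))).smulRight e := by
      refine ContinuousLinearMap.ext fun v => ?_
      simp only [_root_.add_apply, _root_.smul_apply, _root_.neg_apply,
        ContinuousLinearMap.smulRight_apply, smul_eq_mul, neg_smul, sub_eq_add_neg, mul_smul]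
    rw [h9]
    exact h8
  refine h5.congr_of_eventuallyEq ?_
  have hU : {w : ℂ | s < dist w x ∧ dist w x < s + η} ∈ 𝓝 z := by
    refine IsOpen.mem_nhds ?_ ⟨h1, h2⟩
    exact (isOpen_lt continuous_const (continuous_id.dist continuous_const)).inter
      (isOpen_lt (continuous_id.dist continuous_const) continuous_const)
  filter_upwards [hU] with w hw
  rw [h.mid_eq hw.1.le hw.2.le, dist_eq_norm, Complex.real_smul]

end Vale.Agent.P128.Q1
end
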