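import Vale.Agent.P128.Bdl.K_GM_Defs

/-! Definitions for the locally constant case: one-dimensional networks which are minimal for the
length under the separation constraint. -/

open MeasureTheory Set Metric Filter
open scoped ENNReal NNReal Topology

namespace Vale.Agent.P128.GM

/-- `L` separates, outside `W`, all the points separated by `K`. -/
def SepOut (K L W : Set ℂ) : Prop :=
  ∀ z z' : ℂ, z ∉ L → z ∉ W → z' ∉ W → z' ∈ connectedComponentIn Lᶜ z →
    z' ∈ connectedComponentIn Kᶜ z

/-- Reduced closed sets of locally finite length which minimize the length among the closed sets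
which coincide with them outside a disk and separate the same points outside this disk. -/
structure NetMin (K : Set ℂ) : Prop where
  closed : IsClosed K
  fin : ∀ (x : ℂ) (s : ℝ), μH[1] (K ∩ ball x s) < ⊤
  red : ∀ x ∈ K, ∀ r > 0, 0 < μH[1] (K ∩ ball x r)
  min : ∀ (x : ℂ) (s : ℝ) (L : Set ℂ), IsClosed L → L \ ball x s = K \ ball x s →
    μH[1] (L ∩ ball x s) < ⊤ → SepOut K L (ball x s) →
    μH[1] (K ∩ ball x s) ≤ μH[1] (L ∩ ball x s)

/-- `K` is a straight line. -/
def IsLine (K : Set ℂ) : Prop :=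
  ∃ x a : ℂ, ‖a‖ = 1 ∧ K = {z | ∃ t : ℝ, z = x + t * a}

/-- `K` is the union of three half-lines with the same end point, making angles of 120 degrees
(three unit vectors of the plane with sum zero make pairwise angles of 120 degrees). -/
def IsPropeller (K : Set ℂ) : Prop :=
  ∃ x a b c : ℂ, ‖a‖ = 1 ∧ ‖b‖ = 1 ∧ ‖c‖ = 1 ∧ a + b + c = 0 ∧
    K = {z | ∃ t : ℝ, 0 ≤ t ∧ (z = x + t * a ∨ z = x + t * b ∨ z = x + t * c)}

/-- `K` is, in the disk of centre `x` and radius `s`, a diameter. -/
def IsDiam (K : Set ℂ) (x : ℂ) (s : ℝ) : Prop :=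
  ∃ e : ℂ, ‖e‖ = 1 ∧ K ∩ ball x s = {z | ∃ t : ℝ, |t| < s ∧ z = x + t * e}

/-- The length of `K` in the disk of centre `x` and radius `s`. -/
noncomputable def lh (K : Set ℂ) (x : ℂ) (s : ℝ) : ℝ := (μH[1] (K ∩ ball x s)).toReal

/-- The star competitor: inside `Ω` replace `K` by the segments from `c` to the points of `K` on the
boundary of `Ω`. -/
def star (K Ω : Set ℂ) (c : ℂ) : Set ℂ := (K \ Ω) ∪ ({c} ∪ ⋃ q ∈ K ∩ frontier Ω, segment ℝ c q)

end Vale.Agent.P128.GM
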