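import Vale.Agent.P128.MathlibUsed
import Vale.Agent.P128.Bdl.B3
import Vale.Agent.P128.Bdl.B2
import Vale.Agent.P128.Bdl.B1
import Vale.Agent.P128.Bdl.K_GM_D_NetDefs
import Vale.Agent.P128.Defs

set_option linter.all false

section

open MeasureTheory Set Metric Function Filter
open scoped ENNReal ContDiff Topology Real

namespace Vale.Agent.P128

theorem energy_union {K A B : Set ℂ} {g u : ℂ → ℝ} {G : ℂ → ℂ} (hK : MeasurableSet K)
    (hB : MeasurableSet B) (hAB : Disjoint A B) :
    energy g u G K (A ∪ B) = energy g u G K A + energy g u G K B := by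
  unfold energy
  rw [union_sdiff_distrib, inter_union_distrib_left,
    lintegral_union (hB.diff hK) (hAB.mono sdiff_subset sdiff_subset),
    lintegral_union hB hAB,
    measure_union (hAB.mono inter_subset_right inter_subset_right) (hK.inter hB)]
  ring

theorem energy_congr_off {K L A : Set ℂ} {g u w : ℂ → ℝ} {G H : ℂ → ℂ} (hA : MeasurableSet A)
    (hK : MeasurableSet K)
    (hw : ∀ z ∈ A, w z = u z) (hH : ∀ z ∈ A, H z = G z) (hL : ∀ z ∈ A, z ∈ L ↔ z ∈ K) :
    energy g w H L A = energy g u G K A := by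
  unfold energy
  have e1 : A \ L = A \ K := by
    ext z; constructor
    · rintro ⟨h1, h2⟩; exact ⟨h1, fun h => h2 ((hL z h1).mpr h)⟩
    · rintro ⟨h1, h2⟩; exact ⟨h1, fun h => h2 ((hL z h1).mp h)⟩
  have e2 : L ∩ A = K ∩ A := by
    ext z; constructor
    · rintro ⟨h1, h2⟩; exact ⟨(hL z h2).mp h1, h2⟩
    · rintro ⟨h1, h2⟩; exact ⟨(hL z h2).mpr h1, h2⟩
  rw [e1, e2]
  congr 1
  · congr 1
    exact setLIntegral_congr_fun (hA.diff hK) fun z hz => by simp only [hH z hz.1]
  · exact setLIntegral_congr_fun hA fun z hz => by simp only [hw z hz]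

theorem Nice.energy_ne_top {Ω K : Set ℂ} {g u : ℂ → ℝ} {G : ℂ → ℂ} {M : ℝ}
    (N : Nice Ω g u G K M) {V : Set ℂ} (hVf : volume V ≠ ⊤) :
    energy g u G K V ≠ ⊤ := by
  have hG := N.G_memLp
  have hu := N.u_memLp
  have hug : MemLp (fun z => u z - g z) 2 (volume.restrict V) :=
    (hu.restrict _).sub (N.g_memLp hVf)
  rw [energy_eq_ofReal ((hG.restrict _).norm.integrable_sq) hug.integrable_sq]
  have hfin : μH[1] (K ∩ V) ≠ ⊤ := ((measure_mono inter_subset_left).trans_lt N.min.1.finite).ne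
  exact ENNReal.add_ne_top.mpr ⟨ENNReal.add_ne_top.mpr ⟨ENNReal.ofReal_ne_top, hfin⟩,
    ENNReal.ofReal_ne_top⟩

/-- Comparison of energies in a closed disk for competitors that agree with the minimizer
outside of it. -/
theorem Nice.compare {Ω K : Set ℂ} {g u : ℂ → ℝ} {G : ℂ → ℂ} {M : ℝ}
    (N : Nice Ω g u G K M) {x : ℂ} {s R : ℝ} (hsR : s < R) (hR : closedBall x R ⊆ Ω)
    {w : ℂ → ℝ} {H : ℂ → ℂ} {L : Set ℂ} (hadm : Admissible Ω w H L)
    (hw : ∀ z ∉ closedBall x s, w z = u z) (hH : ∀ z ∉ closedBall x s, H z = G z)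
    (hL : ∀ z ∉ closedBall x s, z ∈ L ↔ z ∈ K) :
    energy g u G K (closedBall x s) ≤ energy g w H L (closedBall x s) := by
  have hKm := N.min.1.measurableSet N.isOpen
  have hLm := hadm.measurableSet N.isOpen
  have hcl : closure (ball x R) ⊆ closedBall x R := closure_ball_subset_closedBall
  have hmin := N.min.2 (ball x R) isOpen_ball
    ((isCompact_closedBall x R).of_isClosed_subset isClosed_closure hcl) (hcl.trans hR)
    w H L hadm ⟨closedBall x s, isCompact_closedBall x s, closedBall_subset_ball hsR, by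
      intro z hz
      by_contra hc
      rcases hz with ⟨h1, h2⟩ | ⟨h1, h2⟩
      · exact h2 ((hL z hc).mp h1)
      · exact h2 ((hL z hc).mpr h1), Eventually.of_forall fun z hz => hw z hz⟩
  have hsub : closedBall x s ⊆ ball x R := closedBall_subset_ball hsR
  have hun : ball x R = closedBall x s ∪ (ball x R \ closedBall x s) :=
    (union_sdiff_cancel hsub).symm
  have hm1 : MeasurableSet (closedBall x s) := isClosed_closedBall.measurableSet
  have hm2 : MeasurableSet (ball x R \ closedBall x s) := isOpen_ball.measurableSet.diff hm1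
  rw [hun, energy_union hKm hm2 disjoint_sdiff_right,
    energy_union hLm hm2 disjoint_sdiff_right] at hmin
  have e : energy g w H L (ball x R \ closedBall x s) =
      energy g u G K (ball x R \ closedBall x s) :=
    energy_congr_off hm2 hKm (fun z hz => hw z hz.2) (fun z hz => hH z hz.2)
      (fun z hz => hL z hz.2)
  rw [e] at hmin
  have hne : energy g u G K (ball x R \ closedBall x s) ≠ ⊤ := by
    refine N.energy_ne_top ?_
    exact ((measure_mono sdiff_subset).trans_lt measure_ball_lt_top).ne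
  exact (ENNReal.add_le_add_iff_right hne).mp hmin

/-- The competitor that vanishes in the disk, the circle being added to the set. -/
theorem Nice.circle_competitor {Ω K : Set ℂ} {g u : ℂ → ℝ} {G : ℂ → ℂ} {M : ℝ}
    (N : Nice Ω g u G K M) {x : ℂ} {s : ℝ} (hs : 0 < s) (hR : closedBall x s ⊆ Ω) :
    Admissible Ω ((closedBall x s)ᶜ.indicator u) ((closedBall x s)ᶜ.indicator G)
      ((K \ closedBall x s) ∪ sphere x s) := by
  have hcm : MeasurableSet ((closedBall x s)ᶜ) := isClosed_closedBall.measurableSet.compl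
  refine
    { subset := ?_
      relClosed := ?_
      finite := ?_
      memLp := (N.u_memLp.indicator hcm).restrict _
      grad_memLp := (N.G_memLp.indicator hcm).restrict _
      weak := ?_ }
  · rintro z (hz | hz)
    · exact N.min.1.subset hz.1
    · exact hR (sphere_subset_closedBall hz)
  · rintro z ⟨hzΩ, hz⟩
    rw [closure_union, isClosed_sphere.closure_eq] at hz
    rcases hz with hz | hz
    · have h1 : z ∈ K := N.min.1.relClosed ⟨hzΩ, closure_mono sdiff_subset hz⟩
      have h2 : z ∉ ball x s := by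
        intro hb
        have := mem_closure_iff.mp hz (ball x s) isOpen_ball hb
        obtain ⟨y, hy1, hy2⟩ := this
        exact hy2.2 (ball_subset_closedBall hy1)
      by_cases h3 : z ∈ closedBall x s
      · right
        rw [mem_sphere]
        rw [mem_ball, not_lt] at h2
        rw [mem_closedBall] at h3
        exact le_antisymm h3 h2
      · left; exact ⟨h1, h3⟩
    · right; exact hz
  · refine lt_of_le_of_lt (measure_union_le _ _) ?_
    refine ENNReal.add_lt_top.mpr ⟨(measure_mono sdiff_subset).trans_lt N.min.1.finite, ?_⟩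
    exact lt_of_le_of_lt (hausdorff_sphere_le x hs.le) ENNReal.ofReal_lt_top
  · refine isWeakGrad_of_test fun φ h1 h2 h3 v => ?_
    set A : Set ℂ := (closedBall x s)ᶜ with hA
    have hAo : IsOpen A := isClosed_closedBall.isOpen_compl
    have hloc : ∀ z, (A.indicator φ =ᶠ[𝓝 z] fun _ => 0) ∧ (z ∈ A → φ =ᶠ[𝓝 z] fun _ => 0) ∨
        (z ∈ A ∧ A.indicator φ =ᶠ[𝓝 z] φ) := by
      intro z
      by_cases hzA : z ∈ A
      · right
        exact ⟨hzA, by filter_upwards [hAo.mem_nhds hzA] with y hy using indicator_of_mem hy _⟩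
      · left
        refine ⟨?_, fun h => absurd h hzA⟩
        have hzc : z ∈ closedBall x s := by simpa [hA] using hzA
        by_cases hzb : z ∈ ball x s
        · filter_upwards [isOpen_ball.mem_nhds hzb] with y hy
          exact indicator_of_notMem (notMem_compl_iff.mpr (ball_subset_closedBall hy)) _
        · have hzs : z ∈ sphere x s := by
            rw [mem_sphere]; rw [mem_ball, not_lt] at hzb; rw [mem_closedBall] at hzc
            exact le_antisymm hzc hzb
          have hzt : z ∉ tsupport φ := fun h => (h3 h).2 (Or.inr hzs)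
          have : φ =ᶠ[𝓝 z] fun _ => 0 := by
            have := notMem_tsupport_iff_eventuallyEq.mp hzt
            exact this
          filter_upwards [this] with y hy
          simp [indicator, hy]
    have hsm : ContDiff ℝ ∞ (A.indicator φ) := by
      rw [contDiff_iff_contDiffAt]
      intro z
      rcases hloc z with ⟨h, -⟩ | ⟨-, h⟩
      · exact contDiffAt_const.congr_of_eventuallyEq h
      · exact h1.contDiffAt.congr_of_eventuallyEq h
    have hfd : ∀ z, fderiv ℝ (A.indicator φ) z v = A.indicator (fun z => fderiv ℝ φ z v) z := by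
      intro z
      rcases hloc z with ⟨h, h'⟩ | ⟨hz, h⟩
      · rw [h.fderiv_eq]
        by_cases hzA : z ∈ A
        · rw [indicator_of_mem hzA, (h' hzA).fderiv_eq]
        · rw [indicator_of_notMem hzA]; simp
      · rw [h.fderiv_eq, indicator_of_mem hz]
    have hsupp : support (A.indicator φ) ⊆ support φ := by
      rw [support_indicator]; exact inter_subset_right
    have hts : tsupport (A.indicator φ) ⊆ tsupport φ := closure_mono hsupp
    have hcs : HasCompactSupport (A.indicator φ) := h2.of_isClosed_subset (isClosed_tsupport _) hts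
    have htU : tsupport (A.indicator φ) ⊆ Ω \ K := by
      intro z hz
      have hz1 := h3 (hts hz)
      refine ⟨hz1.1, fun hzK => ?_⟩
      by_cases hzc : z ∈ closedBall x s
      · rcases hloc z with ⟨h, -⟩ | ⟨h, -⟩
        · exact notMem_tsupport_iff_eventuallyEq.mpr h hz
        · exact h hzc
      · exact hz1.2 (Or.inl ⟨hzK, hzc⟩)
    have key := N.min.1.weak.test hsm hcs htU v
    have e1 : (∫ z, A.indicator u z * fderiv ℝ φ z v) = ∫ z, u z * fderiv ℝ (A.indicator φ) z v := by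
      refine integral_congr_ae (Eventually.of_forall fun z => ?_)
      simp only [hfd]
      by_cases hz : z ∈ A
      · simp [hz]
      · simp [hz]
    have e2 : (∫ z, inner ℝ (A.indicator G z) v * φ z) =
        ∫ z, inner ℝ (G z) v * A.indicator φ z := by
      refine integral_congr_ae (Eventually.of_forall fun z => ?_)
      by_cases hz : z ∈ A
      · simp [hz]
      · simp [hz]
    rw [e1, e2]
    exact key

end Vale.Agent.P128
end

section

open MeasureTheory Set Metric Function Filter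
open scoped ENNReal ContDiff Topology Real

namespace Vale.Agent.P128

/-- Dirichlet energy in the disk. -/
noncomputable def En (G : ℂ → ℂ) (x : ℂ) (s : ℝ) : ℝ := ∫ z in ball x s, ‖G z‖ ^ 2

/-- Fidelity term in the disk. -/
noncomputable def Un (g u : ℂ → ℝ) (x : ℂ) (s : ℝ) : ℝ := ∫ z in ball x s, (u z - g z) ^ 2

/-- Length in the closed disk. -/
noncomputable def Hn (K : Set ℂ) (x : ℂ) (s : ℝ) : ℝ := (μH[1] (K ∩ closedBall x s)).toReal

/-- Tangential energy on the circle. -/
noncomputable def eT (G : ℂ → ℂ) (x : ℂ) (s : ℝ) : ℝ :=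
  s * ∫ θ in ang, (inner ℝ (G (circleMap x s θ)) (Complex.I * Complex.exp (θ * Complex.I))) ^ 2

/-- Normal energy on the circle. -/
noncomputable def eN (G : ℂ → ℂ) (x : ℂ) (s : ℝ) : ℝ :=
  s * ∫ θ in ang, (inner ℝ (G (circleMap x s θ)) (Complex.exp (θ * Complex.I))) ^ 2

/-- Fidelity on the circle. -/
noncomputable def eU (g u : ℂ → ℝ) (x : ℂ) (s : ℝ) : ℝ :=
  s * ∫ θ in ang, (u (circleMap x s θ) - g (circleMap x s θ)) ^ 2

theorem volume_sphere_zero (x : ℂ) {s : ℝ} (hs : 0 < s) : volume (sphere x s) = 0 :=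
  Measure.addHaar_sphere_of_ne_zero volume x hs.ne'

theorem closedBall_ae_eq_ball (x : ℂ) {s : ℝ} (hs : 0 < s) :
    (closedBall x s : Set ℂ) =ᵐ[volume] ball x s := by
  have h := volume_sphere_zero x hs
  rw [← ball_union_sphere]
  exact union_ae_eq_left_of_ae_eq_empty (ae_eq_empty.mpr h)

/-- Energy in the closed disk as a real number. -/
theorem Nice.energy_closedBall {Ω K : Set ℂ} {g u : ℂ → ℝ} {G : ℂ → ℂ} {M : ℝ}
    (N : Nice Ω g u G K M) {x : ℂ} {s : ℝ} (hs : 0 < s) (_hR : closedBall x s ⊆ Ω) :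
    energy g u G K (closedBall x s) = ENNReal.ofReal (En G x s + Hn K x s + Un g u x s) := by
  have hK := N.min.1.measurableSet N.isOpen
  have hG := N.G_memLp
  have hu := N.u_memLp
  have hug : MemLp (fun z => u z - g z) 2 (volume.restrict (closedBall x s)) :=
    (hu.restrict _).sub (N.g_memLp measure_closedBall_lt_top.ne)
  rw [energy_eq_ofReal ((hG.restrict _).norm.integrable_sq) hug.integrable_sq]
  have e1 : ∫ z in closedBall x s \ K, ‖G z‖ ^ 2 = En G x s := by
    unfold En
    rw [← setIntegral_congr_set (closedBall_ae_eq_ball x hs)]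
    have : closedBall x s \ K ⊆ closedBall x s := sdiff_subset
    refine (setIntegral_eq_of_subset_of_forall_sdiff_eq_zero
      isClosed_closedBall.measurableSet this ?_).symm
    intro z hz
    have : z ∈ K := by
      by_contra hc
      exact hz.2 ⟨hz.1, hc⟩
    rw [N.G0 z (fun h => h.2 this)]
    simp
  have e2 : ∫ z in closedBall x s, (u z - g z) ^ 2 = Un g u x s := by
    unfold Un
    rw [← setIntegral_congr_set (closedBall_ae_eq_ball x hs)]
  have hfin : μH[1] (K ∩ closedBall x s) ≠ ⊤ :=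
    ((measure_mono inter_subset_left).trans_lt N.min.1.finite).ne
  have p1 : 0 ≤ En G x s := integral_nonneg fun _ => by (clear * -; positivity)
  have p2 : 0 ≤ Un g u x s := integral_nonneg fun _ => by (clear * -; positivity)
  have p3 : 0 ≤ Hn K x s := ENNReal.toReal_nonneg
  rw [e1, e2, ENNReal.ofReal_add (by (clear * - p1 p3; positivity)) p2, ENNReal.ofReal_add p1 p3]
  congr 2
  exact (ENNReal.ofReal_toReal hfin).symm

/-- The trivial upper bound for the energy. -/
theorem Nice.circle_bound {Ω K : Set ℂ} {g u : ℂ → ℝ} {G : ℂ → ℂ} {M : ℝ}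
    (N : Nice Ω g u G K M) {x : ℂ} {s R : ℝ} (hs : 0 < s) (hsR : s < R)
    (hR : closedBall x R ⊆ Ω) :
    En G x s + Hn K x s + Un g u x s ≤ 2 * π * s + π * M ^ 2 * s ^ 2 := by
  have hsΩ : closedBall x s ⊆ Ω := (closedBall_subset_closedBall hsR.le).trans hR
  have hcomp := N.compare hsR hR (N.circle_competitor hs hsΩ)
    (fun z hz => indicator_of_mem (show z ∈ (closedBall x s)ᶜ from hz) _)
    (fun z hz => indicator_of_mem (show z ∈ (closedBall x s)ᶜ from hz) _)
    (fun z hz => by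
      constructor
      · rintro (h | h)
        · exact h.1
        · exact absurd (sphere_subset_closedBall h) hz
      · intro h; exact Or.inl ⟨h, hz⟩)
  rw [N.energy_closedBall hs hsΩ] at hcomp
  have hub : energy g ((closedBall x s)ᶜ.indicator u) ((closedBall x s)ᶜ.indicator G)
      ((K \ closedBall x s) ∪ sphere x s) (closedBall x s) ≤
      ENNReal.ofReal (2 * π * s + π * M ^ 2 * s ^ 2) := by
    unfold energy
    have e1 : ∫⁻ z in closedBall x s \ ((K \ closedBall x s) ∪ sphere x s),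
        ENNReal.ofReal (‖(closedBall x s)ᶜ.indicator G z‖ ^ 2) = 0 := by
      rw [setLIntegral_congr_fun (g := fun _ => 0)
        (isClosed_closedBall.measurableSet.diff
          (((N.min.1.measurableSet N.isOpen).diff isClosed_closedBall.measurableSet).union
            isClosed_sphere.measurableSet)) fun z hz => ?_]
      · simp only [lintegral_const, MeasurableSet.univ, Measure.restrict_apply, univ_inter, zero_mul]
      · have : z ∉ (closedBall x s)ᶜ := fun h => h hz.1
        simp only [indicator_of_notMem this, norm_zero, ne_eq, OfNat.ofNat_ne_zero, not_false_eq_true, zero_pow, ENNReal.ofReal_zero]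
    have e2 : μH[1] (((K \ closedBall x s) ∪ sphere x s) ∩ closedBall x s) ≤
        ENNReal.ofReal (2 * π * s) := by
      refine le_trans (measure_mono ?_) (hausdorff_sphere_le x hs.le)
      rintro z ⟨h | h, hz⟩
      · exact absurd hz h.2
      · exact h
    have e3 : ∫⁻ z in closedBall x s, ENNReal.ofReal
        (((closedBall x s)ᶜ.indicator u z - g z) ^ 2) ≤ ENNReal.ofReal (π * M ^ 2 * s ^ 2) := by
      calc ∫⁻ z in closedBall x s, ENNReal.ofReal (((closedBall x s)ᶜ.indicator u z - g z) ^ 2)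
          ≤ ∫⁻ _ in closedBall x s, ENNReal.ofReal (M ^ 2) := by
            refine setLIntegral_mono measurable_const fun z hz => ?_
            have : z ∉ (closedBall x s)ᶜ := fun h => h hz
            rw [indicator_of_notMem this, zero_sub, neg_sq]
            refine ENNReal.ofReal_le_ofReal ?_
            rw [← sq_abs]
            have := N.gb z
            (clear * - this; gcongr)
        _ = ENNReal.ofReal (M ^ 2) * volume (closedBall x s) := by simp only [lintegral_const, MeasurableSet.univ, Measure.restrict_apply, univ_inter, Complex.volume_closedBall]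
        _ = ENNReal.ofReal (π * M ^ 2 * s ^ 2) := by
            rw [Complex.volume_closedBall]
            have : (NNReal.pi : ℝ≥0∞) = ENNReal.ofReal π := by
              rw [← NNReal.coe_real_pi, ENNReal.ofReal_coe_nnreal]
            rw [this, ← ENNReal.ofReal_pow hs.le, ← ENNReal.ofReal_mul (by positivity),
              ← ENNReal.ofReal_mul (by positivity)]
            congr 1
            ring
    rw [e1, zero_add, ENNReal.ofReal_add (by positivity) (by positivity)]
    exact add_le_add e2 e3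
  exact (ENNReal.ofReal_le_ofReal_iff (by (clear * - hs; positivity))).mp (hcomp.trans hub)

end Vale.Agent.P128
end

section

open MeasureTheory Set Metric Function Filter
open scoped ENNReal ContDiff Topology Real

namespace Vale.Agent.P128

theorem integral_polar_set (x : ℂ) {F : ℂ → ℝ} (hFm : Measurable F) {S : Set ℝ}
    (hS : MeasurableSet S) (hS0 : S ⊆ Ioi 0) (hF : IntegrableOn F {z | dist z x ∈ S}) :
    ∫ z in {z | dist z x ∈ S}, F z = ∫ s in S, s * ∫ θ in ang, F (circleMap x s θ) := by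
  have hmeas : MeasurableSet {z : ℂ | dist z x ∈ S} := (measurable_id.dist measurable_const) hS
  have hi : Integrable ({z : ℂ | dist z x ∈ S}.indicator F) :=
    (integrable_indicator_iff hmeas).mpr hF
  rw [← integral_indicator hmeas, integral_polar x (hFm.indicator hmeas) hi]
  have hR : ∫ s in S, s * ∫ θ in ang, F (circleMap x s θ) =
      ∫ s in Ioi 0, S.indicator (fun s => s * ∫ θ in ang, F (circleMap x s θ)) s := by
    rw [setIntegral_indicator hS, inter_eq_self_of_subset_right hS0]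
  rw [hR]
  refine setIntegral_congr_fun measurableSet_Ioi fun s hs => ?_
  have hd : ∀ θ, dist (circleMap x s θ) x = s := fun θ => by
    rw [dist_eq_norm, circleMap_sub_center, norm_circleMap_zero, abs_of_pos hs]
  by_cases hsS : s ∈ S
  · have : ∀ θ, ({z : ℂ | dist z x ∈ S}.indicator F) (circleMap x s θ) =
        F (circleMap x s θ) := fun θ => indicator_of_mem (by simpa [hd θ] using hsS) _
    simp only [this, indicator_of_mem hsS]
  · have : ∀ θ, ({z : ℂ | dist z x ∈ S}.indicator F) (circleMap x s θ) = 0 := fun θ =>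
      indicator_of_notMem (by simpa [hd θ] using hsS) _
    simp only [this, indicator_of_notMem hsS]; simp

theorem integrableOn_polar_set (x : ℂ) {F : ℂ → ℝ} (hFm : Measurable F) {S : Set ℝ}
    (hS : MeasurableSet S) (hS0 : S ⊆ Ioi 0) (hF : IntegrableOn F {z | dist z x ∈ S}) :
    IntegrableOn (fun s => s * ∫ θ in ang, F (circleMap x s θ)) S ∧
    ∀ᵐ s, s ∈ S → IntegrableOn (fun θ => F (circleMap x s θ)) ang := by
  have hmeas : MeasurableSet {z : ℂ | dist z x ∈ S} := (measurable_id.dist measurable_const) hS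
  have hi : Integrable ({z : ℂ | dist z x ∈ S}.indicator F) :=
    (integrable_indicator_iff hmeas).mpr hF
  have hp := integrable_polar x (hFm.indicator hmeas) hi
  have hd : ∀ s, 0 < s → ∀ θ, dist (circleMap x s θ) x = s := fun s hs θ => by
    rw [dist_eq_norm, circleMap_sub_center, norm_circleMap_zero, abs_of_pos hs]
  have hval : ∀ s ∈ S, ∀ θ, ({z : ℂ | dist z x ∈ S}.indicator F) (circleMap x s θ) =
      F (circleMap x s θ) := fun s hs θ => indicator_of_mem (by
        simpa [hd s (hS0 hs) θ] using hs) _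
  constructor
  · have h1 := hp.integral_prod_left
    have h2 : IntegrableOn (fun s => ∫ θ in ang, s *
        ({z : ℂ | dist z x ∈ S}.indicator F) (circleMap x s θ)) S :=
      IntegrableOn.mono_set h1 hS0
    refine h2.congr_fun (fun s hs => ?_) hS
    simp only [hval s hs, integral_const_mul]
  · have h1 := hp.prod_right_ae
    rw [ae_restrict_iff' measurableSet_Ioi] at h1
    filter_upwards [h1] with s h2 hs
    have h3 := h2 (hS0 hs)
    simp only [hval s hs] at h3
    have hs0 : (0 : ℝ) < s := hS0 hs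
    have h4 := h3.const_mul s⁻¹
    refine h4.congr (Eventually.of_forall fun θ => ?_)
    simp only
    field_simp

theorem norm_sq_eq_inner (a : ℂ) (θ : ℝ) :
    ‖a‖ ^ 2 = (inner ℝ a (Complex.I * Complex.exp (θ * Complex.I))) ^ 2 +
      (inner ℝ a (Complex.exp (θ * Complex.I))) ^ 2 := by
  have h1 : (Complex.exp (θ * Complex.I)).re = Real.cos θ := Complex.exp_ofReal_mul_I_re θ
  have h2 : (Complex.exp (θ * Complex.I)).im = Real.sin θ := Complex.exp_ofReal_mul_I_im θ
  rw [inner_eq, inner_eq, ← Complex.normSq_eq_norm_sq, Complex.normSq_apply,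
    Complex.mul_re, Complex.mul_im, h1, h2]
  simp only [Complex.I_re, Complex.I_im]
  have := Real.sin_sq_add_cos_sq θ
  linear_combination (-(a.re * a.re) - a.im * a.im) * this

/-- Increments of the Dirichlet energy. -/
theorem Nice.incr_E {Ω K : Set ℂ} {g u : ℂ → ℝ} {G : ℂ → ℂ} {M : ℝ}
    (N : Nice Ω g u G K M) (x : ℂ) {s t : ℝ} (hs : 0 < s) (hst : s ≤ t) :
    IntervalIntegrable (fun r => eT G x r + eN G x r) volume s t ∧
    ∫ r in s..t, (eT G x r + eN G x r) = En G x t - En G x s := by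
  have hF : Integrable fun z => ‖G z‖ ^ 2 := N.G_memLp.norm.integrable_sq
  have hFm : Measurable fun z => ‖G z‖ ^ 2 := N.Gm.norm.pow_const 2
  have hS0 : Ico s t ⊆ Ioi 0 := fun r hr => lt_of_lt_of_le hs hr.1
  obtain ⟨h1, h2⟩ := integrableOn_polar_set x hFm measurableSet_Ico hS0 hF.integrableOn
  have h3 := integral_polar_set x hFm measurableSet_Ico hS0 hF.integrableOn
  have hae : (fun r => r * ∫ θ in ang, ‖G (circleMap x r θ)‖ ^ 2) =ᵐ[volume.restrict (Ico s t)]
      fun r => eT G x r + eN G x r := by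
    rw [Filter.EventuallyEq, ae_restrict_iff' measurableSet_Ico]
    filter_upwards [h2] with r hr hrS
    have hi := hr hrS
    have hm : Measurable fun θ : ℝ => G (circleMap x r θ) := N.Gm.comp (measurable_circleMap x r)
    have hme : Measurable fun θ : ℝ => Complex.exp (θ * Complex.I) := by fun_prop
    have hmIe : Measurable fun θ : ℝ => Complex.I * Complex.exp (θ * Complex.I) := by fun_prop
    have i1 : IntegrableOn (fun θ : ℝ => (inner ℝ (G (circleMap x r θ))
        (Complex.I * Complex.exp (θ * Complex.I))) ^ 2) ang := by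
      refine Integrable.mono hi ((hm.inner hmIe).pow_const 2).aestronglyMeasurable
        (Eventually.of_forall fun θ => ?_)
      rw [Real.norm_of_nonneg (by positivity), Real.norm_of_nonneg (by positivity),
        norm_sq_eq_inner _ θ]
      linarith [sq_nonneg (inner ℝ (G (circleMap x r θ)) (Complex.exp (θ * Complex.I)))]
    have i2 : IntegrableOn (fun θ : ℝ => (inner ℝ (G (circleMap x r θ))
        (Complex.exp (θ * Complex.I))) ^ 2) ang := by
      refine Integrable.mono hi ((hm.inner hme).pow_const 2).aestronglyMeasurable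
        (Eventually.of_forall fun θ => ?_)
      rw [Real.norm_of_nonneg (by positivity), Real.norm_of_nonneg (by positivity),
        norm_sq_eq_inner _ θ]
      linarith [sq_nonneg (inner ℝ (G (circleMap x r θ))
        (Complex.I * Complex.exp (θ * Complex.I)))]
    unfold eT eN
    rw [← mul_add, ← integral_add i1 i2]
    congr 1
    exact integral_congr_ae (Eventually.of_forall fun θ => norm_sq_eq_inner _ θ)
  have hset : ball x t = ball x s ∪ {z | dist z x ∈ Ico s t} := by
    ext z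
    simp only [mem_ball, mem_union, mem_ofPred_eq, mem_Ico]
    constructor
    · intro h
      by_cases h' : dist z x < s
      · left; exact h'
      · right; exact ⟨not_lt.mp h', h⟩
    · rintro (h | h)
      · exact lt_of_lt_of_le h hst
      · exact h.2
  have hdisj : Disjoint (ball x s) {z | dist z x ∈ Ico s t} := by
    rw [Set.disjoint_left]
    intro z h1 h2
    exact absurd (mem_ball.mp h1) (not_lt.mpr h2.1)
  constructor
  · rw [intervalIntegrable_iff_integrableOn_Ico_of_le hst]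
    exact h1.congr hae
  · rw [intervalIntegral.integral_of_le hst, ← integral_Ico_eq_integral_Ioc,
      ← integral_congr_ae hae, ← h3]
    unfold En
    rw [hset, setIntegral_union hdisj ((measurable_id.dist measurable_const) measurableSet_Ico)
      hF.integrableOn hF.integrableOn]
    ring

theorem eT_nonneg (G : ℂ → ℂ) (x : ℂ) {s : ℝ} (hs : 0 ≤ s) : 0 ≤ eT G x s :=
  mul_nonneg hs (integral_nonneg fun _ => by positivity)

theorem eN_nonneg (G : ℂ → ℂ) (x : ℂ) {s : ℝ} (hs : 0 ≤ s) : 0 ≤ eN G x s :=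
  mul_nonneg hs (integral_nonneg fun _ => by positivity)

theorem eU_nonneg (g u : ℂ → ℝ) (x : ℂ) {s : ℝ} (hs : 0 ≤ s) : 0 ≤ eU g u x s :=
  mul_nonneg hs (integral_nonneg fun _ => by positivity)

theorem Nice.ug_integrableOn {Ω K : Set ℂ} {g u : ℂ → ℝ} {G : ℂ → ℂ} {M : ℝ}
    (N : Nice Ω g u G K M) {B : Set ℂ} (hB : volume B ≠ ⊤) :
    IntegrableOn (fun z => (u z - g z) ^ 2) B :=
  ((N.u_memLp.restrict _).sub (N.g_memLp hB)).integrable_sq

/-- Increments of the fidelity term. -/
theorem Nice.incr_U {Ω K : Set ℂ} {g u : ℂ → ℝ} {G : ℂ → ℂ} {M : ℝ}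
    (N : Nice Ω g u G K M) (x : ℂ) {s t : ℝ} (hs : 0 < s) (hst : s ≤ t) :
    IntervalIntegrable (eU g u x) volume s t ∧
    ∫ r in s..t, eU g u x r = Un g u x t - Un g u x s := by
  have hFm : Measurable fun z => (u z - g z) ^ 2 := (N.um.sub N.gm).pow_const 2
  have hset : ball x t = ball x s ∪ {z | dist z x ∈ Ico s t} := by
    ext z
    simp only [mem_ball, mem_union, mem_ofPred_eq, mem_Ico]
    constructor
    · intro h
      by_cases h' : dist z x < s
      · left; exact h'
      · right; exact ⟨not_lt.mp h', h⟩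
    · rintro (h | h)
      · exact lt_of_lt_of_le h hst
      · exact h.2
  have hsub : {z | dist z x ∈ Ico s t} ⊆ ball x t := by rw [hset]; exact subset_union_right
  have hFt : IntegrableOn (fun z => (u z - g z) ^ 2) (ball x t) :=
    N.ug_integrableOn measure_ball_lt_top.ne
  have hF : IntegrableOn (fun z => (u z - g z) ^ 2) {z | dist z x ∈ Ico s t} := hFt.mono_set hsub
  have hS0 : Ico s t ⊆ Ioi 0 := fun r hr => lt_of_lt_of_le hs hr.1
  obtain ⟨h1, h2⟩ := integrableOn_polar_set x hFm measurableSet_Ico hS0 hF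
  have h3 := integral_polar_set x hFm measurableSet_Ico hS0 hF
  have hdisj : Disjoint (ball x s) {z | dist z x ∈ Ico s t} := by
    rw [Set.disjoint_left]
    intro z h1 h2
    exact absurd (mem_ball.mp h1) (not_lt.mpr h2.1)
  constructor
  · rw [intervalIntegrable_iff_integrableOn_Ico_of_le hst]
    exact h1
  · rw [intervalIntegral.integral_of_le hst, ← integral_Ico_eq_integral_Ioc]
    show ∫ r in Ico s t, r * ∫ θ in ang, (u (circleMap x r θ) - g (circleMap x r θ)) ^ 2 = _
    rw [← h3]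
    unfold Un
    rw [hset, setIntegral_union hdisj ((measurable_id.dist measurable_const) measurableSet_Ico)
      (hFt.mono_set (ball_subset_ball hst)) hF]
    ring

/-- Increments of the length. -/
theorem Nice.incr_H {Ω K : Set ℂ} {g u : ℂ → ℝ} {G : ℂ → ℂ} {M : ℝ}
    (N : Nice Ω g u G K M) {x : ℂ} {R : ℝ} (hR : closedBall x R ⊆ Ω) (m : ℕ) {s t : ℝ}
    (hst : s ≤ t) (htR : t ≤ R) :
    IntervalIntegrable (cnt K x m) volume s t ∧
    ∫ r in s..t, cnt K x m r ≤ Hn K x t - Hn K x s := by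
  have hK := N.min.1.measurableSet N.isOpen
  have hIR : Ioc s t ⊆ Iic R := fun r hr => hr.2.trans htR
  have hlm : ∀ j, MeasurableSet (lev K x j ∩ Ioc s t) := by
    intro j
    have : lev K x j ∩ Ioc s t = (lev K x j ∩ Iic R) ∩ Ioc s t := by
      ext r; simp only [mem_inter_iff]
      constructor
      · rintro ⟨h1, h2⟩; exact ⟨⟨h1, hIR h2⟩, h2⟩
      · rintro ⟨⟨h1, -⟩, h2⟩; exact ⟨h1, h2⟩
    rw [this]
    exact (N.min.1.lev_measurable hR j).inter measurableSet_Ioc
  have hint : ∀ j, IntegrableOn ((lev K x j).indicator fun _ => (1 : ℝ)) (Ioc s t) ∧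
      ∫ r in Ioc s t, (lev K x j).indicator (fun _ => (1 : ℝ)) r =
        (volume (lev K x j ∩ Ioc s t)).toReal := by
    intro j
    have e : ∀ r ∈ Ioc s t, (lev K x j).indicator (fun _ => (1 : ℝ)) r =
        (lev K x j ∩ Ioc s t).indicator (fun _ => (1 : ℝ)) r := by
      intro r hr
      by_cases h : r ∈ lev K x j
      · rw [indicator_of_mem h, indicator_of_mem (show r ∈ lev K x j ∩ Ioc s t from ⟨h, hr⟩)]
      · rw [indicator_of_notMem h, indicator_of_notMem fun h' => h h'.1]
    have hi : IntegrableOn ((lev K x j ∩ Ioc s t).indicator fun _ => (1 : ℝ)) (Ioc s t) :=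
      (integrableOn_const (by simp)).indicator (hlm j)
    refine ⟨hi.congr_fun (fun r hr => (e r hr).symm) measurableSet_Ioc, ?_⟩
    rw [setIntegral_congr_fun measurableSet_Ioc e, setIntegral_indicator (hlm j)]
    have : Ioc s t ∩ (lev K x j ∩ Ioc s t) = lev K x j ∩ Ioc s t := by
      ext r; simp only [mem_inter_iff]; tauto
    rw [this]
    simp [Measure.real]
  have hcint : IntegrableOn (cnt K x m) (Ioc s t) := by
    unfold cnt
    exact integrable_finsetSum _ fun j _ => (hint (j + 1)).1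
  refine ⟨(intervalIntegrable_iff_integrableOn_Ioc_of_le hst).mpr hcint, ?_⟩
  have hfin : ∀ r, μH[1] (K ∩ closedBall x r) ≠ ⊤ := fun r =>
    ((measure_mono inter_subset_left).trans_lt N.min.1.finite).ne
  have e1 : ∫ r in s..t, cnt K x m r =
      (∑ j ∈ Finset.range m, volume (lev K x (j + 1) ∩ Ioc s t)).toReal := by
    rw [intervalIntegral.integral_of_le hst]
    unfold cnt
    rw [integral_finsetSum _ fun j _ => (hint (j + 1)).1, ENNReal.toReal_sum]
    · exact Finset.sum_congr rfl fun j _ => (hint (j + 1)).2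
    · intro j _
      exact ((measure_mono inter_subset_right).trans_lt (by simp)).ne
  have e2 : K ∩ {z | dist z x ∈ Ioc s t} = (K ∩ closedBall x t) \ (K ∩ closedBall x s) := by
    ext z
    simp only [mem_inter_iff, mem_ofPred_eq, mem_Ioc, Set.mem_sdiff, mem_closedBall, not_and, not_le]
    constructor
    · rintro ⟨h1, h2, h3⟩; exact ⟨⟨h1, h3⟩, fun _ => h2⟩
    · rintro ⟨⟨h1, h3⟩, h2⟩; exact ⟨h1, h2 h1, h3⟩
  have hsub : K ∩ closedBall x s ⊆ K ∩ closedBall x t :=
    inter_subset_inter_right _ (closedBall_subset_closedBall hst)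
  have e3 : Hn K x t - Hn K x s = (μH[1] (K ∩ {z | dist z x ∈ Ioc s t})).toReal := by
    rw [e2, measure_sdiff hsub (hK.inter isClosed_closedBall.measurableSet).nullMeasurableSet
      (hfin s), ENNReal.toReal_sub_of_le (measure_mono hsub) (hfin t)]
    rfl
  rw [e1, e3]
  refine ENNReal.toReal_mono ?_ (sum_lev_le N.isOpen N.min.1 hR m _ measurableSet_Ioc hIR)
  exact ((measure_mono inter_subset_left).trans_lt N.min.1.finite).ne

end Vale.Agent.P128
end

section

open MeasureTheory Set Metric Filter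
open scoped ENNReal Topology

namespace Vale.Agent.P128

variable {X : Type*} [MetricSpace X] [MeasurableSpace X] [BorelSpace X]

/-- A set of finite length all of whose points have upper length density `< 1` (in the
normalisation `μH[1] (closedBall x s) ≤ t s` with `t < 1`) is null. -/
theorem hausdorff_null_of_density {K A : Set X} (hAK : A ⊆ K) {t : ℝ≥0∞} (ht : t < 1)
    {δ : ℝ} (hδ : 0 < δ)
    (hA : ∀ x ∈ A, ∀ s : ℝ, 0 < s → s < δ → μH[1] (K ∩ closedBall x s) ≤ t * ENNReal.ofReal s)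
    (hfin : μH[1] A ≠ ⊤) : μH[1] A = 0 := by
  have key : μH[1] A ≤ t * μH[1] A := by
    refine ENNReal.le_of_forall_pos_le_add fun ε hε _ => ?_
    have hle : (⨅ (T : ℕ → Set X) (_ : A ⊆ ⋃ n, T n)
        (_ : ∀ n, ediam (T n) ≤ ENNReal.ofReal (δ / 2)),
          ∑' n, ⨆ _ : (T n).Nonempty, ediam (T n) ^ (1 : ℝ)) ≤ μH[1] A := by
      rw [Measure.hausdorffMeasure_apply]
      exact le_iSup₂_of_le (ENNReal.ofReal (δ / 2)) (by simpa using half_pos hδ) le_rfl
    have hlt : (⨅ (T : ℕ → Set X) (_ : A ⊆ ⋃ n, T n)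
        (_ : ∀ n, ediam (T n) ≤ ENNReal.ofReal (δ / 2)),
          ∑' n, ⨆ _ : (T n).Nonempty, ediam (T n) ^ (1 : ℝ)) < μH[1] A + ε :=
      lt_of_le_of_lt hle (ENNReal.lt_add_right hfin (by simpa using hε.ne'))
    simp only [iInf_lt_iff] at hlt
    obtain ⟨T, hT, hTd, hTs⟩ := hlt
    have hpiece : ∀ n, μH[1] (A ∩ T n) ≤
        t * ⨆ _ : (T n).Nonempty, ediam (T n) ^ (1 : ℝ) := by
      intro n
      rcases Set.eq_empty_or_nonempty (A ∩ T n) with h0 | ⟨x, hxA, hxT⟩
      · simp [h0]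
      · have hne : (T n).Nonempty := ⟨x, hxT⟩
        simp only [hne, ciSup_pos, ENNReal.rpow_one]
        have hdtop : ediam (T n) ≠ ⊤ := ne_top_of_le_ne_top ENNReal.ofReal_ne_top (hTd n)
        by_cases hd0 : ediam (T n) = 0
        · have hsub : (A ∩ T n).Subsingleton := by
            have : (T n).Subsingleton := ediam_eq_zero_iff.mp hd0
            exact this.anti inter_subset_right
          have h0 : μH[1] (A ∩ T n) = 0 := by
            rcases hsub.eq_empty_or_singleton with h | ⟨y, h⟩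
            · simp [h]
            · have := Measure.nullSingletonClass_hausdorff X (d := (1 : ℝ)) one_pos
              rw [h]; exact measure_singleton y
          rw [h0]; exact zero_le
        · have hdpos : 0 < (ediam (T n)).toReal := ENNReal.toReal_pos hd0 hdtop
          have hdlt : (ediam (T n)).toReal < δ := by
            have h1 : (ediam (T n)).toReal ≤ δ / 2 := by
              have := ENNReal.toReal_mono ENNReal.ofReal_ne_top (hTd n)
              rwa [ENNReal.toReal_ofReal (by positivity)] at this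
            linarith
          have hsub : A ∩ T n ⊆ K ∩ closedBall x (ediam (T n)).toReal := by
            intro y hy
            refine ⟨hAK hy.1, ?_⟩
            rw [mem_closedBall, dist_edist]
            exact ENNReal.toReal_mono hdtop (edist_le_ediam_of_mem hy.2 hxT)
          calc μH[1] (A ∩ T n) ≤ μH[1] (K ∩ closedBall x (ediam (T n)).toReal) :=
                measure_mono hsub
            _ ≤ t * ENNReal.ofReal (ediam (T n)).toReal := hA x hxA _ hdpos hdlt
            _ = t * ediam (T n) := by rw [ENNReal.ofReal_toReal hdtop]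
    calc μH[1] A ≤ μH[1] (⋃ n, A ∩ T n) := by
          refine measure_mono fun x hx => ?_
          obtain ⟨n, hn⟩ := mem_iUnion.mp (hT hx)
          exact mem_iUnion.mpr ⟨n, hx, hn⟩
      _ ≤ ∑' n, μH[1] (A ∩ T n) := measure_iUnion_le _
      _ ≤ ∑' n, t * ⨆ _ : (T n).Nonempty, ediam (T n) ^ (1 : ℝ) :=
          ENNReal.tsum_le_tsum hpiece
      _ = t * ∑' n, ⨆ _ : (T n).Nonempty, ediam (T n) ^ (1 : ℝ) := ENNReal.tsum_mul_left
      _ ≤ t * (μH[1] A + ε) := by gcongr
      _ = t * μH[1] A + t * ε := mul_add _ _ _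
      _ ≤ t * μH[1] A + ε := by
          gcongr
          exact mul_le_of_le_one_left zero_le ht.le
  by_contra h0
  have hlt : t * μH[1] A < 1 * μH[1] A := by
    exact ENNReal.mul_lt_mul_left h0 hfin ht
  rw [one_mul] at hlt
  exact absurd key (not_le.mpr hlt)

end Vale.Agent.P128
end

section

open MeasureTheory Set Metric Filter
open scoped ENNReal NNReal Topology Real ContDiff

namespace Vale.Agent.P128

/-- Weighted energy in the disk. -/
noncomputable def wf (g u : ℂ → ℝ) (G : ℂ → ℂ) (K : Set ℂ) (β lam : ℝ) (x : ℂ) (s : ℝ) : ℝ :=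
  En G x s + lam * Hn K x s + β * Un g u x s

/-- Weighted energy on the circle. -/
noncomputable def wp (g u : ℂ → ℝ) (G : ℂ → ℂ) (K : Set ℂ) (β lam : ℝ) (m : ℕ) (x : ℂ)
    (s : ℝ) : ℝ :=
  eT G x s + eN G x s + lam * cnt K x m s + β * eU g u x s

theorem wp_nonneg {g u : ℂ → ℝ} {G : ℂ → ℂ} {K : Set ℂ} {β lam : ℝ} (hβ : 0 ≤ β)
    (hl : 0 ≤ lam) (m : ℕ) (x : ℂ) {s : ℝ} (hs : 0 ≤ s) : 0 ≤ wp g u G K β lam m x s := by
  have h1 := eT_nonneg G x hs
  have h2 := eN_nonneg G x hs
  have h3 := eU_nonneg g u x hs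
  have h4 := cnt_nonneg K x m s
  unfold wp; positivity

theorem En_nonneg (G : ℂ → ℂ) (x : ℂ) (s : ℝ) : 0 ≤ En G x s :=
  integral_nonneg fun _ => by positivity

theorem Un_nonneg (g u : ℂ → ℝ) (x : ℂ) (s : ℝ) : 0 ≤ Un g u x s :=
  integral_nonneg fun _ => by positivity

theorem Hn_nonneg (K : Set ℂ) (x : ℂ) (s : ℝ) : 0 ≤ Hn K x s := ENNReal.toReal_nonneg

/-- Increments of the weighted energy. -/
theorem Nice.incr {Ω K : Set ℂ} {g u : ℂ → ℝ} {G : ℂ → ℂ} {M : ℝ}
    (N : Nice Ω g u G K M) {x : ℂ} {R : ℝ} (hR : closedBall x R ⊆ Ω) {β lam : ℝ}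
    (hl : 0 ≤ lam) (m : ℕ) {s t : ℝ} (hs : 0 < s) (hst : s ≤ t) (htR : t ≤ R) :
    IntervalIntegrable (wp g u G K β lam m x) volume s t ∧
    ∫ r in s..t, wp g u G K β lam m x r ≤
      wf g u G K β lam x t - wf g u G K β lam x s := by
  obtain ⟨h1, h2⟩ := N.incr_E x hs hst
  obtain ⟨h3, h4⟩ := N.incr_U x hs hst
  obtain ⟨h5, h6⟩ := N.incr_H hR m hst htR
  have i1 : IntervalIntegrable (fun r => lam * cnt K x m r) volume s t := h5.const_mul lam
  have i2 : IntervalIntegrable (fun r => β * eU g u x r) volume s t := h3.const_mul β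
  refine ⟨(h1.add i1).add i2, ?_⟩
  have e : ∫ r in s..t, wp g u G K β lam m x r =
      (∫ r in s..t, (eT G x r + eN G x r)) + lam * (∫ r in s..t, cnt K x m r) +
        β * ∫ r in s..t, eU g u x r := by
    rw [← intervalIntegral.integral_const_mul, ← intervalIntegral.integral_const_mul,
      ← intervalIntegral.integral_add h1 i1, ← intervalIntegral.integral_add (h1.add i1) i2]
    rfl
  rw [e, h2, h4]
  unfold wf
  have := mul_le_mul_of_nonneg_left h6 hl
  linarith only [this]

/-- Estimate (B) at the centre `x` up to the radius `R`. -/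
def EstB (g u : ℂ → ℝ) (G : ℂ → ℂ) (K : Set ℂ) (x : ℂ) (R C : ℝ) : Prop :=
  ∀ᵐ s, s ∈ Ioo 0 R → K ∩ sphere x s = ∅ →
    En G x s + Hn K x s + Un g u x s ≤ s * eT G x s + 2 / 3 * s * eU g u x s + C * s ^ 2

theorem mem_lev_one {K : Set ℂ} {x : ℂ} {s : ℝ} (h : K ∩ sphere x s ≠ ∅) : s ∈ lev K x 1 := by
  show ((1 : ℕ) : ℕ∞) ≤ _
  rw [Nat.cast_one, one_le_encard_iff_nonempty]
  exact nonempty_iff_ne_empty.mpr h

/-- Persistence of small density at small scales. -/
theorem Nice.small_stays {Ω K : Set ℂ} {g u : ℂ → ℝ} {G : ℂ → ℂ} {M : ℝ}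
    (N : Nice Ω g u G K M) {x : ℂ} {R C : ℝ} (hR : closedBall x R ⊆ Ω) (hC : 0 ≤ C)
    (hB : EstB g u G K x R C) {s₀ : ℝ} (hs₀R : s₀ ≤ R)
    (h1 : wf g u G K 1 1 x s₀ / s₀ + C * s₀ < 1) :
    ∀ s, 0 < s → s ≤ s₀ →
      wf g u G K 1 1 x s / s + C * s ≤ wf g u G K 1 1 x s₀ / s₀ + C * s₀ := by
  refine ratio_mono (p := wp g u G K 1 1 1 x) (R := R) hC ?_ ?_ ?_ ?_ ?_ hs₀R h1
  · intro s _ _
    have := En_nonneg G x s; have := Un_nonneg g u x s; have := Hn_nonneg K x s
    unfold wf; (clear Ω M N C hR hC hB s₀ hs₀R h1; positivity)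
  · intro a ha haR
    exact (N.incr hR zero_le_one 1 ha haR le_rfl).1
  · intro s hs
    exact wp_nonneg zero_le_one zero_le_one 1 x hs.le
  · intro s t hs hst htR
    exact (N.incr hR zero_le_one 1 hs hst htR).2
  · filter_upwards [hB] with s hBs hs
    have hT := eT_nonneg G x hs.1.le
    have hN := eN_nonneg G x hs.1.le
    have hU := eU_nonneg g u x hs.1.le
    by_cases hK : K ∩ sphere x s = ∅
    · right
      have h2 := hBs hs hK
      have hs0 := hs.1
      rw [div_le_iff₀ hs0]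
      unfold wf wp
      rw [cnt_eq_zero 1 hK]
      have h3 : 0 ≤ s * eN G x s := by (clear * - hs0 hN; positivity)
      have h4 : 0 ≤ s * eU g u x s := by (clear * - hs0 hU; positivity)
      linarith only [h4, h3, h2]
    · left
      have h2 := le_cnt (K := K) (x := x) (m := 1) (i := 1) le_rfl (mem_lev_one hK)
      unfold wp
      push_cast at h2
      linarith only [hT, hN, hU, h2]

theorem wf_mono_center {Ω K : Set ℂ} {g u : ℂ → ℝ} {G : ℂ → ℂ} {M : ℝ}
    (N : Nice Ω g u G K M) {x y : ℂ} {s t : ℝ} (h : dist y x + s ≤ t) :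
    wf g u G K 1 1 y s ≤ wf g u G K 1 1 x t := by
  have hb : ball y s ⊆ ball x t := by
    intro z hz
    rw [mem_ball] at hz ⊢
    have := dist_triangle z y x
    linarith
  have hcb : closedBall y s ⊆ closedBall x t := by
    intro z hz
    rw [mem_closedBall] at hz ⊢
    have := dist_triangle z y x
    linarith only [h, hz, this]
  have h1 : En G y s ≤ En G x t :=
    setIntegral_mono_set (N.G_memLp.norm.integrable_sq.integrableOn)
      (Eventually.of_forall fun _ => by positivity) hb.eventuallyLE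
  have h2 : Un g u y s ≤ Un g u x t :=
    setIntegral_mono_set (N.ug_integrableOn measure_ball_lt_top.ne)
      (Eventually.of_forall fun _ => by positivity) hb.eventuallyLE
  have h3 : Hn K y s ≤ Hn K x t :=
    ENNReal.toReal_mono ((measure_mono inter_subset_left).trans_lt N.min.1.finite).ne
      (measure_mono (inter_subset_inter_right _ hcb))
  unfold wf
  linarith only [h1, h2, h3]

/-- Lower density bound at points of `K`. -/
theorem Nice.lower_density {Ω K : Set ℂ} {g u : ℂ → ℝ} {G : ℂ → ℂ} {M : ℝ}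
    (N : Nice Ω g u G K M) (hred : IsReduced Ω K) {x : ℂ} (hx : x ∈ K) {R C : ℝ}
    (hR0 : 0 < R) (hC : 0 ≤ C) (hB : ∀ y, dist y x < R → closedBall y R ⊆ Ω ∧ EstB g u G K y R C)
    {s : ℝ} (hs : 0 < s) (hsR : s ≤ R) :
    1 ≤ wf g u G K 1 1 x s / s + C * s := by
  by_contra hcon
  push Not at hcon
  have hdist0 : dist x x < R := by simpa only [dist_self] using hR0
  -- choose a smaller radius for nearby centres
  set t := wf g u G K 1 1 x s with ht
  have ht0 : 0 ≤ t := by
    have := En_nonneg G x s; have := Un_nonneg g u x s; have := Hn_nonneg K x s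
    rw [ht]; unfold wf; (clear Ω M N hred hx R C hR0 hC hB hs hsR hdist0 t hcon ht; positivity)
  obtain ⟨δ, hδ0, hδs, hδ⟩ : ∃ δ, 0 < δ ∧ δ < s ∧ t / (s - δ) + C * s < 1 := by
    have hcont : ContinuousAt (fun δ : ℝ => t / (s - δ) + C * s) 0 := by
      refine ContinuousAt.add (ContinuousAt.div (by fun_prop) (by (clear * -; fun_prop)) ?_) (by fun_prop)
      simpa using hs.ne'
    have h1 : ∀ᶠ δ in 𝓝 (0 : ℝ), t / (s - δ) + C * s < 1 := by
      refine hcont.eventually (gt_mem_nhds ?_)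
      simpa only [sub_zero] using hcon
    have h2 : ∀ᶠ δ in 𝓝 (0 : ℝ), δ < s := gt_mem_nhds hs
    obtain ⟨ε, hε, hball⟩ := Metric.eventually_nhds_iff.mp (h1.and h2)
    refine ⟨ε / 2, by linarith only [hε], ?_, ?_⟩
    · exact (hball (y := ε / 2) (by
        rw [Real.dist_eq, sub_zero, abs_of_pos (by linarith only [hε])]; linarith only [hε])).2
    · exact (hball (y := ε / 2) (by
        rw [Real.dist_eq, sub_zero, abs_of_pos (by linarith only [hε])]; linarith only [hε])).1
  have hsδ : 0 < s - δ := by linarith only [hδs]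
  have hδR : δ < R := by linarith only [hsR, hδs]
  -- the ratio is small at all nearby centres and small scales
  set τ : ℝ := t / (s - δ) + C * s with hτ
  have hτ0 : 0 ≤ τ := by rw [hτ]; (clear * - ht0 hδs hC hs; positivity)
  have key : ∀ y, dist y x < δ → ∀ r, 0 < r → r ≤ s - δ → Hn K y r ≤ τ * r := by
    intro y hy r hr hrs
    obtain ⟨hyR, hyB⟩ := hB y (hy.trans hδR)
    have h1 : wf g u G K 1 1 y (s - δ) ≤ t := wf_mono_center N (by linarith only [hy])
    have h2 : wf g u G K 1 1 y (s - δ) / (s - δ) + C * (s - δ) ≤ τ := by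
      rw [hτ]
      gcongr
      linarith only [hδ0]
    have h3 := N.small_stays hyR hC hyB (s₀ := s - δ) (by linarith only [hsR, hδ0]) (h2.trans_lt hδ) r hr hrs
    have h4 : wf g u G K 1 1 y r / r ≤ τ := by
      have : 0 ≤ C * r := by (clear * - hC hr; positivity)
      linarith only [h2, h3, this]
    rw [div_le_iff₀ hr] at h4
    have h5 : Hn K y r ≤ wf g u G K 1 1 y r := by
      have := En_nonneg G y r; have := Un_nonneg g u y r
      unfold wf; (clear Ω M N hred x hx R C hR0 hC hB s hs hsR hdist0 t hcon ht ht0 δ hδ0 hδs hsδ hδR τ hδ hτ hτ0 hy hr hrs hyR hyB h1 h2 h3 h4; linarith)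
    linarith only [h4, h5]
  have hnull : μH[1] (K ∩ ball x δ) = 0 := by
    refine hausdorff_null_of_density (K := K) inter_subset_left (t := ENNReal.ofReal τ) ?_
      hsδ ?_ ?_
    · rw [← ENNReal.ofReal_one]
      exact (ENNReal.ofReal_lt_ofReal_iff one_pos).mpr hδ
    · intro y hy r hr hrs
      have h1 := key y (mem_ball.mp hy.2) r hr hrs.le
      have hfin : μH[1] (K ∩ closedBall y r) ≠ ⊤ :=
        ((measure_mono inter_subset_left).trans_lt N.min.1.finite).ne
      rw [← ENNReal.ofReal_mul hτ0, ← ENNReal.ofReal_toReal hfin]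
      exact ENNReal.ofReal_le_ofReal h1
    · exact ((measure_mono inter_subset_left).trans_lt N.min.1.finite).ne
  have hpos := hred x hx δ hδ0
    ((closedBall_subset_closedBall hδR.le).trans (hB x hdist0).1)
  rw [hnull] at hpos
  exact lt_irrefl _ hpos

end Vale.Agent.P128
end

section

/-! Competitors for minimal networks: the star competitor in a convex region. -/

open MeasureTheory Set Metric Filter
open scoped ENNReal NNReal Topology Pointwise

namespace Vale.Agent.P128.GM

open Vale.Agent.P128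

variable {K : Set ℂ}

theorem SepOut.mono {K L W W' : Set ℂ} (h : SepOut K L W) (hW : W ⊆ W') : SepOut K L W' :=
  fun z z' h1 h2 h3 h4 => h z z' h1 (fun h5 => h2 (hW h5)) (fun h5 => h3 (hW h5)) h4

theorem SepOut.trans {K L M W W' : Set ℂ} (h1 : SepOut K L W) (h2 : SepOut L M W') (hW : W' ⊆ W)
    (hd : M \ W' = L \ W') : SepOut K M W := by
  intro z z' hz hzW hzW' hc
  have hz1 : z ∉ W' := fun h5 => hzW (hW h5)
  have hz2 : z' ∉ W' := fun h5 => hzW' (hW h5)
  have hzL : z ∉ L := fun h5 => by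
    have h6 : z ∈ L \ W' := ⟨h5, hz1⟩
    rw [← hd] at h6
    exact hz h6.1
  exact h1 z z' hzL hzW hzW' (h2 z z' hz hz1 hz2 hc)

theorem sepOut_of_map {K L W : Set ℂ} (R : ℂ → ℂ) (hR : ContinuousOn R Lᶜ)
    (hRK : ∀ y, y ∉ L → R y ∉ K) (hid : ∀ y, y ∉ L → y ∉ W → R y = y) : SepOut K L W := by
  intro z z' hz hzW hzW' hc
  have hsub : connectedComponentIn Lᶜ z ⊆ Lᶜ := connectedComponentIn_subset _ _
  have hz' : z' ∉ L := hsub hc
  have h1 : IsPreconnected (R '' connectedComponentIn Lᶜ z) :=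
    isPreconnected_connectedComponentIn.image R (hR.mono hsub)
  have h2 : R '' connectedComponentIn Lᶜ z ⊆ Kᶜ := by
    rintro _ ⟨y, hy, rfl⟩
    exact hRK y (hsub hy)
  have h3 : z ∈ R '' connectedComponentIn Lᶜ z :=
    ⟨z, mem_connectedComponentIn hz, hid z hz hzW⟩
  have h4 : z' ∈ R '' connectedComponentIn Lᶜ z := ⟨z', hc, hid z' hz' hzW'⟩
  exact h1.subset_connectedComponentIn h3 h2 h4

theorem NetMin.min' (hK : NetMin K) {Ω L : Set ℂ} (hΩ : IsOpen Ω) (hb : Bornology.IsBounded Ω)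
    (hL : IsClosed L) (hd : L \ Ω = K \ Ω) (hs : SepOut K L Ω) :
    μH[1] (K ∩ Ω) ≤ μH[1] (L ∩ Ω) := by
  obtain ⟨s, hs0⟩ := hb.subset_ball (0 : ℂ)
  have hKs : K ∩ ball 0 s = (K ∩ Ω) ∪ (K \ Ω ∩ ball 0 s) := by
    ext z
    constructor
    · rintro ⟨h1, h2⟩
      by_cases h3 : z ∈ Ω
      · exact Or.inl ⟨h1, h3⟩
      · exact Or.inr ⟨⟨h1, h3⟩, h2⟩
    · rintro (⟨h1, h2⟩ | ⟨⟨h1, _⟩, h2⟩)
      · exact ⟨h1, hs0 h2⟩
      · exact ⟨h1, h2⟩
  have hLs : L ∩ ball 0 s = (L ∩ Ω) ∪ (K \ Ω ∩ ball 0 s) := by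
    rw [← hd]
    ext z
    constructor
    · rintro ⟨h1, h2⟩
      by_cases h3 : z ∈ Ω
      · exact Or.inl ⟨h1, h3⟩
      · exact Or.inr ⟨⟨h1, h3⟩, h2⟩
    · rintro (⟨h1, h2⟩ | ⟨⟨h1, _⟩, h2⟩)
      · exact ⟨h1, hs0 h2⟩
      · exact ⟨h1, h2⟩
  have hdK : Disjoint (K ∩ Ω) (K \ Ω ∩ ball 0 s) :=
    Set.disjoint_left.2 fun z h1 h2 => h2.1.2 h1.2
  have hdL : Disjoint (L ∩ Ω) (K \ Ω ∩ ball 0 s) :=
    Set.disjoint_left.2 fun z h1 h2 => h2.1.2 h1.2
  have hm : MeasurableSet (K \ Ω ∩ ball 0 s) :=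
    (hK.closed.measurableSet.diff hΩ.measurableSet).inter measurableSet_ball
  have hfin : μH[1] (K \ Ω ∩ ball 0 s) < ⊤ :=
    (measure_mono (inter_subset_inter_left _ sdiff_subset)).trans_lt (hK.fin 0 s)
  by_cases htop : μH[1] (L ∩ Ω) = ⊤
  · rw [htop]; exact le_top
  have h1 : L \ ball 0 s = K \ ball 0 s := by
    ext z
    constructor
    · rintro ⟨h2, h3⟩
      have h4 : z ∈ L \ Ω := ⟨h2, fun h5 => h3 (hs0 h5)⟩
      rw [hd] at h4
      exact ⟨h4.1, h3⟩
    · rintro ⟨h2, h3⟩
      have h4 : z ∈ K \ Ω := ⟨h2, fun h5 => h3 (hs0 h5)⟩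
      rw [← hd] at h4
      exact ⟨h4.1, h3⟩
  have h2 : μH[1] (L ∩ ball 0 s) < ⊤ := by
    rw [hLs, measure_union hdL hm]
    exact ENNReal.add_lt_top.2 ⟨lt_top_iff_ne_top.2 htop, hfin⟩
  have h3 := hK.min 0 s L hL h1 h2 (hs.mono hs0)
  rw [hKs, hLs, measure_union hdL hm, measure_union hdK hm] at h3
  exact (ENNReal.add_le_add_iff_right hfin.ne).1 h3

theorem isClosed_star (hK : IsClosed K) {Ω : Set ℂ} (hΩ : IsOpen Ω)
    (hfin : (K ∩ frontier Ω).Finite) (c : ℂ) : IsClosed (star K Ω c) := by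
  refine (hK.sdiff hΩ).union (isClosed_singleton.union ?_)
  refine hfin.isClosed_biUnion fun q _ => ?_
  rw [segment_eq_image_lineMap]
  exact (isCompact_Icc.image (AffineMap.lineMap_continuous)).isClosed

theorem star_diff {Ω : Set ℂ} (hΩ : IsOpen Ω) (hc : Convex ℝ Ω) {c : ℂ} (hcΩ : c ∈ Ω) :
    star K Ω c \ Ω = K \ Ω := by
  ext z
  constructor
  · rintro ⟨h1 | h1 | h1, h2⟩
    · exact h1
    · rw [mem_singleton_iff] at h1
      exact absurd (h1 ▸ hcΩ) h2
    · simp only [mem_iUnion] at h1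
      obtain ⟨q, hq, h3⟩ := h1
      refine ⟨?_, h2⟩
      rcases eq_or_ne z q with rfl | hzq
      · exact hq.1
      rcases eq_or_ne z c with rfl | hzc
      · exact absurd hcΩ h2
      exfalso
      have h4 : z ∈ openSegment ℝ c q := mem_openSegment_of_ne_left_right hzc.symm hzq.symm h3
      have h5 := hc.openSegment_interior_closure_subset_interior
        (x := c) (y := q) (by rwa [hΩ.interior_eq]) hq.2.1 h4
      rw [hΩ.interior_eq] at h5
      exact h2 h5
  · rintro ⟨h1, h2⟩
    exact ⟨Or.inl ⟨h1, h2⟩, h2⟩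

theorem star_sep {Ω : Set ℂ} (hΩ : IsOpen Ω) (hc : Convex ℝ Ω)
    (hb : Bornology.IsBounded Ω) {c : ℂ} (hcΩ : c ∈ Ω) : SepOut K (star K Ω c) Ω := by
  classical
  -- the translated region
  let s : Set ℂ := (fun y => y + c) ⁻¹' Ω
  have hs_open : IsOpen s := hΩ.preimage (continuous_add_const c)
  have hs_conv : Convex ℝ s := by
    intro y hy z hz a b ha hb' hab
    have h1 := hc hy hz ha hb' hab
    show a • y + b • z + c ∈ Ω
    have h2 : a • (y + c) + b • (z + c) = a • y + b • z + c := by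
      have : a • c + b • c = c := by rw [← add_smul, hab, one_smul]
      rw [smul_add, smul_add]
      linear_combination this
    rwa [h2] at h1
  have hs0 : s ∈ 𝓝 (0 : ℂ) := hs_open.mem_nhds (by show (0 : ℂ) + c ∈ Ω; rwa [zero_add])
  have hs_bdd : Bornology.IsBounded s := by
    obtain ⟨r, hr⟩ := hb.subset_ball c
    refine (isBounded_ball (x := (0 : ℂ)) (r := r)).subset fun y hy => ?_
    have := hr hy
    rw [mem_ball, dist_eq_norm] at this
    rw [mem_ball_zero_iff]
    simpa using this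
  have hcl : ∀ y, y ∈ closure Ω ↔ y - c ∈ closure s := by
    intro y
    have h1 : closure s = (fun y => y + c) ⁻¹' closure Ω :=
      ((Homeomorph.addRight c).preimage_closure Ω).symm
    rw [h1]
    simp
  have hfr : ∀ y, y ∈ frontier Ω ↔ y - c ∈ frontier s := by
    intro y
    have h1 : frontier s = (fun y => y + c) ⁻¹' frontier Ω :=
      ((Homeomorph.addRight c).preimage_frontier Ω).symm
    rw [h1]
    simp
  have hgc : Continuous (gauge s) := continuous_gauge hs_conv hs0
  have hgpos : ∀ y, y ≠ c → 0 < gauge s (y - c) := fun y hy =>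
    (gauge_pos (absorbent_nhds_zero hs0) (NormedSpace.isVonNBounded_of_isBounded ℝ hs_bdd)).2
      (sub_ne_zero.2 hy)
  let r : ℂ → ℂ := fun y => c + (gauge s (y - c))⁻¹ • (y - c)
  have hr_fr : ∀ y, y ≠ c → r y ∈ frontier Ω := by
    intro y hy
    rw [hfr]
    have h1 : r y - c = (gauge s (y - c))⁻¹ • (y - c) := by simp [r]
    rw [h1, ← gauge_eq_one_iff_mem_frontier hs_conv hs0,
      gauge_smul_of_nonneg (inv_nonneg.2 (gauge_nonneg _)), smul_eq_mul,
      inv_mul_cancel₀ (hgpos y hy).ne']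
  have hr_id : ∀ y, y ∈ frontier Ω → r y = y := by
    intro y hy
    rw [hfr, ← gauge_eq_one_iff_mem_frontier hs_conv hs0] at hy
    simp [r, hy]
  have hr_K : ∀ y, y ∈ closure Ω → y ∉ star K Ω c → r y ∉ K := by
    intro y hy hyS hrK
    have hyc : y ≠ c := fun h => hyS (Or.inr (Or.inl h))
    have h1 : gauge s (y - c) ≤ 1 := by
      rw [gauge_le_one_iff_mem_closure hs_conv hs0, ← hcl]
      exact hy
    refine hyS (Or.inr (Or.inr ?_))
    simp only [mem_iUnion]
    refine ⟨r y, ⟨hrK, hr_fr y hyc⟩, ?_⟩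
    rw [segment_eq_image_lineMap]
    refine ⟨gauge s (y - c), ⟨(hgpos y hyc).le, h1⟩, ?_⟩
    rw [AffineMap.lineMap_apply_module']
    simp only [r, add_sub_cancel_left]
    rw [smul_smul, mul_inv_cancel₀ (hgpos y hyc).ne', one_smul, sub_add_cancel]
  refine sepOut_of_map (fun y => if y ∈ Ω then r y else y) ?_ ?_ ?_
  · refine ContinuousOn.if (p := fun y => y ∈ Ω) ?_ ?_ ?_
    · rintro y ⟨_, hy⟩
      exact hr_id y hy
    · have h0 : Continuous fun y : ℂ => y - c := continuous_id.sub continuous_const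
      have h1 : ContinuousOn r {y | y ≠ c} := by
        have h2 : ContinuousOn (fun y : ℂ => (gauge s (y - c))⁻¹) {y | y ≠ c} :=
          ContinuousOn.inv₀ (hgc.comp h0).continuousOn fun y hy => (hgpos y hy).ne'
        exact continuousOn_const.add (h2.smul h0.continuousOn)
      refine h1.mono ?_
      rintro y ⟨hy, _⟩
      exact fun h => hy (Or.inr (Or.inl h))
    · exact continuousOn_id
  · intro y hy
    by_cases hyΩ : y ∈ Ω
    · simp only [hyΩ, if_true]
      exact hr_K y (subset_closure hyΩ) hy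
    · simp only [hyΩ, if_false]
      exact fun h => hy (Or.inl ⟨h, hyΩ⟩)
  · intro y _ hyΩ
    simp [hyΩ]

theorem star_length {Ω : Set ℂ} {c : ℂ} {F : Finset ℂ} (hF : K ∩ frontier Ω = F) :
    μH[1] (star K Ω c ∩ Ω) ≤ ∑ q ∈ F, ENNReal.ofReal (dist c q) := by
  have h1 : star K Ω c ∩ Ω ⊆ {c} ∪ ⋃ q ∈ F, segment ℝ c q := by
    rintro z ⟨h1 | h1 | h1, h2⟩
    · exact absurd h2 h1.2
    · exact Or.inl h1
    · right
      simp only [mem_iUnion] at h1 ⊢
      obtain ⟨q, hq, h3⟩ := h1
      rw [hF] at hq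
      exact ⟨q, hq, h3⟩
  refine (measure_mono h1).trans ((measure_union_le _ _).trans ?_)
  have h2 : μH[1] ({c} : Set ℂ) = 0 := by
    have := Measure.nullSingletonClass_hausdorff ℂ (d := 1) one_pos
    exact measure_singleton c
  rw [h2, zero_add]
  refine (measure_biUnion_finset_le _ _).trans (Finset.sum_le_sum fun q _ => ?_)
  rw [hausdorffMeasure_segment, edist_dist]

theorem NetMin.star_le (hK : NetMin K) {Ω : Set ℂ} (hΩ : IsOpen Ω) (hc : Convex ℝ Ω)
    (hb : Bornology.IsBounded Ω) {c : ℂ} (hcΩ : c ∈ Ω) {F : Finset ℂ} (hF : K ∩ frontier Ω = F) :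
    μH[1] (K ∩ Ω) ≤ ∑ q ∈ F, ENNReal.ofReal (dist c q) :=
  (hK.min' hΩ hb (isClosed_star hK.closed hΩ (by rw [hF]; exact F.finite_toSet) c)
    (star_diff hΩ hc hcΩ) (star_sep hΩ hc hb hcΩ)).trans (star_length hF)

end Vale.Agent.P128.GM
end

section

open MeasureTheory Set Metric
open scoped ENNReal

namespace Vale.Agent.P128

end Vale.Agent.P128
end

section

set_option linter.all false

/-! Part IV, T5: length and number of crossings, general form (the lower bound 2 for the number of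
crossings is a hypothesis). -/

open MeasureTheory Set Metric Filter ComplexConjugate
open scoped ENNReal NNReal Topology Real ContDiff

namespace Vale.Agent.P128.Q1

open Vale.Agent.P128

variable {K : Set ℂ} {y₀ : ℂ} {ρ δ : ℝ}

theorem count_sum {Ω : Set ℂ} {g u : ℂ → ℝ} {G : ℂ → ℂ} {M : ℝ} (N : Nice Ω g u G K M)
    {y : ℂ} {R : ℝ} (hR : closedBall y R ⊆ Ω) {r : ℝ} (hr : 0 < r) (hrR : r ≤ R) (m : ℕ) :
    ∑ j ∈ Finset.range m, volume (lev K y (j + 1) ∩ Ioo 0 r) ≤ ENNReal.ofReal (Hn K y r) := by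
  have h1 := sum_lev_le N.isOpen N.min.1 hR m (Ioo 0 r) measurableSet_Ioo
    (fun t ht => (ht.2.le.trans hrR : t ≤ R))
  have h2 : μH[1] (K ∩ {z | dist z y ∈ Ioo 0 r}) ≤ μH[1] (K ∩ closedBall y r) := by
    refine measure_mono ?_
    rintro z ⟨hz, hz2⟩
    exact ⟨hz, mem_closedBall.2 hz2.2.le⟩
  have h3 : μH[1] (K ∩ closedBall y r) ≠ ⊤ :=
    ((measure_mono inter_subset_left).trans_lt N.min.1.finite).ne
  unfold Hn
  rw [ENNReal.ofReal_toReal h3]
  exact h1.trans h2

theorem count_lev {y : ℂ} {R : ℝ}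
    (h2 : ∀ t : ℝ, 0 < t → t ≤ R → 2 ≤ (K ∩ sphere y t).encard) {r : ℝ} (hr : 0 < r)
    (hrR : r ≤ R) {j : ℕ} (hj : j ≤ 2) : volume (lev K y j ∩ Ioo 0 r) = ENNReal.ofReal r := by
  have h3 : lev K y j ∩ Ioo 0 r = Ioo 0 r := by
    refine inter_eq_right.2 fun t ht => lev_antitone K y hj ?_
    exact h2 t ht.1 (ht.2.le.trans hrR)
  rw [h3, Real.volume_Ioo, sub_zero]

theorem count_Hn_ge {Ω : Set ℂ} {g u : ℂ → ℝ} {G : ℂ → ℂ} {M : ℝ} (N : Nice Ω g u G K M)
    {y : ℂ} {R : ℝ} (hR : closedBall y R ⊆ Ω)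
    (h2 : ∀ t : ℝ, 0 < t → t ≤ R → 2 ≤ (K ∩ sphere y t).encard) {r : ℝ} (hr : 0 < r)
    (hrR : r ≤ R) : 2 * r ≤ Hn K y r := by
  have h := count_sum N hR hr hrR 2
  rw [Finset.sum_range_succ, Finset.sum_range_one, count_lev h2 hr hrR (by norm_num),
    count_lev h2 hr hrR (by norm_num), ← ENNReal.ofReal_add hr.le hr.le] at h
  have hn : 0 ≤ Hn K y r := ENNReal.toReal_nonneg
  have := (ENNReal.ofReal_le_ofReal_iff hn).1 h
  linarith

theorem count_bad_le {Ω : Set ℂ} {g u : ℂ → ℝ} {G : ℂ → ℂ} {M : ℝ} (N : Nice Ω g u G K M)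
    {y : ℂ} {R : ℝ} (hR : closedBall y R ⊆ Ω)
    (h2 : ∀ t : ℝ, 0 < t → t ≤ R → 2 ≤ (K ∩ sphere y t).encard) {r η : ℝ} (hr : 0 < r)
    (hrR : r ≤ R) (hη : 0 ≤ η) (hH : Hn K y r ≤ (2 + η) * r) :
    volume {t ∈ Ioo 0 r | 3 ≤ (K ∩ sphere y t).encard} ≤ ENNReal.ofReal (η * r) := by
  have h := count_sum N hR hr hrR 3
  rw [Finset.sum_range_succ, Finset.sum_range_succ, Finset.sum_range_one,
    count_lev h2 hr hrR (by norm_num), count_lev h2 hr hrR (by norm_num)] at h
  have e : {t ∈ Ioo 0 r | 3 ≤ (K ∩ sphere y t).encard} = lev K y (2 + 1) ∩ Ioo 0 r := by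
    ext t
    unfold lev
    simp only [mem_inter_iff, mem_ofPred_eq]
    norm_num
    tauto
  rw [e]
  have h3 := h.trans (ENNReal.ofReal_le_ofReal hH)
  have h4 : ENNReal.ofReal ((2 + η) * r)
      = ENNReal.ofReal r + ENNReal.ofReal r + ENNReal.ofReal (η * r) := by
    rw [← ENNReal.ofReal_add hr.le hr.le, ← ENNReal.ofReal_add (by positivity) (by positivity)]
    congr 1
    ring
  rw [h4] at h3
  exact (ENNReal.add_le_add_iff_left (by finiteness)).1 h3

theorem count_ball {Ω : Set ℂ} (hρ : 0 < ρ) (hΩ : closedBall y₀ (2 * ρ) ⊆ Ω) {y : ℂ}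
    (hyy : dist y y₀ ≤ ρ / 8) : closedBall y (ρ / 16) ⊆ Ω :=
  (closedBall_subset_closedBall' (by linarith)).trans hΩ

end Vale.Agent.P128.Q1
end

section

set_option linter.all false

/-! Block T4: a connected set containing three points has length at least the half perimeter. -/

open MeasureTheory Set Metric Filter ComplexConjugate
open scoped ENNReal NNReal Topology Real ContDiff

namespace Vale.Agent.P128.Q1

open Vale.Agent.P128

/-- a preconnected set containing `a`, `b` has length at least `al` in the disk of radius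
`al ≤ |a - b|` about `a` -/
theorem halfPer_ball {S : Set ℂ} (hS : IsPreconnected S) {a b : ℂ} (ha : a ∈ S) (hb : b ∈ S)
    {al : ℝ} (hal : al ≤ dist a b) : ENNReal.ofReal al ≤ μH[1] (S ∩ ball a al) := by
  have hc : Continuous fun z : ℂ => dist z a := continuous_id.dist continuous_const
  have himg : IsPreconnected ((fun z : ℂ => dist z a) '' S) := hS.image _ hc.continuousOn
  have hIcc : Icc 0 (dist a b) ⊆ (fun z : ℂ => dist z a) '' S :=
    himg.Icc_subset ⟨a, ha, dist_self a⟩ ⟨b, hb, dist_comm b a⟩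
  have hsub : Ico 0 al ⊆ (fun z : ℂ => dist z a) '' (S ∩ ball a al) := by
    rintro s ⟨h0, h1⟩
    obtain ⟨w, hw, hws⟩ := hIcc ⟨h0, h1.le.trans hal⟩
    exact ⟨w, ⟨hw, mem_ball.2 (hws.trans_lt h1)⟩, hws⟩
  have hL : LipschitzWith 1 (fun z : ℂ => dist z a) := LipschitzWith.dist_left a
  have h1 : μH[1] ((fun z : ℂ => dist z a) '' (S ∩ ball a al)) ≤ μH[1] (S ∩ ball a al) := by
    have h := hL.hausdorffMeasure_image_le (d := 1) zero_le_one (S ∩ ball a al)
    rwa [ENNReal.coe_one, ENNReal.one_rpow, one_mul] at h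
  rw [hausdorffMeasure_real] at h1
  calc ENNReal.ofReal al = volume (Ico 0 al) := by rw [Real.volume_Ico, sub_zero]
    _ ≤ volume ((fun z : ℂ => dist z a) '' (S ∩ ball a al)) := measure_mono hsub
    _ ≤ μH[1] (S ∩ ball a al) := h1

/-- three disjoint disks -/
theorem halfPer_three {S : Set ℂ} {a b c : ℂ} {al be ga : ℝ}
    (hab : Disjoint (ball a al) (ball b be)) (hac : Disjoint (ball a al) (ball c ga))
    (hbc : Disjoint (ball b be) (ball c ga)) :
    μH[1] (S ∩ ball a al) + (μH[1] (S ∩ ball b be) + μH[1] (S ∩ ball c ga)) ≤ μH[1] S := by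
  have h1 := measure_inter_add_sdiff (μ := (μH[1] : Measure ℂ)) S
    (measurableSet_ball : MeasurableSet (ball a al))
  have h2 := measure_inter_add_sdiff (μ := (μH[1] : Measure ℂ)) (S \ ball a al)
    (measurableSet_ball : MeasurableSet (ball b be))
  rw [← h1, ← h2]
  refine add_le_add le_rfl (add_le_add (measure_mono ?_) (measure_mono ?_))
  · rintro z ⟨hz, hzb⟩
    exact ⟨⟨hz, fun h => disjoint_left.1 hab h hzb⟩, hzb⟩
  · rintro z ⟨hz, hzc⟩
    exact ⟨⟨hz, fun h => disjoint_left.1 hac h hzc⟩, fun h => disjoint_left.1 hbc h hzc⟩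

theorem half_perimeter {S : Set ℂ} (hS : IsPreconnected S) {a b c : ℂ} (ha : a ∈ S) (hb : b ∈ S)
    (hc : c ∈ S) : ENNReal.ofReal ((dist a b + dist b c + dist c a) / 2) ≤ μH[1] S := by
  have t1 := dist_triangle a b c
  have t2 := dist_triangle b a c
  have t3 := dist_triangle a c b
  rw [dist_comm b a] at t2
  rw [dist_comm c b] at t3
  rw [dist_comm c a]
  have e : (dist a b + dist b c + dist a c) / 2 = (dist a b + dist a c - dist b c) / 2 +
      ((dist a b + dist b c - dist a c) / 2 + (dist a c + dist b c - dist a b) / 2) := by ring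
  rw [e]
  refine le_trans (ENNReal.ofReal_add_le.trans (add_le_add le_rfl ENNReal.ofReal_add_le)) ?_
  have h1 := halfPer_ball hS ha hb (al := (dist a b + dist a c - dist b c) / 2) (by linarith only [t1])
  have h2 := halfPer_ball hS hb hc (al := (dist a b + dist b c - dist a c) / 2) (by linarith)
  have h3 := halfPer_ball hS hc ha (al := (dist a c + dist b c - dist a b) / 2)
    (by rw [dist_comm c a]; linarith)
  refine (add_le_add h1 (add_le_add h2 h3)).trans (halfPer_three ?_ ?_ ?_)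
  · exact ball_disjoint_ball (by linarith)
  · exact ball_disjoint_ball (by linarith)
  · exact ball_disjoint_ball (by linarith)

end Vale.Agent.P128.Q1
end

section

set_option linter.all false

/-! Part IV of the proof of Q1 (lines), T12: flatness at a good radius (pure geometry). -/

open MeasureTheory Set Metric Filter ComplexConjugate
open scoped ENNReal NNReal Topology Real ContDiff

namespace Vale.Agent.P128.Q1

open Vale.Agent.P128

private theorem beta_norm_mul {e : ℂ} (he : ‖e‖ = 1) (w : ℂ) : ‖conj e * w‖ = ‖w‖ := by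
  rw [norm_mul, RCLike.norm_conj, he, one_mul]

/-- the reflection inequality `L² + 4h² ≤ (|pz| + |zq|)²` -/
private theorem beta_refl {e p q z : ℂ} {L : ℝ} (he : ‖e‖ = 1) (hL : conj e * (q - p) = (L : ℂ)) :
    L ^ 2 + 4 * (conj e * (z - p)).im ^ 2 ≤ (dist p z + dist z q) ^ 2 := by
  set u : ℂ := conj e * (z - p) with hu
  have ha : dist p z ^ 2 = u.re ^ 2 + u.im ^ 2 := by
    rw [dist_comm, dist_eq_norm, ← beta_norm_mul he (z - p), ← hu, Complex.sq_norm,
      Complex.normSq_apply]
    ring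
  have hv : conj e * (z - q) = u - (L : ℂ) := by
    rw [hu, ← hL]
    ring
  have hb : dist z q ^ 2 = (L - u.re) ^ 2 + u.im ^ 2 := by
    rw [dist_eq_norm, ← beta_norm_mul he (z - q), hv, Complex.sq_norm,
      Complex.normSq_apply]
    simp only [Complex.sub_re, Complex.ofReal_re, Complex.sub_im, Complex.ofReal_im, sub_zero]
    ring
  have ha0 : 0 ≤ dist p z := dist_nonneg
  have hb0 : 0 ≤ dist z q := dist_nonneg
  have hab : 0 ≤ dist p z * dist z q := mul_nonneg ha0 hb0
  have h1 : (u.re * (L - u.re) + u.im ^ 2) ^ 2 ≤ (dist p z * dist z q) ^ 2 := by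
    rw [mul_pow, ha, hb]
    linarith only [sq_nonneg (u.im * (L - u.re) - u.re * u.im)]
  have h2 : u.re * (L - u.re) + u.im ^ 2 ≤ dist p z * dist z q :=
    (le_abs_self _).trans (abs_le_of_sq_le_sq h1 hab)
  linarith only [h2, hb, ha]

/-- the height of a point of `K` over the chord -/
private theorem beta_height {K : Set ℂ} {y p q e z : ℂ} {t ξ L : ℝ} (ht : 0 < t) (hξ : 0 ≤ ξ)
    (hp : p ∈ K ∩ closedBall y t) (hq : q ∈ K ∩ closedBall y t)
    (hconn : IsPreconnected (K ∩ closedBall y t)) (hfin : μH[1] (K ∩ closedBall y t) ≠ ⊤)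
    (he : ‖e‖ = 1) (hL : conj e * (q - p) = (L : ℂ)) (hLd : dist q p = L) (hL2 : L ≤ 2 * t)
    (hH : Hn K y t ≤ L + 21 * ξ) (hξt : ξ ≤ t / 20) (hz : z ∈ K ∩ closedBall y t) :
    |(conj e * (z - p)).im| ≤ 9 * √(t * ξ) := by
  have h1 := half_perimeter hconn hp hz hq
  have h2 : (dist p z + dist z q + dist q p) / 2 ≤ Hn K y t := by
    unfold Hn
    exact (ENNReal.ofReal_le_iff_le_toReal hfin).1 h1
  have h3 : dist p z + dist z q ≤ L + 42 * ξ := by
    rw [hLd] at h2
    linarith only [h2, hH]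
  have h4 := beta_refl (z := z) he hL
  have hL0 : 0 ≤ L := hLd ▸ dist_nonneg
  have h5 : (dist p z + dist z q) ^ 2 ≤ (L + 42 * ξ) ^ 2 :=
    pow_le_pow_left₀ (add_nonneg dist_nonneg dist_nonneg) h3 2
  set h := (conj e * (z - p)).im with hh
  have h6 : h ^ 2 ≤ (9 * √(t * ξ)) ^ 2 := by
    rw [mul_pow, Real.sq_sqrt (mul_nonneg ht.le hξ)]
    have h7 : L * ξ ≤ 2 * t * ξ := mul_le_mul_of_nonneg_right hL2 hξ
    have h8 : ξ * ξ ≤ t / 20 * ξ := mul_le_mul_of_nonneg_right hξt hξ
    have h9 : 0 ≤ t * ξ := mul_nonneg ht.le hξ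
    linarith only [h9, h8, h7, h5, h4]
  exact abs_le_of_sq_le_sq h6 (by positivity)

/-- **Flatness at a good radius.** -/
theorem beta_good {K : Set ℂ} {y w₁ w₂ : ℂ} {t ξ : ℝ} (hy : y ∈ K) (ht : 0 < t) (hξ : 0 ≤ ξ)
    (h1 : ‖w₁‖ = 1) (h2 : ‖w₂‖ = 1) (hS : K ∩ sphere y t = {y + t • w₁, y + t • w₂})
    (hconn : IsPreconnected (K ∩ closedBall y t)) (hfin : μH[1] (K ∩ closedBall y t) ≠ ⊤)
    (hlow : 2 * t ≤ Hn K y t) (hup : Hn K y t ≤ 2 * t - t / 20 * (2 - ‖w₁ - w₂‖) + ξ) :
    ∃ e : ℂ, ‖e‖ = 1 ∧ ∀ z ∈ K, dist z y ≤ t → |(conj e * (z - y)).im| ≤ 50 * √(t * ξ) := by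
  set p : ℂ := y + t • w₁ with hp
  set q : ℂ := y + t • w₂ with hq
  set L : ℝ := t * ‖w₁ - w₂‖ with hLdef
  have hn2 : ‖w₁ - w₂‖ ≤ 2 := by
    calc ‖w₁ - w₂‖ ≤ ‖w₁‖ + ‖w₂‖ := norm_sub_le _ _
      _ = 2 := by rw [h1, h2]; norm_num
  have hL2 : L ≤ 2 * t := by
    rw [hLdef]
    linarith only [mul_nonneg (sub_nonneg.2 hn2) (le_of_lt (sub_pos.2 ht))]
  have hlow2 : 2 * t - 20 * ξ ≤ L := by
    rw [hLdef]
    linarith only [hlow, hup]
  have hH : Hn K y t ≤ L + 21 * ξ := by
    have h3 : 0 ≤ t / 20 * (2 - ‖w₁ - w₂‖) := mul_nonneg (by positivity) (by linarith only [hn2])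
    linarith only [hup, hlow2, h3]
  rcases le_or_gt (t / 20) ξ with hc | hc
  · refine ⟨1, norm_one, fun z hz hzt => ?_⟩
    have h3 : |(conj (1 : ℂ) * (z - y)).im| ≤ t := by
      rw [map_one, one_mul]
      exact (Complex.abs_im_le_norm _).trans (by rwa [← dist_eq_norm])
    refine h3.trans ?_
    have h4 : t / 5 ≤ √(t * ξ) := by
      refine Real.le_sqrt_of_sq_le ?_
      nlinarith only [hc, ht]
    linarith only [h4, ht]
  · have hLpos : 0 < L := by linarith only [hlow2, hc, ht]
    have hqp : q - p = (t : ℂ) * (w₂ - w₁) := by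
      rw [hp, hq, Complex.real_smul, Complex.real_smul]
      ring
    have hnqp : ‖q - p‖ = L := by
      rw [hqp, norm_mul, Complex.norm_real, Real.norm_eq_abs, abs_of_pos ht, hLdef,
        norm_sub_rev w₂ w₁]
    have hmem : ∀ x ∈ ({p, q} : Set ℂ), x ∈ K ∩ closedBall y t := by
      intro x hx
      rw [← hS] at hx
      exact ⟨hx.1, sphere_subset_closedBall hx.2⟩
    have hpS : p ∈ K ∩ closedBall y t := hmem p (by simp)
    have hqS : q ∈ K ∩ closedBall y t := hmem q (by simp)
    have hyS : y ∈ K ∩ closedBall y t := ⟨hy, mem_closedBall_self ht.le⟩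
    set e : ℂ := (q - p) / (L : ℂ) with he
    have hLC : (L : ℂ) ≠ 0 := by exact_mod_cast hLpos.ne'
    have he1 : ‖e‖ = 1 := by
      rw [he, norm_div, hnqp, Complex.norm_real, Real.norm_eq_abs, abs_of_pos hLpos,
        div_self hLpos.ne']
    have hqe : q - p = (L : ℂ) * e := by
      rw [he]
      field_simp
    have heL : conj e * (q - p) = (L : ℂ) := by
      have h5 : conj e * e = 1 := by
        rw [mul_comm, Complex.mul_conj, Complex.normSq_eq_norm_sq, he1]
        norm_num
      rw [hqe, mul_left_comm, h5, mul_one]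
    have hd : dist q p = L := by rw [dist_eq_norm, hnqp]
    have key : ∀ z ∈ K ∩ closedBall y t, |(conj e * (z - p)).im| ≤ 9 * √(t * ξ) := fun z hz =>
      beta_height ht hξ hpS hqS hconn hfin he1 heL hd hL2 hH hc.le hz
    refine ⟨e, he1, fun z hz hzt => ?_⟩
    have hz1 := key z ⟨hz, mem_closedBall.2 hzt⟩
    have hy1 := key y hyS
    have h6 : (conj e * (z - y)).im = (conj e * (z - p)).im - (conj e * (y - p)).im := by
      rw [← Complex.sub_im]
      congr 1
      ring
    rw [h6]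
    have h7 : 0 ≤ √(t * ξ) := Real.sqrt_nonneg _
    calc |(conj e * (z - p)).im - (conj e * (y - p)).im|
        ≤ |(conj e * (z - p)).im| + |(conj e * (y - p)).im| := abs_sub _ _
      _ ≤ 50 * √(t * ξ) := by linarith only [hz1, hy1, h7]

end Vale.Agent.P128.Q1
end

section

/-! P128, Q1, Part E: one branch. A polar parametrisation `s ↦ x + s * exp (i φ s)` with the
scale invariant Hoelder bound of `s φ' s` and a rate for `φ s → a` is `C^{1,α}` up to `s = 0`. -/

open Set Metric Filter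
open scoped Topology Real

namespace Vale.Agent.P128.Q1

/-- power comparison on a bounded interval -/
theorem ed_rpow_le {x X p q : ℝ} (hx : 0 ≤ x) (hX : x ≤ X) (hX1 : 1 ≤ X) (hq : 0 < q)
    (hqp : q ≤ p) (hp : p ≤ 1 + q) : x ^ p ≤ X * x ^ q := by
  rcases hx.eq_or_lt with h | h
  · subst h
    rw [Real.zero_rpow (by linarith), Real.zero_rpow hq.ne']
    simp
  · have h1 : x ^ p = x ^ (p - q) * x ^ q := by
      rw [← Real.rpow_add h]; congr 1; ring
    have h2 : x ^ (p - q) ≤ X ^ (p - q) := Real.rpow_le_rpow h.le hX (by linarith)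
    have h3 : X ^ (p - q) ≤ X ^ (1 : ℝ) := Real.rpow_le_rpow_of_exponent_le hX1 (by linarith)
    rw [Real.rpow_one] at h3
    rw [h1]
    exact mul_le_mul_of_nonneg_right (h2.trans h3) (Real.rpow_nonneg h.le _)

theorem ed_exp_sub (p q : ℝ) :
    ‖Complex.exp (p * Complex.I) - Complex.exp (q * Complex.I)‖ ≤ |p - q| := by
  have h : Complex.exp (p * Complex.I) - Complex.exp (q * Complex.I) =
      Complex.exp (q * Complex.I) * (Complex.exp (Complex.I * ((p - q : ℝ) : ℂ)) - 1) := by
    rw [mul_sub, ← Complex.exp_add, mul_one]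
    congr 2
    push_cast
    ring
  rw [h, norm_mul, Complex.norm_exp_ofReal_mul_I, one_mul]
  exact Real.norm_exp_I_mul_ofReal_sub_one_le

/-- the hypotheses on one branch -/
structure EdH (X S a A B c β : ℝ) (φ : ℝ → ℝ) : Prop where
  S0 : 0 < S
  SX : S ≤ X
  X1 : 1 ≤ X
  A0 : 0 ≤ A
  B0 : 0 ≤ B
  c0 : 0 < c
  c1 : c ≤ 1
  β0 : 0 < β
  β1 : β ≤ 1
  diff : ∀ s ∈ Ioo 0 S, DifferentiableAt ℝ φ s
  rate : ∀ s ∈ Ioo 0 S, |φ s - a| ≤ A * s ^ c
  hol : ∀ s t, 0 < s → s / 2 ≤ t → t ≤ s → s < S →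
    |s * deriv φ s - t * deriv φ t| ≤ B * ((s - t) / s) ^ β

variable {X S a A B c β : ℝ} {φ : ℝ → ℝ}

/-- decay of `s φ' s` -/
theorem EdH.decay (h : EdH X S a A B c β φ) {s : ℝ} (hs : s ∈ Ioo 0 S) :
    |s * deriv φ s| ≤ (4 * A * X * X + B) * s ^ (c * β / 2) := by
  obtain ⟨hs0, hsS⟩ := hs
  have hX0 : 0 < X := by linarith [h.X1]
  have hsX : s ≤ X := hsS.le.trans h.SX
  have hc := h.c0
  have hc1 := h.c1
  have hβ := h.β0
  have hβ1 := h.β1
  have hA := h.A0
  have hB := h.B0
  set q : ℝ := (s / X) ^ (c / 2) with hq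
  have hq0 : 0 < q := Real.rpow_pos_of_pos (by positivity) _
  have hq1 : q ≤ 1 := Real.rpow_le_one (by positivity) (by rw [div_le_one hX0]; exact hsX)
    (by linarith)
  set k : ℝ := s * (q / 2) with hk
  have hk0 : 0 < k := by positivity
  have hks : k ≤ s / 2 := by rw [hk]; (by_contra nlg; linarith only [nlg, mul_nonneg (sub_nonneg.2 hq1) (le_of_lt (sub_pos.2 hk0)), mul_eq_zero_of_left (sub_eq_zero.2 hk) (1 - (q)), mul_pos (sub_pos.2 (not_le.1 nlg)) (sub_pos.2 hq0)])
  have hlt : s - k < s := by linarith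
  have hpos : 0 < s - k := by linarith
  obtain ⟨ξ, ⟨hξ1, hξ2⟩, hξ⟩ := exists_deriv_eq_slope (f := φ) hlt
    (fun y hy => (h.diff y ⟨by linarith [hy.1], by linarith [hy.2]⟩).continuousAt.continuousWithinAt)
    (fun y hy => (h.diff y ⟨by linarith [hy.1], by linarith [hy.2]⟩).differentiableWithinAt)
  have hξ' : deriv φ ξ = (φ s - φ (s - k)) / k := by rw [hξ]; congr 1; ring
  have hξ0 : 0 < ξ := by linarith
  -- the mean value
  have hd : |φ s - φ (s - k)| ≤ 2 * A * s ^ c := by
    have e1 := h.rate s ⟨hs0, hsS⟩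
    have e2 := h.rate (s - k) ⟨hpos, by linarith⟩
    have e3 : (s - k) ^ c ≤ s ^ c := Real.rpow_le_rpow hpos.le hlt.le hc.le
    have e4 : A * (s - k) ^ c ≤ A * s ^ c := mul_le_mul_of_nonneg_left e3 hA
    rw [abs_le] at e1 e2 ⊢
    constructor <;> linarith [e1.1, e1.2, e2.1, e2.2]
  have hm : |ξ * deriv φ ξ| ≤ 4 * A * X * X * s ^ (c * β / 2) := by
    rw [hξ', abs_mul, abs_div, abs_of_pos hξ0, abs_of_pos hk0]
    have e1 : ξ * (|φ s - φ (s - k)| / k) ≤ s * (2 * A * s ^ c / k) := by gcongr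
    have e2 : s * (2 * A * s ^ c / k) = 4 * A * (s ^ c / q) := by
      rw [hk]; field_simp; ring
    have e3 : s ^ c / q = X ^ (c / 2) * s ^ (c / 2) := by
      rw [hq, Real.div_rpow hs0.le hX0.le, div_div_eq_mul_div]
      have : s ^ c = s ^ (c / 2) * s ^ (c / 2) := by
        rw [← Real.rpow_add hs0]; congr 1; ring
      rw [this]
      have h0 : s ^ (c / 2) ≠ 0 := (Real.rpow_pos_of_pos hs0 _).ne'
      field_simp
    have e4 : X ^ (c / 2) ≤ X := by
      calc X ^ (c / 2) ≤ X ^ (1 : ℝ) := Real.rpow_le_rpow_of_exponent_le h.X1 (by linarith only [hc1])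
        _ = X := Real.rpow_one X
    have e5 : s ^ (c / 2) ≤ X * s ^ (c * β / 2) :=
      ed_rpow_le hs0.le hsX h.X1 (by positivity) (by (by_contra nlg; linarith only [nlg, mul_nonneg (le_of_lt (sub_pos.2 hc)) (sub_nonneg.2 hβ1), mul_nonneg (le_of_lt (sub_pos.2 (not_le.1 nlg))) (sub_nonneg.2 hq1), mul_pos (sub_pos.2 (not_le.1 nlg)) (sub_pos.2 hq0)])) (by linarith only [mul_pos hc hβ, hc1])
    calc ξ * (|φ s - φ (s - k)| / k) ≤ 4 * A * (X ^ (c / 2) * s ^ (c / 2)) := by
          rw [← e3, ← e2]; exact e1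
      _ ≤ 4 * A * (X * (X * s ^ (c * β / 2))) := by gcongr
      _ = _ := by ring
  have hh : |s * deriv φ s - ξ * deriv φ ξ| ≤ B * s ^ (c * β / 2) := by
    refine (h.hol s ξ hs0 (by linarith only [hξ1, hks]) hξ2.le hsS).trans ?_
    refine mul_le_mul_of_nonneg_left ?_ hB
    have e1 : (s - ξ) / s ≤ q / 2 := by
      rw [div_le_iff₀ hs0]
      have : s - ξ ≤ k := by linarith only [hξ1]
      rw [hk] at this
      linarith only [hξ1, hk]
    have e2 : q / 2 ≤ s ^ (c / 2) := by
      have e3 : q ≤ s ^ (c / 2) := by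
        rw [hq]
        exact Real.rpow_le_rpow (by positivity) (div_le_self hs0.le h.X1) (by linarith only [hc])
      linarith only [e3, hq0]
    calc ((s - ξ) / s) ^ β ≤ (s ^ (c / 2)) ^ β :=
          Real.rpow_le_rpow (div_nonneg (by linarith only [hξ2]) hs0.le) (e1.trans e2) hβ.le
      _ = s ^ (c * β / 2) := by rw [← Real.rpow_mul hs0.le]; congr 1; ring
  calc |s * deriv φ s| = |(s * deriv φ s - ξ * deriv φ ξ) + ξ * deriv φ ξ| := by ring_nf
    _ ≤ |s * deriv φ s - ξ * deriv φ ξ| + |ξ * deriv φ ξ| := abs_add_le _ _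
    _ ≤ _ := by linarith only [hh, hm]

/-- Hoelder bound of `s φ' s` -/
theorem EdH.psi (h : EdH X S a A B c β φ) : ∃ E : ℝ, 0 ≤ E ∧ ∀ s t, 0 < t → t ≤ s → s < S →
    |s * deriv φ s - t * deriv φ t| ≤ E * (s - t) ^ (c * β / 4) := by
  have hX1 := h.X1
  have hX0 : 0 < X := by linarith
  have hc := h.c0
  have hc1 := h.c1
  have hβ := h.β0
  have hβ1 := h.β1
  have hA := h.A0
  have hB := h.B0
  have hcβ : 0 < c * β := mul_pos hc hβ
  have hcβ' : c * β ≤ β := by (by_contra nlg; linarith [mul_nonneg (sub_nonneg.2 hc1) (le_of_lt (sub_pos.2 hβ)), mul_nonneg (le_of_lt (sub_pos.2 (not_le.1 nlg))) (sub_nonneg.2 hβ1), mul_pos (sub_pos.2 (not_le.1 nlg)) (sub_pos.2 hβ)])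
  set D : ℝ := 4 * A * X * X + B with hD
  have hD0 : 0 ≤ D := by positivity
  refine ⟨B * X + 4 * D * X, by positivity, fun s t ht hts hsS => ?_⟩
  have hs : 0 < s := by linarith
  have hsX : s ≤ X := hsS.le.trans h.SX
  have hst : 0 ≤ s - t := by linarith
  have hstX : s - t ≤ X := by linarith
  have hp : 0 ≤ (s - t) ^ (c * β / 4) := Real.rpow_nonneg hst _
  by_cases hh : s ^ 2 ≤ 2 * X * (s - t)
  · have e1 := h.decay (s := s) ⟨hs, hsS⟩
    have e2 := h.decay (s := t) ⟨ht, by linarith⟩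
    have e3 : t ^ (c * β / 2) ≤ s ^ (c * β / 2) := Real.rpow_le_rpow ht.le hts (by positivity)
    have e4 : D * t ^ (c * β / 2) ≤ D * s ^ (c * β / 2) := mul_le_mul_of_nonneg_left e3 hD0
    have e5 : s ^ (c * β / 2) = (s ^ 2) ^ (c * β / 4) := by
      rw [← Real.rpow_natCast, ← Real.rpow_mul hs.le]; congr 1; push_cast; ring
    have e6 : (s ^ 2) ^ (c * β / 4) ≤ (2 * X * (s - t)) ^ (c * β / 4) :=
      Real.rpow_le_rpow (by positivity) hh (by positivity)
    have e7 : (2 * X * (s - t)) ^ (c * β / 4) ≤ 2 * X * (s - t) ^ (c * β / 4) := by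
      rw [Real.mul_rpow (by positivity) hst]
      refine mul_le_mul_of_nonneg_right ?_ hp
      calc (2 * X) ^ (c * β / 4) ≤ (2 * X) ^ (1 : ℝ) :=
            Real.rpow_le_rpow_of_exponent_le (by linarith only [hsX, hs, hX1]) (by linarith only [hcβ', hβ1])
        _ = 2 * X := Real.rpow_one _
    have e8 : |s * deriv φ s - t * deriv φ t| ≤ D * s ^ (c * β / 2) + D * s ^ (c * β / 2) := by
      rw [abs_le] at e1 e2 ⊢
      constructor <;> linarith [e1.1, e1.2, e2.1, e2.2]
    have e9 : D * s ^ (c * β / 2) ≤ D * (2 * X * (s - t) ^ (c * β / 4)) :=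
      mul_le_mul_of_nonneg_left (by rw [e5]; exact e6.trans e7) hD0
    have e10 : 0 ≤ B * X * (s - t) ^ (c * β / 4) := by (clear * - hB hX1 hts; positivity)
    linarith only [e10, e9, e8]
  · push Not at hh
    have e0 : s - t < s / 2 := by
      by_contra hcon
      push Not at hcon
      linarith only [mul_nonneg (sub_nonneg.2 hcon) (sub_nonneg.2 hcon), mul_nonneg (sub_nonneg.2 hstX) (sub_nonneg.2 hcon), mul_nonneg (le_of_lt (sub_pos.2 hs)) (sub_nonneg.2 hcon), mul_nonneg (le_of_lt (sub_pos.2 hs)) (sub_nonneg.2 hsX), mul_nonneg (sub_nonneg.2 hcβ') (le_of_lt (sub_pos.2 hh)), mul_pos (sub_pos.2 hcβ) (sub_pos.2 hh), mul_nonneg (sub_nonneg.2 hβ1) (le_of_lt (sub_pos.2 hh))]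
    have e1 := h.hol s t hs (by linarith) hts hsS
    have e2 : (s - t) / s ≤ (s - t) ^ (1 / 2 : ℝ) := by
      rw [div_le_iff₀ hs]
      have f1 : (s - t) ^ (1 / 2 : ℝ) ≤ s := by
        calc (s - t) ^ (1 / 2 : ℝ) ≤ (s ^ 2) ^ (1 / 2 : ℝ) :=
              Real.rpow_le_rpow hst (by (by_contra nlg; linarith only [nlg, mul_pos (sub_pos.2 e0) (sub_pos.2 e0), mul_nonneg (sub_nonneg.2 hst) (le_of_lt (sub_pos.2 e0)), mul_nonneg (sub_nonneg.2 hst) (sub_nonneg.2 hst), mul_nonneg (sub_nonneg.2 hcβ') (le_of_lt (sub_pos.2 hh)), mul_pos (sub_pos.2 hcβ) (sub_pos.2 hh), mul_nonneg (sub_nonneg.2 hβ1) (le_of_lt (sub_pos.2 hh)), mul_nonneg (sub_nonneg.2 hX1) (sub_nonneg.2 hst), mul_nonneg (le_of_lt (sub_pos.2 (not_le.1 nlg))) (sub_nonneg.2 hcβ'), mul_pos (sub_pos.2 (not_le.1 nlg)) (sub_pos.2 hcβ), mul_nonneg (le_of_lt (sub_pos.2 (not_le.1 nlg))) (sub_nonneg.2 hβ1)])) (by norm_num)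
          _ = s := by
              rw [← Real.rpow_natCast, ← Real.rpow_mul hs.le]; norm_num
      have f2 : s - t = (s - t) ^ (1 / 2 : ℝ) * (s - t) ^ (1 / 2 : ℝ) := by
        rw [← Real.rpow_add_of_nonneg hst (by norm_num) (by norm_num)]
        norm_num
      calc s - t = (s - t) ^ (1 / 2 : ℝ) * (s - t) ^ (1 / 2 : ℝ) := f2
        _ ≤ (s - t) ^ (1 / 2 : ℝ) * s := by
            exact mul_le_mul_of_nonneg_left f1 (Real.rpow_nonneg hst _)
    have e3 : ((s - t) / s) ^ β ≤ X * (s - t) ^ (c * β / 4) := by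
      calc ((s - t) / s) ^ β ≤ ((s - t) ^ (1 / 2 : ℝ)) ^ β :=
            Real.rpow_le_rpow (div_nonneg hst hs.le) e2 hβ.le
        _ = (s - t) ^ (β / 2) := by rw [← Real.rpow_mul hst]; congr 1; ring
        _ ≤ X * (s - t) ^ (c * β / 4) :=
            ed_rpow_le hst hstX hX1 (by positivity) (by linarith) (by linarith only [hcβ, hβ1])
    have e4 : 0 ≤ 4 * D * X * (s - t) ^ (c * β / 4) := by (clear * - hA hX1 hB hts; positivity)
    have e5 := mul_le_mul_of_nonneg_left e3 hB
    calc |s * deriv φ s - t * deriv φ t| ≤ B * (X * (s - t) ^ (c * β / 4)) := e1.trans e5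
      _ ≤ _ := by linarith only [e4]

/-- Hoelder bound of `φ` -/
theorem EdH.phi (h : EdH X S a A B c β φ) : ∃ E : ℝ, 0 ≤ E ∧ ∀ s t, 0 < t → t ≤ s → s < S →
    |φ s - φ t| ≤ E * (s - t) ^ (c * β / 4) := by
  have hX1 := h.X1
  have hX0 : 0 < X := by linarith
  have hc := h.c0
  have hc1 := h.c1
  have hβ := h.β0
  have hβ1 := h.β1
  have hA := h.A0
  have hB := h.B0
  have hcβ : 0 < c * β := mul_pos hc hβ
  have hcβ' : c * β ≤ c := by (by_contra nlg; linarith only [nlg, mul_nonneg (sub_nonneg.2 hβ1) (le_of_lt (sub_pos.2 hcβ)), mul_pos (sub_pos.2 (not_le.1 nlg)) (sub_pos.2 hβ)])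
  set D : ℝ := 4 * A * X * X + B with hD
  have hD0 : 0 ≤ D := by positivity
  refine ⟨2 * D * X + 4 * A * X, by (clear * - hA hX1 hB; positivity), fun s t ht hts hsS => ?_⟩
  have hs : 0 < s := by linarith
  have hsX : s ≤ X := hsS.le.trans h.SX
  have hst : 0 ≤ s - t := by linarith
  have hstX : s - t ≤ X := by linarith
  have hp : 0 ≤ (s - t) ^ (c * β / 4) := Real.rpow_nonneg hst _
  rcases hts.eq_or_lt with heq | hlt
  · subst heq
    rw [sub_self, abs_zero]
    (clear * - hA hX1 hB hts; positivity)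
  by_cases hh : t < s / 2
  · have e1 := h.rate s ⟨hs, hsS⟩
    have e2 := h.rate t ⟨ht, by linarith⟩
    have e3 : t ^ c ≤ s ^ c := Real.rpow_le_rpow ht.le hts hc.le
    have e4 : A * t ^ c ≤ A * s ^ c := mul_le_mul_of_nonneg_left e3 hA
    have e5 : s ^ c ≤ (2 * (s - t)) ^ c := Real.rpow_le_rpow hs.le (by linarith) hc.le
    have e6 : (2 * (s - t)) ^ c ≤ 2 * (X * (s - t) ^ (c * β / 4)) := by
      rw [Real.mul_rpow (by norm_num) hst]
      have f1 : (2 : ℝ) ^ c ≤ 2 := by
        calc (2 : ℝ) ^ c ≤ 2 ^ (1 : ℝ) :=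
              Real.rpow_le_rpow_of_exponent_le (by norm_num) (by linarith)
          _ = 2 := Real.rpow_one _
      have f2 : (s - t) ^ c ≤ X * (s - t) ^ (c * β / 4) :=
        ed_rpow_le hst hstX hX1 (by positivity) (by linarith) (by linarith)
      have f3 : 0 ≤ (s - t) ^ c := Real.rpow_nonneg hst _
      exact mul_le_mul f1 f2 f3 (by norm_num)
    have e7 : A * s ^ c ≤ A * (2 * (X * (s - t) ^ (c * β / 4))) :=
      mul_le_mul_of_nonneg_left (e5.trans e6) hA
    have e8 : 0 ≤ 2 * D * X * (s - t) ^ (c * β / 4) := by (clear * - hA hX1 hB hlt; positivity)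
    have e9 : |φ s - φ t| ≤ A * s ^ c + A * s ^ c := by
      rw [abs_le] at e1 e2 ⊢
      constructor <;> linarith [e1.1, e1.2, e2.1, e2.2]
    linarith only [e9, e8, e7]
  · push Not at hh
    obtain ⟨ξ, ⟨hξ1, hξ2⟩, hξ⟩ := exists_deriv_eq_slope (f := φ) hlt
      (fun y hy => (h.diff y ⟨by linarith [hy.1],
        by linarith [hy.2]⟩).continuousAt.continuousWithinAt)
      (fun y hy => (h.diff y ⟨by linarith [hy.1], by linarith [hy.2]⟩).differentiableWithinAt)
    have hξ0 : 0 < ξ := by linarith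
    have hlt' : 0 < s - t := by linarith only [hξ2, hξ1]
    have e1 := h.decay (s := ξ) ⟨hξ0, by linarith⟩
    have e2 : φ s - φ t = (s - t) / ξ * (ξ * deriv φ ξ) := by
      rw [hξ]; field_simp
    have e3 : |φ s - φ t| ≤ (s - t) / ξ * (D * ξ ^ (c * β / 2)) := by
      rw [e2, abs_mul, abs_of_pos (div_pos hlt' hξ0)]
      exact mul_le_mul_of_nonneg_left e1 (by positivity)
    have e4 : (s - t) / ξ ≤ 2 * ((s - t) / s) := by
      rw [div_le_iff₀ hξ0, ← mul_div_assoc, div_mul_eq_mul_div, le_div_iff₀ hs]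
      (by_contra nlg; linarith only [nlg, mul_pos (sub_pos.2 hξ1) (sub_pos.2 hξ2), mul_pos (sub_pos.2 hξ1) (sub_pos.2 hξ1), mul_nonneg (sub_nonneg.2 hh) (le_of_lt (sub_pos.2 hlt')), mul_nonneg (le_of_lt (sub_pos.2 (not_le.1 nlg))) (sub_nonneg.2 hβ1), mul_pos (sub_pos.2 (not_le.1 nlg)) (sub_pos.2 hβ)])
    have e5 : ξ ^ (c * β / 2) ≤ s ^ (c * β / 2) :=
      Real.rpow_le_rpow hξ0.le hξ2.le (by positivity)
    have e6 : (s - t) / s ≤ ((s - t) / s) ^ (c * β / 2) := by
      have f1 : (s - t) / s ≤ 1 := by rw [div_le_one hs]; linarith only [hξ2, hξ1, hh]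
      calc (s - t) / s = ((s - t) / s) ^ (1 : ℝ) := (Real.rpow_one _).symm
        _ ≤ _ := Real.rpow_le_rpow_of_exponent_ge (by positivity) f1 (by linarith only [hcβ', hc1])
    have e7 : ((s - t) / s) ^ (c * β / 2) * s ^ (c * β / 2) = (s - t) ^ (c * β / 2) := by
      rw [← Real.mul_rpow (by positivity) hs.le]
      congr 1
      field_simp
    have e8 : (s - t) ^ (c * β / 2) ≤ X * (s - t) ^ (c * β / 4) :=
      ed_rpow_le hst hstX hX1 (by positivity) (by linarith only [hcβ]) (by linarith only [hcβ', hc1])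
    have e9 : (s - t) / ξ * (D * ξ ^ (c * β / 2)) ≤ 2 * D * X * (s - t) ^ (c * β / 4) := by
      calc (s - t) / ξ * (D * ξ ^ (c * β / 2))
          ≤ 2 * ((s - t) / s) * (D * s ^ (c * β / 2)) := by
            refine mul_le_mul e4 (mul_le_mul_of_nonneg_left e5 hD0) ?_ (by positivity)
            exact mul_nonneg hD0 (Real.rpow_nonneg hξ0.le _)
        _ ≤ 2 * ((s - t) / s) ^ (c * β / 2) * (D * s ^ (c * β / 2)) := by
            have : 0 ≤ D * s ^ (c * β / 2) := by (clear * - hA hX1 hB hs; positivity)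
            exact mul_le_mul_of_nonneg_right (by linarith only [e6]) this
        _ = 2 * D * (((s - t) / s) ^ (c * β / 2) * s ^ (c * β / 2)) := by ring
        _ = 2 * D * (s - t) ^ (c * β / 2) := by rw [e7]
        _ ≤ 2 * D * (X * (s - t) ^ (c * β / 4)) := by gcongr
        _ = _ := by ring
    have e10 : 0 ≤ 4 * A * X * (s - t) ^ (c * β / 4) := by positivity
    calc |φ s - φ t| ≤ 2 * D * X * (s - t) ^ (c * β / 4) := e3.trans e9
      _ ≤ _ := by linarith only [e10]

/-- a branch with its derivative, up to the origin -/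
structure EdBr (α S : ℝ) (x : ℂ) (a : ℝ) (φ : ℝ → ℝ) (γ γ' : ℝ → ℂ) : Prop where
  zero : γ 0 = x
  v0 : γ' 0 = Complex.exp (a * Complex.I)
  eq : ∀ s ∈ Ioo 0 S, γ s = x + s * Complex.exp (φ s * Complex.I)
  der : ∀ s ∈ Ioo 0 S, HasDerivAt γ (γ' s) s
  der0 : HasDerivWithinAt γ (γ' 0) (Ici 0) 0
  ne : ∀ s ∈ Ico 0 S, γ' s ≠ 0
  hol : ∃ C : ℝ, 0 ≤ C ∧ ∀ s ∈ Ico 0 S, ∀ t ∈ Ico 0 S, ‖γ' s - γ' t‖ ≤ C * |s - t| ^ α
  dist : ∀ s ∈ Ico 0 S, ‖γ s - x‖ = s

theorem EdH.br (h : EdH X S a A B c β φ) (x : ℂ) :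
    ∃ γ γ' : ℝ → ℂ, EdBr (c * β / 4) S x a φ γ γ' := by
  classical
  have hX1 := h.X1
  have hX0 : 0 < X := by linarith
  have hc := h.c0
  have hc1 := h.c1
  have hβ := h.β0
  have hβ1 := h.β1
  have hA := h.A0
  have hB := h.B0
  have hcβ : 0 < c * β := mul_pos hc hβ
  have hcβ' : c * β ≤ c := by (by_contra nlg; linarith only [nlg, mul_nonneg (sub_nonneg.2 hβ1) (le_of_lt (sub_pos.2 hcβ)), mul_pos (sub_pos.2 (not_le.1 nlg)) (sub_pos.2 hβ)])
  have hα : 0 < c * β / 4 := by positivity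
  obtain ⟨E₁, hE₁, h1⟩ := h.psi
  obtain ⟨E₂, hE₂, h2⟩ := h.phi
  set D : ℝ := 4 * A * X * X + B with hD
  have hD0 : 0 ≤ D := by positivity
  set F : ℝ → ℂ := fun s => if 0 < s then Complex.exp (φ s * Complex.I)
    else Complex.exp (a * Complex.I) with hF
  set Ψ : ℝ → ℝ := fun s => if 0 < s then s * deriv φ s else 0 with hΨ
  have hFn : ∀ s, ‖F s‖ = 1 := by
    intro s
    simp only [hF]
    split_ifs <;> exact Complex.norm_exp_ofReal_mul_I _
  have hF0 : F 0 = Complex.exp (a * Complex.I) := by simp [hF]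
  have hΨ0 : Ψ 0 = 0 := by simp [hΨ]
  -- bounds
  have hDs : ∀ s ∈ Ioo 0 S, |s * deriv φ s| ≤ D * X * s ^ (c * β / 4) := by
    intro s hs
    refine (h.decay hs).trans ?_
    have := ed_rpow_le (p := c * β / 2) (q := c * β / 4) hs.1.le (hs.2.le.trans h.SX) hX1 hα
      (by linarith) (by linarith)
    calc D * s ^ (c * β / 2) ≤ D * (X * s ^ (c * β / 4)) := mul_le_mul_of_nonneg_left this hD0
      _ = _ := by ring
  have hΨb : ∀ s ∈ Ico 0 S, |Ψ s| ≤ D * X * X := by
    intro s hs
    rcases hs.1.eq_or_lt with h0 | h0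
    · rw [← h0, hΨ0, abs_zero]; (clear * - hA hX1 hB; positivity)
    · have e1 : Ψ s = s * deriv φ s := by simp [hΨ, h0]
      rw [e1]
      refine (hDs s ⟨h0, hs.2⟩).trans ?_
      have e2 : s ^ (c * β / 4) ≤ X := by
        calc s ^ (c * β / 4) ≤ X ^ (c * β / 4) :=
              Real.rpow_le_rpow h0.le (hs.2.le.trans h.SX) hα.le
          _ ≤ X ^ (1 : ℝ) := Real.rpow_le_rpow_of_exponent_le hX1 (by linarith)
          _ = X := Real.rpow_one X
      exact mul_le_mul_of_nonneg_left e2 (by (clear * - hA hX1 hB; positivity))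
  have hΨh : ∀ s ∈ Ico 0 S, ∀ t ∈ Ico 0 S, t ≤ s →
      |Ψ s - Ψ t| ≤ (E₁ + D * X) * (s - t) ^ (c * β / 4) := by
    intro s hs t ht hts
    have hp : 0 ≤ (s - t) ^ (c * β / 4) := Real.rpow_nonneg (by linarith) _
    rcases hs.1.eq_or_lt with h0 | h0
    · have : t = 0 := le_antisymm (by linarith) ht.1
      rw [← h0, this, sub_self, abs_zero]; (clear * - hE₁ hA hX1 hB; positivity)
    · have e1 : Ψ s = s * deriv φ s := by simp [hΨ, h0]
      rcases ht.1.eq_or_lt with g0 | g0
      · rw [← g0, hΨ0, e1, sub_zero, sub_zero]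
        refine (hDs s ⟨h0, hs.2⟩).trans ?_
        have : 0 ≤ E₁ * s ^ (c * β / 4) := mul_nonneg hE₁ (Real.rpow_nonneg h0.le _)
        linarith
      · have e2 : Ψ t = t * deriv φ t := by simp [hΨ, g0]
        rw [e1, e2]
        refine (h1 s t g0 hts hs.2).trans ?_
        have : 0 ≤ D * X * (s - t) ^ (c * β / 4) := by (clear * - hA hX1 hB hts; positivity)
        linarith
  have hFh : ∀ s ∈ Ico 0 S, ∀ t ∈ Ico 0 S, t ≤ s →
      ‖F s - F t‖ ≤ (E₂ + A * X) * (s - t) ^ (c * β / 4) := by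
    intro s hs t ht hts
    have hp : 0 ≤ (s - t) ^ (c * β / 4) := Real.rpow_nonneg (by linarith) _
    rcases hs.1.eq_or_lt with h0 | h0
    · have : t = 0 := le_antisymm (by linarith) ht.1
      rw [← h0, this, sub_self, norm_zero]; (clear * - hE₂ hA hX1; positivity)
    · have e1 : F s = Complex.exp (φ s * Complex.I) := by simp [hF, h0]
      rcases ht.1.eq_or_lt with g0 | g0
      · rw [← g0, hF0, e1, sub_zero]
        refine (ed_exp_sub _ _).trans ((h.rate s ⟨h0, hs.2⟩).trans ?_)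
        have e3 : s ^ c ≤ X * s ^ (c * β / 4) :=
          ed_rpow_le h0.le (hs.2.le.trans h.SX) hX1 hα (by linarith) (by linarith)
        have e4 := mul_le_mul_of_nonneg_left e3 hA
        have : 0 ≤ E₂ * s ^ (c * β / 4) := mul_nonneg hE₂ (Real.rpow_nonneg h0.le _)
        linarith
      · have e2 : F t = Complex.exp (φ t * Complex.I) := by simp [hF, g0]
        rw [e1, e2]
        refine (ed_exp_sub _ _).trans ((h2 s t g0 hts hs.2).trans ?_)
        have : 0 ≤ A * X * (s - t) ^ (c * β / 4) := by (clear * - hA hX1 hts; positivity)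
        linarith
  have hFt : Tendsto F (𝓝[>] 0) (𝓝 (Complex.exp (a * Complex.I))) := by
    rw [tendsto_iff_norm_sub_tendsto_zero]
    have e1 : Tendsto (fun s : ℝ => (E₂ + A * X) * s ^ (c * β / 4)) (𝓝[>] 0) (𝓝 0) := by
      have : ContinuousAt (fun s : ℝ => (E₂ + A * X) * s ^ (c * β / 4)) 0 :=
        (continuousAt_const.mul (Real.continuousAt_rpow_const 0 _ (Or.inr hα.le)))
      have h3 := this.tendsto
      rw [Real.zero_rpow hα.ne', mul_zero] at h3
      exact h3.mono_left nhdsWithin_le_nhds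
    refine squeeze_zero' (Eventually.of_forall fun _ => norm_nonneg _) ?_ e1
    filter_upwards [Ioo_mem_nhdsGT h.S0] with s hs
    have := hFh s ⟨hs.1.le, hs.2⟩ 0 ⟨le_rfl, h.S0⟩ hs.1.le
    rwa [hF0, sub_zero] at this
  refine ⟨fun s => x + s * F s, fun s => F s * (1 + Ψ s * Complex.I), ?_, ?_, ?_, ?_, ?_, ?_, ?_,
    ?_⟩
  · simp
  · simp [hF0, hΨ0]
  · intro s hs
    simp [hF, hs.1]
  · intro s hs
    have e1 : (fun s : ℝ => x + s * F s) =ᶠ[𝓝 s]
        fun s : ℝ => x + s * Complex.exp (φ s * Complex.I) := by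
      filter_upwards [lt_mem_nhds hs.1] with t ht
      simp [hF, ht]
    refine HasDerivAt.congr_of_eventuallyEq ?_ e1
    have d1 : HasDerivAt (fun s : ℝ => (φ s : ℂ)) ((deriv φ s : ℝ) : ℂ) s :=
      ((h.diff s hs).hasDerivAt).ofReal_comp
    have d2 : HasDerivAt (fun s : ℝ => Complex.exp (φ s * Complex.I))
        (Complex.exp (φ s * Complex.I) * (((deriv φ s : ℝ) : ℂ) * Complex.I)) s :=
      (d1.mul_const Complex.I).cexp
    have d3 : HasDerivAt (fun s : ℝ => (s : ℂ)) 1 s := by
      simpa using (hasDerivAt_id s).ofReal_comp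
    have d4 := (d3.mul d2).const_add x
    refine d4.congr_deriv ?_
    have f1 : F s = Complex.exp (φ s * Complex.I) := by simp [hF, hs.1]
    have f2 : Ψ s = s * deriv φ s := by simp [hΨ, hs.1]
    simp only [f1, f2]
    push_cast
    ring
  · rw [← hasDerivWithinAt_Ioi_iff_Ici, hasDerivWithinAt_iff_tendsto_slope' (by simp)]
    have e1 : F 0 * (1 + (Ψ 0 : ℂ) * Complex.I) = Complex.exp (a * Complex.I) := by
      simp [hF0, hΨ0]
    rw [e1]
    refine hFt.congr' ?_
    filter_upwards [self_mem_nhdsWithin] with s hs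
    have hs0 : (s : ℂ) ≠ 0 := by
      have : (0 : ℝ) < s := hs
      exact_mod_cast this.ne'
    simp only [slope, vsub_eq_sub, sub_zero, Complex.ofReal_zero, zero_mul, add_zero,
      add_sub_cancel_left, Complex.real_smul, Complex.ofReal_inv]
    field_simp
  · intro s hs h0
    rcases mul_eq_zero.mp h0 with h1 | h1
    · have := hFn s
      rw [h1, norm_zero] at this
      exact zero_ne_one this
    · have := congrArg Complex.re h1
      simp at this
  · refine ⟨(E₂ + A * X) * (1 + D * X * X) + (E₁ + D * X), by (clear * - hE₂ hA hX1 hB hE₁; positivity), ?_⟩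
    have main : ∀ s ∈ Ico 0 S, ∀ t ∈ Ico 0 S, t ≤ s →
        ‖F s * (1 + Ψ s * Complex.I) - F t * (1 + Ψ t * Complex.I)‖ ≤
          ((E₂ + A * X) * (1 + D * X * X) + (E₁ + D * X)) * (s - t) ^ (c * β / 4) := by
      intro s hs t ht hts
      have e1 : F s * (1 + Ψ s * Complex.I) - F t * (1 + Ψ t * Complex.I) =
          (F s - F t) * (1 + Ψ s * Complex.I) + F t * (((Ψ s - Ψ t : ℝ) : ℂ) * Complex.I) := by
        push_cast; ring
      have e2 : ‖(1 : ℂ) + Ψ s * Complex.I‖ ≤ 1 + D * X * X := by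
        refine (norm_add_le _ _).trans ?_
        rw [norm_one, norm_mul, Complex.norm_I, mul_one, Complex.norm_real, Real.norm_eq_abs]
        linarith [hΨb s hs]
      have e3 : ‖(F s - F t) * (1 + Ψ s * Complex.I)‖ ≤
          (E₂ + A * X) * (s - t) ^ (c * β / 4) * (1 + D * X * X) := by
        rw [norm_mul]
        exact mul_le_mul (hFh s hs t ht hts) e2 (norm_nonneg _)
          (mul_nonneg (by positivity) (Real.rpow_nonneg (by linarith) _))
      have e4 : ‖F t * (((Ψ s - Ψ t : ℝ) : ℂ) * Complex.I)‖ ≤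
          (E₁ + D * X) * (s - t) ^ (c * β / 4) := by
        rw [norm_mul, hFn, one_mul, norm_mul, Complex.norm_I, mul_one, Complex.norm_real,
          Real.norm_eq_abs]
        exact hΨh s hs t ht hts
      rw [e1]
      refine (norm_add_le _ _).trans ?_
      linarith only [e4, e3]
    intro s hs t ht
    rcases le_total t s with hts | hts
    · rw [abs_of_nonneg (by linarith)]
      exact main s hs t ht hts
    · rw [abs_of_nonpos (by linarith), neg_sub, norm_sub_rev]
      exact main t ht s hs hts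
  · intro s hs
    simp only [add_sub_cancel_left, norm_mul, hFn, mul_one, Complex.norm_real, Real.norm_eq_abs]
    exact abs_of_nonneg hs.1

end Vale.Agent.P128.Q1
end
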