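import Vale.Agent.P128.MathlibUsed
import Vale.Agent.P128.Bdl.B3
import Vale.Agent.P128.Bdl.B1
import Vale.Agent.P128.Bdl.B2
import Vale.Agent.P128.Bdl.K_GM_D_NetDefs
import Vale.Agent.P128.Defs

set_option linter.all false

section

open Set Metric Filter
open scoped Topology

namespace Vale.Agent.P128.GM

theorem unbounded_components {K : Set ℂ} (hK : IsClosed K)
    (h : ∀ A : Set ℂ, IsCompact A → A ⊆ K → IsClosed (K \ A) → A = ∅) {x : ℂ} (hx : x ∈ K) :
    ¬ Bornology.IsBounded (connectedComponentIn K x) := by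
  intro hb
  obtain ⟨R, hR⟩ := hb.subset_ball (0 : ℂ)
  set X : Set ℂ := K ∩ closedBall 0 R with hX
  have hXc : IsCompact X := (isCompact_closedBall (0 : ℂ) R).inter_left hK
  have hxC : x ∈ connectedComponentIn K x := mem_connectedComponentIn hx
  have hxX : x ∈ X := ⟨hx, ball_subset_closedBall (hR hxC)⟩
  have : CompactSpace X := isCompact_iff_compactSpace.1 hXc
  -- the component of x in X
  set x' : X := ⟨x, hxX⟩ with hx'
  have hcomp : (Subtype.val '' connectedComponent x' : Set ℂ) ⊆ ball 0 R := by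
    have h1 : IsPreconnected (Subtype.val '' connectedComponent x' : Set ℂ) :=
      isPreconnected_connectedComponent.image _ continuous_subtype_val.continuousOn
    have h2 : (Subtype.val '' connectedComponent x' : Set ℂ) ⊆ K := by
      rintro _ ⟨y, -, rfl⟩; exact y.2.1
    exact (h1.subset_connectedComponentIn ⟨x', mem_connectedComponent, rfl⟩ h2).trans hR
  -- the sphere part
  set S : Set X := {y : X | ‖(y : ℂ)‖ = R} with hS
  have hSc : IsClosed S := isClosed_eq (continuous_norm.comp continuous_subtype_val) continuous_const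
  have hdis : Disjoint (connectedComponent x') S := by
    rw [Set.disjoint_left]
    intro y hy hyS
    have := hcomp ⟨y, hy, rfl⟩
    rw [mem_ball_zero_iff] at this
    exact absurd hyS (ne_of_lt this)
  -- separate by a clopen set
  obtain ⟨A, hA, hxA, hAS⟩ : ∃ A : Set X, IsClopen A ∧ x' ∈ A ∧ Disjoint A S := by
    rw [connectedComponent_eq_iInter_isClopen] at hdis
    by_contra hcon
    push Not at hcon
    -- compactness
    have : Nonempty { s : Set X // IsClopen s ∧ x' ∈ s } := ⟨⟨univ, isClopen_univ, mem_univ _⟩⟩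
    have hdir : Directed (· ⊇ ·) fun s : { s : Set X // IsClopen s ∧ x' ∈ s } => (s : Set X) ∩ S := by
      intro s t
      refine ⟨⟨s.1 ∩ t.1, s.2.1.inter t.2.1, s.2.2, t.2.2⟩, ?_, ?_⟩
      · exact inter_subset_inter_left _ inter_subset_left
      · exact inter_subset_inter_left _ inter_subset_right
    have hne := IsCompact.nonempty_iInter_of_directed_nonempty_isCompact_isClosed
      (fun s : { s : Set X // IsClopen s ∧ x' ∈ s } => (s : Set X) ∩ S) hdir
      (fun s => by
        have := hcon s.1 s.2.1 s.2.2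
        rw [Set.not_disjoint_iff_nonempty_inter] at this
        exact this)
      (fun s => (s.2.1.1.inter hSc).isCompact) (fun s => s.2.1.1.inter hSc)
    obtain ⟨y, hy⟩ := hne
    rw [mem_iInter] at hy
    exact (Set.disjoint_left.1 hdis) (mem_iInter.2 fun s => (hy s).1) (hy (Classical.arbitrary _)).2
  -- A as a subset of the plane
  set A' : Set ℂ := Subtype.val '' A with hA'
  have hA'c : IsCompact A' := (hA.1.isCompact).image continuous_subtype_val
  have hA'K : A' ⊆ K := by rintro _ ⟨y, -, rfl⟩; exact y.2.1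
  have hcl : IsClosed (K \ A') := by
    -- K \ A' = (K ∩ (closedBall 0 R \ ...)) ∪ (K \ ball 0 R)
    have e : K \ A' = (Subtype.val '' (Aᶜ : Set X)) ∪ (K \ ball 0 R) := by
      ext y
      constructor
      · rintro ⟨hyK, hyA⟩
        by_cases hyR : y ∈ closedBall (0 : ℂ) R
        · exact Or.inl ⟨⟨y, hyK, hyR⟩, fun hmem => hyA ⟨_, hmem, rfl⟩, rfl⟩
        · exact Or.inr ⟨hyK, fun hy => hyR (ball_subset_closedBall hy)⟩
      · rintro (⟨y', hy', rfl⟩ | ⟨hyK, hyR⟩)
        · refine ⟨y'.2.1, ?_⟩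
          rintro ⟨y'', hy'', he⟩
          exact hy' (Subtype.ext he ▸ hy'')
        · refine ⟨hyK, ?_⟩
          rintro ⟨y', hy', rfl⟩
          have h1 : ‖(y' : ℂ)‖ ≤ R := by simpa using y'.2.2
          have h2 : R ≤ ‖(y' : ℂ)‖ := by simpa using hyR
          exact (Set.disjoint_left.1 hAS) hy' (le_antisymm h1 h2)
    rw [e]
    exact ((hA.2.isClosed_compl.isCompact).image continuous_subtype_val).isClosed.union
      (hK.sdiff isOpen_ball)
  have := h A' hA'c hA'K hcl
  have hmem : x ∈ A' := ⟨x', hxA, rfl⟩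
  rw [this] at hmem
  exact hmem

theorem meets_sphere {K : Set ℂ} {x : ℂ} (hx : x ∈ K)
    (hb : ¬ Bornology.IsBounded (connectedComponentIn K x)) {s : ℝ} (hs : ‖x‖ ≤ s) :
    (connectedComponentIn K x ∩ sphere 0 s).Nonempty := by
  obtain ⟨y, hy, hys⟩ : ∃ y ∈ connectedComponentIn K x, s ≤ ‖y‖ := by
    by_contra hcon
    push Not at hcon
    exact hb ((Metric.isBounded_ball (x := (0 : ℂ)) (r := s)).subset fun y hy => by
      simpa using hcon y hy)
  have h1 : IsPreconnected ((fun z : ℂ => ‖z‖) '' connectedComponentIn K x) :=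
    isPreconnected_connectedComponentIn.image _ continuous_norm.continuousOn
  obtain ⟨z, hz, hzs⟩ := h1.Icc_subset ⟨x, mem_connectedComponentIn hx, rfl⟩ ⟨y, hy, rfl⟩ ⟨hs, hys⟩
  exact ⟨z, hz, by simpa using hzs⟩

end Vale.Agent.P128.GM
end

section

open MeasureTheory Set Metric Filter
open scoped ENNReal NNReal ContDiff Topology Real

namespace Vale.Agent.P128.GM

open Vale.Agent.P128

theorem ode_alg {e T N ℓ lam : ℝ} (he : 0 < e) (heg : e ≤ 2 * π) (hT : 0 ≤ T) (hN : 0 ≤ N)
    (hℓ0 : 0 ≤ ℓ) (hℓ : ℓ ≤ 2 * π) (h1 : e ≤ ℓ / π * Real.sqrt (T * N))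
    (h2 : e + lam ≤ 2 * T + 1 + (2 * π - ℓ)) (hlam : 7 / 4 ≤ lam) :
    e + min (e / (8 * π)) (1 / (4 * (1 + 4 * π))) ≤ N + T := by
  have hpi := Real.pi_pos
  have hsq : Real.sqrt (T * N) ≤ (T + N) / 2 := by
    rw [Real.sqrt_le_left (by positivity)]
    linarith only [sq_nonneg (T - N)]
  have hsq0 := Real.sqrt_nonneg (T * N)
  rcases le_or_gt (2 * π - 1 / 4) ℓ with hl | hl
  · -- one long arc
    refine le_trans (add_le_add_right (min_le_right _ _) _) ?_
    have hTe : e / 2 + 1 / 4 ≤ T := by linarith only [hl, hlam, h2]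
    have hTpos : 0 < T := by linarith only [hl, hlam, h2, he]
    have h3 : e ≤ 2 * Real.sqrt (T * N) := by
      refine h1.trans ?_
      gcongr
      rw [div_le_iff₀ hpi]
      linarith only [hℓ]
    have h4 : e ^ 2 ≤ 4 * (T * N) := by
      have : e ^ 2 ≤ (2 * Real.sqrt (T * N)) ^ 2 := by (clear * - he h3; gcongr)
      rw [mul_pow, Real.sq_sqrt (by (clear * - hTpos hN; positivity))] at this
      linarith only [this]
    -- N ≥ e^2 / (4T)
    have h5 : e ^ 2 / (4 * T) ≤ N := by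
      rw [div_le_iff₀ (by positivity)]
      linarith only [h4]
    have h6 : e + 1 / (4 * (1 + 4 * π)) ≤ T + e ^ 2 / (4 * T) := by
      have h7 : T + e ^ 2 / (4 * T) - e = (T - e / 2) ^ 2 / T := by
        field_simp
        ring
      have h8 : 1 / (4 * (1 + 4 * π)) ≤ (T - e / 2) ^ 2 / T := by
        rw [div_le_div_iff₀ (by positivity) hTpos]
        have hd : 1 / 4 ≤ T - e / 2 := by linarith only [h2, hlam, hl]
        have hTd : T ≤ (T - e / 2) * (1 + 4 * π) := by nlinarith only [heg, he, h2, hlam, hl]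
        nlinarith only [h2, hlam, hl, hT, hTd]
      linarith only [h7, h8]
    linarith only [h5, h6]
  · refine le_trans (add_le_add_right (min_le_left _ _) _) ?_
    have h3 : e ≤ (1 - 1 / (8 * π)) * (N + T) := by
      refine h1.trans ?_
      have : ℓ / π * Real.sqrt (T * N) ≤ ℓ / π * ((T + N) / 2) := by (clear * - hsq hℓ0; gcongr)
      refine this.trans ?_
      have h4 : ℓ / π ≤ 2 - 1 / (4 * π) := by
        rw [div_le_iff₀ hpi]
        have : (2 - 1 / (4 * π)) * π = 2 * π - 1 / 4 := by (clear * -; field_simp)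
        linarith only [hl, this]
      have h5 : ℓ / π * ((T + N) / 2) ≤ (2 - 1 / (4 * π)) * ((T + N) / 2) := by (clear * - h4 hT hN; gcongr)
      refine h5.trans (le_of_eq ?_)
      field_simp
      ring
    have hx : 0 < 1 / (8 * π) := by positivity
    have hx1 : 1 / (8 * π) < 1 := by
      rw [div_lt_one (by positivity)]
      linarith only [hl, hℓ0]
    have h6 : e + e / (8 * π) = (1 + 1 / (8 * π)) * e := by ring
    rw [h6]
    set y := 1 / (8 * π) with hy
    nlinarith only [h3, hx, mul_nonneg (sq_nonneg y) (add_nonneg hN hT)]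

/-- the differential inequality argument (helper128) -/
theorem ode_contra {E L T N : ℝ → ℝ} {R₀ : ℝ} (hR₀ : 0 < R₀)
    (hE0 : ∀ s, R₀ ≤ s → 0 < E s) (hEg : ∀ s, R₀ ≤ s → E s ≤ 2 * π * s)
    (hT : ∀ s, R₀ ≤ s → 0 ≤ T s) (hN : ∀ s, R₀ ≤ s → 0 ≤ N s)
    (hE : ∀ a b : ℝ, R₀ ≤ a → a ≤ b → IntervalIntegrable (fun s => N s + T s) volume a b ∧
      E b - E a = ∫ s in a..b, (N s + T s))
    (hL : ∀ s, R₀ ≤ s → 2 * (s - R₀) ≤ L s)
    (hB : ∀ᵐ s : ℝ, R₀ ≤ s → ∃ ℓ : ℝ, 0 ≤ ℓ ∧ ℓ ≤ 2 * π ∧ E s ≤ ℓ * s / π * Real.sqrt (T s * N s) ∧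
      E s + L s ≤ 2 * s * T s + s + s * (2 * π - ℓ)) : False := by
  have hpi := Real.pi_pos
  -- growth with a constant gain
  have key : ∀ (c a : ℝ), R₀ ≤ a → (∀ᵐ s : ℝ, a ≤ s → E s / s + c ≤ N s + T s) →
      ∀ b, a ≤ b → E a / a + c * Real.log (b / a) ≤ E b / b := by
    intro c a ha hae b hab
    have ha0 : 0 < a := hR₀.trans_le ha
    rcases hab.eq_or_lt with rfl | hab'
    · rw [div_self ha0.ne', Real.log_one]; simp
    have h1 := ratio_growth (f := E) (p := fun s => N s + T s) (γ := fun _ => c) (Λ := 2 * π) ha0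
      hab' (fun s hs => (hE0 s (ha.trans hs.1)).le) (fun s hs => hEg s (ha.trans hs.1))
      (hE a b ha hab).1 (fun s hs => add_nonneg (hN s (ha.trans hs.1)) (hT s (ha.trans hs.1)))
      (fun s t hs hst _ => (hE s t (ha.trans hs) hst).2.ge)
      (by simp)
      (by
        filter_upwards [hae] with s hs hsI
        have := hs hsI.1.le
        linarith only [this])
    have h2 : ∫ s in a..b, c / s = c * Real.log (b / a) := by
      simp only [div_eq_mul_inv]
      rw [intervalIntegral.integral_const_mul, integral_inv_of_pos ha0 (ha0.trans hab')]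
      rw [div_eq_mul_inv]
    rw [h2] at h1
    linarith only [h1]
  -- monotonicity
  have hmono : ∀ s, R₀ ≤ s → E R₀ / R₀ ≤ E s / s := by
    intro s hs
    have h0 : ∀ᵐ s : ℝ, R₀ ≤ s → E s / s + 0 ≤ N s + T s := by
      filter_upwards [hB] with s hs' hsR
      obtain ⟨ℓ, hℓ0, hℓ, h1, -⟩ := hs' hsR
      have hs0 : 0 < s := hR₀.trans_le hsR
      have hsq : Real.sqrt (T s * N s) ≤ (T s + N s) / 2 := by
        rw [Real.sqrt_le_left (by linarith only [hT s hsR, hN s hsR])]
        linarith only [sq_nonneg (T s - N s)]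
      have h2 : E s ≤ s * (T s + N s) := by
        refine h1.trans ?_
        have : ℓ * s / π * Real.sqrt (T s * N s) ≤ (2 * s) * ((T s + N s) / 2) := by
          refine mul_le_mul ?_ hsq (Real.sqrt_nonneg _) (by positivity)
          rw [div_le_iff₀ hpi]
          linarith only [mul_nonneg (sub_nonneg.2 hℓ) (sub_nonneg.2 hsR), mul_nonneg (le_of_lt (sub_pos.2 hR₀)) (sub_nonneg.2 hℓ)]
        linarith only [this]
      rw [add_zero, div_le_iff₀ hs0]
      linarith only [h2]
    have := key 0 R₀ le_rfl h0 s hs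
    linarith
  set e₀ := E R₀ / R₀ with he₀
  have he₀pos : 0 < e₀ := div_pos (hE0 _ le_rfl) hR₀
  set c := min (e₀ / (8 * π)) (1 / (4 * (1 + 4 * π))) with hc
  have hcpos : 0 < c := lt_min (by (clear * - he₀pos; positivity)) (by positivity)
  have hae : ∀ᵐ s : ℝ, 8 * R₀ ≤ s → E s / s + c ≤ N s + T s := by
    filter_upwards [hB] with s hs hs8
    have hsR : R₀ ≤ s := by linarith only [hR₀, hs8]
    have hs0 : 0 < s := hR₀.trans_le hsR
    obtain ⟨ℓ, hℓ0, hℓ, h1, h2⟩ := hs hsR
    have hes : 0 < E s / s := div_pos (hE0 s hsR) hs0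
    have h3 := ode_alg (e := E s / s) (T := T s) (N := N s) (ℓ := ℓ) (lam := L s / s) hes
      (by rw [div_le_iff₀ hs0]; exact hEg s hsR) (hT s hsR) (hN s hsR) hℓ0 hℓ
      (by
        rw [div_le_iff₀ hs0]
        refine h1.trans (le_of_eq ?_)
        ring)
      (by
        rw [← add_div, div_le_iff₀ hs0]
        refine h2.trans (le_of_eq ?_)
        ring)
      (by
        rw [le_div_iff₀ hs0]
        have := hL s hsR
        linarith only [hs8, this])
    refine le_trans ?_ h3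
    gcongr
    rw [hc]
    exact min_le_min_right _ (by gcongr; exact hmono s hsR)
  have ha0 : 0 < 8 * R₀ := by positivity
  set b := 8 * R₀ * Real.exp ((2 * π + 1) / c) with hb
  have hbge : 8 * R₀ ≤ b := by
    rw [hb]
    have : 1 ≤ Real.exp ((2 * π + 1) / c) := Real.one_le_exp (by (clear * - he₀pos; positivity))
    linarith only [mul_nonneg (le_of_lt (sub_pos.2 hR₀)) (sub_nonneg.2 this)]
  have hfin := key c (8 * R₀) (by linarith only [hR₀]) hae b hbge
  have hlog : Real.log (b / (8 * R₀)) = (2 * π + 1) / c := by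
    rw [hb, mul_div_cancel_left₀ _ ha0.ne', Real.log_exp]
  rw [hlog, mul_div_cancel₀ _ hcpos.ne'] at hfin
  have hb0 : 0 < b := ha0.trans_le hbge
  have h9 : E b / b ≤ 2 * π := by
    rw [div_le_iff₀ hb0]
    exact hEg b (by linarith only [hR₀, hbge])
  have h10 : 0 < E (8 * R₀) / (8 * R₀) := div_pos (hE0 _ (by linarith only [hR₀])) ha0
  linarith only [hfin, h9, h10]

end Vale.Agent.P128.GM
end

section

open MeasureTheory Set Metric Filter
open scoped ENNReal NNReal Topology Real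

namespace Vale.Agent.P128

/-- Distance in `L¹` of the slices of a function at two radii. -/
noncomputable def sliceD (F : ℝ × ℝ → ℝ) (s r : ℝ) : ℝ := ∫ θ in ang, |F (r, θ) - F (s, θ)|

theorem sliceD_nonneg (F : ℝ × ℝ → ℝ) (s r : ℝ) : 0 ≤ sliceD F s r :=
  integral_nonneg fun _ => abs_nonneg _

/-- Locally integrable comparison functions. -/
theorem locInt_slice {F : ℝ × ℝ → ℝ} (hF : Integrable F (volume.prod (volume.restrict ang)))
    {f : ℝ → ℝ} (hf : IntegrableOn f ang) :
    LocallyIntegrable (fun r => ∫ θ in ang, |F (r, θ) - f θ|) := by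
  have hfin : IsFiniteMeasure (volume.restrict ang) := ⟨by simp only [MeasurableSet.univ, Measure.restrict_apply, univ_inter, Real.volume_Ioo, sub_neg_eq_add, ENNReal.ofReal_lt_top]⟩
  have h1 : Integrable (fun r => ∫ θ in ang, |F (r, θ)|) := hF.abs.integral_prod_left
  have h2 : LocallyIntegrable (fun r => (∫ θ in ang, |F (r, θ)|) + ∫ θ in ang, |f θ|) :=
    h1.locallyIntegrable.add (locallyIntegrable_const _)
  have hm : AEStronglyMeasurable (fun p : ℝ × ℝ => |F p - f p.2|)
      (volume.prod (volume.restrict ang)) :=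
    (hF.1.sub (hf.1.comp_snd)).norm
  refine h2.mono hm.integral_prod_right' ?_
  filter_upwards [hF.prod_right_ae] with r hr
  rw [Real.norm_of_nonneg (integral_nonneg fun _ => abs_nonneg _), Real.norm_of_nonneg
    (add_nonneg (integral_nonneg fun _ => abs_nonneg _) (integral_nonneg fun _ => abs_nonneg _)),
    ← integral_add hr.abs hf.abs]
  refine integral_mono (hr.sub hf).abs (hr.abs.add hf.abs) fun θ => ?_
  exact abs_sub _ _

/-- Almost every radius is a Lebesgue point for the slices in `L¹`. -/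
theorem ae_lebL1 {F : ℝ × ℝ → ℝ} (hF : Integrable F (volume.prod (volume.restrict ang))) :
    ∀ᵐ s : ℝ, IntegrableOn (fun θ => F (s, θ)) ang ∧
      (∀ δ > 0, IntegrableOn (sliceD F s) (Icc (s - δ) (s + δ))) ∧
      Tendsto (fun δ : ℝ => (∫ r in Icc (s - δ) (s + δ), sliceD F s r) / δ) (𝓝[>] 0) (𝓝 0) := by
  have hfin : IsFiniteMeasure (volume.restrict ang) := ⟨by simp only [MeasurableSet.univ, Measure.restrict_apply, univ_inter, Real.volume_Ioo, sub_neg_eq_add, ENNReal.ofReal_lt_top]⟩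
  have hp1 : Fact ((1 : ℝ≥0∞) ≠ ⊤) := ⟨ENNReal.one_ne_top⟩
  obtain ⟨D, hDc, hDd⟩ := TopologicalSpace.exists_countable_dense (Lp ℝ 1 (volume.restrict ang))
  have hall : ∀ᵐ s : ℝ, ∀ f ∈ D, Tendsto (fun δ : ℝ =>
      (∫ r in Icc (s - δ) (s + δ), ∫ θ in ang, |F (r, θ) - f θ|) / δ) (𝓝[>] 0)
      (𝓝 (2 * ∫ θ in ang, |F (s, θ) - f θ|)) := by
    rw [ae_ball_iff hDc]
    intro f _
    have hf : IntegrableOn (f : ℝ → ℝ) ang := L1.integrable_coeFn f
    filter_upwards [IsUnifLocDoublingMeasure.ae_tendsto_average (volume : Measure ℝ)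
      (locInt_slice hF hf) 1] with s hs
    have h1 := hs (l := 𝓝[>] (0 : ℝ)) (fun _ : ℝ => s) (fun δ : ℝ => δ) tendsto_id (by
      filter_upwards [self_mem_nhdsWithin] with δ hδ
      rw [one_mul]
      exact mem_closedBall_self (le_of_lt hδ))
    have h2 := h1.const_mul 2
    refine h2.congr' ?_
    filter_upwards [self_mem_nhdsWithin] with δ hδ
    have hδ' : (0 : ℝ) < δ := hδ
    rw [Real.closedBall_eq_Icc, setAverage_eq, measureReal_def, Real.volume_Icc,
      ENNReal.toReal_ofReal (by linarith only [hδ'])]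
    simp only [smul_eq_mul]
    have : s + δ - (s - δ) = 2 * δ := by ring
    rw [this]
    field_simp
  filter_upwards [hall, hF.prod_right_ae] with s hs hsi
  have hloc := locInt_slice hF (f := fun θ => F (s, θ)) hsi
  have hint : ∀ δ, IntegrableOn (sliceD F s) (Icc (s - δ) (s + δ)) :=
    fun δ => hloc.integrableOn_isCompact isCompact_Icc
  refine ⟨hsi, fun δ _ => hint δ, ?_⟩
  rw [Metric.tendsto_nhds]
  intro ε hε
  -- approximate the slice
  have hmem : MemLp (fun θ => F (s, θ)) 1 (volume.restrict ang) := memLp_one_iff_integrable.mpr hsi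
  obtain ⟨f, hfD, hf⟩ := hDd.exists_dist_lt hmem.toLp (show (0 : ℝ) < ε / 8 by positivity)
  have hfi : IntegrableOn (f : ℝ → ℝ) ang := L1.integrable_coeFn f
  have hdist : ∫ θ in ang, |F (s, θ) - f θ| < ε / 8 := by
    have h1 : dist hmem.toLp f = ∫ θ in ang, |F (s, θ) - f θ| := by
      rw [L1.dist_eq_integral_dist]
      refine integral_congr_ae ?_
      filter_upwards [hmem.coeFn_toLp] with θ hθ
      rw [hθ, Real.dist_eq]
    rw [← h1]; exact hf
  have h3 := (Metric.tendsto_nhds.mp (hs f hfD)) (ε / 2) (by positivity)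
  filter_upwards [h3, self_mem_nhdsWithin] with δ hδ hδ0
  have hδ0' : (0 : ℝ) < δ := hδ0
  have h0 : 0 ≤ ∫ r in Icc (s - δ) (s + δ), sliceD F s r :=
    integral_nonneg fun r => sliceD_nonneg F s r
  rw [Real.dist_eq, sub_zero, abs_of_nonneg (div_nonneg h0 hδ0'.le)]
  rw [Real.dist_eq] at hδ
  have h4 : ∫ r in Icc (s - δ) (s + δ), sliceD F s r ≤
      ∫ r in Icc (s - δ) (s + δ), ((∫ θ in ang, |F (r, θ) - f θ|) + ε / 8) := by
    refine integral_mono_ae (hint δ) (((locInt_slice hF hfi).integrableOn_isCompact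
      isCompact_Icc).add (integrable_const _)) ?_
    filter_upwards [ae_restrict_of_ae hF.prod_right_ae] with r hr
    have h5 : sliceD F s r ≤ (∫ θ in ang, |F (r, θ) - f θ|) + ∫ θ in ang, |F (s, θ) - f θ| := by
      have a1 : Integrable (fun θ => |F (r, θ) - f θ|) (volume.restrict ang) := (hr.sub hfi).abs
      have a2 : Integrable (fun θ => |F (s, θ) - f θ|) (volume.restrict ang) := (hsi.sub hfi).abs
      unfold sliceD
      rw [← integral_add a1 a2]
      refine integral_mono (hr.sub hsi).abs (a1.add a2) fun θ => ?_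
      have := abs_sub_le (F (r, θ)) (f θ) (F (s, θ))
      rw [abs_sub_comm (f θ)] at this
      exact this
    linarith only [hdist, h5]
  rw [integral_add ((locInt_slice hF hfi).integrableOn_isCompact isCompact_Icc)
    (integrable_const _)] at h4
  simp only [integral_const, smul_eq_mul, measureReal_def, Measure.restrict_apply_univ,
    Real.volume_Icc] at h4
  rw [ENNReal.toReal_ofReal (by linarith only [hδ0'])] at h4
  rw [div_lt_iff₀ hδ0']
  have h6 := (abs_lt.mp hδ).2
  have h7 : (∫ r in Icc (s - δ) (s + δ), ∫ θ in ang, |F (r, θ) - f θ|) / δ * δ =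
      ∫ r in Icc (s - δ) (s + δ), ∫ θ in ang, |F (r, θ) - f θ| := by (clear * - hδ0'; field_simp)
  have h8 : (∫ r in Icc (s - δ) (s + δ), ∫ θ in ang, |F (r, θ) - f θ|) / δ <
      2 * (ε / 8) + ε / 2 := by linarith only [hdist, h6]
  have h9 := mul_lt_mul_of_pos_right h8 hδ0'
  rw [h7] at h9
  linarith only [h9, h4]

end Vale.Agent.P128
end

section

open MeasureTheory Set Metric Filter
open scoped ENNReal NNReal Topology Real ContDiff

namespace Vale.Agent.P128

theorem dir_of_mem {x q e : ℂ} (hq : ‖q‖ = 1) (he : ‖e‖ = 1) {σ r : ℝ} (hr : 0 < r)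
    {S : Set (ℝ × ℝ)} (hS : ∀ p ∈ S, 0 < p.1) (h : x + r • e ∈ pm x q σ '' S) :
    ∃ t, (r, t) ∈ S ∧ e = q * uc (σ * t) := by
  obtain ⟨⟨r', t⟩, hp, hpe⟩ := h
  have hr' : 0 < r' := hS _ hp
  have h1 := norm_pm_sub (x := x) hq σ (p := (r', t)) hr'.le
  rw [hpe, add_sub_cancel_left, norm_smul, he, mul_one, Real.norm_of_nonneg hr.le] at h1
  simp only at h1
  refine ⟨t, by rw [h1]; exact hp, ?_⟩
  unfold pm at hpe
  simp only at hpe
  rw [← h1] at hpe
  have h2 : r • (q * uc (σ * t)) = r • e := add_left_cancel hpe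
  exact (smul_right_injective ℂ hr.ne' h2).symm

theorem sphere_sec {x q e : ℂ} (hq : ‖q‖ = 1) (he : ‖e‖ = 1) {a γ : ℝ} (ha : 0 < a) :
    x + a • e ∈ pm x q 1 '' secS γ ↔ ∃ t ∈ Ioo 0 γ, e = q * uc t := by
  constructor
  · intro h
    obtain ⟨t, ⟨h1, h2, h3⟩, h5⟩ := dir_of_mem hq he ha (fun p hp => hp.1) h
    rw [one_mul] at h5
    exact ⟨t, ⟨h2, h3⟩, h5⟩
  · rintro ⟨t, ht, rfl⟩
    exact ⟨(a, t), ⟨ha, ht.1, ht.2⟩, by simp [pm]⟩

/-- Angular measure of an arc of directions. -/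
theorem volume_dir {q : ℂ} (hq : ‖q‖ = 1) {α₁ α₂ : ℝ} (h : α₁ ≤ α₂) (hle : α₂ - α₁ ≤ 2 * π) :
    volume (ang ∩ {θ | ∃ t ∈ Ioo α₁ α₂, uc θ = q * uc t}) = ENNReal.ofReal (α₂ - α₁) := by
  have hq0 : q ≠ 0 := by rw [← norm_ne_zero_iff, hq]; exact one_ne_zero
  set A : Set ℝ := {θ | ∃ t ∈ Ioo α₁ α₂, uc θ = q * uc t} with hA
  have hAo : IsOpen A := by
    have : A = ⋃ n : ℤ, Ioo (q.arg + α₁ + n * (2 * π)) (q.arg + α₂ + n * (2 * π)) := by
      ext θ
      rw [mem_iUnion]
      constructor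
      · rintro ⟨t, ht, he⟩
        rw [← uc_arg hq, ← uc_add] at he
        unfold uc at he
        rw [Complex.exp_eq_exp_iff_exists_int] at he
        obtain ⟨n, hn⟩ := he
        refine ⟨n, ?_⟩
        have h1 : (θ : ℂ) = (q.arg + t : ℝ) + n * (2 * π) := by
          have hI := Complex.I_ne_zero
          have : (θ : ℂ) * Complex.I = ((q.arg + t : ℝ) + n * (2 * π)) * Complex.I := by
            rw [hn]; ring
          exact mul_right_cancel₀ hI this
        have h2 : θ = q.arg + t + n * (2 * π) := by exact_mod_cast h1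
        constructor <;> linarith only [h2, ht.1, ht.2]
      · rintro ⟨n, hn1, hn2⟩
        refine ⟨θ - q.arg - n * (2 * π), ⟨by linarith only [hn1], by linarith only [hn2]⟩, ?_⟩
        have h5 : q * uc (θ - q.arg - n * (2 * π)) = uc (q.arg + (θ - q.arg - n * (2 * π))) := by
          rw [uc_add, uc_arg hq]
        rw [h5]
        unfold uc
        rw [Complex.exp_eq_exp_iff_exists_int]
        exact ⟨n, by push_cast; ring⟩
    rw [this]
    exact isOpen_iUnion fun n => isOpen_Ioo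
  have hAm := hAo.measurableSet
  have hper : Function.Periodic (A.indicator fun _ => (1 : ℝ)) (2 * π) := by
    intro t
    have hiff : t + 2 * π ∈ A ↔ t ∈ A := by
      simp only [hA, mem_ofPred_eq, uc_add, uc_two_pi, mul_one]
    by_cases ht : t ∈ A
    · rw [indicator_of_mem ht, indicator_of_mem (hiff.mpr ht)]
    · rw [indicator_of_notMem ht, indicator_of_notMem (fun hc => ht (hiff.mp hc))]
  have h1 : ∫ θ in ang, A.indicator (fun _ => (1 : ℝ)) θ = α₂ - α₁ := by
    rw [integral_ang_shift hper (q.arg + α₁)]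
    have h2 : ∀ t ∈ Ioo 0 (2 * π), A.indicator (fun _ => (1 : ℝ)) (q.arg + α₁ + t) =
        (Ioo 0 (α₂ - α₁)).indicator (fun _ => (1 : ℝ)) t := by
      intro t ht
      have hiff : q.arg + α₁ + t ∈ A ↔ t ∈ Ioo 0 (α₂ - α₁) := by
        have hu : uc (q.arg + α₁ + t) = q * uc (α₁ + t) := by
          rw [add_assoc, uc_add, uc_arg hq]
        constructor
        · rintro ⟨t', ht', he⟩
          rw [hu] at he
          have : α₁ + t = t' := uc_inj (mul_left_cancel₀ hq0 he) (by
            rw [abs_lt]; constructor <;> linarith only [hle, ht.1, ht'.2, ht.2, ht'.1])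
          exact ⟨ht.1, by linarith only [this, ht'.2]⟩
        · intro ht'
          exact ⟨α₁ + t, ⟨by linarith only [ht'.1], by linarith only [ht'.2]⟩, hu⟩
      by_cases hc : t ∈ Ioo 0 (α₂ - α₁)
      · rw [indicator_of_mem hc, indicator_of_mem (hiff.mpr hc)]
      · rw [indicator_of_notMem hc, indicator_of_notMem (fun hd => hc (hiff.mp hd))]
    rw [setIntegral_congr_fun measurableSet_Ioo h2, setIntegral_indicator measurableSet_Ioo,
      inter_eq_self_of_subset_right (Ioo_subset_Ioo_right hle), setIntegral_const,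
      measureReal_def, Real.volume_Ioo, sub_zero, ENNReal.toReal_ofReal (by linarith only [h])]
    simp
  rw [setIntegral_indicator hAm, setIntegral_const, measureReal_def, smul_eq_mul, mul_one] at h1
  rw [← h1, ENNReal.ofReal_toReal]
  exact ne_of_lt (lt_of_le_of_lt (measure_mono inter_subset_left) (by simp only [Real.volume_Ioo, sub_neg_eq_add, ENNReal.ofReal_lt_top]))

theorem mem_seg_ray (x w : ℂ) {α ρ β : ℝ} (h1 : α ≤ ρ) (h2 : ρ ≤ β) :
    x + ρ • w ∈ segment ℝ (x + α • w) (x + β • w) := by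
  rcases eq_or_lt_of_le (h1.trans h2) with h | h
  · have : ρ = α := by linarith
    rw [this]; exact left_mem_segment ℝ _ _
  · refine ⟨(β - ρ) / (β - α), (ρ - α) / (β - α), by
      apply div_nonneg <;> linarith only [h2, h], by apply div_nonneg <;> linarith only [h1, h], ?_, ?_⟩
    · have : β - α ≠ 0 := by linarith
      field_simp; ring
    · have h3 : (β : ℂ) - α ≠ 0 := by
        have : β - α ≠ 0 := by linarith only [h]
        exact_mod_cast this
      simp only [Complex.real_smul]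
      push_cast
      field_simp
      ring

theorem isCompact_seg (y z : ℂ) : IsCompact (segment ℝ y z) := by
  rw [segment_eq_image]
  exact isCompact_Icc.image (by fun_prop)

theorem hausdorff_ray (x w : ℂ) (hw : ‖w‖ = 1) {α β : ℝ} (h : α ≤ β) :
    μH[1] (segment ℝ (x + α • w) (x + β • w)) = ENNReal.ofReal (β - α) := by
  rw [hausdorffMeasure_segment, edist_dist, dist_eq_norm]
  congr 1
  rw [show x + α • w - (x + β • w) = (α - β) • w by rw [sub_smul]; ring, norm_smul, hw, mul_one,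
    Real.norm_eq_abs, abs_sub_comm, abs_of_nonneg (by linarith only [h])]

end Vale.Agent.P128
end

section

open MeasureTheory Set Metric Filter
open scoped ENNReal NNReal Topology Real ContDiff

namespace Vale.Agent.P128

/-- The primitive of `h` has weak derivative `h`. -/
theorem primitive_weak {a b : ℝ} (hab : a < b) {h : ℝ → ℝ} (hh : IntervalIntegrable h volume a b)
    {φ : ℝ → ℝ} (hφ : ContDiff ℝ ∞ φ) (ha : φ a = 0) (hb : φ b = 0) :
    ∫ t in Ioo a b, (∫ r in a..t, h r) * deriv φ t = - ∫ t in Ioo a b, h t * φ t := by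
  have h1 : AbsolutelyContinuousOnInterval (fun t => ∫ r in a..t, h r) a b :=
    hh.absolutelyContinuousOnInterval_intervalIntegral left_mem_uIcc
  have h2 : AbsolutelyContinuousOnInterval φ a b :=
    (contDiff_infty.mp hφ 1).contDiffOn.absolutelyContinuousOnInterval
  have h3 := (h1.mul h2).integral_deriv_eq_sub
  have hcφ' : Continuous (deriv φ) := hφ.continuous_deriv (by simp)
  have hcH : ContinuousOn (fun t => ∫ r in a..t, h r) (uIcc a b) :=
    intervalIntegral.continuousOn_primitive_interval' hh left_mem_uIcc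
  have i1 : IntervalIntegrable (fun t => h t * φ t) volume a b :=
    hh.mul_continuousOn hφ.continuous.continuousOn
  have i2 : IntervalIntegrable (fun t => (∫ r in a..t, h r) * deriv φ t) volume a b :=
    (hcH.mul hcφ'.continuousOn).intervalIntegrable
  have h4 : ∫ t in a..b, deriv ((fun t => ∫ r in a..t, h r) * φ) t =
      ∫ t in a..b, (h t * φ t + (∫ r in a..t, h r) * deriv φ t) := by
    refine intervalIntegral.integral_congr_ae ?_
    filter_upwards [hh.ae_hasDerivAt_integral] with t ht ht'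
    rw [uIoc_of_le hab.le] at ht'
    have htI : t ∈ uIcc a b := by rw [uIcc_of_le hab.le]; exact ⟨ht'.1.le, ht'.2⟩
    have d1 := ht htI a left_mem_uIcc
    have d2 := (hφ.differentiable (by simp) t).hasDerivAt
    exact (d1.mul d2).deriv
  rw [h4, intervalIntegral.integral_add i1 i2] at h3
  simp only [Pi.mul_apply, ha, hb, mul_zero, sub_zero] at h3
  rw [intervalIntegral.integral_of_le hab.le, intervalIntegral.integral_of_le hab.le,
    integral_Ioc_eq_integral_Ioo, integral_Ioc_eq_integral_Ioo] at h3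
  linarith

/-- A function with a weak derivative is a primitive. -/
theorem weak_repr {a b : ℝ} (hab : a < b) {f h : ℝ → ℝ}
    (hf : MemLp f 2 (volume.restrict (Ioo a b))) (hh : MemLp h 2 (volume.restrict (Ioo a b)))
    (hw : ∀ φ : ℝ → ℝ, ContDiff ℝ ∞ φ → HasCompactSupport φ → tsupport φ ⊆ Ioo a b →
      ∫ t in Ioo a b, f t * deriv φ t = - ∫ t in Ioo a b, h t * φ t) :
    ∃ c : ℝ, ∀ᵐ t ∂(volume.restrict (Ioo a b)), f t = c + ∫ r in a..t, h r := by
  have hfin : IsFiniteMeasure (volume.restrict (Ioo a b)) := ⟨by simp⟩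
  have hfi : IntegrableOn f (Ioo a b) := hf.integrable (by norm_num)
  have hhi : IntegrableOn h (Ioo a b) := hh.integrable (by norm_num)
  have hint : IntervalIntegrable h volume a b := by
    rw [intervalIntegrable_iff_integrableOn_Ioo_of_le hab.le]; exact hhi
  set H : ℝ → ℝ := fun t => ∫ r in a..t, h r with hH
  have hcH : ContinuousOn H (Icc a b) := by
    have := intervalIntegral.continuousOn_primitive_interval' hint left_mem_uIcc
    rwa [uIcc_of_le hab.le] at this
  obtain ⟨C, hC⟩ := isCompact_Icc.exists_bound_of_continuousOn hcH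
  have hHL : MemLp H 2 (volume.restrict (Ioo a b)) := by
    refine MemLp.of_bound ?_ C ?_
    · exact (hcH.mono Ioo_subset_Icc_self).aestronglyMeasurable measurableSet_Ioo
    · filter_upwards [ae_restrict_mem measurableSet_Ioo] with t ht
      exact hC t (Ioo_subset_Icc_self ht)
  have hHi : IntegrableOn H (Ioo a b) := hHL.integrable (by norm_num)
  have hD : MemLp (fun t => f t - H t) 2 (volume.restrict (Ioo a b)) := hf.sub hHL
  have key := arc_poincare hab (f := fun t => f t - H t) (h := fun _ => 0) hD (by simp) (by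
    intro φ hφ hc hs
    have hcφ' : Continuous (deriv φ) := hφ.continuous_deriv (by simp)
    obtain ⟨B, hB⟩ := hcφ'.bounded_above_of_compact_support (hc.deriv)
    have e1 := hw φ hφ hc hs
    have ha : φ a = 0 := image_eq_zero_of_notMem_tsupport fun h => by
      have := (hs h).1; exact lt_irrefl _ this
    have hb : φ b = 0 := image_eq_zero_of_notMem_tsupport fun h => by
      have := (hs h).2; exact lt_irrefl _ this
    have e2 := primitive_weak hab hint hφ ha hb
    have j1 : Integrable (fun t => f t * deriv φ t) (volume.restrict (Ioo a b)) :=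
      hfi.mul_bdd hcφ'.aestronglyMeasurable (Eventually.of_forall hB)
    have j2 : Integrable (fun t => H t * deriv φ t) (volume.restrict (Ioo a b)) :=
      hHi.mul_bdd hcφ'.aestronglyMeasurable (Eventually.of_forall hB)
    simp only [sub_mul, zero_mul, integral_zero, neg_zero]
    rw [integral_sub j1 j2, e1, e2]
    ring)
  set c : ℝ := (b - a)⁻¹ * ∫ t in Ioo a b, (f t - H t) with hc
  refine ⟨c, ?_⟩
  have h0 : ∫ t in Ioo a b, (f t - H t - c) ^ 2 = 0 := by
    refine le_antisymm (key.trans ?_) (integral_nonneg fun _ => sq_nonneg _)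
    simp
  have hi : Integrable (fun t => (f t - H t - c) ^ 2) (volume.restrict (Ioo a b)) :=
    (hD.sub (memLp_const c)).integrable_sq
  rw [integral_eq_zero_iff_of_nonneg (fun _ => sq_nonneg _) hi] at h0
  filter_upwards [h0] with t ht
  have : f t - H t - c = 0 := by simpa using ht
  linarith

/-- A function with a weak derivative in `L²` is essentially bounded. -/
theorem weak_bounded {a b : ℝ} (hab : a < b) {f h : ℝ → ℝ}
    (hf : MemLp f 2 (volume.restrict (Ioo a b))) (hh : MemLp h 2 (volume.restrict (Ioo a b)))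
    (hw : ∀ φ : ℝ → ℝ, ContDiff ℝ ∞ φ → HasCompactSupport φ → tsupport φ ⊆ Ioo a b →
      ∫ t in Ioo a b, f t * deriv φ t = - ∫ t in Ioo a b, h t * φ t) :
    ∃ C : ℝ, ∀ᵐ t ∂(volume.restrict (Ioo a b)), |f t| ≤ C := by
  obtain ⟨c, hc⟩ := weak_repr hab hf hh hw
  have hfin : IsFiniteMeasure (volume.restrict (Ioo a b)) := ⟨by simp⟩
  have hhi : IntegrableOn h (Ioo a b) := hh.integrable (by norm_num)
  have hint : IntervalIntegrable h volume a b := by
    rw [intervalIntegrable_iff_integrableOn_Ioo_of_le hab.le]; exact hhi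
  have hcH : ContinuousOn (fun t => ∫ r in a..t, h r) (Icc a b) := by
    have := intervalIntegral.continuousOn_primitive_interval' hint left_mem_uIcc
    rwa [uIcc_of_le hab.le] at this
  obtain ⟨C, hC⟩ := isCompact_Icc.exists_bound_of_continuousOn hcH
  refine ⟨|c| + C, ?_⟩
  filter_upwards [hc, ae_restrict_mem measurableSet_Ioo] with t ht ht'
  rw [ht]
  exact (abs_add_le _ _).trans (add_le_add le_rfl (hC t (Ioo_subset_Icc_self ht')))

end Vale.Agent.P128
end

section

open MeasureTheory Set Metric Filter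
open scoped Topology Real

namespace Vale.Agent.P128

variable {E H e n T Nn : ℝ → ℝ} {R C Λ c : ℝ} {Z B S : Set ℝ}

/-- The defect. -/
noncomputable def defect (E H e n : ℝ → ℝ) (C Λ : ℝ) (B : Set ℝ) (s : ℝ) : ℝ :=
  e s + n s - (E s + H s) / s + C * s + (Λ + 1) * B.indicator (fun _ => (1 : ℝ)) s

theorem inv_cont {a b : ℝ} (ha : 0 < a) (hab : a ≤ b) :
    ContinuousOn (fun s : ℝ => s⁻¹) (uIcc a b) := by
  rw [uIcc_of_le hab]
  exact continuousOn_inv₀.mono fun s hs => (lt_of_lt_of_le ha hs.1).ne'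

end Vale.Agent.P128
end

section

open MeasureTheory Set Metric Filter
open scoped ENNReal NNReal Topology Real ContDiff

namespace Vale.Agent.P128

/-- The principal complex square root (off the origin). -/
noncomputable def csq (w : ℂ) : ℂ := Complex.exp (Complex.log w / 2)

theorem csq_sq {w : ℂ} (hw : w ≠ 0) : csq w ^ 2 = w := by
  unfold csq
  rw [← Complex.exp_nat_mul]
  rw [show ((2 : ℕ) : ℂ) * (Complex.log w / 2) = Complex.log w by push_cast; ring]
  exact Complex.exp_log hw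

theorem csq_ne_zero (w : ℂ) : csq w ≠ 0 := Complex.exp_ne_zero _

theorem norm_csq_sq {w : ℂ} (hw : w ≠ 0) : ‖csq w‖ ^ 2 = ‖w‖ := by
  rw [← norm_pow, csq_sq hw]

theorem measurable_csq : Measurable csq :=
  Complex.measurable_exp.comp (Complex.measurable_log.div_const 2)

theorem csq_im (w : ℂ) : (csq w).im = Real.exp ((Complex.log w).re / 2) * Real.sin (w.arg / 2) := by
  unfold csq
  rw [Complex.exp_im]
  have h1 : (Complex.log w / 2).re = (Complex.log w).re / 2 := by
    rw [show (2 : ℂ) = ((2 : ℝ) : ℂ) by norm_num, Complex.div_ofReal_re]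
  have h2 : (Complex.log w / 2).im = w.arg / 2 := by
    rw [show (2 : ℂ) = ((2 : ℝ) : ℂ) by norm_num, Complex.div_ofReal_im, Complex.log_im]
  rw [h1, h2]

theorem csq_re (w : ℂ) : (csq w).re = Real.exp ((Complex.log w).re / 2) * Real.cos (w.arg / 2) := by
  unfold csq
  rw [Complex.exp_re]
  have h1 : (Complex.log w / 2).re = (Complex.log w).re / 2 := by
    rw [show (2 : ℂ) = ((2 : ℝ) : ℂ) by norm_num, Complex.div_ofReal_re]
  have h2 : (Complex.log w / 2).im = w.arg / 2 := by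
    rw [show (2 : ℂ) = ((2 : ℝ) : ℂ) by norm_num, Complex.div_ofReal_im, Complex.log_im]
  rw [h1, h2]

theorem csq_re_nonneg (w : ℂ) : 0 ≤ (csq w).re := by
  rw [csq_re]
  refine mul_nonneg (Real.exp_pos _).le (Real.cos_nonneg_of_neg_pi_div_two_le_of_le ?_ ?_)
  · linarith [Complex.neg_pi_lt_arg w]
  · linarith [Complex.arg_le_pi w]

theorem csq_im_mul_nonneg {w w' : ℂ} (h : 0 ≤ w.im ∧ 0 ≤ w'.im ∨ w.im < 0 ∧ w'.im < 0) :
    0 ≤ (csq w).im * (csq w').im := by
  have hp : ∀ w : ℂ, 0 ≤ w.im → 0 ≤ (csq w).im := by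
    intro w hw
    rw [csq_im]
    refine mul_nonneg (Real.exp_pos _).le (Real.sin_nonneg_of_nonneg_of_le_pi ?_ ?_)
    · linarith [Complex.arg_nonneg_iff.mpr hw]
    · linarith [Complex.arg_le_pi w, Real.pi_pos]
  have hn : ∀ w : ℂ, w.im < 0 → (csq w).im ≤ 0 := by
    intro w hw
    rw [csq_im]
    refine mul_nonpos_of_nonneg_of_nonpos (Real.exp_pos _).le
      (Real.sin_nonpos_of_nonpos_of_neg_pi_le ?_ ?_)
    · linarith [Complex.arg_neg_iff.mpr hw]
    · linarith [Complex.neg_pi_lt_arg w, Real.pi_pos]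
  rcases h with ⟨h1, h2⟩ | ⟨h1, h2⟩
  · exact mul_nonneg (hp w h1) (hp w' h2)
  · exact mul_nonneg_of_nonpos_of_nonpos (hn w h1) (hn w' h2)

theorem hasDerivAt_csq {w : ℂ} (hw : w ∈ Complex.slitPlane) :
    HasDerivAt csq (1 / (2 * csq w)) w := by
  have h1 := ((Complex.hasDerivAt_log hw).div_const 2).cexp
  refine h1.congr_deriv ?_
  have hw0 : w ≠ 0 := Complex.slitPlane_ne_zero hw
  have h2 := csq_sq hw0
  have h3 := csq_ne_zero w
  change csq w * (w⁻¹ / 2) = 1 / (2 * csq w)
  conv_lhs => rw [← h2]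
  have h4 : csq (csq w ^ 2) = csq w := by rw [h2]
  rw [h4]
  field_simp

theorem contDiffAt_csq {w : ℂ} (hw : w ∈ Complex.slitPlane) : ContDiffAt ℝ ∞ csq w := by
  have h1 : ContDiffAt ℂ ∞ csq w :=
    Complex.contDiff_exp.contDiffAt.comp w ((Complex.contDiffAt_log hw).div_const 2)
  exact h1.restrict_scalars ℝ

/-- The value on the unit circle. -/
theorem csq_neg_uc {t : ℝ} (ht : t ∈ Ioo 0 (2 * π)) : csq (-uc t) = uc ((t - π) / 2) := by
  have h1 : -uc t = uc (t - π) := by
    have : uc (-π) = -1 := by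
      unfold uc
      push_cast
      rw [neg_mul, Complex.exp_neg, Complex.exp_pi_mul_I]
      norm_num
    rw [sub_eq_add_neg, uc_add, this]; ring
  rw [h1]
  unfold csq uc
  rw [Complex.log_exp (by simp; linarith [ht.1]) (by simp; linarith [ht.2])]
  congr 1
  push_cast
  ring

theorem uc_re_bd880 (t : ℝ) : (uc t).re = Real.cos t := by
  unfold uc; exact Complex.exp_ofReal_mul_I_re t

/-- Expansion of the derivative of the moved square root on the unit circle. -/
theorem csq_expand {d t : ℝ} (hd : |d| ≤ 1 / 2) (ht : t ∈ Ioo 0 (2 * π)) :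
    |(uc t / csq (d - uc t)).re + (1 - d / 2) * Real.sin (t / 2)| ≤ 2 * d ^ 2 := by
  obtain ⟨c, hc⟩ : ∃ c, c = csq (d - uc t) := ⟨_, rfl⟩
  obtain ⟨c₀, hc₀⟩ : ∃ c₀, c₀ = csq (-uc t) := ⟨_, rfl⟩
  have hd' := abs_le.mp hd
  have hn : ‖(d : ℂ) - uc t‖ ≥ 1 / 2 := by
    have h1 : ‖uc t‖ ≤ ‖(d : ℂ) - uc t‖ + ‖(d : ℂ)‖ := by
      have := norm_sub_le ((d : ℂ) - uc t) d
      rwa [sub_sub_cancel_left, norm_neg] at this
    rw [norm_uc, Complex.norm_real, Real.norm_eq_abs] at h1
    linarith only [h1, hd]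
  have hw : (d : ℂ) - uc t ≠ 0 := by
    intro h; rw [h, norm_zero] at hn; linarith only [hn]
  have hw₀ : -uc t ≠ 0 := neg_ne_zero.mpr (uc_ne_zero t)
  have h1 : c ^ 2 = d - uc t := by rw [hc]; exact csq_sq hw
  have h2 : c₀ ^ 2 = -uc t := by rw [hc₀]; exact csq_sq hw₀
  have n1 : ‖c‖ ^ 2 ≥ 1 / 2 := by rw [hc, norm_csq_sq hw]; exact hn
  have n2 : ‖c₀‖ = 1 := by rw [hc₀, csq_neg_uc ht, norm_uc]
  have hc0 : c ≠ 0 := by rw [hc]; exact csq_ne_zero _
  have hc₀0 : c₀ ≠ 0 := by rw [hc₀]; exact csq_ne_zero _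
  have him : ((d : ℂ) - uc t).im = (-uc t).im := by simp
  have hpos : 0 ≤ c.re * c₀.re + c.im * c₀.im := by
    have q1 : 0 ≤ c.re * c₀.re := by
      rw [hc, hc₀]; exact mul_nonneg (csq_re_nonneg _) (csq_re_nonneg _)
    have q2 : 0 ≤ c.im * c₀.im := by
      rw [hc, hc₀]
      refine csq_im_mul_nonneg ?_
      rw [him]
      rcases le_or_gt 0 (-uc t).im with h | h
      · exact Or.inl ⟨h, h⟩
      · exact Or.inr ⟨h, h⟩
    linarith only [q2, q1]
  have hsum : 1 ≤ ‖c + c₀‖ := by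
    have e1 : ‖c + c₀‖ ^ 2 = ‖c‖ ^ 2 + ‖c₀‖ ^ 2 + 2 * (c.re * c₀.re + c.im * c₀.im) := by
      rw [← Complex.normSq_eq_norm_sq, ← Complex.normSq_eq_norm_sq, ← Complex.normSq_eq_norm_sq,
        Complex.normSq_apply, Complex.normSq_apply, Complex.normSq_apply]
      simp only [Complex.add_re, Complex.add_im]
      ring
    have e2 : 1 ≤ ‖c + c₀‖ ^ 2 := by rw [e1, n2]; linarith only [hpos, n1]
    (by_contra nlg; linarith only [nlg, mul_nonneg (sub_nonneg.2 e2) (sub_nonneg.2 (norm_nonneg (c + c₀))), mul_nonneg (le_of_lt (sub_pos.2 (not_le.1 nlg))) (sub_nonneg.2 (norm_nonneg (c + c₀))), mul_nonneg (le_of_lt (sub_pos.2 (not_le.1 nlg))) (sub_nonneg.2 e2), mul_pos (sub_pos.2 (not_le.1 nlg)) (sub_pos.2 (not_le.1 nlg))])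
  have hs0 : c + c₀ ≠ 0 := by
    intro h; rw [h, norm_zero] at hsum; linarith
  have hδ : c - c₀ = d / (c + c₀) := by
    rw [eq_div_iff hs0]
    linear_combination h1 - h2
  have hδn : ‖c - c₀‖ ≤ |d| := by
    rw [hδ, norm_div, Complex.norm_real, Real.norm_eq_abs]
    exact div_le_self (abs_nonneg d) hsum
  -- main identity
  have key : uc t / c + c₀ - (d : ℂ) / (2 * c₀) =
      (d : ℂ) * (c₀ - c) / (c * c₀) - (d : ℂ) * (c₀ - c) / (2 * c₀ * (c + c₀)) := by
    have e1 : uc t = (d : ℂ) - c ^ 2 := by rw [h1]; ring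
    have e2 : c = c₀ + d / (c + c₀) := by rw [← hδ]; ring
    have e3 : uc t / c = d / c - c := by rw [e1]; field_simp
    have e4 : (d : ℂ) * (c₀ - c) / (c * c₀) = d / c - d / c₀ := by field_simp
    have e5 : (d : ℂ) * (c₀ - c) / (2 * c₀ * (c + c₀)) = d / (c + c₀) - d / (2 * c₀) := by
      field_simp; ring
    have e6 : (d : ℂ) / (2 * c₀) = d / c₀ - d / (2 * c₀) := by field_simp; ring
    rw [e3, e4, e5, ← hδ]
    linear_combination -e6
  have hbound : ‖uc t / c + c₀ - (d : ℂ) / (2 * c₀)‖ ≤ 2 * d ^ 2 := by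
    rw [key]
    have n3 : 7 / 10 ≤ ‖c‖ := by (by_contra nlg; linarith only [nlg, mul_nonneg (sub_nonneg.2 n1) (sub_nonneg.2 (norm_nonneg c)), mul_nonneg (le_of_lt (sub_pos.2 (not_le.1 nlg))) (sub_nonneg.2 (norm_nonneg c)), mul_nonneg (le_of_lt (sub_pos.2 (not_le.1 nlg))) (sub_nonneg.2 n1), mul_pos (sub_pos.2 (not_le.1 nlg)) (sub_pos.2 (not_le.1 nlg))])
    have b1 : ‖(d : ℂ) * (c₀ - c) / (c * c₀)‖ ≤ 3 / 2 * d ^ 2 := by
      rw [norm_div, norm_mul, norm_mul, n2, mul_one, Complex.norm_real, Real.norm_eq_abs,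
        norm_sub_rev]
      rw [div_le_iff₀ (by linarith)]
      calc |d| * ‖c - c₀‖ ≤ |d| * |d| := by gcongr
        _ = d ^ 2 := by rw [← sq, sq_abs]
        _ ≤ 3 / 2 * d ^ 2 * ‖c‖ := by (by_contra nlg; linarith only [nlg, mul_nonneg (sub_nonneg.2 n3) (sq_nonneg d), mul_nonneg (le_of_lt (sub_pos.2 (not_le.1 nlg))) (sub_nonneg.2 n3), mul_nonneg (sq_nonneg (1 * ‖c‖ : ℝ)) (sq_nonneg d)])
    have b2 : ‖(d : ℂ) * (c₀ - c) / (2 * c₀ * (c + c₀))‖ ≤ 1 / 2 * d ^ 2 := by
      rw [norm_div, norm_mul, norm_mul, norm_mul, n2, mul_one, Complex.norm_real,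
        Real.norm_eq_abs, norm_sub_rev]
      have : ‖(2 : ℂ)‖ = 2 := by norm_num
      rw [this, div_le_iff₀ (by linarith only [hsum])]
      calc |d| * ‖c - c₀‖ ≤ |d| * |d| := by gcongr
        _ = d ^ 2 := by rw [← sq, sq_abs]
        _ ≤ 1 / 2 * d ^ 2 * (2 * ‖c + c₀‖) := by linarith only [mul_nonneg (sub_nonneg.2 hsum) (sq_nonneg d)]
    calc _ ≤ ‖(d : ℂ) * (c₀ - c) / (c * c₀)‖ + ‖(d : ℂ) * (c₀ - c) / (2 * c₀ * (c + c₀))‖ :=
          norm_sub_le _ _
      _ ≤ 2 * d ^ 2 := by linarith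
  have hre : c₀.re = Real.sin (t / 2) := by
    rw [hc₀, csq_neg_uc ht, uc_re_bd880, show (t - π) / 2 = t / 2 - π / 2 by ring,
      Real.cos_sub_pi_div_two]
  have hinv : ((d : ℂ) / (2 * c₀)).re = d / 2 * Real.sin (t / 2) := by
    have e1 : (d : ℂ) / (2 * c₀) = ((d / 2 : ℝ) : ℂ) * (starRingEnd ℂ) c₀ := by
      have e2 : c₀ * (starRingEnd ℂ) c₀ = 1 := by
        rw [Complex.mul_conj, Complex.normSq_eq_norm_sq, n2]; norm_num
      rw [div_eq_iff (mul_ne_zero two_ne_zero hc₀0)]
      push_cast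
      linear_combination (-(d : ℂ)) * e2
    rw [e1, Complex.re_ofReal_mul, Complex.conj_re, hre]
  have h9 := (Complex.abs_re_le_norm _).trans hbound
  rw [Complex.sub_re, Complex.add_re, hre, hinv] at h9
  rw [← hc]
  have e7 : (uc t / c).re + (1 - d / 2) * Real.sin (t / 2) =
      (uc t / c).re + Real.sin (t / 2) - d / 2 * Real.sin (t / 2) := by ring
  rw [e7]
  exact h9

end Vale.Agent.P128
end

section

open MeasureTheory Set Metric Filter
open scoped ENNReal NNReal Topology Real ContDiff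

namespace Vale.Agent.P128

/-- The normalised position seen from the moved tip. -/
noncomputable def tw (x p : ℂ) (s d : ℝ) (z : ℂ) : ℂ := d - (z - x) * (starRingEnd ℂ) p / s

/-- The crack-tip function with tip at `x + (d s) p`. -/
noncomputable def tipW (x p : ℂ) (s d : ℝ) (z : ℂ) : ℝ := -(csq (tw x p s d z)).im

/-- The gradient of the crack-tip function. -/
noncomputable def tipG (x p : ℂ) (s d : ℝ) (z : ℂ) : ℂ :=
  Complex.I * (starRingEnd ℂ) ((starRingEnd ℂ) p / (2 * s * csq (tw x p s d z)))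

/-- The slit. -/
def slit (x p : ℂ) (a b : ℝ) : Set ℂ := (fun τ : ℝ => x + τ • p) '' Icc a b

theorem continuous_tw (x p : ℂ) (s d : ℝ) : Continuous (tw x p s d) := by
  unfold tw; fun_prop

theorem measurable_tipW (x p : ℂ) (s d : ℝ) : Measurable (tipW x p s d) :=
  (Complex.measurable_im.comp (measurable_csq.comp (continuous_tw x p s d).measurable)).neg

theorem measurable_tipG (x p : ℂ) (s d : ℝ) : Measurable (tipG x p s d) := by
  unfold tipG
  refine measurable_const.mul ?_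
  refine Complex.continuous_conj.measurable.comp ?_
  exact measurable_const.div (measurable_const.mul
    (measurable_csq.comp (continuous_tw x p s d).measurable))

theorem conj_mul_self {p : ℂ} (hp : ‖p‖ = 1) : (starRingEnd ℂ) p * p = 1 := by
  rw [mul_comm, Complex.mul_conj, Complex.normSq_eq_norm_sq, hp]; norm_num

theorem norm_tw {x p : ℂ} (hp : ‖p‖ = 1) {s : ℝ} (hs : 0 < s) (d : ℝ) (z : ℂ) :
    ‖tw x p s d z‖ = ‖z - (x + (d * s) • p)‖ / s := by
  have e1 : tw x p s d z = -((z - (x + (d * s) • p)) * (starRingEnd ℂ) p / s) := by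
    unfold tw
    have h1 := conj_mul_self hp
    have hs' : (s : ℂ) ≠ 0 := by exact_mod_cast hs.ne'
    rw [Complex.real_smul]
    push_cast
    field_simp
    linear_combination (-(d : ℂ) * s) * h1
  rw [e1, norm_neg, norm_div, norm_mul, RCLike.norm_conj, hp, mul_one, Complex.norm_real,
    Real.norm_of_nonneg hs.le]

/-- Off the slit plane the point lies on the ray issued from the moved tip. -/
theorem mem_ray_of_tw {x p : ℂ} (hp : ‖p‖ = 1) {s : ℝ} (hs : 0 < s) {d : ℝ} {z : ℂ}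
    (hz : tw x p s d z ∉ Complex.slitPlane) : ∃ τ : ℝ, d * s ≤ τ ∧ z = x + τ • p := by
  rw [Complex.mem_slitPlane_iff] at hz
  push Not at hz
  obtain ⟨h1, h2⟩ := hz
  obtain ⟨w, hw⟩ : ∃ w : ℂ, w = (z - x) * (starRingEnd ℂ) p / s := ⟨_, rfl⟩
  have e1 : tw x p s d z = d - w := by unfold tw; rw [hw]
  rw [e1] at h1 h2
  simp only [Complex.sub_re, Complex.ofReal_re, Complex.sub_im, Complex.ofReal_im] at h1 h2
  have him : w.im = 0 := by linarith
  have hs' : (s : ℂ) ≠ 0 := by exact_mod_cast hs.ne'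
  refine ⟨w.re * s, by linarith only [mul_nonneg (le_of_lt (sub_pos.2 hs)) (sub_nonneg.2 h1)], ?_⟩
  have e2 : w = (w.re : ℂ) := by
    apply Complex.ext
    · simp
    · simp [him]
  have e3 : w * s = (z - x) * (starRingEnd ℂ) p := by rw [hw]; field_simp
  have e4 : w * s * p = z - x := by
    rw [e3, mul_assoc, conj_mul_self hp, mul_one]
  rw [Complex.real_smul]
  push_cast
  rw [← e2, e4]; ring

theorem hasFDerivAt_tipW {x p : ℂ} {s : ℝ} (hs : 0 < s) {d : ℝ} {z : ℂ}
    (hz : tw x p s d z ∈ Complex.slitPlane) (v : ℂ) :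
    HasFDerivAt (tipW x p s d) (fderiv ℝ (tipW x p s d) z) z ∧
      fderiv ℝ (tipW x p s d) z v = inner ℝ (tipG x p s d z) v := by
  have hs' : (s : ℂ) ≠ 0 := by exact_mod_cast hs.ne'
  have h1 : HasDerivAt (tw x p s d) (-((starRingEnd ℂ) p / s)) z := by
    unfold tw
    have h2 := ((((hasDerivAt_id z).sub_const x).mul_const ((starRingEnd ℂ) p)).div_const
      (s : ℂ)).const_sub (d : ℂ)
    refine h2.congr_deriv ?_
    rw [one_mul]
  have h3 := (hasDerivAt_csq hz).comp z h1
  have h4 := h3.hasFDerivAt.restrictScalars ℝ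
  have h5 := (Complex.imCLM.hasFDerivAt (x := (csq ∘ tw x p s d) z)).comp z h4
  have h6 := h5.neg
  have h7 : HasFDerivAt (tipW x p s d) _ z := h6
  refine ⟨h7.differentiableAt.hasFDerivAt, ?_⟩
  rw [h7.fderiv]
  have hc := csq_ne_zero (tw x p s d z)
  have e1 : (-(Complex.imCLM.comp ((ContinuousLinearMap.toSpanSingleton ℂ
      (1 / (2 * csq (tw x p s d z)) * -((starRingEnd ℂ) p / s))).restrictScalars ℝ))) v =
      ((starRingEnd ℂ) p / (2 * s * csq (tw x p s d z)) * v).im := by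
    simp only [neg_apply, ContinuousLinearMap.comp_apply,
      ContinuousLinearMap.coe_restrictScalars', ContinuousLinearMap.toSpanSingleton_apply,
      smul_eq_mul, Complex.imCLM_apply]
    rw [← Complex.neg_im]
    congr 1
    field_simp
  refine Eq.trans ?_ (e1.trans ?_)
  · rfl
  · unfold tipG
    rw [Complex.inner]
    obtain ⟨c, hcd⟩ : ∃ c : ℂ, c = (starRingEnd ℂ) p / (2 * s * csq (tw x p s d z)) := ⟨_, rfl⟩
    rw [← hcd]
    simp only [map_mul, Complex.conj_I, Complex.conj_conj]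
    simp only [Complex.mul_re, Complex.mul_im, Complex.neg_re, Complex.neg_im, Complex.I_re,
      Complex.I_im]
    ring

theorem contDiffAt_tipW {x p : ℂ} {s d : ℝ} {z : ℂ}
    (hz : tw x p s d z ∈ Complex.slitPlane) : ContDiffAt ℝ ∞ (tipW x p s d) z := by
  have h1 : ContDiff ℝ ∞ (tw x p s d) := by
    unfold tw
    exact contDiff_const.sub (((contDiff_id.sub contDiff_const).mul contDiff_const).div_const _)
  have h2 : ContDiffAt ℝ ∞ (fun z => csq (tw x p s d z)) z :=
    (contDiffAt_csq hz).comp z h1.contDiffAt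
  exact ((Complex.imCLM.contDiff.contDiffAt).comp z h2).neg

theorem norm_tipG_sq {x p : ℂ} (hp : ‖p‖ = 1) {s : ℝ} (hs : 0 < s) {d : ℝ} {z : ℂ}
    (hz : z ≠ x + (d * s) • p) :
    ‖tipG x p s d z‖ ^ 2 = 1 / (4 * s * ‖z - (x + (d * s) • p)‖) := by
  have hw : tw x p s d z ≠ 0 := by
    intro h
    have h1 := norm_tw hp hs d z (x := x)
    rw [h, norm_zero] at h1
    have h2 : ‖z - (x + (d * s) • p)‖ = 0 := by
      rcases div_eq_zero_iff.mp h1.symm with h3 | h3
      · exact h3
      · exact absurd h3 hs.ne'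
    rw [norm_eq_zero, sub_eq_zero] at h2
    exact hz h2
  have hn : 0 < ‖z - (x + (d * s) • p)‖ := norm_pos_iff.mpr (sub_ne_zero.mpr hz)
  unfold tipG
  rw [norm_mul, Complex.norm_I, one_mul, RCLike.norm_conj, norm_div, RCLike.norm_conj, hp, norm_mul,
    norm_mul, Complex.norm_real, Real.norm_of_nonneg hs.le, div_pow, mul_pow, mul_pow,
    norm_csq_sq hw, norm_tw hp hs]
  have : ‖(2 : ℂ)‖ = 2 := by norm_num
  rw [this]
  field_simp
  norm_num

theorem abs_tipW_le {x p : ℂ} (hp : ‖p‖ = 1) {s : ℝ} (hs : 0 < s) {d : ℝ} (hd : |d| ≤ 1 / 2)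
    {z : ℂ} (hz : z ∈ closedBall x s) : |tipW x p s d z| ≤ 2 := by
  unfold tipW
  rw [abs_neg]
  refine (Complex.abs_im_le_norm _).trans ?_
  by_cases hw : tw x p s d z = 0
  · rw [hw]; unfold csq; simp
  · have h1 := norm_csq_sq hw
    rw [norm_tw hp hs] at h1
    have h2 : ‖z - (x + (d * s) • p)‖ ≤ s + 1 / 2 * s := by
      have h3 : z - (x + (d * s) • p) = (z - x) - (d * s) • p := by ring
      rw [h3]
      refine (norm_sub_le _ _).trans ?_
      rw [mem_closedBall, dist_eq_norm] at hz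
      rw [norm_smul, hp, mul_one, Real.norm_eq_abs, abs_mul, abs_of_pos hs]
      have := mul_le_mul_of_nonneg_right hd hs.le
      linarith only [this, hz]
    have h3 : ‖z - (x + (d * s) • p)‖ / s ≤ 3 / 2 := by
      rw [div_le_iff₀ hs]; linarith
    rw [← h1] at h3
    (by_contra nlg; linarith only [nlg, mul_nonneg (sub_nonneg.2 h3) (sub_nonneg.2 (norm_nonneg (csq (tw x p s d z)))), mul_nonneg (le_of_lt (sub_pos.2 (not_le.1 nlg))) (sub_nonneg.2 (norm_nonneg (csq (tw x p s d z)))), mul_nonneg (le_of_lt (sub_pos.2 (not_le.1 nlg))) (sub_nonneg.2 h3), mul_nonneg (sq_nonneg (1 * ‖csq (tw x p s d z)‖ : ℝ)) (le_of_lt (sub_pos.2 (not_le.1 nlg)))])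

theorem isCompact_slit (x p : ℂ) (a b : ℝ) : IsCompact (slit x p a b) :=
  isCompact_Icc.image (continuous_const.add (continuous_id.smul continuous_const))

theorem hausdorff_slit (x : ℂ) {p : ℂ} (hp : ‖p‖ = 1) (a b : ℝ) :
    μH[1] (slit x p a b) ≤ ENNReal.ofReal (b - a) := by
  have h1 : LipschitzWith 1 (fun τ : ℝ => x + τ • p) :=
    LipschitzWith.of_dist_le_mul fun a b => by
      rw [dist_eq_norm, NNReal.coe_one, one_mul, dist_eq_norm]
      rw [show x + a • p - (x + b • p) = (a - b) • p by rw [sub_smul]; ring, norm_smul, hp, mul_one]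
  have h3 := h1.hausdorffMeasure_image_le (d := 1) zero_le_one (Icc a b)
  rw [hausdorffMeasure_real, Real.volume_Icc, ENNReal.coe_one, ENNReal.one_rpow, one_mul] at h3
  exact h3

theorem slit_subset {x p : ℂ} (hp : ‖p‖ = 1) {s d : ℝ} (hs : 0 < s) (hd : |d| ≤ 1 / 2) :
    slit x p (d * s) s ⊆ closedBall x s := by
  rintro z ⟨τ, hτ, rfl⟩
  rw [mem_closedBall, dist_eq_norm]
  simp only [add_sub_cancel_left]
  rw [norm_smul, hp, mul_one, Real.norm_eq_abs, abs_le]
  have h1 := abs_le.mp hd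
  refine ⟨?_, hτ.2⟩
  have := hτ.1
  nlinarith

end Vale.Agent.P128
end

section

/-! crossings and growth of the length -/

open MeasureTheory Set Metric Filter
open scoped ENNReal NNReal Topology

namespace Vale.Agent.P128.GM

open Vale.Agent.P128

variable {K : Set ℂ}

theorem lh_mono (hfin : ∀ (x : ℂ) (s : ℝ), μH[1] (K ∩ ball x s) < ⊤) (x : ℂ) :
    Monotone (lh K x) := fun _ t hst =>
  ENNReal.toReal_mono (hfin x t).ne (measure_mono (inter_subset_inter_right K (ball_subset_ball hst)))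

private theorem nl_pre (K : Set ℂ) (x : ℂ) (s : ℝ) :
    K ∩ (fun z : ℂ => dist z x) ⁻¹' {s} = K ∩ sphere x s := by
  ext z
  rw [mem_inter_iff, mem_inter_iff, mem_preimage, mem_singleton_iff, mem_sphere]

private theorem nl_sub_ge (hfin : ∀ (x : ℂ) (s : ℝ), μH[1] (K ∩ ball x s) < ⊤)
    {x : ℂ} {a b : ℝ} (hab : a ≤ b) {m : ℕ} :
    m * (volume ({s : ℝ | (m : ℕ∞) ≤ (K ∩ sphere x s).encard} ∩ Ioo a b)).toReal ≤
      lh K x b - lh K x a := by
  have h1 := eilenberg (X := ℂ) (LipschitzWith.dist_left x) (E := K) (m := m)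
    (S := {s : ℝ | (m : ℕ∞) ≤ (K ∩ sphere x s).encard} ∩ Ioo a b) (fun s hs => by
      rw [nl_pre]; exact hs.1)
  have h2 : μH[1] (K ∩ (fun z : ℂ => dist z x) ⁻¹'
      ({s : ℝ | (m : ℕ∞) ≤ (K ∩ sphere x s).encard} ∩ Ioo a b)) ≤
      μH[1] ((K ∩ ball x b) \ ball x a) := by
    refine measure_mono ?_
    rintro z ⟨hz, _, hz1, hz2⟩
    refine ⟨⟨hz, hz2⟩, fun h => ?_⟩
    rw [mem_ball] at h
    exact lt_asymm h hz1
  have h3 : μH[1] (K ∩ ball x b ∩ ball x a) + μH[1] ((K ∩ ball x b) \ ball x a)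
      = μH[1] (K ∩ ball x b) := measure_inter_add_sdiff _ measurableSet_ball
  have h4 : K ∩ ball x b ∩ ball x a = K ∩ ball x a := by
    rw [inter_assoc, inter_eq_self_of_subset_right (ball_subset_ball hab)]
  have h5 : μH[1] ((K ∩ ball x b) \ ball x a) ≠ ⊤ :=
    ne_top_of_le_ne_top (hfin x b).ne (measure_mono sdiff_subset)
  have h6 : lh K x b = lh K x a + (μH[1] ((K ∩ ball x b) \ ball x a)).toReal := by
    unfold lh
    rw [← h3, h4, ENNReal.toReal_add (hfin x a).ne h5]
  have h7 := ENNReal.toReal_mono h5 (h1.trans h2)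
  rw [ENNReal.toReal_mul, ENNReal.toReal_natCast] at h7
  linarith

private theorem nl_ae_finite (hfin : ∀ (x : ℂ) (s : ℝ), μH[1] (K ∩ ball x s) < ⊤) (x : ℂ) :
    ∀ᵐ s : ℝ, (K ∩ sphere x s).Finite := by
  have key : ∀ n : ℕ, volume {s : ℝ | s < n ∧ (K ∩ sphere x s).Infinite} = 0 := by
    intro n
    by_contra h0
    obtain ⟨m, hm⟩ := ENNReal.exists_nat_mul_gt h0 (hfin x n).ne
    have h1 := eilenberg (X := ℂ) (LipschitzWith.dist_left x) (E := K) (m := m)
      (S := {s : ℝ | s < n ∧ (K ∩ sphere x s).Infinite}) (fun s hs => by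
        rw [nl_pre, hs.2.encard_eq]
        exact le_top)
    refine absurd (hm.trans_le (h1.trans (measure_mono ?_))) (lt_irrefl _)
    rintro z ⟨hz, hz'⟩
    exact ⟨hz, hz'.1⟩
  have h2 : ∀ᵐ s : ℝ, ∀ n : ℕ, ¬ (s < n ∧ (K ∩ sphere x s).Infinite) := by
    rw [ae_all_iff]
    intro n
    rw [ae_iff]
    simpa using key n
  filter_upwards [h2] with s hs
  obtain ⟨n, hn⟩ := exists_nat_gt s
  by_contra hinf
  exact hs n ⟨hn, hinf⟩

private theorem nl_density (hfin : ∀ (x : ℂ) (s : ℝ), μH[1] (K ∩ ball x s) < ⊤) (x : ℂ) (m : ℕ) :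
    ∀ᵐ s : ℝ, DifferentiableAt ℝ (lh K x) s → (m : ℕ∞) ≤ (K ∩ sphere x s).encard →
      (m : ℝ) ≤ deriv (lh K x) s := by
  set S : Set ℝ := {s : ℝ | (m : ℕ∞) ≤ (K ∩ sphere x s).encard} with hS
  have h1 := ae_imp_of_ae_restrict (Besicovitch.ae_tendsto_measure_inter_div (volume : Measure ℝ) S)
  filter_upwards [h1] with s hs hd hsS
  have h2 := hs hsS
  have h3 : HasDerivAt (fun r : ℝ => lh K x (s + r) - lh K x (s - r))
      (deriv (lh K x) s + deriv (lh K x) s) 0 := by
    have e1 : HasDerivAt (lh K x) (deriv (lh K x) s) (s + 0) := by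
      rw [add_zero]; exact hd.hasDerivAt
    have e2 : HasDerivAt (lh K x) (deriv (lh K x) s) (s - 0) := by
      rw [sub_zero]; exact hd.hasDerivAt
    have e3 := e1.comp_const_add s 0
    have e4 := e2.comp_const_sub s 0
    have e5 := e3.sub e4
    rw [sub_neg_eq_add] at e5
    exact e5
  have h4 := h3.tendsto_slope_zero_right
  have h5 : Tendsto (fun r : ℝ => (2 : ℝ) * m *
      (volume (S ∩ closedBall s r) / volume (closedBall s r)).toReal) (𝓝[>] 0)
      (𝓝 (2 * m * (1 : ℝ≥0∞).toReal)) :=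
    ((ENNReal.tendsto_toReal ENNReal.one_ne_top).comp h2).const_mul _
  have h6 : ∀ᶠ r : ℝ in 𝓝[>] 0, (2 : ℝ) * m *
      (volume (S ∩ closedBall s r) / volume (closedBall s r)).toReal ≤
      r⁻¹ • ((lh K x (s + (0 + r)) - lh K x (s - (0 + r))) -
        (lh K x (s + 0) - lh K x (s - 0))) := by
    filter_upwards [self_mem_nhdsWithin] with r hr
    have hr : 0 < r := hr
    have g1 := nl_sub_ge hfin (x := x) (a := s - r) (b := s + r) (by linarith) (m := m)
    have g2 : volume (S ∩ closedBall s r) = volume (S ∩ Ioo (s - r) (s + r)) := by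
      rw [Real.closedBall_eq_Icc]
      exact measure_congr (ae_eq_set_inter (ae_eq_refl _) Ioo_ae_eq_Icc.symm)
    rw [g2, Real.volume_closedBall, ENNReal.toReal_div, ENNReal.toReal_ofReal (by positivity),
      zero_add, add_zero, sub_zero, sub_self, sub_zero, smul_eq_mul]
    calc (2 : ℝ) * m * ((volume (S ∩ Ioo (s - r) (s + r))).toReal / (2 * r))
        = r⁻¹ * (m * (volume (S ∩ Ioo (s - r) (s + r))).toReal) := by
          field_simp
      _ ≤ r⁻¹ * (lh K x (s + r) - lh K x (s - r)) :=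
          mul_le_mul_of_nonneg_left g1 (by positivity)
  have h7 := le_of_tendsto_of_tendsto h5 h4 h6
  rw [ENNReal.toReal_one] at h7
  linarith

theorem ae_card_le_deriv (hcl : IsClosed K)
    (hfin : ∀ (x : ℂ) (s : ℝ), μH[1] (K ∩ ball x s) < ⊤) (x : ℂ) :
    ∀ᵐ s : ℝ, 0 < s → ∃ n : ℕ, (K ∩ sphere x s).encard = n ∧ (n : ℝ) ≤ deriv (lh K x) s := by
  have _ := hcl
  have h1 : ∀ᵐ s : ℝ, ∀ m : ℕ, DifferentiableAt ℝ (lh K x) s →
      (m : ℕ∞) ≤ (K ∩ sphere x s).encard → (m : ℝ) ≤ deriv (lh K x) s :=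
    ae_all_iff.2 fun m => nl_density hfin x m
  filter_upwards [h1, nl_ae_finite hfin x, (lh_mono hfin x).ae_differentiableAt] with s hs hf hd _
  refine ⟨(K ∩ sphere x s).ncard, (hf.cast_ncard_eq).symm, hs _ hd ?_⟩
  rw [hf.cast_ncard_eq]

/-- the length grows at least like the integral of the number of crossings -/
theorem lh_sub_ge (hcl : IsClosed K) (hfin : ∀ (x : ℂ) (s : ℝ), μH[1] (K ∩ ball x s) < ⊤)
    {x : ℂ} {a b : ℝ} (ha : 0 ≤ a) (hab : a ≤ b) {m : ℕ}
    (h : ∀ᵐ s : ℝ, a < s → s < b → (m : ℕ∞) ≤ (K ∩ sphere x s).encard) :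
    m * (b - a) ≤ lh K x b - lh K x a := by
  have _ := hcl
  have _ := ha
  have h1 := nl_sub_ge hfin (x := x) hab (m := m)
  have h2 : volume ({s : ℝ | (m : ℕ∞) ≤ (K ∩ sphere x s).encard} ∩ Ioo a b) =
      volume (Ioo a b) := by
    refine le_antisymm (measure_mono inter_subset_right) (measure_mono_ae ?_)
    filter_upwards [h] with s hs hs'
    exact ⟨hs hs'.1 hs'.2, hs'⟩
  rw [h2, Real.volume_Ioo, ENNReal.toReal_ofReal (by linarith)] at h1
  exact h1

end Vale.Agent.P128.GM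
end

section

/-! a differential inequality -/

open MeasureTheory Set Metric Filter
open scoped ENNReal NNReal Topology

namespace Vale.Agent.P128.GM

open Vale.Agent.P128

variable {K : Set ℂ}

theorem netOde_mono {h : ℝ → ℝ} (hm : Monotone h) (h0 : ∀ s, 0 ≤ h s) {a b : ℝ}
    (ha : 0 < a) (hab : a ≤ b) :
    MonotoneOn (fun s => h s / s + h b / a ^ 2 * s) (uIcc a b) := by
  rw [uIcc_of_le hab]
  intro s hs t ht hst
  have hs0 : 0 < s := ha.trans_le hs.1
  have ht0 : 0 < t := ha.trans_le ht.1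
  have h1 : h s / t ≤ h t / t := by
    have := hm hst
    gcongr
  have h2 : h s / s - h s / t = h s * (t - s) / (s * t) := by
    field_simp
  have h3 : h s * (t - s) / (s * t) ≤ h b * (t - s) / a ^ 2 := by
    have hb : h s ≤ h b := hm hs.2
    have h4 : a ^ 2 ≤ s * t := by
      rw [sq]
      exact mul_le_mul hs.1 ht.1 ha.le hs0.le
    have h5 : 0 ≤ t - s := sub_nonneg.2 hst
    exact div_le_div₀ (mul_nonneg (h0 b) h5) (mul_le_mul_of_nonneg_right hb h5) (by positivity) h4
  have h6 : h b * (t - s) / a ^ 2 = h b / a ^ 2 * t - h b / a ^ 2 * s := by ring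
  show h s / s + h b / a ^ 2 * s ≤ h t / t + h b / a ^ 2 * t
  linarith

theorem div_mono_of_deriv {h : ℝ → ℝ} (hm : Monotone h) (h0 : ∀ s, 0 ≤ h s) {a b δ : ℝ}
    (ha : 0 < a) (hab : a ≤ b) (hd : ∀ᵐ s : ℝ, a < s → s < b → h s + δ * s ≤ s * deriv h s) :
    h a / a + δ * Real.log (b / a) ≤ h b / b := by
  set C : ℝ := h b / a ^ 2 with hC
  set g : ℝ → ℝ := fun s => h s / s + C * s with hg
  have hmono : MonotoneOn g (uIcc a b) := netOde_mono hm h0 ha hab
  have hb0 : 0 < b := ha.trans_le hab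
  have hgab : g a ≤ g b := hmono left_mem_uIcc right_mem_uIcc hab
  have hint := hmono.intervalIntegral_deriv_mem_uIcc
  rw [uIcc_of_le (sub_nonneg.2 hgab)] at hint
  have hii : IntervalIntegrable (deriv g) volume a b := hmono.intervalIntegrable_deriv
  have hnot : (0 : ℝ) ∉ uIcc a b := by
    rw [uIcc_of_le hab]
    exact fun h => absurd h.1 (not_le.2 ha)
  have hi2 : IntervalIntegrable (fun s : ℝ => δ * s⁻¹ + C) volume a b := by
    refine IntervalIntegrable.add (IntervalIntegrable.const_mul ?_ δ) intervalIntegrable_const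
    exact intervalIntegral.intervalIntegrable_inv (fun x hx => fun h => hnot (h ▸ hx))
      continuousOn_id
  have hval : ∫ s in a..b, (δ * s⁻¹ + C) = δ * Real.log (b / a) + C * (b - a) := by
    rw [intervalIntegral.integral_add
      (IntervalIntegrable.const_mul (intervalIntegral.intervalIntegrable_inv
        (fun x hx => fun h => hnot (h ▸ hx)) continuousOn_id) δ) intervalIntegrable_const,
      intervalIntegral.integral_const_mul, integral_inv hnot, intervalIntegral.integral_const,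
      smul_eq_mul]
    ring
  have hle : ∫ s in a..b, (δ * s⁻¹ + C) ≤ ∫ s in a..b, deriv g s := by
    refine intervalIntegral.integral_mono_ae_restrict hab hi2 hii ?_
    rw [← restrict_Ioo_eq_restrict_Icc, Filter.EventuallyLE,
      ae_restrict_iff' measurableSet_Ioo]
    filter_upwards [hd, hm.ae_differentiableAt] with s hs hdiff hsI
    have hs0 : 0 < s := ha.trans hsI.1
    have h1 := hs hsI.1 hsI.2
    have h2 : HasDerivAt g (deriv h s / s - h s / s ^ 2 + C) s := by
      have h3 := (hdiff.hasDerivAt.div (hasDerivAt_id s) hs0.ne').add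
        ((hasDerivAt_id s).const_mul C)
      refine h3.congr_deriv ?_
      have := hs0.ne'
      simp only [id]
      field_simp
    rw [h2.deriv]
    have h4 : h s / s ^ 2 + δ * s⁻¹ ≤ deriv h s / s := by
      have h5 : h s / s ^ 2 + δ * s⁻¹ = (h s + δ * s) / s ^ 2 := by
        field_simp
      have h6 : deriv h s / s = (s * deriv h s) / s ^ 2 := by
        field_simp
      rw [h5, h6]
      exact div_le_div_of_nonneg_right h1 (by positivity)
    show δ * s⁻¹ + C ≤ deriv h s / s - h s / s ^ 2 + C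
    linarith
  have h1 : g b - g a = h b / b - h a / a + C * (b - a) := by
    simp only [hg]; ring
  have := hint.2
  linarith only [this, hle, hval]

end Vale.Agent.P128.GM
end

section

/-! Part IV of the proof of Q1 (lines): definitions. -/

open MeasureTheory Set Metric Filter ComplexConjugate
open scoped ENNReal NNReal Topology Real ContDiff

namespace Vale.Agent.P128.Q1

open Vale.Agent.P128

/-- `K` and a line through `y` are each within `δ r` of the other in the disk of radius `r`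
about `y`. -/
def LineAt (K : Set ℂ) (δ : ℝ) (y : ℂ) (r : ℝ) : Prop :=
  ∃ e : ℂ, ‖e‖ = 1 ∧ (∀ z ∈ K, dist z y ≤ r → |(conj e * (z - y)).im| ≤ δ * r) ∧
    ∀ t : ℝ, |t| ≤ r → ∃ z ∈ K, dist z (y + t * e) ≤ δ * r

/-- `K` is close to lines at all points of the disk `B(y₀, ρ)` and all scales up to `ρ`. -/
structure FlatZone (K : Set ℂ) (y₀ : ℂ) (ρ δ : ℝ) : Prop where
  pos : 0 < ρ
  comp : IsCompact (K ∩ closedBall y₀ (2 * ρ))
  flat : ∀ y ∈ K, dist y y₀ ≤ ρ → ∀ r : ℝ, 0 < r → r ≤ ρ → LineAt K δ y r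

/-- The directions of the points of `K` on the circle of radius `t` about `y`. -/
def IsDirs (K : Set ℂ) (y : ℂ) (t : ℝ) (T : Finset ℂ) : Prop :=
  ∀ w, w ∈ T ↔ ‖w‖ = 1 ∧ y + t • w ∈ K

end Vale.Agent.P128.Q1
end

section

open MeasureTheory Set Metric Filter
open scoped ENNReal NNReal Topology Real ContDiff

namespace Vale.Agent.P128

/-- The function whose zero set is the segment of the modified star with stem `κ a`. -/
noncomputable def ellK (κ a β r t : ℝ) : ℝ :=
  κ * (a * Real.sin β - r * Real.sin t) - r * Real.sin (β - t)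

theorem continuous_ellK (κ a β : ℝ) : Continuous fun p : ℝ × ℝ => ellK κ a β p.1 p.2 := by
  unfold ellK; fun_prop

theorem mem_segment_of_ellK {x q : ℂ} {σ : ℝ} (hσ : σ * σ = 1) {κ a β r t : ℝ} (ha : 0 < a)
    (hβ : 0 < β) (hβ' : β < π / 2) (hr : 0 ≤ r) (ht : 0 ≤ t) (htβ : t ≤ β)
    (h : ellK κ a β r t = 0) (hκ : 0 < κ) :
    pm x q σ (r, t) ∈ segment ℝ (x + (κ * a) • q) (x + a • (q * uc (σ * β))) := by
  have hπ := Real.pi_pos
  have hsβ : 0 < Real.sin β := Real.sin_pos_of_pos_of_lt_pi hβ (by linarith)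
  have hst : 0 ≤ Real.sin t := Real.sin_nonneg_of_nonneg_of_le_pi ht (by linarith)
  have hsbt : 0 ≤ Real.sin (β - t) :=
    Real.sin_nonneg_of_nonneg_of_le_pi (by linarith) (by linarith)
  unfold ellK at h
  have hle : r * Real.sin t ≤ a * Real.sin β := by
    have h2 : 0 ≤ κ * (a * Real.sin β - r * Real.sin t) := by
      have := mul_nonneg hr hsbt; linarith
    have := nonneg_of_mul_nonneg_right h2 hκ
    linarith
  set lam : ℝ := r * Real.sin t / (a * Real.sin β) with hlam
  have hden : 0 < a * Real.sin β := by positivity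
  have hl0 : 0 ≤ lam := by positivity
  have hl1 : lam ≤ 1 := (div_le_one hden).mpr hle
  refine ⟨1 - lam, lam, by linarith, hl0, by ring, ?_⟩
  -- coordinates
  have hcosσ : ∀ s : ℝ, Real.cos (σ * s) = Real.cos s := by
    intro s
    rcases mul_self_eq_one_iff.mp hσ with h1 | h1 <;> simp [h1]
  have hsinσ : ∀ s : ℝ, Real.sin (σ * s) = σ * Real.sin s := by
    intro s
    rcases mul_self_eq_one_iff.mp hσ with h1 | h1 <;> simp [h1]
  have e1 : lam * (a * Real.sin β) = r * Real.sin t := by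
    rw [hlam]; field_simp
  have e2 : (1 - lam) * (κ * a) + lam * (a * Real.cos β) = r * Real.cos t := by
    have h5 : ((1 - lam) * (κ * a) + lam * (a * Real.cos β)) * Real.sin β =
        (r * Real.cos t) * Real.sin β := by
      rw [Real.sin_sub] at h
      have e1' : lam * a * Real.sin β = r * Real.sin t := by rw [← e1]; ring
      linear_combination (Real.cos β - κ) * e1' + h
    exact mul_right_cancel₀ hsβ.ne' h5
  unfold pm
  simp only [uc_cos_sin, hcosσ, hsinσ]
  have e1c : (lam : ℂ) * (a * Real.sin β) = r * Real.sin t := by exact_mod_cast e1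
  have e2c : (1 - lam : ℂ) * (κ * a) + lam * (a * Real.cos β) = r * Real.cos t := by
    exact_mod_cast e2
  simp only [Complex.real_smul]
  push_cast at e1c e2c ⊢
  linear_combination q * e2c + q * σ * Complex.I * e1c

/-- Parameters of a side region. -/
def sideK (κ a β γ : ℝ) : Set (ℝ × ℝ) :=
  {p | 0 < p.1 ∧ 0 < p.2 ∧ p.2 < β + γ ∧ (0 < ellK κ a β p.1 p.2 ∨ β < p.2)}

/-- Parameters of the middle region. -/
def midK (κ a β : ℝ) : Set (ℝ × ℝ) :=
  {p | 0 < p.1 ∧ -β < p.2 ∧ p.2 < β ∧ ellK κ a β p.1 p.2 < 0 ∧ ellK κ a β p.1 (-p.2) < 0}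

theorem midK_pos {κ a β : ℝ} : ∀ p ∈ midK κ a β, 0 < p.1 := fun _ h => h.1

theorem sideK_pos {κ a β γ : ℝ} : ∀ p ∈ sideK κ a β γ, 0 < p.1 := fun _ h => h.1

theorem isOpen_sideK (κ a β γ : ℝ) : IsOpen (sideK κ a β γ) := by
  have h := continuous_ellK κ a β
  have e : sideK κ a β γ = {p : ℝ × ℝ | 0 < p.1} ∩ ({p | 0 < p.2} ∩ ({p | p.2 < β + γ} ∩
      ({p | 0 < ellK κ a β p.1 p.2} ∪ {p | β < p.2}))) := by
    ext p; simp [sideK]
  rw [e]
  exact (isOpen_lt continuous_const continuous_fst).inter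
    ((isOpen_lt continuous_const continuous_snd).inter
      ((isOpen_lt continuous_snd continuous_const).inter
        ((isOpen_lt continuous_const h).union (isOpen_lt continuous_const continuous_snd))))

theorem isOpen_midK (κ a β : ℝ) : IsOpen (midK κ a β) := by
  have h := continuous_ellK κ a β
  have h' : Continuous fun p : ℝ × ℝ => ellK κ a β p.1 (-p.2) :=
    h.comp (continuous_fst.prodMk continuous_snd.neg)
  have e : midK κ a β = {p : ℝ × ℝ | 0 < p.1} ∩ ({p | -β < p.2} ∩ ({p | p.2 < β} ∩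
      ({p | ellK κ a β p.1 p.2 < 0} ∩ {p | ellK κ a β p.1 (-p.2) < 0}))) := by
    ext p; simp [midK]
  rw [e]
  exact (isOpen_lt continuous_const continuous_fst).inter
    ((isOpen_lt continuous_const continuous_snd).inter
      ((isOpen_lt continuous_snd continuous_const).inter
        ((isOpen_lt h continuous_const).inter (isOpen_lt h' continuous_const))))

theorem closure_sideK {x q : ℂ} (hq : ‖q‖ = 1) {σ : ℝ} (hσ : σ * σ = 1) {κ a β γ : ℝ}
    (ha : 0 < a) (hβ : 0 < β) (hβ' : β < π / 2) (hκ : 0 < κ) {z : ℂ}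
    (hz : z ∈ closure (pm x q σ '' sideK κ a β γ)) :
    z ∈ pm x q σ '' sideK κ a β γ ∨ (∃ ρ : ℝ, 0 ≤ ρ ∧ ρ ≤ κ * a ∧ z = x + ρ • q) ∨
      (∃ ρ : ℝ, a ≤ ρ ∧ z = x + ρ • (q * uc (σ * β))) ∨
      (∃ ρ : ℝ, 0 ≤ ρ ∧ z = x + ρ • (q * uc (σ * (β + γ)))) ∨
      z ∈ segment ℝ (x + (κ * a) • q) (x + a • (q * uc (σ * β))) := by
  have hπ := Real.pi_pos
  have hsβ : 0 < Real.sin β := Real.sin_pos_of_pos_of_lt_pi hβ (by linarith)
  set C : Set (ℝ × ℝ) := {p | 0 ≤ p.1 ∧ 0 ≤ p.2 ∧ p.2 ≤ β + γ ∧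
    (0 ≤ ellK κ a β p.1 p.2 ∨ β ≤ p.2)} with hC
  have hCc : IsClosed C := by
    have e : C = {p : ℝ × ℝ | 0 ≤ p.1} ∩ ({p | 0 ≤ p.2} ∩ ({p | p.2 ≤ β + γ} ∩
        ({p | 0 ≤ ellK κ a β p.1 p.2} ∪ {p | β ≤ p.2}))) := by
      ext p; simp [hC]
    rw [e]
    exact (isClosed_le continuous_const continuous_fst).inter
      ((isClosed_le continuous_const continuous_snd).inter
        ((isClosed_le continuous_snd continuous_const).inter
          ((isClosed_le continuous_const (continuous_ellK κ a β)).union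
            (isClosed_le continuous_const continuous_snd))))
  have hSC : sideK κ a β γ ⊆ C := by
    rintro p ⟨h1, h2, h3, h4⟩
    exact ⟨h1.le, h2.le, h3.le, h4.imp le_of_lt le_of_lt⟩
  have hcl := isClosed_pm_image (x := x) hq σ hCc (α₁ := 0) (α₂ := β + γ)
    (fun p hp => ⟨hp.1, hp.2.1, hp.2.2.1⟩)
  obtain ⟨⟨r, t⟩, ⟨h1, h2, h3, h4⟩, rfl⟩ := closure_minimal (image_mono hSC) hcl hz
  simp only at h1 h2 h3 h4
  rcases eq_or_lt_of_le h1 with hr | hr
  · right; left
    exact ⟨0, le_rfl, by positivity, by simp [pm, ← hr]⟩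
  rcases eq_or_lt_of_le h2 with ht | ht
  · right; left
    refine ⟨r, h1, ?_, by simp [pm, ← ht, uc_zero]⟩
    rcases h4 with h4 | h4
    · rw [← ht] at h4
      unfold ellK at h4
      rw [Real.sin_zero, sub_zero, mul_zero, sub_zero] at h4
      have h5 : 0 ≤ Real.sin β * (κ * a - r) := by linarith
      have := nonneg_of_mul_nonneg_right h5 hsβ
      linarith
    · linarith
  rcases eq_or_lt_of_le h3 with htg | htg
  · right; right; right; left
    exact ⟨r, h1, by simp only [pm, htg]⟩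
  by_cases h5 : 0 < ellK κ a β r t ∨ β < t
  · left
    exact ⟨(r, t), ⟨hr, ht, htg, h5⟩, rfl⟩
  push Not at h5
  obtain ⟨h5, h6⟩ := h5
  rcases eq_or_lt_of_le h5 with h7 | h7
  · right; right; right; right
    exact mem_segment_of_ellK hσ ha hβ hβ' h1 h2 h6 h7 hκ
  · right; right; left
    have h8 : t = β := by
      rcases h4 with h4 | h4
      · linarith
      · linarith
    refine ⟨r, ?_, by simp only [pm, h8]⟩
    rw [h8] at h7
    unfold ellK at h7
    rw [sub_self, Real.sin_zero, mul_zero, sub_zero] at h7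
    by_contra hlt
    push Not at hlt
    have h9 : 0 < κ * (a * Real.sin β - r * Real.sin β) := by
      have := mul_pos hsβ (sub_pos.mpr hlt)
      have h10 : a * Real.sin β - r * Real.sin β = Real.sin β * (a - r) := by ring
      rw [h10]; positivity
    linarith

theorem closure_midK {x q : ℂ} (hq : ‖q‖ = 1) {κ a β : ℝ}
    (ha : 0 < a) (hβ : 0 < β) (hβ' : β < π / 2) (hκ : 0 < κ) (hκβ : κ < Real.cos β) {z : ℂ}
    (hz : z ∈ closure (pm x q 1 '' midK κ a β)) :
    z ∈ pm x q 1 '' midK κ a β ∨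
      (∃ ρ : ℝ, a ≤ ρ ∧ z = x + ρ • (q * uc (1 * β))) ∨
      (∃ ρ : ℝ, a ≤ ρ ∧ z = x + ρ • (q * uc ((-1) * β))) ∨
      z ∈ segment ℝ (x + (κ * a) • q) (x + a • (q * uc (1 * β))) ∨
      z ∈ segment ℝ (x + (κ * a) • q) (x + a • (q * uc ((-1) * β))) := by
  have hπ := Real.pi_pos
  have hsβ : 0 < Real.sin β := Real.sin_pos_of_pos_of_lt_pi hβ (by linarith)
  set C : Set (ℝ × ℝ) := {p | 0 ≤ p.1 ∧ -β ≤ p.2 ∧ p.2 ≤ β ∧
    ellK κ a β p.1 p.2 ≤ 0 ∧ ellK κ a β p.1 (-p.2) ≤ 0} with hC
  have h' : Continuous fun p : ℝ × ℝ => ellK κ a β p.1 (-p.2) :=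
    (continuous_ellK κ a β).comp (continuous_fst.prodMk continuous_snd.neg)
  have hCc : IsClosed C := by
    have e : C = {p : ℝ × ℝ | 0 ≤ p.1} ∩ ({p | -β ≤ p.2} ∩ ({p | p.2 ≤ β} ∩
        ({p | ellK κ a β p.1 p.2 ≤ 0} ∩ {p | ellK κ a β p.1 (-p.2) ≤ 0}))) := by
      ext p; simp [hC]
    rw [e]
    exact (isClosed_le continuous_const continuous_fst).inter
      ((isClosed_le continuous_const continuous_snd).inter
        ((isClosed_le continuous_snd continuous_const).inter
          ((isClosed_le (continuous_ellK κ a β) continuous_const).inter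
            (isClosed_le h' continuous_const))))
  have hSC : midK κ a β ⊆ C := by
    rintro p ⟨h1, h2, h3, h4, h5⟩
    exact ⟨h1.le, h2.le, h3.le, h4.le, h5.le⟩
  have hcl := isClosed_pm_image (x := x) hq 1 hCc (α₁ := -β) (α₂ := β)
    (fun p hp => ⟨hp.1, hp.2.1, hp.2.2.1⟩)
  obtain ⟨⟨r, t⟩, ⟨h1, h2, h3, h4, h5⟩, rfl⟩ := closure_minimal (image_mono hSC) hcl hz
  simp only at h1 h2 h3 h4 h5
  -- the radius is positive
  have hr : 0 < r := by
    rcases eq_or_lt_of_le h1 with hr | hr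
    · exfalso
      unfold ellK at h4
      rw [← hr, zero_mul, zero_mul, sub_zero, sub_zero] at h4
      have : 0 < κ * (a * Real.sin β) := by positivity
      linarith
    · exact hr
  -- comparison of the two functions
  have hdiff : ellK κ a β r t - ellK κ a β r (-t) =
      2 * r * Real.sin t * (Real.cos β - κ) := by
    unfold ellK
    rw [Real.sin_neg, Real.sin_sub, sub_neg_eq_add, Real.sin_add]
    ring
  have hradius : ellK κ a β r β ≤ 0 → a ≤ r := by
    intro h
    unfold ellK at h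
    rw [sub_self, Real.sin_zero, mul_zero, sub_zero] at h
    by_contra hlt
    push Not at hlt
    have h9 : 0 < κ * (a * Real.sin β - r * Real.sin β) := by
      have := mul_pos hsβ (sub_pos.mpr hlt)
      have h10 : a * Real.sin β - r * Real.sin β = Real.sin β * (a - r) := by ring
      rw [h10]; positivity
    linarith
  rcases eq_or_lt_of_le h3 with ht | ht
  · right; left
    rw [ht] at h4
    exact ⟨r, hradius h4, by simp only [pm, ht]⟩
  rcases eq_or_lt_of_le h2 with ht' | ht'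
  · right; right; left
    rw [← ht', neg_neg] at h5
    refine ⟨r, hradius h5, ?_⟩
    simp only [pm, ← ht', one_mul, neg_mul]
  rcases eq_or_lt_of_le h4 with h6 | h6
  · -- on the upper segment
    right; right; right; left
    have ht0 : 0 ≤ t := by
      by_contra hlt
      push Not at hlt
      have hs : Real.sin t < 0 := Real.sin_neg_of_neg_of_neg_pi_lt hlt (by linarith)
      have h8 : 0 < 2 * r * (Real.cos β - κ) := by
        have : 0 < Real.cos β - κ := by linarith
        positivity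
      linarith only [mul_pos (sub_pos.2 hs) (sub_pos.2 h8), h6, hdiff, h5]
    exact mem_segment_of_ellK (by norm_num) ha hβ hβ' h1 ht0 ht.le h6 hκ
  rcases eq_or_lt_of_le h5 with h7 | h7
  · right; right; right; right
    have ht0 : t ≤ 0 := by
      by_contra hlt
      push Not at hlt
      have hs : 0 < Real.sin t := Real.sin_pos_of_pos_of_lt_pi hlt (by linarith)
      have h8 : 0 < 2 * r * (Real.cos β - κ) := by
        have : 0 < Real.cos β - κ := by linarith
        positivity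
      linarith only [mul_pos (sub_pos.2 hs) (sub_pos.2 h8), h7, h6, hdiff]
    have := mem_segment_of_ellK (x := x) (q := q) (σ := -1) (by norm_num) ha hβ hβ' h1
      (by linarith : 0 ≤ -t) (by linarith) h7 hκ
    simpa only [pm, mul_neg, neg_mul, one_mul, neg_neg] using this
  · left
    exact ⟨(r, t), ⟨hr, ht', ht, h6, h7⟩, rfl⟩

theorem ellK_neg {κ a β t : ℝ} (ha : 0 < a) (hβ' : β < π / 2) (hκ : 0 < κ)
    (hκβ : κ < Real.cos β) (ht : -β < t) (ht' : t < β) : ellK κ a β a t < 0 := by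
  have hπ := Real.pi_pos
  have hs : 0 < Real.sin ((β - t) / 2) :=
    Real.sin_pos_of_pos_of_lt_pi (by linarith) (by linarith)
  have e1 : Real.sin β - Real.sin t =
      2 * Real.sin ((β - t) / 2) * Real.cos ((β + t) / 2) := Real.sin_sub_sin β t
  have e2 : Real.sin (β - t) = 2 * Real.sin ((β - t) / 2) * Real.cos ((β - t) / 2) := by
    rw [← Real.sin_two_mul]; congr 1; ring
  have h1 : Real.cos β < Real.cos ((β - t) / 2) :=
    Real.cos_lt_cos_of_nonneg_of_le_pi (by linarith) (by linarith) (by linarith)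
  have h2 : κ * Real.cos ((β + t) / 2) ≤ κ * 1 :=
    mul_le_mul_of_nonneg_left (Real.cos_le_one _) hκ.le
  have h3 : κ * (Real.sin β - Real.sin t) - Real.sin (β - t) < 0 := by
    rw [e1, e2]
    have h4 : 0 < Real.cos ((β - t) / 2) - κ * Real.cos ((β + t) / 2) := by linarith
    linarith only [mul_pos hs h4]
  have h5 : ellK κ a β a t = a * (κ * (Real.sin β - Real.sin t) - Real.sin (β - t)) := by
    unfold ellK; ring
  rw [h5]
  exact mul_neg_of_pos_of_neg ha h3

theorem sphere_sideK {x q e : ℂ} (hq : ‖q‖ = 1) (he : ‖e‖ = 1) {σ κ a β γ : ℝ}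
    (ha : 0 < a) (hβ : 0 < β) (hβ' : β < π / 2) (hκ : 0 < κ) (hκβ : κ < Real.cos β) :
    x + a • e ∈ pm x q σ '' sideK κ a β γ ↔ ∃ t ∈ Ioo 0 γ, e = q * uc (σ * (β + t)) := by
  constructor
  · intro h
    obtain ⟨t, ⟨h1, h2, h3, h4⟩, h5⟩ := dir_of_mem hq he ha (fun p hp => hp.1) h
    simp only at h1 h2 h3 h4
    have h6 : β < t := by
      rcases h4 with h4 | h4
      · by_contra hle
        push Not at hle
        rcases eq_or_lt_of_le hle with h7 | h7
        · rw [h7] at h4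
          unfold ellK at h4
          simp at h4
        · have := ellK_neg ha hβ' hκ hκβ (by linarith) h7
          linarith
      · exact h4
    exact ⟨t - β, ⟨by linarith, by linarith⟩, by rw [h5]; congr 3; ring⟩
  · rintro ⟨t, ht, rfl⟩
    exact ⟨(a, β + t), ⟨ha, by change 0 < β + t; linarith [ht.1], by
      change β + t < β + γ; linarith [ht.2], Or.inr (by change β < β + t; linarith [ht.1])⟩, rfl⟩

theorem sphere_midK {x q e : ℂ} (hq : ‖q‖ = 1) (he : ‖e‖ = 1) {κ a β : ℝ}
    (ha : 0 < a) (hβ' : β < π / 2) (hκ : 0 < κ) (hκβ : κ < Real.cos β) :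
    x + a • e ∈ pm x q 1 '' midK κ a β ↔ ∃ t ∈ Ioo (-β) β, e = q * uc t := by
  constructor
  · intro h
    obtain ⟨t, ⟨h1, h2, h3, h4⟩, h5⟩ := dir_of_mem hq he ha (fun p hp => hp.1) h
    rw [one_mul] at h5
    exact ⟨t, ⟨h2, h3⟩, h5⟩
  · rintro ⟨t, ht, rfl⟩
    refine ⟨(a, t), ⟨ha, ht.1, ht.2, ellK_neg ha hβ' hκ hκβ ht.1 ht.2, ?_⟩, by simp [pm]⟩
    exact ellK_neg ha hβ' hκ hκβ (by change -β < -t; linarith [ht.2])
      (by change -t < β; linarith [ht.1])

/-- Length of the short sides of the modified star. -/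
theorem hausdorff_shortK (x q : ℂ) (hq : ‖q‖ = 1) {κ a β σ : ℝ} (hσ : σ * σ = 1) (ha : 0 < a)
    (hκ : 0 < κ) (hκ1 : κ ≤ 1) :
    μH[1] (segment ℝ (x + (κ * a) • q) (x + a • (q * uc (σ * β)))) ≤
      ENNReal.ofReal ((1 - κ * Real.cos β + κ ^ 2 / 2) * a) := by
  have hπ := Real.pi_pos
  rw [hausdorffMeasure_segment, edist_dist, dist_eq_norm]
  refine ENNReal.ofReal_le_ofReal ?_
  have hcosσ : Real.cos (σ * β) = Real.cos β := by
    rcases mul_self_eq_one_iff.mp hσ with h1 | h1 <;> simp [h1]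
  have hsinσ : Real.sin (σ * β) = σ * Real.sin β := by
    rcases mul_self_eq_one_iff.mp hσ with h1 | h1 <;> simp [h1]
  have h1 : x + (κ * a) • q - (x + a • (q * uc (σ * β))) =
      (a : ℂ) * (q * ((κ - Real.cos β : ℝ) + ((-(σ * Real.sin β) : ℝ) : ℂ) * Complex.I)) := by
    rw [uc_cos_sin, hcosσ, hsinσ]
    simp only [Complex.real_smul]
    push_cast
    ring
  have hc1 := Real.cos_le_one β
  have hnn : 0 ≤ 1 - κ * Real.cos β + κ ^ 2 / 2 := by (by_contra nlg; linarith only [nlg, mul_nonneg (sub_nonneg.2 hκ1) (sub_nonneg.2 hκ1), mul_nonneg (le_of_lt (sub_pos.2 hκ)) (sub_nonneg.2 hc1), mul_nonneg (le_of_lt (sub_pos.2 (not_le.1 nlg))) (sub_nonneg.2 hκ1), mul_pos (sub_pos.2 (not_le.1 nlg)) (sub_pos.2 hκ)])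
  rw [h1, norm_mul, norm_mul, hq, one_mul, Complex.norm_real, Real.norm_of_nonneg ha.le, mul_comm]
  gcongr
  rw [← Complex.mk_eq_add_mul_I, Complex.norm_def, Real.sqrt_le_left hnn,
    Complex.normSq_mk]
  have h4 := Real.sin_sq_add_cos_sq β
  have h5 : -(σ * Real.sin β) * -(σ * Real.sin β) = Real.sin β ^ 2 := by
    rw [show -(σ * Real.sin β) * -(σ * Real.sin β) = (σ * σ) * Real.sin β ^ 2 by ring, hσ, one_mul]
  rw [h5]
  linarith only [sq_nonneg (κ * Real.cos β - κ ^ 2 / 2), h4]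

end Vale.Agent.P128
end

section

/-! Part VI.2: the area swept by a set of finite length. -/

open MeasureTheory Set Metric Filter
open scoped ENNReal NNReal ContDiff Topology Real

namespace Vale.Agent.P128.Q1

open Vale.Agent.P128

variable {Ω : Set ℂ} {g u : ℂ → ℝ} {G : ℂ → ℂ} {K : Set ℂ} {M : ℝ} {x₀ : ℂ} {R₀ : ℝ}
variable {x e : ℂ} {s η t : ℝ} {Ψ : ℂ ≃ₜ ℂ}

/-- multiplication by a unit complex number, followed by `ℂ ≃ ℝ × ℝ` -/
theorem strip_equiv (he : ‖e‖ = 1) : ∃ F : ℂ ≃ᵐ ℝ × ℝ, MeasurePreserving F volume volume ∧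
    ∀ z, F z = (((starRingEnd ℂ) e * z).re, ((starRingEnd ℂ) e * z).im) := by
  have hc : ‖(starRingEnd ℂ) e‖ = 1 := by rw [Complex.norm_conj, he]
  let a : Circle := ⟨(starRingEnd ℂ) e, mem_sphere_zero_iff_norm.2 hc⟩
  refine ⟨(rotation a).toHomeomorph.toMeasurableEquiv.trans Complex.measurableEquivRealProd,
    ?_, fun z => ?_⟩
  · exact Complex.volume_preserving_equiv_real_prod.comp (rotation a).measurePreserving
  · change Complex.measurableEquivRealProd (rotation a z) = _
    rw [rotation_apply]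
    rfl

/-- the area swept by a set of diameter `d` -/
theorem strip_one {C : Set ℂ} (he : ‖e‖ = 1) (ht : 0 ≤ t) :
    volume {z : ℂ | ∃ τ ∈ Icc 0 t, z - τ * e ∈ C} ≤
      (ENNReal.ofReal t + ediam C) * ediam C := by
  obtain ⟨F, hF, hFz⟩ := strip_equiv he
  have hee : (starRingEnd ℂ) e * e = 1 := by
    rw [Complex.conj_mul', he]; norm_num
  set J : Set ℝ := {r | ∃ c ∈ C, ∃ τ ∈ Icc 0 t, r = ((starRingEnd ℂ) e * c).re + τ} with hJ
  set I : Set ℝ := {r | ∃ c ∈ C, r = ((starRingEnd ℂ) e * c).im} with hI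
  have hsub : {z : ℂ | ∃ τ ∈ Icc 0 t, z - τ * e ∈ C} ⊆ F ⁻¹' (J ×ˢ I) := by
    rintro z ⟨τ, hτ, hz⟩
    rw [mem_preimage, hFz]
    have h : (starRingEnd ℂ) e * z = (starRingEnd ℂ) e * (z - τ * e) + τ := by
      linear_combination (τ : ℂ) * hee
    refine ⟨⟨z - τ * e, hz, τ, hτ, ?_⟩, ⟨z - τ * e, hz, ?_⟩⟩
    · change ((starRingEnd ℂ) e * z).re = _
      rw [h, Complex.add_re, Complex.ofReal_re]
    · change ((starRingEnd ℂ) e * z).im = _
      rw [h, Complex.add_im, Complex.ofReal_im, add_zero]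
  have key : ∀ c ∈ C, ∀ c' ∈ C,
      ENNReal.ofReal ‖(starRingEnd ℂ) e * c - (starRingEnd ℂ) e * c'‖ ≤ ediam C := by
    intro c hc c' hc'
    have h1 : ‖(starRingEnd ℂ) e * c - (starRingEnd ℂ) e * c'‖ = dist c c' := by
      rw [← mul_sub, norm_mul, Complex.norm_conj, he, one_mul, dist_eq_norm]
    rw [h1, ← edist_dist]
    exact edist_le_ediam_of_mem hc hc'
  have hdI : ediam I ≤ ediam C := by
    refine ediam_le ?_
    rintro _ ⟨c, hc, rfl⟩ _ ⟨c', hc', rfl⟩
    refine le_trans ?_ (key c hc c' hc')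
    rw [edist_dist, Real.dist_eq, ← Complex.sub_im]
    exact ENNReal.ofReal_le_ofReal (Complex.abs_im_le_norm _)
  have hdJ : ediam J ≤ ENNReal.ofReal t + ediam C := by
    refine ediam_le ?_
    rintro _ ⟨c, hc, τ, hτ, rfl⟩ _ ⟨c', hc', τ', hτ', rfl⟩
    refine le_trans ?_ (add_le_add_right (key c hc c' hc') _)
    rw [edist_dist, Real.dist_eq, ← ENNReal.ofReal_add ht (norm_nonneg _)]
    refine ENNReal.ofReal_le_ofReal ?_
    have h1 := Complex.abs_re_le_norm ((starRingEnd ℂ) e * c - (starRingEnd ℂ) e * c')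
    rw [Complex.sub_re] at h1
    have h2 : |τ - τ'| ≤ t := by
      rw [abs_le]; constructor <;> linarith [hτ.1, hτ.2, hτ'.1, hτ'.2]
    calc |((starRingEnd ℂ) e * c).re + τ - (((starRingEnd ℂ) e * c').re + τ')|
        = |(((starRingEnd ℂ) e * c).re - ((starRingEnd ℂ) e * c').re) + (τ - τ')| := by
          congr 1; ring
      _ ≤ _ := (abs_add_le _ _).trans (by linarith)
  calc volume {z : ℂ | ∃ τ ∈ Icc 0 t, z - τ * e ∈ C} ≤ volume (F ⁻¹' (J ×ˢ I)) :=
        measure_mono hsub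
    _ = volume (J ×ˢ I) := hF.measure_preimage_equiv _
    _ = volume J * volume I := Measure.prod_prod _ _
    _ ≤ (ENNReal.ofReal t + ediam C) * ediam C :=
        mul_le_mul' ((Real.volume_le_diam J).trans hdJ) ((Real.volume_le_diam I).trans hdI)

theorem strip_volume {S : Set ℂ} (he : ‖e‖ = 1) (ht : 0 ≤ t) (hS : μH[1] S ≠ ⊤) :
    volume {z : ℂ | ∃ τ ∈ Icc 0 t, z - τ * e ∈ S} ≤ ENNReal.ofReal t * μH[1] S := by
  have key : ∀ ε : ℝ≥0∞, 0 < ε → ε ≠ ⊤ →
      volume {z : ℂ | ∃ τ ∈ Icc 0 t, z - τ * e ∈ S} ≤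
        (ENNReal.ofReal t + ε) * (μH[1] S + ε) := by
    intro ε hε hε'
    have h1 : (⨅ (c : ℕ → Set ℂ) (_ : S ⊆ ⋃ n, c n) (_ : ∀ n, ediam (c n) ≤ ε),
        ∑' n, ⨆ (_ : (c n).Nonempty), ediam (c n) ^ (1 : ℝ)) < μH[1] S + ε := by
      refine lt_of_le_of_lt ?_ (ENNReal.lt_add_right hS hε.ne')
      rw [Measure.hausdorffMeasure_apply]
      exact le_iSup₂_of_le ε hε le_rfl
    simp only [iInf_lt_iff] at h1
    obtain ⟨c, hc1, hc2, hc3⟩ := h1
    have h2 : {z : ℂ | ∃ τ ∈ Icc 0 t, z - τ * e ∈ S} ⊆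
        ⋃ n, {z : ℂ | ∃ τ ∈ Icc 0 t, z - τ * e ∈ c n} := by
      rintro z ⟨τ, hτ, hz⟩
      obtain ⟨n, hn⟩ := mem_iUnion.1 (hc1 hz)
      exact mem_iUnion.2 ⟨n, τ, hτ, hn⟩
    calc volume {z : ℂ | ∃ τ ∈ Icc 0 t, z - τ * e ∈ S}
        ≤ volume (⋃ n, {z : ℂ | ∃ τ ∈ Icc 0 t, z - τ * e ∈ c n}) := measure_mono h2
      _ ≤ ∑' n, volume {z : ℂ | ∃ τ ∈ Icc 0 t, z - τ * e ∈ c n} := measure_iUnion_le _
      _ ≤ ∑' n, (ENNReal.ofReal t + ε) * (⨆ (_ : (c n).Nonempty), ediam (c n) ^ (1 : ℝ)) := by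
          refine ENNReal.tsum_le_tsum fun n => (strip_one he ht).trans ?_
          refine mul_le_mul' (add_le_add_right (hc2 n) _) ?_
          rcases (c n).eq_empty_or_nonempty with h | h
          · rw [h, ediam_empty]; exact zero_le
          · rw [ENNReal.rpow_one]
            exact le_iSup_of_le h le_rfl
      _ = (ENNReal.ofReal t + ε) * ∑' n, (⨆ (_ : (c n).Nonempty), ediam (c n) ^ (1 : ℝ)) :=
          ENNReal.tsum_mul_left
      _ ≤ (ENNReal.ofReal t + ε) * (μH[1] S + ε) := by gcongr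
  have hlim : Tendsto (fun ε : ℝ≥0∞ => (ENNReal.ofReal t + ε) * (μH[1] S + ε)) (𝓝[>] 0)
      (𝓝 ((ENNReal.ofReal t + 0) * (μH[1] S + 0))) := by
    have h1 : Tendsto (fun ε : ℝ≥0∞ => ENNReal.ofReal t + ε) (𝓝[>] 0)
        (𝓝 (ENNReal.ofReal t + 0)) :=
      (tendsto_const_nhds.add tendsto_id).mono_left nhdsWithin_le_nhds
    have h2 : Tendsto (fun ε : ℝ≥0∞ => μH[1] S + ε) (𝓝[>] 0) (𝓝 (μH[1] S + 0)) :=
      (tendsto_const_nhds.add tendsto_id).mono_left nhdsWithin_le_nhds
    refine ENNReal.Tendsto.mul h1 (Or.inr ?_) h2 (Or.inr ?_)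
    · rwa [add_zero]
    · rw [add_zero]; exact ENNReal.ofReal_ne_top
  rw [add_zero, add_zero] at hlim
  refine ge_of_tendsto hlim ?_
  have h3 : ∀ᶠ ε : ℝ≥0∞ in 𝓝[>] 0, ε < ⊤ :=
    (nhdsWithin_le_nhds : 𝓝[>] (0 : ℝ≥0∞) ≤ 𝓝 0) (gt_mem_nhds ENNReal.zero_lt_top)
  filter_upwards [self_mem_nhdsWithin, h3] with ε h4 h5
  exact key ε h4 h5.ne

/-- variant for `0 < t`, without finiteness -/
theorem strip_volume_pos {S : Set ℂ} (he : ‖e‖ = 1) (ht : 0 < t) :
    volume {z : ℂ | ∃ τ ∈ Icc 0 t, z - τ * e ∈ S} ≤ ENNReal.ofReal t * μH[1] S := by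
  by_cases hS : μH[1] S = ⊤
  · rw [hS, ENNReal.mul_top (ENNReal.ofReal_pos.2 ht).ne']
    exact le_top
  · exact strip_volume he ht.le hS

end Vale.Agent.P128.Q1
end
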