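import Vale.Agent.P128.Bdl.B5

/-! Definitions for Theorem C (classification when the complement is connected). -/

open MeasureTheory Set Metric Filter InnerProductSpace
open scoped ENNReal NNReal ContDiff Topology Real

namespace Vale.Agent.P128.GM

open Vale.Agent.P128

/-- the function `u` seen from `x` -/
def shift (x : ℂ) (u : ℂ → ℝ) : ℂ → ℝ := fun z => u (z + x)

/-- the set `K` seen from `x` -/
def shiftSet (x : ℂ) (K : Set ℂ) : Set ℂ := {z | z + x ∈ K}

/-- Dirichlet energy in the disk of centre `x` -/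
noncomputable def Ec (u : ℂ → ℝ) (x : ℂ) (s : ℝ) : ℝ := ∫ z in ball x s, ‖grad u z‖ ^ 2

/-- the defect `T + N - E/s` -/
noncomputable def om (u : ℂ → ℝ) (s : ℝ) : ℝ := NN u s + TT u s - En u s / s

/-- the circle of radius `s` about the origin meets `K` in exactly one point -/
def OnePt (K : Set ℂ) (s : ℝ) : Prop := ∃ p : ℂ, K ∩ sphere 0 s = {p}

/-- `K` has only one end -/
def OneEnd (K : Set ℂ) : Prop := ∀ S : ℝ, ∃ s : ℝ, S < s ∧ OnePt K s

/-- The topological hypotheses on `K` used in the construction of a tip. -/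
structure Cont (K : Set ℂ) : Prop where
  closed : IsClosed K
  conn : IsPreconnected K
  compl : IsPreconnected Kᶜ
  unbdd : ¬ Bornology.IsBounded K
  oneEnd : OneEnd K
  fin : ∀ R : ℝ, μH[1] (K ∩ ball 0 R) < ⊤

/-- `U` is a dangling piece of `K` with base point `x`. -/
structure IsPiece (K : Set ℂ) (x : ℂ) (U : Set ℂ) : Prop where
  ne : U.Nonempty
  sub : U ⊆ K
  bdd : Bornology.IsBounded U
  out : IsClosed (K \ U)
  base : x ∈ K \ U
  cl : IsClosed (insert x U)

/-- crack-tip pairs, as in the problem file, up to a rigid motion -/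
def IsCrackTip (u : ℂ → ℝ) (K : Set ℂ) : Prop :=
  ∃ (x a : ℂ) (σ c : ℝ), ‖a‖ = 1 ∧ (σ = 1 ∨ σ = -1) ∧ K = {z | ∃ t : ℝ, 0 ≤ t ∧ z = x - t * a} ∧
    ∀ z, z ∉ K → u z = c + σ * Real.sqrt (2 * ‖z - x‖ / π) * Real.sin (Complex.arg ((z - x) / a) / 2)

end Vale.Agent.P128.GM
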