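import Vale.Agent.P128.MathlibUsed
import Vale.Agent.P128.Bdl.K_GM_C_Defs
import Vale.Agent.P128.Bdl.B6
import Vale.Agent.P128.Bdl.K_GM_D_NetDefs
import Vale.Agent.P128.Bdl.B2
import Vale.Agent.P128.Bdl.B1
import Vale.Agent.P128.Bdl.B5
import Vale.Agent.P128.Bdl.B9

set_option linter.all false

section

open Set Metric

namespace Vale.Agent.P128

/-- In the disk of radius `s` about `x`, the set `K` and the three segments of length `s` from `x`
in the directions `w`, `w ω`, `w ω ^ 2`, where `ω = exp (2 π i / 3)`, are each within `ε s` of the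
other. -/
def NearTripod (K : Set ℂ) (x : ℂ) (s ε : ℝ) : Prop :=
  ∃ w : ℂ, ‖w‖ = 1 ∧
    (∀ y ∈ K ∩ closedBall x s, ∃ k : ℕ, ∃ ρ ∈ Icc 0 s,
      dist y (x + ρ • (w * Complex.exp (2 * Real.pi / 3 * Complex.I) ^ k)) ≤ ε * s) ∧
    ∀ k : ℕ, ∀ ρ ∈ Icc 0 s, ∃ y ∈ K,
      dist y (x + ρ • (w * Complex.exp (2 * Real.pi / 3 * Complex.I) ^ k)) ≤ ε * s

end Vale.Agent.P128
end

section

/-! P128, Q1: common interface of all the parts. -/

open MeasureTheory Set Metric Filter InnerProductSpace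
open scoped ENNReal NNReal ContDiff Topology Real

namespace Vale.Agent.P128.Q1

open Vale.Agent.P128

/-! ### The final statement -/

/-- `γ` is, on the interval `[a, b]`, an injective `C^{1,α}` parametrisation with nonvanishing
derivative `γ'`. -/
structure IsArc (α a b : ℝ) (γ γ' : ℝ → ℂ) : Prop where
  inj : InjOn γ (Icc a b)
  deriv : ∀ t ∈ Icc a b, HasDerivWithinAt γ (γ' t) (Icc a b) t
  ne : ∀ t ∈ Icc a b, γ' t ≠ 0
  holder : ∃ C : ℝ, ∀ s ∈ Icc a b, ∀ t ∈ Icc a b, ‖γ' s - γ' t‖ ≤ C * |s - t| ^ α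

/-- `S` is an embedded `C^{1,α}` arc with `x` in its interior. -/
def ArcThrough (α : ℝ) (S : Set ℂ) (x : ℂ) : Prop :=
  ∃ γ γ' : ℝ → ℂ, IsArc α (-1) 1 γ γ' ∧ γ 0 = x ∧ S = γ '' Icc (-1) 1

/-- `S` is an embedded `C^{1,α}` arc ending at `x`. -/
def ArcEnding (α : ℝ) (S : Set ℂ) (x : ℂ) : Prop :=
  ∃ γ γ' : ℝ → ℂ, IsArc α 0 1 γ γ' ∧ γ 0 = x ∧ S = γ '' Icc 0 1

/-- `S` is the union of three embedded `C^{1,α}` arcs which meet only at `x`, at pairwise angles of
120 degrees. -/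
def TripleJunction (α : ℝ) (S : Set ℂ) (x : ℂ) : Prop :=
  ∃ γ γ' : Fin 3 → ℝ → ℂ, (∀ i, IsArc α 0 1 (γ i) (γ' i) ∧ γ i 0 = x) ∧
    S = ⋃ i, γ i '' Icc 0 1 ∧
    (∀ i j, i ≠ j → γ i '' Icc 0 1 ∩ γ j '' Icc 0 1 = {x}) ∧
    ∀ i j, i ≠ j → inner ℝ (γ' i 0) (γ' j 0) = -(1 / 2) * (‖γ' i 0‖ * ‖γ' j 0‖)

/-- the three cases of Q1 at the point `x` -/
def Q1At (Ω K : Set ℂ) (x : ℂ) : Prop :=
  ∃ r : ℝ, 0 < r ∧ closedBall x r ⊆ Ω ∧ ∃ α : ℝ, 0 < α ∧
    (ArcThrough α (K ∩ closedBall x r) x ∨ ArcEnding α (K ∩ closedBall x r) x ∨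
      TripleJunction α (K ∩ closedBall x r) x)

/-! ### Standing assumptions -/

/-- Standing assumptions: a reduced minimizer, bounded by `M` near `x₀`, with its `C¹`
representative. We work at points `y ∈ K ∩ closedBall x₀ R₀` and at scales at most `2 * R₀`. -/
structure MS (Ω : Set ℂ) (g u : ℂ → ℝ) (G : ℂ → ℂ) (K : Set ℂ) (M : ℝ) (x₀ : ℂ) (R₀ : ℝ) :
    Prop where
  N : Nice Ω g u G K M
  red : IsReduced Ω K
  R0 : 0 < R₀
  R1 : R₀ ≤ 1
  M1 : 1 ≤ M
  sub : closedBall x₀ (4 * R₀) ⊆ Ω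
  bd : ∀ z ∈ closedBall x₀ (4 * R₀), |u z| ≤ M
  c1 : ContDiffOn ℝ 1 u (Ω \ K)
  Gu : ∀ z ∈ Ω \ K, G z = grad u z

/-! ### Models and closeness -/

/-- The classification of the reduced global minimizers with nonempty singular set. -/
def Classified : Prop :=
  ∀ (u : ℂ → ℝ) (G : ℂ → ℂ) (K : Set ℂ), GM.IsGlobalMin u G K → IsReduced univ K → K.Nonempty →
    (GM.IsLine K ∧ ∀ᵐ z, z ∉ K → G z = 0) ∨ (GM.IsPropeller K ∧ ∀ᵐ z, z ∉ K → G z = 0) ∨
      ∃ u' : ℂ → ℝ, (∀ᵐ z, z ∉ K → u' z = u z) ∧ GM.IsCrackTip u' K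

/-- The models: `L` is a line, a propeller or a half-line containing the origin, `F s` is the
Dirichlet energy in the disk of radius `s` about the origin. -/
def IsModel (L : Set ℂ) (F : ℝ → ℝ) : Prop :=
  (0 : ℂ) ∈ L ∧ ((GM.IsLine L ∧ ∀ s, F s = 0) ∨ (GM.IsPropeller L ∧ ∀ s, F s = 0) ∨
    ∃ x a : ℂ, ‖a‖ = 1 ∧ L = {z | ∃ t : ℝ, 0 ≤ t ∧ z = x - t * a} ∧
      ∀ s, F s = ∫ z in ball (0 : ℂ) s, 1 / (2 * π * ‖z - x‖))

/-- `(u, K)` is, at the point `y` and the scale `r`, `ε`-close to the model `(L, F)` in the disk of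
radius `R * r`. -/
def Close (G : ℂ → ℂ) (K : Set ℂ) (y : ℂ) (r : ℝ) (L : Set ℂ) (F : ℝ → ℝ) (R ε : ℝ) : Prop :=
  (∀ z ∈ K ∩ closedBall y (R * r), ∃ p ∈ L, dist z (y + r * p) ≤ ε * r) ∧
  (∀ p ∈ L, ‖p‖ ≤ R → ∃ z ∈ K, dist z (y + r * p) ≤ ε * r) ∧
  ∀ s, 1 / R ≤ s → s ≤ R → |En G y (s * r) / r - F s| ≤ ε ∧ |Hn K y (s * r) / r - Hn L 0 s| ≤ ε

/-- In the disk of centre `y` and radius `r`, the set `K` and a diameter are within `δ * r` of each
other, the energy is at most `δ * r` and the length of `K` is within `δ * r` of `2 * r`. -/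
def LineClose (G : ℂ → ℂ) (K : Set ℂ) (y : ℂ) (r δ : ℝ) : Prop :=
  (∃ a : ℂ, ‖a‖ = 1 ∧
    (∀ z ∈ K ∩ closedBall y r, ∃ t : ℝ, |t| ≤ r ∧ dist z (y + t * a) ≤ δ * r) ∧
    ∀ t : ℝ, |t| ≤ r → ∃ z ∈ K, dist z (y + t * a) ≤ δ * r) ∧
  En G y r ≤ δ * r ∧ |Hn K y r - 2 * r| ≤ δ * r

/-! ### The three types of points -/

/-- line type -/
def LineType (G : ℂ → ℂ) (K : Set ℂ) (x : ℂ) : Prop :=
  ∀ δ > 0, ∃ r₁ > 0, ∀ y ∈ K ∩ closedBall x r₁, ∀ r, 0 < r → r ≤ r₁ → LineClose G K y r δ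

/-- away from `x`, at comparable scales, `K` is close to lines -/
def LineAway (G : ℂ → ℂ) (K : Set ℂ) (x : ℂ) : Prop :=
  ∀ δ > 0, ∃ r₁ > 0, ∃ c > 0, ∀ y ∈ K ∩ closedBall x r₁, y ≠ x →
    ∀ r, 0 < r → r ≤ c * dist y x → LineClose G K y r δ

/-- tripod type -/
def TripodType (G : ℂ → ℂ) (K : Set ℂ) (x : ℂ) : Prop :=
  (∀ δ > 0, ∃ r₁ > 0, ∀ r, 0 < r → r ≤ r₁ →
    NearTripod K x r δ ∧ En G x r ≤ δ * r ∧ |Hn K x r - 3 * r| ≤ δ * r) ∧ LineAway G K x

/-- tip type -/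
def TipType (G : ℂ → ℂ) (K : Set ℂ) (x : ℂ) : Prop :=
  (∀ δ > 0, ∃ r₁ > 0, ∀ r, 0 < r → r ≤ r₁ →
    NearRay K x r δ ∧ |En G x r - r| ≤ δ * r ∧ |Hn K x r - r| ≤ δ * r) ∧ LineAway G K x

/-! ### Radial parametrisation -/

/-- Near `x` the set `K` consists of `m` arcs starting at `x`, each of which meets every small
circle about `x` exactly once, the `i`-th one at the point `x + s * exp (i * φ i s)`. The arcs are
`C^{1,β}` in the scale invariant sense, and asymptotically radial. -/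
structure Branches (K : Set ℂ) (x : ℂ) (s₀ : ℝ) (m : ℕ) (φ : Fin m → ℝ → ℝ) : Prop where
  pos : 0 < s₀
  mem : x ∈ K
  diff : ∀ i, ∀ s ∈ Ioo 0 s₀, DifferentiableAt ℝ (φ i) s
  eq : ∀ s ∈ Ioo 0 s₀, K ∩ sphere x s = range fun i => x + s * Complex.exp (φ i s * Complex.I)
  inj : ∀ s ∈ Ioo 0 s₀, Function.Injective fun i => Complex.exp (φ i s * Complex.I)
  small : ∀ i, Tendsto (fun s => s * deriv (φ i) s) (𝓝[>] 0) (𝓝 0)
  holder : ∃ C β : ℝ, 0 < β ∧ β ≤ 1 ∧ ∀ i, ∀ s t, 0 < s → s / 2 ≤ t → t ≤ s → s < s₀ →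
    |s * deriv (φ i) s - t * deriv (φ i) t| ≤ C * ((s - t) / s) ^ β

/-- The angles converge with a rate. -/
def Rates (s₀ : ℝ) (m : ℕ) (φ : Fin m → ℝ → ℝ) (a : Fin m → ℝ) : Prop :=
  ∃ C c : ℝ, 0 < c ∧ ∀ i, ∀ s ∈ Ioo 0 s₀, |φ i s - a i| ≤ C * s ^ c

end Vale.Agent.P128.Q1
end

section

/-! P128, Q1, Part III: TyDefs -/

open MeasureTheory Set Metric Filter InnerProductSpace
open scoped ENNReal NNReal ContDiff Topology Real

namespace Vale.Agent.P128.Q1

open Vale.Agent.P128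

/-- line through the origin -/
def lineM (a : ℂ) : Set ℂ := {z | ∃ t : ℝ, z = t * a}

/-- half-line through the origin, with end point `d * a` -/
def rayM (a : ℂ) (d : ℝ) : Set ℂ := {z | ∃ t : ℝ, 0 ≤ t ∧ z = d * a - t * a}

/-- propeller through the origin, with centre `- d * a`, the origin being on the branch of
direction `a` -/
def propM (a b c : ℂ) (d : ℝ) : Set ℂ :=
  {z | ∃ t : ℝ, 0 ≤ t ∧ (z = -(d * a) + t * a ∨ z = -(d * a) + t * b ∨ z = -(d * a) + t * c)}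

/-- Dirichlet energy of the crack-tip with tip `d * a` in the disk of radius `s` about the origin -/
noncomputable def tipEn (a : ℂ) (d s : ℝ) : ℝ := ∫ z in ball (0 : ℂ) s, 1 / (2 * π * ‖z - d * a‖)

/-- three unit vectors with sum zero -/
def Tri3 (a b c : ℂ) : Prop := ‖a‖ = 1 ∧ ‖b‖ = 1 ∧ ‖c‖ = 1 ∧ a + b + c = 0

/-- The conclusion of Part II, for the points of `K ∩ closedBall x₀ R₀`. -/
def AllClose (G : ℂ → ℂ) (K : Set ℂ) (x₀ : ℂ) (R₀ : ℝ) : Prop :=
  ∀ R ε : ℝ, 1 ≤ R → 0 < ε → ∃ r₀ > 0, ∀ y ∈ K ∩ closedBall x₀ R₀, ∀ r, 0 < r → r ≤ r₀ →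
    ∃ L F, IsModel L F ∧ Close G K y r L F R ε

/-- neither tip nor triple point at `(y, r)` -/
def Mid (K : Set ℂ) (y : ℂ) (r : ℝ) : Prop := 3 / 2 * r < Hn K y r ∧ Hn K y r < 5 / 2 * r

end Vale.Agent.P128.Q1
end

section

/-! P128, Q1, Part III: TyModel -/

open MeasureTheory Set Metric Filter InnerProductSpace
open scoped ENNReal NNReal ContDiff Topology Real

namespace Vale.Agent.P128.Q1

open Vale.Agent.P128

theorem IsModel.cases {L : Set ℂ} {F : ℝ → ℝ} (h : IsModel L F) :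
    (∃ a : ℂ, ‖a‖ = 1 ∧ L = lineM a ∧ ∀ s, F s = 0) ∨
    (∃ (a b c : ℂ) (d : ℝ), Tri3 a b c ∧ 0 ≤ d ∧ L = propM a b c d ∧ ∀ s, F s = 0) ∨
    (∃ (a : ℂ) (d : ℝ), ‖a‖ = 1 ∧ 0 ≤ d ∧ L = rayM a d ∧ ∀ s, F s = tipEn a d s) := by
  obtain ⟨h0, ⟨⟨x, a, ha, rfl⟩, hF⟩ | ⟨⟨x, a, b, c, ha, hb, hc, habc, rfl⟩, hF⟩ |
    ⟨x, a, ha, rfl, hF⟩⟩ := h
  · left
    obtain ⟨t0, ht0⟩ := h0
    have hx : x = -(t0 * a) := by linear_combination -ht0
    refine ⟨a, ha, ?_, hF⟩
    ext z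
    constructor
    · rintro ⟨t, ht⟩
      exact ⟨t - t0, by rw [ht, hx]; push_cast; ring⟩
    · rintro ⟨t, ht⟩
      exact ⟨t + t0, by rw [ht, hx]; push_cast; ring⟩
  · right; left
    obtain ⟨t0, ht0, h | h | h⟩ := h0
    · have hx : x = -(t0 * a) := by linear_combination -h
      exact ⟨a, b, c, t0, ⟨ha, hb, hc, habc⟩, ht0, by rw [hx]; rfl, hF⟩
    · have hx : x = -(t0 * b) := by linear_combination -h
      refine ⟨b, a, c, t0, ⟨hb, ha, hc, by rw [← habc]; ring⟩, ht0, ?_, hF⟩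
      rw [hx]
      ext z
      constructor
      · rintro ⟨t, ht, h1 | h1 | h1⟩
        · exact ⟨t, ht, Or.inr (Or.inl h1)⟩
        · exact ⟨t, ht, Or.inl h1⟩
        · exact ⟨t, ht, Or.inr (Or.inr h1)⟩
      · rintro ⟨t, ht, h1 | h1 | h1⟩
        · exact ⟨t, ht, Or.inr (Or.inl h1)⟩
        · exact ⟨t, ht, Or.inl h1⟩
        · exact ⟨t, ht, Or.inr (Or.inr h1)⟩
    · have hx : x = -(t0 * c) := by linear_combination -h
      refine ⟨c, a, b, t0, ⟨hc, ha, hb, by rw [← habc]; ring⟩, ht0, ?_, hF⟩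
      rw [hx]
      ext z
      constructor
      · rintro ⟨t, ht, h1 | h1 | h1⟩
        · exact ⟨t, ht, Or.inr (Or.inl h1)⟩
        · exact ⟨t, ht, Or.inr (Or.inr h1)⟩
        · exact ⟨t, ht, Or.inl h1⟩
      · rintro ⟨t, ht, h1 | h1 | h1⟩
        · exact ⟨t, ht, Or.inr (Or.inr h1)⟩
        · exact ⟨t, ht, Or.inl h1⟩
        · exact ⟨t, ht, Or.inr (Or.inl h1)⟩
  · right; right
    obtain ⟨t0, ht0, h⟩ := h0
    have hx : x = t0 * a := by linear_combination -h
    refine ⟨a, t0, ha, ht0, by rw [hx]; rfl, ?_⟩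
    intro s
    rw [hF s, hx]
    rfl

end Vale.Agent.P128.Q1
end

section

/-! P128, Q1, Part III: TyLen -/

open MeasureTheory Set Metric Filter InnerProductSpace
open scoped ENNReal NNReal ContDiff Topology Real

namespace Vale.Agent.P128.Q1

open Vale.Agent.P128

/-- the parametrised line through `p` of direction `a` -/
def tyLen_f (p a : ℂ) (r : ℝ) : ℂ := p + r * a

theorem tyLen_isometry (p : ℂ) {a : ℂ} (ha : ‖a‖ = 1) : Isometry (tyLen_f p a) := by
  refine Isometry.of_dist_eq fun x y => ?_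
  have h : tyLen_f p a x - tyLen_f p a y = ((x - y : ℝ) : ℂ) * a := by
    simp only [tyLen_f]
    push_cast
    ring
  rw [dist_eq_norm, h, norm_mul, ha, mul_one, Complex.norm_real, Real.dist_eq, Real.norm_eq_abs]

theorem tyLen_img (p : ℂ) {a : ℂ} (ha : ‖a‖ = 1) (A : Set ℝ) :
    μH[1] (tyLen_f p a '' A) = volume A := by
  rw [(tyLen_isometry p ha).hausdorffMeasure_image (Or.inl zero_le_one), hausdorffMeasure_real]

theorem tyLen_meas (p : ℂ) {a : ℂ} (ha : ‖a‖ = 1) {A : Set ℝ} (hA : MeasurableSet A) :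
    MeasurableSet (tyLen_f p a '' A) :=
  (tyLen_isometry p ha).isClosedEmbedding.measurableEmbedding.measurableSet_image.2 hA

theorem tyLen_norm {a : ℂ} (ha : ‖a‖ = 1) (r : ℝ) : ‖(r : ℂ) * a‖ = |r| := by
  rw [norm_mul, ha, mul_one, Complex.norm_real, Real.norm_eq_abs]

theorem Hn_lineM {a : ℂ} (ha : ‖a‖ = 1) {s : ℝ} (hs : 0 ≤ s) : Hn (lineM a) 0 s = 2 * s := by
  have h : lineM a ∩ closedBall 0 s = tyLen_f 0 a '' Icc (-s) s := by
    ext z
    simp only [lineM, mem_inter_iff, mem_ofPred_eq, mem_closedBall_zero_iff, mem_image, tyLen_f,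
      zero_add]
    constructor
    · rintro ⟨⟨t, rfl⟩, ht⟩
      rw [tyLen_norm ha] at ht
      exact ⟨t, abs_le.1 ht, rfl⟩
    · rintro ⟨t, ht, rfl⟩
      refine ⟨⟨t, rfl⟩, ?_⟩
      rw [tyLen_norm ha]
      exact abs_le.2 ht
  unfold Hn
  rw [h, tyLen_img 0 ha, Real.volume_Icc, ENNReal.toReal_ofReal (by linarith)]
  ring

theorem Hn_rayM {a : ℂ} (ha : ‖a‖ = 1) {d s : ℝ} (hd : 0 ≤ d) (hs : 0 ≤ s) :
    Hn (rayM a d) 0 s = s + min s d := by
  have hm : 0 ≤ min s d := le_min hs hd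
  have h : rayM a d ∩ closedBall 0 s = tyLen_f 0 a '' Icc (-s) (min s d) := by
    ext z
    simp only [rayM, mem_inter_iff, mem_ofPred_eq, mem_closedBall_zero_iff, mem_image, tyLen_f,
      zero_add]
    constructor
    · rintro ⟨⟨t, ht0, rfl⟩, ht⟩
      have e : (d : ℂ) * a - t * a = ((d - t : ℝ) : ℂ) * a := by push_cast; ring
      rw [e, tyLen_norm ha, abs_le] at ht
      exact ⟨d - t, ⟨ht.1, le_min ht.2 (by linarith)⟩, e.symm⟩
    · rintro ⟨t, ht, rfl⟩
      refine ⟨⟨d - t, by linarith [ht.2, min_le_right s d], by push_cast; ring⟩, ?_⟩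
      rw [tyLen_norm ha]
      exact abs_le.2 ⟨ht.1, ht.2.trans (min_le_left s d)⟩
  unfold Hn
  rw [h, tyLen_img 0 ha, Real.volume_Icc, ENNReal.toReal_ofReal (by linarith)]
  ring

theorem tyLen_tri_sq {a b c : ℂ} (h : Tri3 a b c) (d t : ℝ) :
    ‖-((d : ℂ) * a) + t * b‖ ^ 2 = d ^ 2 + d * t + t ^ 2 := by
  obtain ⟨h1, h2, h3, h4⟩ := h
  have hc : c = -(a + b) := by linear_combination h4
  have e1 : ‖a‖ ^ 2 = 1 := by rw [h1, one_pow]
  have e2 : ‖b‖ ^ 2 = 1 := by rw [h2, one_pow]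
  have e3 : ‖c‖ ^ 2 = 1 := by rw [h3, one_pow]
  rw [hc, norm_neg] at e3
  rw [Complex.sq_norm, Complex.normSq_apply] at e1 e2 e3 ⊢
  simp only [Complex.add_re, Complex.add_im, Complex.neg_re, Complex.neg_im, Complex.mul_re,
    Complex.mul_im, Complex.ofReal_re, Complex.ofReal_im, zero_mul, sub_zero, add_zero] at e1 e2 e3 ⊢
  linear_combination (d ^ 2 + d * t) * e1 + (t ^ 2 + d * t) * e2 - d * t * e3

theorem tyLen_tri_symm {a b c : ℂ} (h : Tri3 a b c) : Tri3 a c b :=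
  ⟨h.1, h.2.2.1, h.2.1, by linear_combination h.2.2.2⟩

theorem tyLen_tri_rot {a b c : ℂ} (h : Tri3 a b c) : Tri3 b c a :=
  ⟨h.2.1, h.2.2.1, h.1, by linear_combination h.2.2.2⟩

/-- two branches of a propeller meet only at the centre -/
theorem tyLen_tri_ne {a b c : ℂ} (h : Tri3 a b c) {t t' : ℝ} (ht : 0 ≤ t) (ht' : 0 < t') :
    (t : ℂ) * a ≠ t' * b := by
  intro he
  have h1 := tyLen_tri_sq h t t'
  rw [he, neg_add_cancel, norm_zero] at h1
  nlinarith

theorem tyLen_mem {a b c : ℂ} (h : Tri3 a b c) {d t : ℝ} (hd : 0 ≤ d) (ht : 0 ≤ t) {s : ℝ}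
    (hds : d ≤ s) : ‖-((d : ℂ) * a) + t * b‖ ≤ s ↔ t ≤ (-d + Real.sqrt (4 * s ^ 2 - 3 * d ^ 2)) / 2 := by
  have hs : 0 ≤ s := hd.trans hds
  have h1 := tyLen_tri_sq h d t
  rw [← abs_of_nonneg (norm_nonneg _), ← abs_of_nonneg hs, ← sq_le_sq, h1, abs_of_nonneg hs,
    le_div_iff₀ two_pos]
  have h2 : t * 2 ≤ -d + Real.sqrt (4 * s ^ 2 - 3 * d ^ 2) ↔
      d + 2 * t ≤ Real.sqrt (4 * s ^ 2 - 3 * d ^ 2) := by
    constructor <;> intro h <;> linarith
  rw [h2, Real.le_sqrt (by linarith)]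
  · constructor <;> intro h <;> linarith only [h]
  · linarith only [mul_nonneg (sub_nonneg.2 hs) (sub_nonneg.2 hs), mul_nonneg (sub_nonneg.2 hds) (sub_nonneg.2 hs), mul_nonneg (sub_nonneg.2 hd) (sub_nonneg.2 hds)]

theorem Hn_propM_small {a b c : ℂ} (h : Tri3 a b c) {d s : ℝ} (hs : 0 ≤ s) (hsd : s ≤ d) :
    Hn (propM a b c d) 0 s = 2 * s := by
  have ha := h.1
  have key : ∀ {b c : ℂ}, Tri3 a b c → ∀ t : ℝ, 0 ≤ t → ‖-((d : ℂ) * a) + t * b‖ ≤ s → t = 0 := by
    intro b c h t ht hn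
    have h1 := tyLen_tri_sq h d t
    have h2 : ‖-((d : ℂ) * a) + t * b‖ ^ 2 ≤ s ^ 2 := pow_le_pow_left₀ (norm_nonneg _) hn 2
    rw [h1] at h2
    by_contra hne
    have ht' : 0 < t := lt_of_le_of_ne ht (Ne.symm hne)
    linarith only [mul_pos (sub_pos.2 ht') (sub_pos.2 ht'), mul_nonneg (sub_nonneg.2 hsd) (le_of_lt (sub_pos.2 ht')), mul_nonneg (sub_nonneg.2 hsd) (sub_nonneg.2 hsd), mul_nonneg (sub_nonneg.2 hs) (le_of_lt (sub_pos.2 ht')), mul_nonneg (sub_nonneg.2 hs) (sub_nonneg.2 hsd), h2]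
  have h' : propM a b c d ∩ closedBall 0 s = tyLen_f 0 a '' Icc (-s) s := by
    ext z
    simp only [propM, mem_inter_iff, mem_ofPred_eq, mem_closedBall_zero_iff, mem_image, tyLen_f,
      zero_add]
    have first : ∀ t : ℝ, ‖-((d : ℂ) * a) + t * a‖ ≤ s →
        ∃ x ∈ Icc (-s) s, (x : ℂ) * a = -((d : ℂ) * a) + t * a := by
      intro t ht
      have e : -((d : ℂ) * a) + t * a = ((t - d : ℝ) : ℂ) * a := by push_cast; ring
      rw [e, tyLen_norm ha, abs_le] at ht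
      exact ⟨t - d, ht, e.symm⟩
    constructor
    · rintro ⟨⟨t, ht0, rfl | rfl | rfl⟩, ht⟩
      · exact first t ht
      · have h0 := key h t ht0 ht
        subst h0
        simpa using first 0 (by simpa using ht)
      · have h0 := key (tyLen_tri_symm h) t ht0 ht
        subst h0
        simpa using first 0 (by simpa using ht)
    · rintro ⟨t, ht, rfl⟩
      refine ⟨⟨t + d, by linarith [ht.1], Or.inl (by push_cast; ring)⟩, ?_⟩
      rw [tyLen_norm ha]
      exact abs_le.2 ht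
  unfold Hn
  rw [h', tyLen_img 0 ha, Real.volume_Icc, ENNReal.toReal_ofReal (by linarith)]
  ring

theorem Hn_propM_large {a b c : ℂ} (h : Tri3 a b c) {d s : ℝ} (hd : 0 ≤ d) (hds : d ≤ s) :
    Hn (propM a b c d) 0 s = s + Real.sqrt (4 * s ^ 2 - 3 * d ^ 2) := by
  have ha := h.1
  have hs : 0 ≤ s := hd.trans hds
  set t₁ := (-d + Real.sqrt (4 * s ^ 2 - 3 * d ^ 2)) / 2 with ht₁
  have hsq : d ≤ Real.sqrt (4 * s ^ 2 - 3 * d ^ 2) := Real.le_sqrt_of_sq_le (by linarith only [mul_nonneg (sub_nonneg.2 hds) (sub_nonneg.2 hs), mul_nonneg (sub_nonneg.2 hd) (sub_nonneg.2 hds)])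
  have ht₁0 : 0 ≤ t₁ := by rw [ht₁]; linarith only [hsq]
  set p : ℂ := -((d : ℂ) * a) with hp
  have h' : propM a b c d ∩ closedBall 0 s = (tyLen_f p a '' Icc 0 (d + s) ∪
      tyLen_f p b '' Ioc 0 t₁) ∪ tyLen_f p c '' Ioc 0 t₁ := by
    ext z
    simp only [propM, mem_inter_iff, mem_ofPred_eq, mem_closedBall_zero_iff, mem_image, tyLen_f,
      mem_union]
    have first : ∀ t : ℝ, 0 ≤ t → (‖-((d : ℂ) * a) + t * a‖ ≤ s ↔ t ≤ d + s) := by
      intro t ht
      have e : -((d : ℂ) * a) + t * a = ((t - d : ℝ) : ℂ) * a := by push_cast; ring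
      rw [e, tyLen_norm ha, abs_le]
      constructor
      · intro h; linarith [h.2]
      · intro h; constructor <;> linarith
    constructor
    · rintro ⟨⟨t, ht0, rfl | rfl | rfl⟩, ht⟩
      · exact Or.inl (Or.inl ⟨t, ⟨ht0, (first t ht0).1 ht⟩, rfl⟩)
      · rcases ht0.eq_or_lt with h0 | h0
        · subst h0
          exact Or.inl (Or.inl ⟨0, ⟨le_rfl, by linarith⟩, by simp [hp]⟩)
        · exact Or.inl (Or.inr ⟨t, ⟨h0, (tyLen_mem h hd ht0 hds).1 ht⟩, rfl⟩)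
      · rcases ht0.eq_or_lt with h0 | h0
        · subst h0
          exact Or.inl (Or.inl ⟨0, ⟨le_rfl, by linarith⟩, by simp [hp]⟩)
        · exact Or.inr ⟨t, ⟨h0, (tyLen_mem (tyLen_tri_symm h) hd ht0 hds).1 ht⟩, rfl⟩
    · rintro ((⟨t, ht, rfl⟩ | ⟨t, ht, rfl⟩) | ⟨t, ht, rfl⟩)
      · exact ⟨⟨t, ht.1, Or.inl rfl⟩, (first t ht.1).2 ht.2⟩
      · exact ⟨⟨t, ht.1.le, Or.inr (Or.inl rfl)⟩, (tyLen_mem h hd ht.1.le hds).2 ht.2⟩
      · exact ⟨⟨t, ht.1.le, Or.inr (Or.inr rfl)⟩,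
          (tyLen_mem (tyLen_tri_symm h) hd ht.1.le hds).2 ht.2⟩
  have hd1 : Disjoint (tyLen_f p a '' Icc 0 (d + s)) (tyLen_f p b '' Ioc 0 t₁) := by
    rw [disjoint_left]
    rintro _ ⟨t, ht, rfl⟩ ⟨t', ht', he⟩
    exact tyLen_tri_ne h ht.1 ht'.1 (by simpa [tyLen_f] using he.symm)
  have hd2 : Disjoint (tyLen_f p a '' Icc 0 (d + s) ∪ tyLen_f p b '' Ioc 0 t₁)
      (tyLen_f p c '' Ioc 0 t₁) := by
    rw [disjoint_left]
    rintro _ (⟨t, ht, rfl⟩ | ⟨t, ht, rfl⟩) ⟨t', ht', he⟩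
    · exact tyLen_tri_ne (tyLen_tri_symm h) ht.1 ht'.1 (by simpa [tyLen_f] using he.symm)
    · exact tyLen_tri_ne (tyLen_tri_rot h) ht.1.le ht'.1 (by simpa [tyLen_f] using he.symm)
  unfold Hn
  rw [h', measure_union hd2 (tyLen_meas p h.2.2.1 measurableSet_Ioc),
    measure_union hd1 (tyLen_meas p h.2.1 measurableSet_Ioc), tyLen_img p ha, tyLen_img p h.2.1,
    tyLen_img p h.2.2.1, Real.volume_Icc, Real.volume_Ioc, sub_zero, sub_zero,
    ← ENNReal.ofReal_add (by linarith) ht₁0, ← ENNReal.ofReal_add (by linarith) ht₁0,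
    ENNReal.toReal_ofReal (by linarith only [ht₁0, hs, hd]), ht₁]
  ring

end Vale.Agent.P128.Q1
end

section

/-! P128, Q1, Part III: TyEn -/

open MeasureTheory Set Metric Filter InnerProductSpace
open scoped ENNReal NNReal ContDiff Topology Real

namespace Vale.Agent.P128.Q1

open Vale.Agent.P128

theorem tyEn_rad {ρ : ℝ} : ∀ y ∈ Ioi (0 : ℝ), y ^ (Module.finrank ℝ ℂ - 1) •
    (Iio ρ).indicator (fun r : ℝ => 1 / (2 * π * r)) y = (Iio ρ).indicator (fun _ => 1 / (2 * π)) y := by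
  intro y hy
  have hy0 : (0 : ℝ) < y := hy
  rw [Complex.finrank_real_complex]
  by_cases h : y ∈ Iio ρ
  · rw [indicator_of_mem h, indicator_of_mem h]
    simp only [smul_eq_mul]
    field_simp
    ring
  · rw [indicator_of_notMem h, indicator_of_notMem h, smul_zero]

theorem tyEn_ball (c : ℂ) {ρ : ℝ} (hρ : 0 ≤ ρ) :
    IntegrableOn (fun z : ℂ => 1 / (2 * π * ‖z - c‖)) (ball c ρ) ∧
    ∫ z in ball c ρ, 1 / (2 * π * ‖z - c‖) = ρ := by
  have h0 : (ball c ρ).indicator (fun z : ℂ => 1 / (2 * π * ‖z - c‖)) =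
      fun z : ℂ => (Iio ρ).indicator (fun r : ℝ => 1 / (2 * π * r)) ‖z - c‖ := by
    funext z
    by_cases h : z ∈ ball c ρ
    · rw [indicator_of_mem h, indicator_of_mem (by rw [mem_Iio, ← dist_eq_norm]; exact h)]
    · rw [indicator_of_notMem h, indicator_of_notMem (by rw [mem_Iio, ← dist_eq_norm]; exact h)]
  have hI : IntegrableOn (fun y : ℝ => (Iio ρ).indicator (fun _ => 1 / (2 * π)) y) (Ioi 0) := by
    have h1 : IntegrableOn (fun _ : ℝ => 1 / (2 * π)) (Iio ρ) (volume.restrict (Ioi 0)) := by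
      rw [IntegrableOn, Measure.restrict_restrict measurableSet_Iio]
      have h2 : Iio ρ ∩ Ioi 0 = Ioo 0 ρ := by ext y; simp [and_comm]
      rw [h2]
      exact integrableOn_const (by simp)
    exact h1.integrable_indicator measurableSet_Iio
  have h1 : Integrable (fun z : ℂ => (Iio ρ).indicator (fun r : ℝ => 1 / (2 * π * r)) ‖z‖) := by
    rw [integrable_fun_norm_addHaar (μ := (volume : Measure ℂ))
      (f := (Iio ρ).indicator (fun r : ℝ => 1 / (2 * π * r)))]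
    exact (integrableOn_congr_fun tyEn_rad measurableSet_Ioi).2 hI
  have h2 : ∫ z : ℂ, (Iio ρ).indicator (fun r : ℝ => 1 / (2 * π * r)) ‖z‖ = ρ := by
    rw [integral_fun_norm_addHaar (μ := (volume : Measure ℂ))
      (Iio ρ |>.indicator (fun r : ℝ => 1 / (2 * π * r))),
      setIntegral_congr_fun measurableSet_Ioi tyEn_rad, integral_indicator measurableSet_Iio,
      Measure.restrict_restrict measurableSet_Iio]
    have h3 : Iio ρ ∩ Ioi 0 = Ioo 0 ρ := by ext y; simp [and_comm]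
    rw [h3, setIntegral_const, Complex.finrank_real_complex]
    have h4 : (volume : Measure ℂ).real (ball 0 1) = π := by
      rw [Measure.real, Complex.volume_ball]
      simp
    rw [h4]
    simp only [smul_eq_mul, nsmul_eq_mul, Measure.real, Real.volume_Ioo, sub_zero]
    rw [ENNReal.toReal_ofReal hρ]
    have := Real.pi_pos
    push_cast
    field_simp
  refine ⟨?_, ?_⟩
  · rw [← integrable_indicator_iff measurableSet_ball, h0]
    exact h1.comp_sub_right c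
  · rw [← integral_indicator measurableSet_ball, h0,
      integral_sub_right_eq_self (fun z : ℂ => (Iio ρ).indicator (fun r : ℝ => 1 / (2 * π * r)) ‖z‖) c]
    exact h2

theorem tipEn_near {a : ℂ} (ha : ‖a‖ = 1) {d s : ℝ} (hd : 0 ≤ d) (hds : d ≤ s) :
    |tipEn a d s - s| ≤ d := by
  have hc : ‖(d : ℂ) * a‖ = d := by rw [norm_mul, ha, mul_one, Complex.norm_real, Real.norm_of_nonneg hd]
  have s1 : ball ((d : ℂ) * a) (s - d) ⊆ ball (0 : ℂ) s := by
    refine ball_subset_ball' ?_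
    rw [dist_zero_right, hc]; linarith
  have s2 : ball (0 : ℂ) s ⊆ ball ((d : ℂ) * a) (s + d) := by
    refine ball_subset_ball' ?_
    rw [dist_zero_left, hc]
  obtain ⟨i1, e1⟩ := tyEn_ball ((d : ℂ) * a) (ρ := s - d) (by linarith)
  obtain ⟨i2, e2⟩ := tyEn_ball ((d : ℂ) * a) (ρ := s + d) (by linarith)
  have hnn : ∀ z : ℂ, 0 ≤ 1 / (2 * π * ‖z - (d : ℂ) * a‖) := fun z => by positivity
  have u1 : ∫ z in ball ((d : ℂ) * a) (s - d), 1 / (2 * π * ‖z - (d : ℂ) * a‖) ≤ tipEn a d s :=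
    setIntegral_mono_set (i2.mono_set s2) (Eventually.of_forall hnn) (LE.le.eventuallyLE s1)
  have u2 : tipEn a d s ≤ ∫ z in ball ((d : ℂ) * a) (s + d), 1 / (2 * π * ‖z - (d : ℂ) * a‖) :=
    setIntegral_mono_set i2 (Eventually.of_forall hnn) (LE.le.eventuallyLE s2)
  rw [e1] at u1
  rw [e2] at u2
  rw [abs_le]
  constructor <;> linarith

theorem tipEn_far {a : ℂ} (ha : ‖a‖ = 1) {d s : ℝ} (hs : 0 ≤ s) (hsd : s < d) :
    0 ≤ tipEn a d s ∧ tipEn a d s ≤ s ^ 2 / (2 * (d - s)) := by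
  have hd : 0 ≤ d := by linarith
  have hc : ‖(d : ℂ) * a‖ = d := by rw [norm_mul, ha, mul_one, Complex.norm_real, Real.norm_of_nonneg hd]
  have hnn : ∀ z : ℂ, 0 ≤ 1 / (2 * π * ‖z - (d : ℂ) * a‖) := fun z => by positivity
  refine ⟨setIntegral_nonneg measurableSet_ball fun z _ => hnn z, ?_⟩
  have hb : ∀ z ∈ ball (0 : ℂ) s, 1 / (2 * π * ‖z - (d : ℂ) * a‖) ≤ 1 / (2 * π * (d - s)) := by
    intro z hz
    rw [mem_ball_zero_iff] at hz
    have h1 : d - s ≤ ‖z - (d : ℂ) * a‖ := by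
      have := norm_sub_norm_le ((d : ℂ) * a) z
      rw [hc, norm_sub_rev] at this
      linarith
    have hpi := Real.pi_pos
    exact one_div_le_one_div_of_le (mul_pos (by positivity) (by linarith))
      (mul_le_mul_of_nonneg_left h1 (by positivity))
  have h1 : tipEn a d s ≤ ∫ z in ball (0 : ℂ) s, 1 / (2 * π * (d - s)) := by
    refine setIntegral_mono_on ?_ (integrableOn_const measure_ball_lt_top.ne) measurableSet_ball hb
    obtain ⟨i2, -⟩ := tyEn_ball ((d : ℂ) * a) (ρ := s + d) (by linarith)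
    refine i2.mono_set (ball_subset_ball' ?_)
    rw [dist_zero_left, hc]
  refine h1.trans (le_of_eq ?_)
  rw [setIntegral_const, smul_eq_mul, Measure.real, Complex.volume_ball]
  simp only [ENNReal.toReal_mul, ENNReal.toReal_pow, ENNReal.toReal_ofReal hs, ENNReal.coe_toReal,
    NNReal.coe_real_pi]
  have hpi := Real.pi_pos
  have : 0 < d - s := by linarith
  field_simp

end Vale.Agent.P128.Q1
end

section

/-! P128, Q1, Part III: TyPar -/

open MeasureTheory Set Metric Filter InnerProductSpace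
open scoped ENNReal NNReal ContDiff Topology Real

namespace Vale.Agent.P128.Q1

open Vale.Agent.P128

/-- length less than `1.6 s`: a crack-tip at distance at most `0.6 s` -/
theorem IsModel.tip_of {L : Set ℂ} {F : ℝ → ℝ} (h : IsModel L F) {s : ℝ} (hs : 0 < s)
    (hH : Hn L 0 s ≤ 8 / 5 * s) : ∃ (a : ℂ) (d : ℝ), ‖a‖ = 1 ∧ 0 ≤ d ∧ d ≤ Hn L 0 s - s ∧
      L = rayM a d ∧ ∀ s, F s = tipEn a d s := by
  rcases h.cases with ⟨a, ha, rfl, hF⟩ | ⟨a, b, c, d, hT, hd, rfl, hF⟩ | ⟨a, d, ha, hd, rfl, hF⟩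
  · rw [Hn_lineM ha hs.le] at hH
    linarith
  · exfalso
    rcases le_total s d with hsd | hds
    · rw [Hn_propM_small hT hs.le hsd] at hH
      linarith
    · rw [Hn_propM_large hT hd hds] at hH
      have h1 : s ≤ Real.sqrt (4 * s ^ 2 - 3 * d ^ 2) := by
        apply Real.le_sqrt_of_sq_le
        linarith only [mul_nonneg (sub_nonneg.2 hds) (sub_nonneg.2 hds), mul_nonneg (sub_nonneg.2 hd) (sub_nonneg.2 hds)]
      linarith
  · refine ⟨a, d, ha, hd, ?_, rfl, hF⟩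
    rw [Hn_rayM ha hd hs.le] at hH ⊢
    rcases le_total s d with hsd | hds
    · rw [min_eq_left hsd] at hH
      linarith
    · rw [min_eq_right hds]
      linarith

/-- length at least `2.4 s`: a propeller with centre at distance at most `0.9 s` -/
theorem IsModel.tri_of {L : Set ℂ} {F : ℝ → ℝ} (h : IsModel L F) {s : ℝ} (hs : 0 < s)
    (hH : 12 / 5 * s ≤ Hn L 0 s) : ∃ (a b c : ℂ) (d : ℝ), Tri3 a b c ∧ 0 ≤ d ∧ d ≤ 9 / 10 * s ∧
      3 * d ^ 2 ≤ 4 * s ^ 2 - (Hn L 0 s - s) ^ 2 ∧ L = propM a b c d ∧ ∀ s, F s = 0 := by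
  rcases h.cases with ⟨a, ha, rfl, hF⟩ | ⟨a, b, c, d, hT, hd, rfl, hF⟩ | ⟨a, d, ha, hd, rfl, hF⟩
  · rw [Hn_lineM ha hs.le] at hH
    linarith
  · rcases le_total s d with hsd | hds
    · rw [Hn_propM_small hT hs.le hsd] at hH
      linarith
    · rw [Hn_propM_large hT hd hds] at hH ⊢
      have h0 : 0 ≤ 4 * s ^ 2 - 3 * d ^ 2 := by linarith only [mul_nonneg (sub_nonneg.2 hds) (sub_nonneg.2 hds), mul_nonneg (sub_nonneg.2 hd) (sub_nonneg.2 hds), mul_pos (sub_pos.2 hs) (sub_pos.2 hs)]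
      have h1 := Real.sq_sqrt h0
      have h2 : 7 / 5 * s ≤ Real.sqrt (4 * s ^ 2 - 3 * d ^ 2) := by linarith only [hH]
      have h3 : (7 / 5 * s) ^ 2 ≤ 4 * s ^ 2 - 3 * d ^ 2 := by
        rw [← h1]
        exact pow_le_pow_left₀ (by positivity) h2 2
      refine ⟨a, b, c, d, hT, hd, ?_, ?_, rfl, hF⟩
      · by_contra hcon
        push Not at hcon
        linarith only [mul_pos (sub_pos.2 hcon) (sub_pos.2 hcon), mul_nonneg (sub_nonneg.2 hds) (le_of_lt (sub_pos.2 hcon)), mul_nonneg (sub_nonneg.2 hds) (sub_nonneg.2 hds), h3]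
      · rw [add_sub_cancel_left, h1]
        linarith only []
  · rw [Hn_rayM ha hd hs.le] at hH
    have := min_le_left s d
    linarith

theorem tyPar_inner {a b c : ℂ} (h : Tri3 a b c) : a.re * b.re + a.im * b.im = -(1 / 2) := by
  obtain ⟨ha, hb, hc, hs⟩ := h
  have e1 : a.re ^ 2 + a.im ^ 2 = 1 := by
    have := Complex.sq_norm a
    rw [ha, Complex.normSq_apply] at this
    linear_combination -this
  have e2 : b.re ^ 2 + b.im ^ 2 = 1 := by
    have := Complex.sq_norm b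
    rw [hb, Complex.normSq_apply] at this
    linear_combination -this
  have e3 : c.re ^ 2 + c.im ^ 2 = 1 := by
    have := Complex.sq_norm c
    rw [hc, Complex.normSq_apply] at this
    linear_combination -this
  have r : c.re = -(a.re + b.re) := by
    have := congrArg Complex.re hs
    simp only [Complex.add_re, Complex.zero_re] at this
    linarith
  have i : c.im = -(a.im + b.im) := by
    have := congrArg Complex.im hs
    simp only [Complex.add_im, Complex.zero_im] at this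
    linarith
  rw [r, i] at e3
  linear_combination (e3 - e1 - e2) / 2

theorem tyPar_unit {a : ℂ} (ha : ‖a‖ = 1) : a.re ^ 2 + a.im ^ 2 = 1 := by
  have := Complex.sq_norm a
  rw [ha, Complex.normSq_apply] at this
  linear_combination -this

theorem tyPar_far {a b c : ℂ} (h : Tri3 a b c) {d t : ℝ} (hd : 0 ≤ d) (ht : 0 ≤ t) :
    d ≤ ‖-((d : ℂ) * a) + (t : ℂ) * b‖ := by
  have h1 := tyPar_inner h
  have ha := tyPar_unit h.1
  have hb := tyPar_unit h.2.1
  have h2 : ‖-((d : ℂ) * a) + (t : ℂ) * b‖ ^ 2 = d ^ 2 + d * t + t ^ 2 := by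
    rw [Complex.sq_norm, Complex.normSq_apply]
    simp only [Complex.add_re, Complex.neg_re, Complex.mul_re, Complex.ofReal_re,
      Complex.ofReal_im, Complex.add_im, Complex.neg_im, Complex.mul_im]
    linear_combination d ^ 2 * ha + t ^ 2 * hb - 2 * d * t * h1
  refine abs_le_of_sq_le_sq' ?_ (norm_nonneg _) |>.2
  rw [h2]
  have h3 := mul_nonneg hd ht
  have h4 := sq_nonneg t
  linarith only [h4, h3]

theorem tyPar_swap {a b c : ℂ} (h : Tri3 a b c) : Tri3 a c b :=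
  ⟨h.1, h.2.2.1, h.2.1, by rw [← h.2.2.2]; ring⟩

theorem tyPar_line_prop {a b c : ℂ} (h : Tri3 a b c) {d r : ℝ} (hd : 0 ≤ d) (hr : r ≤ d) :
    propM a b c d ∩ ball 0 r = lineM a ∩ ball 0 r := by
  ext z
  constructor
  · rintro ⟨⟨t, ht, hz⟩, hb⟩
    refine ⟨?_, hb⟩
    rw [mem_ball_zero_iff] at hb
    rcases hz with hz | hz | hz
    · exact ⟨t - d, by rw [hz]; push_cast; ring⟩
    · exfalso
      have := tyPar_far h hd ht
      rw [← hz] at this
      linarith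
    · exfalso
      have := tyPar_far (tyPar_swap h) hd ht
      rw [← hz] at this
      linarith
  · rintro ⟨⟨t, hz⟩, hb⟩
    refine ⟨?_, hb⟩
    rw [mem_ball_zero_iff, hz, norm_mul, h.1, mul_one, Complex.norm_real, Real.norm_eq_abs] at hb
    refine ⟨t + d, ?_, Or.inl (by rw [hz]; push_cast; ring)⟩
    have := neg_abs_le t
    linarith

theorem tyPar_line_ray {a : ℂ} (ha : ‖a‖ = 1) {d r : ℝ} (hr : r ≤ d) :
    rayM a d ∩ ball 0 r = lineM a ∩ ball 0 r := by
  ext z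
  constructor
  · rintro ⟨⟨t, ht, hz⟩, hb⟩
    exact ⟨⟨d - t, by rw [hz]; push_cast; ring⟩, hb⟩
  · rintro ⟨⟨t, hz⟩, hb⟩
    refine ⟨?_, hb⟩
    rw [mem_ball_zero_iff, hz, norm_mul, ha, mul_one, Complex.norm_real, Real.norm_eq_abs] at hb
    refine ⟨d - t, ?_, by rw [hz]; push_cast; ring⟩
    have := le_abs_self t
    linarith

theorem tyPar_zero {s S : ℝ} (hsS : s < S) : 0 ≤ (0 : ℝ) ∧ (0 : ℝ) ≤ s ^ 2 / (2 * (S - s)) := by
  refine ⟨le_rfl, ?_⟩
  have : 0 < S - s := by linarith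
  positivity

/-- length between `1.4 S` and `2.6 S`: flat in the disk of radius `S / 4`, with small energy -/
theorem IsModel.flat_of {L : Set ℂ} {F : ℝ → ℝ} (h : IsModel L F) {S : ℝ} (hS : 0 < S)
    (h1 : 7 / 5 * S ≤ Hn L 0 S) (h2 : Hn L 0 S ≤ 13 / 5 * S) :
    ∃ a : ℂ, ‖a‖ = 1 ∧ L ∩ ball 0 (S / 4) = lineM a ∩ ball 0 (S / 4) ∧
      ∀ s, 0 ≤ s → s < S / 4 → 0 ≤ F s ∧ F s ≤ s ^ 2 / (2 * (S / 4 - s)) := by
  rcases h.cases with ⟨a, ha, rfl, hF⟩ | ⟨a, b, c, d, hT, hd, rfl, hF⟩ | ⟨a, d, ha, hd, rfl, hF⟩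
  · refine ⟨a, ha, rfl, fun s hs hsS => ?_⟩
    rw [hF s]
    exact tyPar_zero hsS
  · have hd4 : S / 4 ≤ d := by
      rcases le_total S d with hsd | hds
      · linarith only [hsd, hS]
      · rw [Hn_propM_large hT hd hds] at h2
        have h0 : 0 ≤ 4 * S ^ 2 - 3 * d ^ 2 := by linarith only [mul_nonneg (sub_nonneg.2 hds) (sub_nonneg.2 hds), mul_nonneg (sub_nonneg.2 hd) (sub_nonneg.2 hds), mul_pos (sub_pos.2 hS) (sub_pos.2 hS)]
        have h3 := Real.sq_sqrt h0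
        have h4 : Real.sqrt (4 * S ^ 2 - 3 * d ^ 2) ≤ 8 / 5 * S := by linarith only [h2]
        have h5 : 4 * S ^ 2 - 3 * d ^ 2 ≤ (8 / 5 * S) ^ 2 := by
          rw [← h3]
          exact pow_le_pow_left₀ (Real.sqrt_nonneg _) h4 2
        by_contra hcon
        push Not at hcon
        linarith only [mul_pos (sub_pos.2 hcon) (sub_pos.2 hcon), mul_nonneg (sub_nonneg.2 hd) (le_of_lt (sub_pos.2 hcon)), mul_nonneg (sub_nonneg.2 hd) (sub_nonneg.2 hds), h5]
    refine ⟨a, hT.1, tyPar_line_prop hT hd hd4, fun s hs hsS => ?_⟩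
    rw [hF s]
    exact tyPar_zero hsS
  · have hd4 : 2 / 5 * S ≤ d := by
      rw [Hn_rayM ha hd hS.le] at h1
      have := min_le_right S d
      linarith only [this, h1]
    refine ⟨a, ha, tyPar_line_ray ha (by linarith only [hd4, hS]), fun s hs hsS => ?_⟩
    rw [hF s]
    obtain ⟨e1, e2⟩ := tipEn_far ha hs (show s < d by linarith only [hsS, hs, hd4])
    refine ⟨e1, e2.trans ?_⟩
    apply div_le_div_of_nonneg_left (sq_nonneg s)
    · linarith
    · linarith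

theorem tyPar_perp {e p : ℂ} {t : ℝ} (he : ‖e‖ = 1) (h : dist p (t * e) ≤ 1 / 10) :
    |e.re * p.im - e.im * p.re| ≤ 1 / 10 := by
  have h1 : e.re * p.im - e.im * p.re = ((starRingEnd ℂ) e * (p - t * e)).im := by
    simp only [Complex.mul_im, Complex.conj_re, Complex.conj_im, Complex.sub_re, Complex.sub_im,
      Complex.mul_re, Complex.ofReal_re, Complex.ofReal_im]
    ring
  rw [h1]
  refine (Complex.abs_im_le_norm _).trans ?_
  rw [norm_mul, Complex.norm_conj, he, one_mul, ← dist_eq_norm]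
  exact h

/-- a model which is two-sided close to a line in a large disk has length `2` in the unit disk -/
theorem IsModel.two_of_line {L : Set ℂ} {F : ℝ → ℝ} (h : IsModel L F) {e : ℂ} (he : ‖e‖ = 1)
    (h1 : ∀ t : ℝ, |t| ≤ 10 → ∃ p ∈ L, dist p (t * e) ≤ 1 / 10)
    (h2 : ∀ p ∈ L, ‖p‖ ≤ 10 → ∃ t : ℝ, dist p (t * e) ≤ 1 / 10) : Hn L 0 1 = 2 := by
  rcases h.cases with ⟨a, ha, rfl, hF⟩ | ⟨a, b, c, d, hT, hd, rfl, hF⟩ | ⟨a, d, ha, hd, rfl, hF⟩
  · rw [Hn_lineM ha zero_le_one]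
    norm_num
  · have hd1 : 1 ≤ d := by
      by_contra hcon
      push Not at hcon
      have key : ∀ x : ℂ, ‖x‖ = 1 → (-((d : ℂ) * a) + ((8 : ℝ) : ℂ) * x) ∈ propM a b c d →
          |e.re * (-d * a.im + 8 * x.im) - e.im * (-d * a.re + 8 * x.re)| ≤ 1 / 10 := by
        intro x hx hm
        have hn : ‖(-((d : ℂ) * a) + ((8 : ℝ) : ℂ) * x)‖ ≤ 10 := by
          refine (norm_add_le _ _).trans ?_
          rw [norm_neg, norm_mul, norm_mul, hx, hT.1, Complex.norm_real, Complex.norm_real,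
            Real.norm_eq_abs, Real.norm_eq_abs, abs_of_nonneg hd]
          norm_num
          linarith
        obtain ⟨t, ht⟩ := h2 _ hm hn
        have := tyPar_perp he ht
        simp only [Complex.add_re, Complex.neg_re, Complex.mul_re, Complex.ofReal_re,
          Complex.ofReal_im, Complex.add_im, Complex.neg_im, Complex.mul_im, zero_mul, sub_zero,
          add_zero] at this
        calc |e.re * (-d * a.im + 8 * x.im) - e.im * (-d * a.re + 8 * x.re)|
            = |e.re * (-(d * a.im) + 8 * x.im) - e.im * (-(d * a.re) + 8 * x.re)| := by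
              congr 1
              ring
          _ ≤ 1 / 10 := this
      have ka := abs_le.1 (key a hT.1 ⟨8, by norm_num, Or.inl rfl⟩)
      have kb := abs_le.1 (key b hT.2.1 ⟨8, by norm_num, Or.inr (Or.inl rfl)⟩)
      have kc := abs_le.1 (key c hT.2.2.1 ⟨8, by norm_num, Or.inr (Or.inr rfl)⟩)
      have hi := tyPar_inner hT
      have ha := tyPar_unit hT.1
      have hb := tyPar_unit hT.2.1
      have hee := tyPar_unit he
      have r : c.re = -(a.re + b.re) := by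
        have := congrArg Complex.re hT.2.2.2
        simp only [Complex.add_re, Complex.zero_re] at this
        linarith
      have i : c.im = -(a.im + b.im) := by
        have := congrArg Complex.im hT.2.2.2
        simp only [Complex.add_im, Complex.zero_im] at this
        linarith
      rw [r, i] at kc
      set X := e.re * a.im - e.im * a.re with hX
      set Y := e.re * b.im - e.im * b.re with hY
      set U := e.re * a.re + e.im * a.im with hU
      set V := e.re * b.re + e.im * b.im with hV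
      have k1 : |X| ≤ 1 / 40 := by
        rw [abs_le]
        constructor <;> (rw [hX]; linarith [ka.1, ka.2, kb.1, kb.2, kc.1, kc.2])
      have k2 : |Y| ≤ 1 / 40 := by
        rw [abs_le]
        constructor <;> (rw [hY]; linarith [ka.1, ka.2, kb.1, kb.2, kc.1, kc.2])
      have q1 : X ^ 2 + U ^ 2 = 1 := by
        rw [hX, hU]
        linear_combination (e.re ^ 2 + e.im ^ 2) * ha + hee
      have q2 : Y ^ 2 + V ^ 2 = 1 := by
        rw [hY, hV]
        linear_combination (e.re ^ 2 + e.im ^ 2) * hb + hee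
      have q3 : X * Y + U * V = -(1 / 2) := by
        rw [hX, hY, hU, hV]
        linear_combination (e.re ^ 2 + e.im ^ 2) * hi - 1 / 2 * hee
      have X2 : X ^ 2 ≤ (1 / 40) ^ 2 := by
        rw [← sq_abs]
        exact pow_le_pow_left₀ (abs_nonneg _) k1 2
      have Y2 : Y ^ 2 ≤ (1 / 40) ^ 2 := by
        rw [← sq_abs]
        exact pow_le_pow_left₀ (abs_nonneg _) k2 2
      have XY : |X * Y| ≤ (1 / 40) * (1 / 40) := by
        rw [abs_mul]
        exact mul_le_mul k1 k2 (abs_nonneg _) (by norm_num)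
      have XY' := abs_le.1 XY
      have q4 : (U * V) ^ 2 = (1 - X ^ 2) * (1 - Y ^ 2) := by
        rw [mul_pow]
        have : U ^ 2 = 1 - X ^ 2 := by linarith
        have : V ^ 2 = 1 - Y ^ 2 := by linarith
        rw [‹U ^ 2 = _›, ‹V ^ 2 = _›]
      have q5 : U * V = -(1 / 2) - X * Y := by linarith
      rw [q5] at q4
      have q6 : X * Y = 3 / 4 - X ^ 2 - Y ^ 2 := by linear_combination q4
      have q7 := XY'.2
      rw [q6] at q7
      norm_num at q7 X2 Y2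
      linarith only [Y2, X2, q7]
    rw [Hn_propM_small hT zero_le_one hd1]
    norm_num
  · have hd1 : 1 ≤ d := by
      by_contra hcon
      push Not at hcon
      obtain ⟨p, ⟨t, ht, hp⟩, hpd⟩ := h1 10 (by norm_num)
      obtain ⟨q, ⟨u, hu, hq⟩, hqd⟩ := h1 (-10) (by norm_num)
      have e1 : |((d - t) + (d - u) : ℝ)| ≤ 1 / 5 := by
        have : (((d - t) + (d - u) : ℝ) : ℂ) * a =
            (p - ((10 : ℝ) : ℂ) * e) + (q - ((-10 : ℝ) : ℂ) * e) := by
          rw [hp, hq]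
          push_cast
          ring
        have h3 := congrArg norm this
        rw [norm_mul, ha, mul_one, Complex.norm_real, Real.norm_eq_abs] at h3
        rw [h3]
        refine (norm_add_le _ _).trans ?_
        rw [← dist_eq_norm, ← dist_eq_norm]
        linarith
      have e2 : 20 - 1 / 5 ≤ |((d - t) - (d - u) : ℝ)| := by
        have : (((d - t) - (d - u) : ℝ) : ℂ) * a =
            ((20 : ℝ) : ℂ) * e - (-(p - ((10 : ℝ) : ℂ) * e) + (q - ((-10 : ℝ) : ℂ) * e)) := by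
          rw [hp, hq]
          push_cast
          ring
        have h3 := congrArg norm this
        rw [norm_mul, ha, mul_one, Complex.norm_real, Real.norm_eq_abs] at h3
        rw [h3]
        refine le_trans ?_ (norm_sub_norm_le _ _)
        have h4 : ‖((20 : ℝ) : ℂ) * e‖ = 20 := by
          rw [norm_mul, he, Complex.norm_real, Real.norm_eq_abs]
          norm_num
        have h5 : ‖-(p - ((10 : ℝ) : ℂ) * e) + (q - ((-10 : ℝ) : ℂ) * e)‖ ≤ 1 / 5 := by
          refine (norm_add_le _ _).trans ?_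
          rw [norm_neg, ← dist_eq_norm, ← dist_eq_norm]
          linarith only [hqd, hpd]
        rw [h4]
        linarith only [h5]
      have e1' := abs_le.1 e1
      rcases le_abs.1 e2 with h6 | h6 <;> linarith [e1'.1, e1'.2]
    rw [Hn_rayM ha hd zero_le_one, min_eq_left hd1]
    norm_num

end Vale.Agent.P128.Q1
end

section

/-! P128, Q1, Part III: TyUp -/

open MeasureTheory Set Metric Filter InnerProductSpace
open scoped ENNReal NNReal ContDiff Topology Real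

namespace Vale.Agent.P128.Q1

open Vale.Agent.P128

variable {Ω : Set ℂ} {g u : ℂ → ℝ} {G : ℂ → ℂ} {K : Set ℂ} {M : ℝ} {x₀ : ℂ} {R₀ : ℝ}

theorem tyUp_close {L : Set ℂ} {F : ℝ → ℝ} {y : ℂ} {r : ℝ} (h : Close G K y r L F 2 (1 / 100))
    (hr : 0 < r) {s : ℝ} (h1 : r ≤ s) (h2 : s ≤ 2 * r) :
    |Hn K y s - Hn L 0 (s / r) * r| ≤ r / 100 := by
  have hσ1 : 1 / 2 ≤ s / r := by
    rw [le_div_iff₀ hr]; linarith only [hr, h1]
  have hσ2 : s / r ≤ 2 := by
    rw [div_le_iff₀ hr]; exact h2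
  have h3 := (h.2.2 (s / r) hσ1 hσ2).2
  rw [div_mul_cancel₀ s hr.ne'] at h3
  have h4 : Hn K y s - Hn L 0 (s / r) * r = (Hn K y s / r - Hn L 0 (s / r)) * r := by
    field_simp
  rw [h4, abs_mul, abs_of_pos hr]
  have := mul_le_mul_of_nonneg_right h3 hr.le
  linarith only [this]

theorem AllClose.tip_up (h : AllClose G K x₀ R₀) : ∃ r₀ > 0, ∀ y ∈ K ∩ closedBall x₀ R₀,
    ∀ r, 0 < r → r ≤ r₀ → Hn K y r ≤ 3 / 2 * r → ∀ s, r ≤ s → s ≤ 2 * r → Hn K y s ≤ 8 / 5 * s ∧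
      (s = 2 * r → Hn K y s ≤ 3 / 2 * s) := by
  obtain ⟨r₀, hr₀, hcl⟩ := h 2 (1 / 100) (by norm_num) (by norm_num)
  refine ⟨r₀, hr₀, fun y hy r hr hrr hH s hs1 hs2 => ?_⟩
  obtain ⟨L, F, hmod, hclose⟩ := hcl y hy r hr hrr
  have c1 := abs_le.1 (tyUp_close hclose hr le_rfl (by linarith only [hr] : r ≤ 2 * r))
  rw [div_self hr.ne'] at c1
  have hL1 : Hn L 0 1 ≤ 151 / 100 := by
    by_contra hcon
    have := mul_lt_mul_of_pos_right (not_le.1 hcon) hr
    linarith only [hH, c1.1, this]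
  obtain ⟨a, d, ha, hd0, hd, hL, -⟩ := hmod.tip_of one_pos (by linarith only [hL1])
  have c2 := abs_le.1 (tyUp_close hclose hr hs1 hs2)
  have hσ : 0 ≤ s / r := div_nonneg (hr.le.trans hs1) hr.le
  have hLs : Hn L 0 (s / r) ≤ s / r + 51 / 100 := by
    rw [hL, Hn_rayM ha hd0 hσ]
    have := min_le_right (s / r) d
    linarith only [this, hd, hL1]
  have h5 : Hn L 0 (s / r) * r ≤ s + 51 / 100 * r := by
    have := mul_le_mul_of_nonneg_right hLs hr.le
    rw [add_mul, div_mul_cancel₀ s hr.ne'] at this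
    exact this
  refine ⟨by linarith only [h5, c2.2, hs1, hr], fun hs => ?_⟩
  linarith only [h5, c2.2, hs, hr]

theorem AllClose.tri_up (h : AllClose G K x₀ R₀) : ∃ r₀ > 0, ∀ y ∈ K ∩ closedBall x₀ R₀,
    ∀ r, 0 < r → r ≤ r₀ → 5 / 2 * r ≤ Hn K y r → ∀ s, r ≤ s → s ≤ 2 * r → 12 / 5 * s ≤ Hn K y s ∧
      (s = 2 * r → 5 / 2 * s ≤ Hn K y s) := by
  obtain ⟨r₀, hr₀, hcl⟩ := h 2 (1 / 100) (by norm_num) (by norm_num)
  refine ⟨r₀, hr₀, fun y hy r hr hrr hH s hs1 hs2 => ?_⟩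
  obtain ⟨L, F, hmod, hclose⟩ := hcl y hy r hr hrr
  have c1 := abs_le.1 (tyUp_close hclose hr le_rfl (by linarith only [hr] : r ≤ 2 * r))
  rw [div_self hr.ne'] at c1
  have hL1 : 249 / 100 ≤ Hn L 0 1 := by
    by_contra hcon
    have := mul_lt_mul_of_pos_right (not_le.1 hcon) hr
    linarith only [hH, c1.2, this]
  obtain ⟨a, b, c, d, hT, hd0, hd, hd3, hL, -⟩ := hmod.tri_of one_pos (by linarith only [hL1])
  have c2 := abs_le.1 (tyUp_close hclose hr hs1 hs2)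
  have hσ1 : 1 ≤ s / r := by rw [le_div_iff₀ hr]; linarith only [hs1]
  have hLs : Hn L 0 (s / r) = s / r + Real.sqrt (4 * (s / r) ^ 2 - 3 * d ^ 2) := by
    rw [hL]
    exact Hn_propM_large hT hd0 (by linarith only [hd, hσ1])
  have hsr : s / r * r = s := div_mul_cancel₀ s hr.ne'
  generalize s / r = σ at *
  have hd3' : 3 * d ^ 2 ≤ 4 - (149 / 100) ^ 2 := by
    nlinarith only [hd3, hL1]
  have hq : ∀ t : ℝ, 0 ≤ t → t ^ 2 ≤ 4 * σ ^ 2 - 3 * d ^ 2 →
      t ≤ Real.sqrt (4 * σ ^ 2 - 3 * d ^ 2) := fun t ht h => Real.le_sqrt_of_sq_le h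
  constructor
  · have h6 := hq (7 / 5 * σ + 1 / 100) (by linarith only [hσ1]) (by nlinarith only [hσ1, hd3'])
    have h7 : (12 / 5 * σ + 1 / 100) * r ≤ Hn L 0 σ * r := by
      apply mul_le_mul_of_nonneg_right _ hr.le
      rw [hLs]; linarith only [h6]
    have h8 : (12 / 5 * σ + 1 / 100) * r = 12 / 5 * s + r / 100 := by
      rw [← hsr]; ring
    linarith only [h7, h8, c2.1]
  · intro hs
    have hσ2 : σ = 2 := by
      have : σ * r = 2 * r := by rw [hsr]; exact hs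
      exact mul_right_cancel₀ hr.ne' this
    have h6 := hq (3 + 1 / 100) (by norm_num) (by rw [hσ2]; linarith only [hd3'])
    have h7 : (5 + 1 / 100) * r ≤ Hn L 0 σ * r := by
      apply mul_le_mul_of_nonneg_right _ hr.le
      rw [hLs]
      linarith only [h6, hσ2]
    linarith only [h7, hs, c2.1]

theorem AllClose.mid_down (h : AllClose G K x₀ R₀) : ∃ r₀ > 0, ∀ y ∈ K ∩ closedBall x₀ R₀,
    ∀ r, 0 < r → r ≤ r₀ → Mid K y r → ∀ k : ℕ, Mid K y (r / 2 ^ k) := by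
  obtain ⟨r₁, hr₁, h1⟩ := h.tip_up
  obtain ⟨r₂, hr₂, h2⟩ := h.tri_up
  refine ⟨min r₁ r₂, lt_min hr₁ hr₂, fun y hy r hr hrr hM k => ?_⟩
  induction k with
  | zero => simpa using hM
  | succ k ih =>
    have hp : 0 < r / 2 ^ (k + 1) := by positivity
    have he : 2 * (r / 2 ^ (k + 1)) = r / 2 ^ k := by rw [pow_succ]; field_simp
    have hle : r / 2 ^ (k + 1) ≤ r := by
      apply div_le_self hr.le
      exact one_le_pow₀ (by norm_num)
    by_contra hcon
    have hcon' : Hn K y (r / 2 ^ (k + 1)) ≤ 3 / 2 * (r / 2 ^ (k + 1)) ∨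
        5 / 2 * (r / 2 ^ (k + 1)) ≤ Hn K y (r / 2 ^ (k + 1)) := by
      by_contra h3
      rw [not_or, not_le, not_le] at h3
      exact hcon h3
    rcases hcon' with h3 | h3
    · have h4 := (h1 y hy _ hp ((hle.trans hrr).trans (min_le_left _ _)) h3 (r / 2 ^ k)
        (by rw [← he]; linarith only [hp]) he.ge).2 he.symm
      exact absurd ih.1 (not_lt.2 h4)
    · have h4 := (h2 y hy _ hp ((hle.trans hrr).trans (min_le_right _ _)) h3 (r / 2 ^ k)
        (by rw [← he]; linarith only [hp]) he.ge).2 he.symm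
      exact absurd ih.2 (not_lt.2 h4)

end Vale.Agent.P128.Q1
end

section

/-! P128, Q1, Part III: TyFlat -/

open MeasureTheory Set Metric Filter InnerProductSpace
open scoped ENNReal NNReal ContDiff Topology Real

namespace Vale.Agent.P128.Q1

open Vale.Agent.P128

variable {Ω : Set ℂ} {g u : ℂ → ℝ} {G : ℂ → ℂ} {K : Set ℂ} {M : ℝ} {x₀ : ℂ} {R₀ : ℝ}

theorem tyFlat_clamp {τ ε : ℝ} (h : |τ| ≤ 1 + ε) (hε : 0 ≤ ε) :
    ∃ τ' : ℝ, |τ'| ≤ 1 ∧ |τ - τ'| ≤ ε := by
  obtain ⟨h1, h2⟩ := abs_le.1 h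
  by_cases ha : 1 < τ
  · exact ⟨1, by simp, by rw [abs_le]; constructor <;> linarith⟩
  by_cases hb : τ < -1
  · exact ⟨-1, by simp, by rw [abs_le]; constructor <;> linarith⟩
  · exact ⟨τ, by rw [abs_le]; constructor <;> linarith, by simpa using hε⟩

theorem tyFlat_norm {a : ℂ} (ha : ‖a‖ = 1) (t : ℝ) : ‖(t : ℂ) * a‖ = |t| := by
  rw [norm_mul, ha, mul_one, Complex.norm_real, Real.norm_eq_abs]

theorem tyFlat_one {L : Set ℂ} {y a : ℂ} {r ε δ S : ℝ} (hr : 0 < r) (ha : ‖a‖ = 1)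
    (hε : 0 ≤ ε) (hεδ : ε ≤ δ / 4) (hε1 : ε ≤ 1 / 100) (hS : 64 ≤ S)
    (hmem : ∀ p : ℂ, ‖p‖ < 8 → (p ∈ L ↔ p ∈ lineM a))
    (hc1 : ∀ z ∈ K ∩ closedBall y (S * r), ∃ p ∈ L, dist z (y + r * p) ≤ ε * r) :
    ∀ z ∈ K ∩ closedBall y r, ∃ t : ℝ, |t| ≤ r ∧ dist z (y + t * a) ≤ δ * r := by
  rintro z ⟨hzK, hz⟩
  have hz' : z ∈ closedBall y (S * r) :=
    closedBall_subset_closedBall (le_mul_of_one_le_left hr.le (by linarith only [hS])) hz
  obtain ⟨p, hpL, hp⟩ := hc1 z ⟨hzK, hz'⟩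
  have hpn : ‖p‖ ≤ 1 + ε := by
    have e1 : r * ‖p‖ = dist (y + r * p) y := by
      rw [dist_eq_norm, add_sub_cancel_left, norm_mul, Complex.norm_real, Real.norm_of_nonneg hr.le]
    have e2 : dist (y + r * p) y ≤ dist z (y + r * p) + dist z y := by
      rw [dist_comm z (y + r * p)]
      exact dist_triangle _ _ _
    rw [mem_closedBall] at hz
    have e3 : r * ‖p‖ ≤ r * (1 + ε) := by rw [e1]; linarith
    exact le_of_mul_le_mul_left e3 hr
  obtain ⟨τ, hτ⟩ := (hmem p (by linarith only [hpn, hε1])).1 hpL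
  have hτn : |τ| ≤ 1 + ε := by
    rwa [hτ, tyFlat_norm ha] at hpn
  obtain ⟨τ', hτ1, hτ2⟩ := tyFlat_clamp hτn hε
  refine ⟨r * τ', ?_, ?_⟩
  · rw [abs_mul, abs_of_pos hr]
    exact mul_le_of_le_one_right hr.le hτ1
  · have e1 : dist (y + r * p) (y + ((r * τ' : ℝ) : ℂ) * a) ≤ ε * r := by
      rw [hτ, dist_eq_norm]
      have : y + (r : ℂ) * ((τ : ℂ) * a) - (y + ((r * τ' : ℝ) : ℂ) * a) =
          (((τ - τ') * r : ℝ) : ℂ) * a := by
        push_cast; ring
      rw [this, tyFlat_norm ha, abs_mul, abs_of_pos hr]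
      exact mul_le_mul_of_nonneg_right hτ2 hr.le
    calc dist z (y + ((r * τ' : ℝ) : ℂ) * a)
        ≤ dist z (y + r * p) + dist (y + r * p) (y + ((r * τ' : ℝ) : ℂ) * a) :=
          dist_triangle _ _ _
      _ ≤ ε * r + ε * r := add_le_add hp e1
      _ = (ε + ε) * r := by ring
      _ ≤ δ * r := mul_le_mul_of_nonneg_right (by linarith) hr.le

theorem tyFlat_two {L : Set ℂ} {y a : ℂ} {r ε δ S : ℝ} (hr : 0 < r) (ha : ‖a‖ = 1)
    (hε : 0 ≤ ε) (hεδ : ε ≤ δ / 4) (hS : 64 ≤ S)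
    (hmem : ∀ p : ℂ, ‖p‖ < 8 → (p ∈ L ↔ p ∈ lineM a))
    (hc2 : ∀ p ∈ L, ‖p‖ ≤ S → ∃ z ∈ K, dist z (y + r * p) ≤ ε * r) :
    ∀ t : ℝ, |t| ≤ r → ∃ z ∈ K, dist z (y + t * a) ≤ δ * r := by
  intro t ht
  have htn : ‖(((t / r : ℝ) : ℂ) * a)‖ ≤ 1 := by
    rw [tyFlat_norm ha, abs_div, abs_of_pos hr, div_le_one hr]
    exact ht
  obtain ⟨z, hzK, hz⟩ := hc2 (((t / r : ℝ) : ℂ) * a) ((hmem _ (by linarith only [htn])).2 ⟨t / r, rfl⟩)
    (htn.trans (by linarith))
  refine ⟨z, hzK, ?_⟩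
  have e1 : (r : ℂ) * (((t / r : ℝ) : ℂ) * a) = (t : ℂ) * a := by
    rw [← mul_assoc, ← Complex.ofReal_mul, mul_div_cancel₀ _ hr.ne']
  rw [e1] at hz
  exact hz.trans (mul_le_mul_of_nonneg_right (by linarith only [hεδ, hε]) hr.le)

theorem tyFlat_Hn {L : Set ℂ} {a : ℂ} (ha : ‖a‖ = 1)
    (hmem : ∀ p : ℂ, ‖p‖ < 8 → (p ∈ L ↔ p ∈ lineM a)) : Hn L 0 1 = 2 := by
  have e1 : L ∩ closedBall 0 1 = lineM a ∩ closedBall 0 1 := by
    ext p
    simp only [mem_inter_iff]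
    constructor
    · rintro ⟨hp1, hp2⟩
      exact ⟨(hmem p (by have := mem_closedBall_zero_iff.1 hp2; linarith)).1 hp1, hp2⟩
    · rintro ⟨hp1, hp2⟩
      exact ⟨(hmem p (by have := mem_closedBall_zero_iff.1 hp2; linarith)).2 hp1, hp2⟩
  have e2 := Hn_lineM ha (s := 1) zero_le_one
  unfold Hn at e2 ⊢
  rw [e1, e2]
  norm_num

theorem tyFlat_core {L : Set ℂ} {F : ℝ → ℝ} {y a : ℂ} {r ε δ S : ℝ} (hr : 0 < r) (ha : ‖a‖ = 1)
    (hε : 0 ≤ ε) (hεδ : ε ≤ δ / 4) (hε1 : ε ≤ 1 / 100) (hS : 64 ≤ S)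
    (hmem : ∀ p : ℂ, ‖p‖ < 8 → (p ∈ L ↔ p ∈ lineM a)) (hF : F 1 ≤ δ / 4)
    (hc : Close G K y r L F S ε) : LineClose G K y r δ := by
  obtain ⟨hc1, hc2, hc3⟩ := hc
  have hS1 : 1 / S ≤ 1 := by rw [div_le_iff₀ (by linarith only [hS])]; linarith only [hS]
  obtain ⟨h5, h6⟩ := hc3 1 hS1 (by linarith only [hS])
  rw [one_mul] at h5 h6
  refine ⟨⟨a, ha, tyFlat_one hr ha hε hεδ hε1 hS hmem hc1, tyFlat_two hr ha hε hεδ hS hmem hc2⟩,
    ?_, ?_⟩
  · have h10 : En G y r / r ≤ δ := by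
      have := (abs_le.1 h5).2
      linarith
    rwa [div_le_iff₀ hr] at h10
  · rw [tyFlat_Hn ha hmem] at h6
    have h8 : |Hn K y r - 2 * r| = |Hn K y r / r - 2| * r := by
      rw [← abs_of_pos hr, ← abs_mul, abs_of_pos hr, sub_mul, div_mul_cancel₀ _ hr.ne']
    rw [h8]
    exact mul_le_mul_of_nonneg_right (h6.trans (by linarith)) hr.le

theorem tyFlat_scale {S r r₁ : ℝ} (hS : 64 ≤ S) (hr : 0 < r) (hrr : 2 * S * r ≤ r₁) :
    ∃ (k : ℕ) (σ : ℝ), σ * r = r₁ / 2 ^ k ∧ S / 2 ≤ σ ∧ σ ≤ S := by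
  have hx1 : 1 ≤ r₁ / (S * r / 2) := by
    rw [le_div_iff₀ (by positivity)]
    have : 0 < S * r := by positivity
    linarith only [this, hrr]
  obtain ⟨k, hk1, hk2⟩ := exists_nat_pow_near hx1 one_lt_two
  have h2k : (0 : ℝ) < 2 ^ k := by positivity
  refine ⟨k, r₁ / 2 ^ k / r, by field_simp, ?_, ?_⟩
  · rw [le_div_iff₀ (by positivity)] at hk1
    rw [le_div_iff₀ hr, le_div_iff₀ h2k]
    linarith only [hk1]
  · rw [div_lt_iff₀ (by positivity), pow_succ] at hk2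
    rw [div_le_iff₀ hr, div_le_iff₀ h2k]
    linarith only [hk2]

theorem tyFlat_const {δ : ℝ} (hδ : 0 < δ) :
    ∃ S ε : ℝ, 64 ≤ S ∧ 2 / δ + 1 ≤ S / 8 ∧ 0 < ε ∧ ε ≤ δ / 4 ∧ ε ≤ 1 / 100 := by
  refine ⟨64 + 16 / δ, min (δ / 4) (1 / 100), ?_, ?_, lt_min (by positivity) (by norm_num),
    min_le_left _ _, min_le_right _ _⟩
  · have : 0 < 16 / δ := by positivity
    linarith
  · have : 16 / δ / 8 = 2 / δ := by ring
    linarith

theorem tyFlat_F {δ σ f : ℝ} (hδ : 0 < δ) (hA : 2 / δ ≤ σ / 4 - 1)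
    (h8 : f ≤ 1 ^ 2 / (2 * (σ / 4 - 1))) : f ≤ δ / 4 := by
  refine h8.trans ?_
  have hA0 : 0 < 2 / δ := by positivity
  rw [div_le_iff₀ (by linarith only [hA0, hA])]
  have h1 : δ / 4 * (2 * (2 / δ)) = 1 := by field_simp; norm_num
  have h2 : δ / 4 * (2 * (2 / δ)) ≤ δ / 4 * (2 * (σ / 4 - 1)) :=
    mul_le_mul_of_nonneg_left (by linarith only [hA]) (by positivity)
  linarith only [h2, h1]

theorem AllClose.flat (h : AllClose G K x₀ R₀) {δ : ℝ} (hδ : 0 < δ) :
    ∃ r₀ > 0, ∃ c > 0, ∀ y ∈ K ∩ closedBall x₀ R₀, ∀ r₁, 0 < r₁ → r₁ ≤ r₀ → Mid K y r₁ →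
      ∀ r, 0 < r → r ≤ c * r₁ → LineClose G K y r δ := by
  obtain ⟨S, ε, hS64, hSδ, hε, hεδ, hε1⟩ := tyFlat_const hδ
  obtain ⟨ra, hra, hmid⟩ := h.mid_down
  obtain ⟨rb, hrb, hcl⟩ := h S ε (by linarith only [hε1, hε, hS64]) hε
  refine ⟨min ra rb, lt_min hra hrb, 1 / (2 * S), by positivity, ?_⟩
  intro y hy r₁ hr₁ hr₁' hm r hr hrc
  have hS0 : 0 < S := by linarith only [hε1, hε, hS64]
  have hrr : 2 * S * r ≤ r₁ := by
    have h1 : 1 / (2 * S) * r₁ = r₁ / (2 * S) := by ring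
    rw [h1, le_div_iff₀ (by positivity)] at hrc
    linarith only [hrc]
  have hr_le : r ≤ r₁ := (le_mul_of_one_le_left hr.le (by linarith)).trans hrr
  obtain ⟨L, F, hmod, hc⟩ := hcl y hy r hr ((hr_le.trans hr₁').trans (min_le_right _ _))
  obtain ⟨k, σ, hσr, hσ1, hσ2⟩ := tyFlat_scale hS64 hr hrr
  have hσ0 : 0 < σ := by linarith
  have hmk := hmid y hy r₁ hr₁ (hr₁'.trans (min_le_left _ _)) hm k
  rw [← hσr] at hmk
  obtain ⟨hmk1, hmk2⟩ := hmk
  have hS1 : 1 / S ≤ 1 := by rw [div_le_iff₀ hS0]; linarith only [hε1, hε, hS64]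
  obtain ⟨-, h3⟩ := hc.2.2 σ (hS1.trans (by linarith only [hσ1, hε1, hε, hS64])) hσ2
  obtain ⟨h31, h32⟩ := abs_le.1 h3
  have h4 : 3 / 2 * σ ≤ Hn K y (σ * r) / r := by
    rw [le_div_iff₀ hr]; linarith only [hmk1]
  have h5 : Hn K y (σ * r) / r ≤ 5 / 2 * σ := by
    rw [div_le_iff₀ hr]; linarith only [hmk2]
  obtain ⟨a, ha, hLa, hF⟩ := hmod.flat_of hσ0 (by linarith only [h4, h32, hσ1, hε1, hε, hS64]) (by linarith only [h5, h31, hσ1, hε1, hε, hS64])
  refine tyFlat_core hr ha hε.le hεδ hε1 hS64 (fun p hp => ?_)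
    (tyFlat_F hδ (by linarith only [hσ1, hSδ]) (hF 1 zero_le_one (by linarith only [hσ1, hε1, hε, hS64])).2) hc
  have hpb : p ∈ ball (0 : ℂ) (σ / 4) := by
    rw [mem_ball_zero_iff]; linarith only [hp, hσ1, hS64]
  constructor
  · intro hpL
    have : p ∈ L ∩ ball 0 (σ / 4) := ⟨hpL, hpb⟩
    rw [hLa] at this
    exact this.1
  · intro hpL
    have : p ∈ lineM a ∩ ball 0 (σ / 4) := ⟨hpL, hpb⟩
    rw [← hLa] at this
    exact this.1

end Vale.Agent.P128.Q1
end

section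

/-! P128, Q1, Part III: TyAway -/

open MeasureTheory Set Metric Filter InnerProductSpace
open scoped ENNReal NNReal ContDiff Topology Real

namespace Vale.Agent.P128.Q1

open Vale.Agent.P128

variable {Ω : Set ℂ} {g u : ℂ → ℝ} {G : ℂ → ℂ} {K : Set ℂ} {M : ℝ} {x₀ : ℂ} {R₀ : ℝ}

/-- rescaling of a distance between two points `y + r * p` and `y + q` -/
theorem tyAway_scale {y z p q : ℂ} {r a b : ℝ} (hr : 0 < r) (h1 : dist z (y + r * p) ≤ a * r)
    (h2 : dist z (y + r * q) ≤ b * r) : dist p q ≤ a + b := by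
  have h3 : dist (y + r * p) (y + r * q) ≤ (a + b) * r := by
    calc dist (y + r * p) (y + r * q) ≤ dist (y + r * p) z + dist z (y + r * q) :=
          dist_triangle _ _ _
      _ ≤ a * r + b * r := add_le_add (by rw [dist_comm]; exact h1) h2
      _ = (a + b) * r := by ring
  have h4 : dist (y + r * p) (y + r * q) = r * dist p q := by
    rw [dist_eq_norm, dist_eq_norm]
    have : y + r * p - (y + r * q) = (r : ℂ) * (p - q) := by ring
    rw [this, norm_mul, Complex.norm_real, Real.norm_eq_abs, abs_of_pos hr]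
  rw [h4] at h3
  by_contra hc
  push Not at hc
  linarith only [mul_pos (sub_pos.2 hr) (sub_pos.2 hc), h3]

/-- a point near which `K` is two-sided close to a line at some scale is `Mid` at a smaller one -/
theorem AllClose.mid_of_line (h : AllClose G K x₀ R₀) : ∃ r₀ > 0, ∀ y ∈ K ∩ closedBall x₀ R₀,
    ∀ ρ, 0 < ρ → ρ ≤ r₀ → (∃ e : ℂ, ‖e‖ = 1 ∧
      (∀ z ∈ K ∩ closedBall y (ρ / 2), ∃ t : ℝ, dist z (y + t * e) ≤ ρ / 1000) ∧
      ∀ t : ℝ, |t| ≤ ρ / 2 → ∃ z ∈ K, dist z (y + t * e) ≤ ρ / 1000) → Mid K y (ρ / 40) := by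
  obtain ⟨r₀, hr₀, H⟩ := h 20 (1 / 100) (by norm_num) (by norm_num)
  refine ⟨r₀, hr₀, ?_⟩
  rintro y hy ρ hρ hρ₀ ⟨e, he, h1, h2⟩
  obtain ⟨r, hr⟩ : ∃ r : ℝ, ρ = 40 * r := ⟨ρ / 40, by ring⟩
  have hr0 : 0 < r := by linarith
  have hρr : ρ / 40 = r := by rw [hr]; ring
  obtain ⟨L, F, hm, c1, c2, c3⟩ := H y hy r hr0 (by linarith)
  have hH : Hn L 0 1 = 2 := by
    refine hm.two_of_line he ?_ ?_
    · intro t ht
      have htr : |r * t| ≤ ρ / 2 := by
        rw [abs_mul, abs_of_pos hr0]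
        linarith only [mul_nonneg (le_of_lt (sub_pos.2 hr0)) (sub_nonneg.2 ht), hρr, hr0]
      obtain ⟨z, hz, hzd⟩ := h2 (r * t) htr
      have e1 : y + ((r * t : ℝ) : ℂ) * e = y + (r : ℂ) * ((t : ℂ) * e) := by
        push_cast
        ring
      rw [e1] at hzd
      have hzd' : dist z (y + (r : ℂ) * ((t : ℂ) * e)) ≤ (1 / 25) * r := by
        rw [hr] at hzd
        linarith
      have hzb : z ∈ closedBall y (20 * r) := by
        rw [mem_closedBall]
        have : dist (y + (r : ℂ) * ((t : ℂ) * e)) y = r * |t| := by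
          rw [dist_eq_norm, add_sub_cancel_left, norm_mul, norm_mul, he, Complex.norm_real,
            Complex.norm_real, Real.norm_eq_abs, Real.norm_eq_abs, abs_of_pos hr0, mul_one]
        calc dist z y ≤ dist z (y + (r : ℂ) * ((t : ℂ) * e)) +
              dist (y + (r : ℂ) * ((t : ℂ) * e)) y := dist_triangle _ _ _
          _ ≤ (1 / 25) * r + r * |t| := by rw [this]; linarith only [hzd']
          _ ≤ 20 * r := by (by_contra nlg; linarith only [nlg, mul_nonneg (le_of_lt (sub_pos.2 hr0)) (sub_nonneg.2 ht), mul_nonneg (mul_self_nonneg (1 : ℝ)) (le_of_lt (sub_pos.2 (not_le.1 nlg))), hr0])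
      obtain ⟨p, hp, hpd⟩ := c1 z ⟨hz, hzb⟩
      refine ⟨p, hp, ?_⟩
      have := tyAway_scale hr0 hpd hzd'
      linarith only [this]
    · intro p hp hpn
      obtain ⟨z, hz, hzd⟩ := c2 p hp (by linarith)
      have hzb : z ∈ closedBall y (ρ / 2) := by
        rw [mem_closedBall]
        have : dist (y + (r : ℂ) * p) y = r * ‖p‖ := by
          rw [dist_eq_norm, add_sub_cancel_left, norm_mul, Complex.norm_real,
            Real.norm_eq_abs, abs_of_pos hr0]
        calc dist z y ≤ dist z (y + (r : ℂ) * p) + dist (y + (r : ℂ) * p) y :=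
              dist_triangle _ _ _
          _ ≤ (1 / 100) * r + r * ‖p‖ := by rw [this]; linarith
          _ ≤ ρ / 2 := by (by_contra nlg; linarith only [nlg, mul_nonneg (le_of_lt (sub_pos.2 hr0)) (sub_nonneg.2 hpn), mul_eq_zero_of_left (sub_eq_zero.2 hρr) (0 - (0 - 1 * 1)), mul_nonneg (mul_self_nonneg (1 : ℝ)) (le_of_lt (sub_pos.2 (not_le.1 nlg))), hr0])
      obtain ⟨t, ht⟩ := h1 z ⟨hz, hzb⟩
      refine ⟨t / r, ?_⟩
      have e1 : y + (t : ℂ) * e = y + (r : ℂ) * (((t / r : ℝ) : ℂ) * e) := by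
        have hrc : (r : ℂ) ≠ 0 := by exact_mod_cast hr0.ne'
        push_cast
        field_simp
      rw [e1] at ht
      have ht' : dist z (y + (r : ℂ) * (((t / r : ℝ) : ℂ) * e)) ≤ (1 / 25) * r := by
        rw [hr] at ht
        linarith only [ht]
      have := tyAway_scale hr0 hzd ht'
      linarith only [this]
  obtain ⟨-, c4⟩ := c3 1 (by norm_num) (by norm_num)
  rw [one_mul, hH, abs_le] at c4
  obtain ⟨c5, c6⟩ := c4
  rw [hρr]
  have h5 : (199 / 100) * r ≤ Hn K y r := by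
    have : 199 / 100 ≤ Hn K y r / r := by linarith only [c5]
    rwa [le_div_iff₀ hr0] at this
  have h6 : Hn K y r ≤ (201 / 100) * r := by
    have : Hn K y r / r ≤ 201 / 100 := by linarith only [c6]
    rwa [div_le_iff₀ hr0] at this
  constructor <;> linarith

theorem AllClose.away (h : AllClose G K x₀ R₀) {x : ℂ} (hx : x ∈ K ∩ ball x₀ R₀)
    (hl : ∃ r₁ > 0, ∀ y ∈ K ∩ closedBall x r₁, y ≠ x → ∃ e : ℂ, ‖e‖ = 1 ∧
      (∀ z ∈ K ∩ closedBall y (dist y x / 2), ∃ t : ℝ, dist z (y + t * e) ≤ dist y x / 1000) ∧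
      ∀ t : ℝ, |t| ≤ dist y x / 2 → ∃ z ∈ K, dist z (y + t * e) ≤ dist y x / 1000) :
    LineAway G K x := by
  intro δ hδ
  obtain ⟨r₂, hr₂, hmid⟩ := h.mid_of_line
  obtain ⟨r₃, hr₃, c, hc, hflat⟩ := h.flat hδ
  obtain ⟨r₁, hr₁, hl⟩ := hl
  have hxb : 0 < R₀ - dist x x₀ := by
    have := mem_ball.1 hx.2
    linarith
  refine ⟨min (min r₁ (R₀ - dist x x₀)) (min r₂ r₃),
    lt_min (lt_min hr₁ hxb) (lt_min hr₂ hr₃), c / 40, by positivity, ?_⟩
  rintro y ⟨hyK, hy⟩ hyx r hr0 hr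
  rw [mem_closedBall] at hy
  have hy1 : dist y x ≤ r₁ := hy.trans ((min_le_left _ _).trans (min_le_left _ _))
  have hy2 : dist y x ≤ R₀ - dist x x₀ := hy.trans ((min_le_left _ _).trans (min_le_right _ _))
  have hy3 : dist y x ≤ r₂ := hy.trans ((min_le_right _ _).trans (min_le_left _ _))
  have hy4 : dist y x ≤ r₃ := hy.trans ((min_le_right _ _).trans (min_le_right _ _))
  have hpos : 0 < dist y x := dist_pos.2 hyx
  have hyR : y ∈ K ∩ closedBall x₀ R₀ := by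
    refine ⟨hyK, ?_⟩
    rw [mem_closedBall]
    calc dist y x₀ ≤ dist y x + dist x x₀ := dist_triangle _ _ _
      _ ≤ R₀ := by linarith
  have hM := hmid y hyR (dist y x) hpos hy3 (hl y ⟨hyK, mem_closedBall.2 hy1⟩ hyx)
  refine hflat y hyR (dist y x / 40) (by positivity) (by linarith only [hpos, hy4]) hM r hr0 ?_
  calc r ≤ c / 40 * dist y x := hr
    _ = c * (dist y x / 40) := by ring

end Vale.Agent.P128.Q1
end

section

/-! P128, Q1, part V: slow rotation of the arms and the gaps of a tripod (block TR2). -/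

open MeasureTheory Set Metric Filter ComplexConjugate
open scoped ENNReal NNReal Topology Real ContDiff

namespace Vale.Agent.P128.Q1

open Vale.Agent.P128

variable {K : Set ℂ} {G : ℂ → ℂ}

/-- slow rotation of the arms -/
theorem Branches.slow {x : ℂ} {s₀ : ℝ} {m : ℕ} {φ : Fin m → ℝ → ℝ} (h : Branches K x s₀ m φ)
    {ε : ℝ} (hε : 0 < ε) : ∃ s₁ > 0, s₁ < s₀ ∧ ∀ i, ∀ r s : ℝ, 0 < r → r ≤ s → s ≤ s₁ →
      |φ i s - φ i r| ≤ ε * Real.log (s / r) := by
  have h1 : ∀ᶠ s in 𝓝[>] (0 : ℝ), ∀ i, |s * deriv (φ i) s| ≤ ε := by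
    rw [eventually_all]
    intro i
    have h2 := (h.small i).eventually (Metric.ball_mem_nhds (0 : ℝ) hε)
    filter_upwards [h2] with s hs
    rw [dist_zero_right, Real.norm_eq_abs] at hs
    exact hs.le
  obtain ⟨b, hb, hb'⟩ := mem_nhdsGT_iff_exists_Ioo_subset.1 h1
  have hb0 : (0 : ℝ) < b := hb
  have hs₀ := h.pos
  refine ⟨min (b / 2) (s₀ / 2), lt_min (by linarith) (by linarith),
    (min_le_right _ _).trans_lt (by linarith), fun i r s hr hrs hs => ?_⟩
  have hs1 : s < b := (hs.trans (min_le_left _ _)).trans_lt (by linarith)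
  have hs2 : s < s₀ := (hs.trans (min_le_right _ _)).trans_lt (by linarith)
  have hs0 : 0 < s := hr.trans_le hrs
  have hlog : Real.log r ≤ Real.log s := Real.log_le_log hr hrs
  have key : ∀ σ ∈ Icc (Real.log r) (Real.log s), HasDerivWithinAt (fun σ => φ i (Real.exp σ))
      (deriv (φ i) (Real.exp σ) * Real.exp σ) (Icc (Real.log r) (Real.log s)) σ := by
    intro σ hσ
    have e1 : 0 < Real.exp σ := Real.exp_pos σ
    have e2 : Real.exp σ ≤ s := by
      rw [← Real.exp_log hs0]; exact Real.exp_le_exp.2 hσ.2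
    have h3 : HasDerivAt (φ i) (deriv (φ i) (Real.exp σ)) (Real.exp σ) :=
      (h.diff i _ ⟨e1, e2.trans_lt hs2⟩).hasDerivAt
    exact (h3.comp σ (Real.hasDerivAt_exp σ)).hasDerivWithinAt
  have bound : ∀ σ ∈ Icc (Real.log r) (Real.log s),
      ‖deriv (φ i) (Real.exp σ) * Real.exp σ‖ ≤ ε := by
    intro σ hσ
    have e1 : 0 < Real.exp σ := Real.exp_pos σ
    have e2 : Real.exp σ ≤ s := by
      rw [← Real.exp_log hs0]; exact Real.exp_le_exp.2 hσ.2
    have h3 := hb' ⟨e1, e2.trans_lt hs1⟩ i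
    rw [Real.norm_eq_abs, mul_comm]
    exact h3
  have h4 := Convex.norm_image_sub_le_of_norm_hasDerivWithin_le key bound (convex_Icc _ _)
    (left_mem_Icc.2 hlog) (right_mem_Icc.2 hlog)
  simp only [Real.exp_log hr, Real.exp_log hs0, Real.norm_eq_abs] at h4
  rw [abs_of_nonneg (sub_nonneg.2 hlog)] at h4
  rw [Real.log_div hs0.ne' hr.ne']
  exact h4

/-- slow rotation, for two comparable radii -/
theorem Branches.slow_exp {x : ℂ} {s₀ : ℝ} {m : ℕ} {φ : Fin m → ℝ → ℝ}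
    (h : Branches K x s₀ m φ) {ε : ℝ} (hε : 0 < ε) :
    ∃ s₁ > 0, s₁ < s₀ ∧ ∀ i, ∀ r s : ℝ, 0 < r → 0 < s → r ≤ s₁ → s ≤ s₁ → r ≤ 2 * s → s ≤ 2 * r →
      ‖Complex.exp (φ i s * Complex.I) - Complex.exp (φ i r * Complex.I)‖ ≤ ε := by
  obtain ⟨s₁, hs₁, hs₁', H⟩ := h.slow hε
  refine ⟨s₁, hs₁, hs₁', fun i r s hr hs hr1 hs1 hrs hsr => ?_⟩
  have hlog2 : Real.log 2 < 1 := by
    have := Real.log_two_lt_d9
    linarith only [this]
  have h1 : |φ i s - φ i r| ≤ ε := by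
    rcases le_total r s with hle | hle
    · have h2 := H i r s hr hle hs1
      have h3 : Real.log (s / r) ≤ Real.log 2 :=
        Real.log_le_log (by positivity) (by rw [div_le_iff₀ hr]; linarith)
      linarith only [mul_nonneg (le_of_lt (sub_pos.2 hε)) (sub_nonneg.2 h3), mul_pos (sub_pos.2 hε) (sub_pos.2 hlog2), h2]
    · have h2 := H i s r hs hle hr1
      have h3 : Real.log (r / s) ≤ Real.log 2 :=
        Real.log_le_log (by positivity) (by rw [div_le_iff₀ hs]; linarith)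
      rw [abs_sub_comm]
      linarith only [mul_nonneg (le_of_lt (sub_pos.2 hε)) (sub_nonneg.2 h3), mul_pos (sub_pos.2 hε) (sub_pos.2 hlog2), h2]
  have h2 : Complex.exp (φ i s * Complex.I) - Complex.exp (φ i r * Complex.I)
      = Complex.exp (φ i r * Complex.I) *
        (Complex.exp (Complex.I * ((φ i s - φ i r : ℝ) : ℂ)) - 1) := by
    rw [mul_sub, mul_one, ← Complex.exp_add]
    congr 2
    push_cast
    ring
  rw [h2, norm_mul, Complex.norm_exp_ofReal_mul_I, one_mul]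
  exact (Real.norm_exp_I_mul_ofReal_sub_one_le).trans (by rw [Real.norm_eq_abs]; exact h1)

theorem trg_om_re : (Complex.exp (2 * π / 3 * Complex.I)).re = -(1 / 2) := by
  have h1 : (2 * π / 3 * Complex.I : ℂ) = ((2 * π / 3 : ℝ) : ℂ) * Complex.I := by push_cast; ring
  rw [h1, Complex.exp_ofReal_mul_I_re, show (2 * π / 3 : ℝ) = π - π / 3 by ring, Real.cos_pi_sub,
    Real.cos_pi_div_three]

theorem trg_om_im : (Complex.exp (2 * π / 3 * Complex.I)).im = √3 / 2 := by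
  have h1 : (2 * π / 3 * Complex.I : ℂ) = ((2 * π / 3 : ℝ) : ℂ) * Complex.I := by push_cast; ring
  rw [h1, Complex.exp_ofReal_mul_I_im, show (2 * π / 3 : ℝ) = π - π / 3 by ring, Real.sin_pi_sub,
    Real.sin_pi_div_three]

theorem trg_om_norm : ‖Complex.exp (2 * π / 3 * Complex.I)‖ = 1 := by
  have h1 : (2 * π / 3 * Complex.I : ℂ) = ((2 * π / 3 : ℝ) : ℂ) * Complex.I := by push_cast; ring
  rw [h1, Complex.norm_exp_ofReal_mul_I]

/-- A unit vector close to `exp (2 π i / 3)` has argument in `(0, 4 π / 5]`. -/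
theorem trg_arg_of_near {q : ℂ} (hq : ‖q‖ = 1) (h : ‖q - Complex.exp (2 * π / 3 * Complex.I)‖ ≤ 3 / 100) :
    0 < q.arg ∧ q.arg ≤ 4 / 5 * π := by
  have hre := (Complex.abs_re_le_norm (q - Complex.exp (2 * π / 3 * Complex.I))).trans h
  have him := (Complex.abs_im_le_norm (q - Complex.exp (2 * π / 3 * Complex.I))).trans h
  rw [Complex.sub_re, trg_om_re, abs_le] at hre
  rw [Complex.sub_im, trg_om_im, abs_le] at him
  have h3 : (1.7 : ℝ) < √3 := by
    rw [Real.lt_sqrt (by norm_num)]; norm_num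
  have himpos : 0 < q.im := by linarith only [him.1, h3]
  have hq0 : q ≠ 0 := by rw [← norm_ne_zero_iff, hq]; exact one_ne_zero
  have harg : 0 < q.arg := by
    have h1 : 0 ≤ q.arg := Complex.arg_nonneg_iff.2 himpos.le
    rcases h1.eq_or_lt with h2 | h2
    · exact absurd (Complex.arg_eq_zero_iff.1 h2.symm).2 himpos.ne'
    · exact h2
  refine ⟨harg, ?_⟩
  by_contra hlt
  push Not at hlt
  have hπ := Real.pi_pos
  have h4 : Real.cos q.arg < Real.cos (4 / 5 * π) :=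
    Real.cos_lt_cos_of_nonneg_of_le_pi (by positivity) (Complex.arg_le_pi q) hlt
  rw [Complex.cos_arg hq0, hq, div_one, show (4 / 5 * π : ℝ) = π - π / 5 by ring,
    Real.cos_pi_sub, Real.cos_pi_div_five] at h4
  have h5 : (2 : ℝ) < √5 := by
    rw [Real.lt_sqrt (by norm_num)]; norm_num
  linarith only [hre.1, h5, h4]

/-- the three directions leave gaps at most `4 π / 5` -/
theorem Branches.gaps {x : ℂ} {s₀ : ℝ} {φ : Fin 3 → ℝ → ℝ} (h : Branches K x s₀ 3 φ)
    (hl : TripodType G K x) : ∃ s₁ > 0, s₁ < s₀ ∧ ∀ s, 0 < s → s ≤ s₁ →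
      ∃ T : Finset ℂ, T.card = 3 ∧ (∀ w, w ∈ T ↔ ‖w‖ = 1 ∧ x + s • w ∈ K) ∧
        (∀ w, w ∈ T ↔ ∃ i, w = Complex.exp (φ i s * Complex.I)) ∧
        ∀ p ∈ T, gap (T : Set ℂ) p ≤ 4 / 5 * π := by
  classical
  obtain ⟨s₂, hs₂, hs₂', H⟩ := h.slow_exp (ε := 1 / 200) (by norm_num)
  obtain ⟨r₁, hr₁, N⟩ := hl.1 (1 / 200) (by norm_num)
  refine ⟨min (s₂ / 2) r₁, lt_min (by linarith) hr₁, (min_le_left _ _).trans_lt (by linarith),
    fun s hs hs1 => ?_⟩
  have hs3 : s ≤ s₂ / 2 := hs1.trans (min_le_left _ _)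
  have hs4 : s ≤ r₁ := hs1.trans (min_le_right _ _)
  have hs5 : s ∈ Ioo 0 s₀ := ⟨hs, by linarith⟩
  obtain ⟨w, hw, -, N2⟩ := (N s hs hs4).1
  set om : ℂ := Complex.exp (2 * Real.pi / 3 * Complex.I) with ho
  have ho1 : ‖om‖ = 1 := trg_om_norm
  have hok : ∀ k : ℕ, ‖w * om ^ k‖ = 1 := fun k => by
    rw [norm_mul, norm_pow, hw, ho1, one_pow, one_mul]
  -- the arm close to the direction `k`
  have key : ∀ k : ℕ, ∃ i : Fin 3, ‖Complex.exp (φ i s * Complex.I) - w * om ^ k‖ ≤ 3 / 200 := by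
    intro k
    obtain ⟨y, hyK, hy⟩ := N2 k s ⟨hs.le, le_rfl⟩
    set r : ℝ := dist y x with hr
    have h1 : dist (x + s • (w * om ^ k)) x = s := by
      rw [dist_eq_norm, add_sub_cancel_left, norm_smul, hok k, mul_one, Real.norm_of_nonneg hs.le]
    have h2 : |r - s| ≤ 1 / 200 * s := by
      have := abs_dist_sub_le y (x + s • (w * om ^ k)) x
      rw [h1] at this
      exact this.trans hy
    rw [abs_le] at h2
    have hr0 : 0 < r := by linarith only [h2.1, hs]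
    have hr2 : r < s₀ := by linarith only [h2.2, hs3, hs, hs₂']
    have h3 : y ∈ K ∩ sphere x r := ⟨hyK, mem_sphere.2 rfl⟩
    rw [h.eq r ⟨hr0, hr2⟩] at h3
    obtain ⟨i, hi⟩ := h3
    dsimp only at hi
    refine ⟨i, ?_⟩
    have h4 := H i r s hr0 hs (by linarith only [h2.2, hs3, hs]) (by linarith only [hs3, hs]) (by linarith only [h2.2, hs])
      (by linarith only [h2.1, hr0])
    set e : ℂ := Complex.exp (φ i r * Complex.I) with he
    have he1 : ‖e‖ = 1 := Complex.norm_exp_ofReal_mul_I _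
    have h5 : ‖(s : ℂ) * (e - w * om ^ k)‖ ≤ 2 / 200 * s := by
      have h6 : (s : ℂ) * (e - w * om ^ k) =
          (y - (x + s • (w * om ^ k))) - ((r - s : ℝ) : ℂ) * e := by
        rw [← hi, Complex.real_smul]
        push_cast
        ring
      rw [h6]
      refine (norm_sub_le _ _).trans ?_
      rw [← dist_eq_norm, norm_mul, he1, mul_one, Complex.norm_real, Real.norm_eq_abs]
      have h7 : |r - s| ≤ 1 / 200 * s := abs_le.2 h2
      linarith only [h7, hy]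
    rw [norm_mul, Complex.norm_real, Real.norm_of_nonneg hs.le] at h5
    have h8 : ‖e - w * om ^ k‖ ≤ 2 / 200 := by
      have : s * ‖e - w * om ^ k‖ ≤ s * (2 / 200) := by linarith only [h5]
      exact le_of_mul_le_mul_left this hs
    calc ‖Complex.exp (φ i s * Complex.I) - w * om ^ k‖
        = ‖(Complex.exp (φ i s * Complex.I) - e) + (e - w * om ^ k)‖ := by ring_nf
      _ ≤ 1 / 200 + 2 / 200 := (norm_add_le _ _).trans (add_le_add h4 h8)
      _ = 3 / 200 := by norm_num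
  choose f hf using key
  have hre1 : ‖(1 : ℂ) - om‖ ≥ 1 := by
    have h1 := Complex.abs_re_le_norm ((1 : ℂ) - om)
    rw [Complex.sub_re, trg_om_re, Complex.one_re] at h1
    norm_num at h1
    linarith
  have hre2 : ‖(1 : ℂ) - om ^ 2‖ ≥ 1 := by
    have h1 := Complex.abs_re_le_norm ((1 : ℂ) - om ^ 2)
    have h2 : (om ^ 2).re = -(1 / 2) := by
      rw [pow_two, Complex.mul_re, trg_om_re, trg_om_im]
      have := Real.mul_self_sqrt (show (0 : ℝ) ≤ 3 by norm_num)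
      nlinarith
    rw [Complex.sub_re, h2, Complex.one_re] at h1
    norm_num at h1
    linarith
  -- different directions belong to different arms
  have hne : ∀ k j : ℕ, j = 1 ∨ j = 2 → f k ≠ f (k + j) := by
    intro k j hj hfe
    have h1 := hf k
    have h2 := hf (k + j)
    rw [← hfe] at h2
    have h3 : ‖w * om ^ k - w * om ^ (k + j)‖ ≤ 6 / 200 := by
      have h4 : w * om ^ k - w * om ^ (k + j) =
          (Complex.exp (φ (f k) s * Complex.I) - w * om ^ (k + j)) -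
            (Complex.exp (φ (f k) s * Complex.I) - w * om ^ k) := by ring
      rw [h4]
      refine (norm_sub_le _ _).trans ?_
      linarith only [h2, h1]
    have h5 : w * om ^ k - w * om ^ (k + j) = w * om ^ k * (1 - om ^ j) := by ring
    rw [h5, norm_mul, hok k, one_mul] at h3
    rcases hj with rfl | rfl
    · rw [pow_one] at h3
      linarith only [h3, hre1]
    · linarith only [h3, hre2]
  have hinj : Function.Injective fun k : Fin 3 => f (k : ℕ) := by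
    intro a b hab
    dsimp only at hab
    by_contra hne'
    have h1 : (a : ℕ) ≠ b := fun h => hne' (Fin.ext h)
    have ha := a.2
    have hb := b.2
    rcases lt_or_gt_of_ne h1 with h2 | h2
    · refine hne a (b - a) (by omega) ?_
      rw [show (a : ℕ) + (b - a) = b by omega]
      exact hab
    · refine hne b (a - b) (by omega) ?_
      rw [show (b : ℕ) + (a - b) = a by omega]
      exact hab.symm
  have hsurj := Finite.surjective_of_injective hinj
  set E : Fin 3 → ℂ := fun i => Complex.exp (φ i s * Complex.I) with hE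
  have hEinj : Function.Injective E := h.inj s hs5
  have hE1 : ∀ i, ‖E i‖ = 1 := fun i => Complex.norm_exp_ofReal_mul_I _
  have hmem : ∀ w, w ∈ Finset.univ.image E ↔ ∃ i, w = E i := by
    intro w
    simp only [Finset.mem_image, Finset.mem_univ, true_and]
    exact ⟨fun ⟨i, hi⟩ => ⟨i, hi.symm⟩, fun ⟨i, hi⟩ => ⟨i, hi.symm⟩⟩
  refine ⟨Finset.univ.image E, ?_, fun v => ?_, hmem, fun p hp => ?_⟩
  · rw [Finset.card_image_of_injective _ hEinj, Finset.card_univ, Fintype.card_fin]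
  · rw [hmem]
    constructor
    · rintro ⟨i, rfl⟩
      refine ⟨hE1 i, ?_⟩
      have h1 : x + s * E i ∈ K ∩ sphere x s := by
        rw [h.eq s hs5]; exact ⟨i, rfl⟩
      rw [Complex.real_smul]
      exact h1.1
    · rintro ⟨hv, hvK⟩
      have h1 : x + s • v ∈ K ∩ sphere x s := by
        refine ⟨hvK, ?_⟩
        rw [mem_sphere, dist_eq_norm, add_sub_cancel_left, norm_smul, hv, mul_one,
          Real.norm_of_nonneg hs.le]
      rw [h.eq s hs5] at h1
      obtain ⟨i, hi⟩ := h1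
      dsimp only at hi
      refine ⟨i, ?_⟩
      rw [Complex.real_smul] at hi
      have hs0 : (s : ℂ) ≠ 0 := by exact_mod_cast hs.ne'
      exact (mul_left_cancel₀ hs0 (add_left_cancel hi)).symm
  · obtain ⟨i, rfl⟩ := (hmem p).1 hp
    obtain ⟨k, hk⟩ := hsurj i
    dsimp only at hk
    have h1 : ‖E i - w * om ^ (k : ℕ)‖ ≤ 3 / 200 := by
      have := hf k
      rw [hk] at this
      exact this
    have h2 : ‖E (f (k + 1)) - w * om ^ ((k : ℕ) + 1)‖ ≤ 3 / 200 := hf (k + 1)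
    have hEi0 : E i ≠ 0 := by rw [← norm_ne_zero_iff, hE1]; exact one_ne_zero
    set q : ℂ := E (f (k + 1)) / E i with hq
    have hq1 : ‖q‖ = 1 := by rw [hq, norm_div, hE1, hE1, div_one]
    have h3 : ‖q - om‖ ≤ 3 / 100 := by
      have h4 : E i * (q - om) = (E (f (k + 1)) - w * om ^ ((k : ℕ) + 1)) -
          (E i - w * om ^ (k : ℕ)) * om := by
        rw [hq, mul_sub, mul_div_cancel₀ _ hEi0]
        ring
      have h5 : ‖E i * (q - om)‖ ≤ 3 / 200 + 3 / 200 := by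
        rw [h4]
        refine (norm_sub_le _ _).trans (add_le_add h2 ?_)
        rw [norm_mul, ho1, mul_one]
        exact h1
      rw [norm_mul, hE1, one_mul] at h5
      linarith only [h5]
    obtain ⟨h6, h7⟩ := trg_arg_of_near hq1 h3
    refine le_trans ?_ h7
    unfold gap
    refine csInf_le ⟨0, fun t ht => ht.1.le⟩ ⟨h6, ?_⟩
    rw [uc_arg hq1, hq, mul_div_cancel₀ _ hEi0]
    exact Finset.mem_coe.2 ((hmem _).2 ⟨_, rfl⟩)

end Vale.Agent.P128.Q1
end

section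

/-! P128, Q1, part V (tripod rates), block TR1: the set `K` is connected in small disks. -/

open MeasureTheory Set Metric Filter
open scoped Topology Real

namespace Vale.Agent.P128.Q1

open Vale.Agent.P128

variable {K : Set ℂ}

theorem Branches.conn {x : ℂ} {s₀ : ℝ} {m : ℕ} {φ : Fin m → ℝ → ℝ} (h : Branches K x s₀ m φ)
    {s : ℝ} (hs : s ∈ Ioo 0 s₀) : IsPreconnected (K ∩ closedBall x s) := by
  set f : Fin m → ℝ → ℂ := fun i t => x + t * Complex.exp (φ i t * Complex.I) with hf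
  have hn : ∀ i (t : ℝ), ‖(t : ℂ) * Complex.exp (φ i t * Complex.I)‖ = |t| := by
    intro i t
    rw [norm_mul, Complex.norm_exp_ofReal_mul_I, mul_one, Complex.norm_real, Real.norm_eq_abs]
  have hf0 : ∀ i, f i 0 = x := by
    intro i
    simp [hf]
  have hc : ∀ i, ContinuousOn (f i) (Icc 0 s) := by
    intro i t ht
    rcases eq_or_lt_of_le ht.1 with h0 | h0
    · subst h0
      refine ContinuousAt.continuousWithinAt ?_
      rw [Metric.continuousAt_iff]
      intro ε hε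
      refine ⟨ε, hε, fun {t} ht => ?_⟩
      rw [hf0, dist_eq_norm]
      have : f i t - x = t * Complex.exp (φ i t * Complex.I) := by
        simp [hf]
      rw [this, hn]
      simpa using ht
    · have hd := (h.diff i t ⟨h0, lt_of_le_of_lt ht.2 hs.2⟩).continuousAt
      have h1 : ContinuousAt (fun t : ℝ => (t : ℂ)) t := Complex.continuous_ofReal.continuousAt
      have h2 : ContinuousAt (fun t : ℝ => ((φ i t : ℝ) : ℂ)) t :=
        ContinuousAt.comp (f := φ i) (g := fun r : ℝ => (r : ℂ))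
          Complex.continuous_ofReal.continuousAt hd
      exact (continuousAt_const.add (h1.mul ((h2.mul continuousAt_const).cexp))).continuousWithinAt
  have hmem : ∀ i, ∀ t ∈ Icc 0 s, f i t ∈ K ∩ closedBall x s := by
    intro i t ht
    rcases eq_or_lt_of_le ht.1 with h0 | h0
    · subst h0
      rw [hf0]
      exact ⟨h.mem, mem_closedBall_self hs.1.le⟩
    · have h1 : f i t ∈ K ∩ sphere x t := by
        rw [h.eq t ⟨h0, lt_of_le_of_lt ht.2 hs.2⟩]
        exact ⟨i, rfl⟩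
      exact ⟨h1.1, closedBall_subset_closedBall ht.2 (sphere_subset_closedBall h1.2)⟩
  refine isPreconnected_of_forall x fun y hy => ?_
  rcases eq_or_ne y x with hyx | hyx
  · subst hyx
    exact ⟨{y}, singleton_subset_iff.2 hy, rfl, rfl, isPreconnected_singleton⟩
  · have hr0 : 0 < dist y x := dist_pos.2 hyx
    have hrs : dist y x ≤ s := hy.2
    have h1 : y ∈ K ∩ sphere x (dist y x) := ⟨hy.1, rfl⟩
    rw [h.eq _ ⟨hr0, lt_of_le_of_lt hrs hs.2⟩] at h1
    obtain ⟨i, hi⟩ := h1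
    refine ⟨f i '' Icc 0 s, ?_, ⟨0, ⟨le_rfl, hs.1.le⟩, hf0 i⟩, ⟨dist y x, ⟨hr0.le, hrs⟩, hi⟩,
      isPreconnected_Icc.image _ (hc i)⟩
    rintro _ ⟨t, ht, rfl⟩
    exact hmem i t ht

end Vale.Agent.P128.Q1
end

section

/-! P128, Q1, part V: the arms of a tripod, lower bound of the length (block TR5). -/

open MeasureTheory Set Metric Filter ComplexConjugate
open scoped ENNReal NNReal Topology Real ContDiff

namespace Vale.Agent.P128.Q1

open Vale.Agent.P128

variable {K : Set ℂ}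

/-- the point of the arm `ψ` on the circle of radius `s` -/
noncomputable def arm (x : ℂ) (ψ : ℝ → ℝ) (s : ℝ) : ℂ := x + s * Complex.exp (ψ s * Complex.I)

theorem dist_arm_center (x : ℂ) (ψ : ℝ → ℝ) {s : ℝ} (hs : 0 ≤ s) : dist (arm x ψ s) x = s := by
  rw [arm, dist_eq_norm, add_sub_cancel_left, norm_mul, Complex.norm_exp_ofReal_mul_I, mul_one,
    Complex.norm_real, Real.norm_of_nonneg hs]

/-- the distance of two points of an arm -/
theorem dist_arm_sq (x : ℂ) (ψ : ℝ → ℝ) (r s : ℝ) :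
    dist (arm x ψ r) (arm x ψ s) ^ 2 =
      (s - r) ^ 2 + 4 * r * s * Real.sin ((ψ s - ψ r) / 2) ^ 2 := by
  have h1 : Real.cos (ψ s - ψ r) = 1 - 2 * Real.sin ((ψ s - ψ r) / 2) ^ 2 := by
    have h := Real.cos_two_mul ((ψ s - ψ r) / 2)
    have h' := Real.sin_sq_add_cos_sq ((ψ s - ψ r) / 2)
    rw [mul_div_cancel₀ _ (two_ne_zero' ℝ)] at h
    linarith
  rw [Real.cos_sub] at h1
  have h2 := Real.sin_sq_add_cos_sq (ψ r)
  have h3 := Real.sin_sq_add_cos_sq (ψ s)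
  rw [dist_eq_norm, ← Complex.normSq_eq_norm_sq, Complex.normSq_apply]
  simp only [arm, add_sub_add_left_eq_sub, Complex.sub_re, Complex.sub_im, Complex.re_ofReal_mul,
    Complex.im_ofReal_mul, Complex.exp_ofReal_mul_I_re, Complex.exp_ofReal_mul_I_im]
  linear_combination r ^ 2 * h2 + s ^ 2 * h3 - 2 * r * s * h1

theorem Branches.continuousOn_arm {x : ℂ} {s₀ : ℝ} {m : ℕ} {φ : Fin m → ℝ → ℝ}
    (h : Branches K x s₀ m φ) (i : Fin m) : ContinuousOn (arm x (φ i)) (Ioo 0 s₀) := by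
  have h1 : ContinuousOn (φ i) (Ioo 0 s₀) := fun s hs =>
    (h.diff i s hs).continuousAt.continuousWithinAt
  unfold arm
  fun_prop

theorem Branches.arm_mem {x : ℂ} {s₀ : ℝ} {m : ℕ} {φ : Fin m → ℝ → ℝ}
    (h : Branches K x s₀ m φ) (i : Fin m) {s : ℝ} (hs : s ∈ Ioo 0 s₀) : arm x (φ i) s ∈ K := by
  have h1 : arm x (φ i) s ∈ K ∩ sphere x s := by
    rw [h.eq s hs]; exact ⟨i, rfl⟩
  exact h1.1

theorem Branches.arm_inj {x : ℂ} {s₀ : ℝ} {m : ℕ} {φ : Fin m → ℝ → ℝ}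
    (h : Branches K x s₀ m φ) {i j : Fin m} {s : ℝ} (hs : s ∈ Ioo 0 s₀)
    (hij : arm x (φ i) s = arm x (φ j) s) : i = j := by
  refine h.inj s hs ?_
  have hs0 : (s : ℂ) ≠ 0 := by exact_mod_cast hs.1.ne'
  exact mul_left_cancel₀ hs0 (add_left_cancel hij)

theorem len_path_ge_arm {γ : ℝ → ℂ} {a b : ℝ} (hab : a ≤ b) (hγ : ContinuousOn γ (Icc a b)) :
    ENNReal.ofReal (dist (γ a) (γ b)) ≤ μH[1] (γ '' Icc a b) := by
  have hc : ContinuousOn (fun t => dist (γ t) (γ a)) (Icc a b) := by fun_prop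
  have hIcc : Icc 0 (dist (γ a) (γ b)) ⊆ (fun t => dist (γ t) (γ a)) '' Icc a b := by
    have := intermediate_value_Icc hab hc
    rwa [dist_self, dist_comm] at this
  have h1 := eilenberg (X := ℂ) (f := fun z => dist z (γ a)) (LipschitzWith.dist_left (γ a))
    (E := γ '' Icc a b) (m := 1) (S := Icc 0 (dist (γ a) (γ b))) (fun s hs => by
      obtain ⟨t, ht, hts⟩ := hIcc hs
      rw [Nat.cast_one, one_le_encard_iff_nonempty]
      exact ⟨γ t, mem_image_of_mem γ ht, hts⟩)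
  rw [Real.volume_Icc, sub_zero, Nat.cast_one, one_mul] at h1
  exact h1.trans (measure_mono inter_subset_left)

/-- The length of `K` in a disk is at least the length of a chord of one arm and the radial lengths
of the rest. -/
theorem Branches.chord_le {x : ℂ} {s₀ : ℝ} {φ : Fin 3 → ℝ → ℝ} (h : Branches K x s₀ 3 φ)
    {r s : ℝ} (hr : 0 < r) (hrs : r ≤ s) (hs : s < s₀) (hfin : μH[1] (K ∩ closedBall x s) ≠ ⊤)
    (hK : MeasurableSet K) (i : Fin 3) :
    2 * s + r + dist (arm x (φ i) r) (arm x (φ i) s) ≤ Hn K x s := by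
  have hsub : Icc r s ⊆ Ioo 0 s₀ := fun t ht => ⟨hr.trans_le ht.1, ht.2.trans_lt hs⟩
  have hcont : ∀ j, ContinuousOn (arm x (φ j)) (Icc r s) := fun j =>
    (h.continuousOn_arm j).mono hsub
  let A : Fin 3 → Set ℂ := fun j => arm x (φ j) '' Icc r s
  have hA : ∀ j, IsCompact (A j) := fun j => isCompact_Icc.image_of_continuousOn (hcont j)
  have hAm : ∀ j, MeasurableSet (A j) := fun j => (hA j).isClosed.measurableSet
  have hAd : ∀ j, ∀ z ∈ A j, ∃ t ∈ Icc r s, dist z x = t ∧ z = arm x (φ j) t := by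
    rintro j _ ⟨t, ht, rfl⟩
    exact ⟨t, ht, dist_arm_center x (φ j) (hr.le.trans ht.1), rfl⟩
  have hdisj : Pairwise (Function.onFun Disjoint A) := by
    intro j k hjk
    rw [Function.onFun, Set.disjoint_left]
    intro z hz hz'
    obtain ⟨t, ht, h1, h2⟩ := hAd j z hz
    obtain ⟨t', ht', h1', h2'⟩ := hAd k z hz'
    obtain rfl : t = t' := h1.symm.trans h1'
    exact hjk (h.arm_inj (hsub ht) (h2.symm.trans h2'))
  have hB : (3 : ℝ≥0∞) * ENNReal.ofReal r ≤ μH[1] (K ∩ ball x r) := by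
    have h1 := eilenberg (X := ℂ) (f := fun z => dist z x) (LipschitzWith.dist_left x)
      (E := K) (m := 3) (S := Ioo 0 r) (fun t ht => by
        have ht' : t ∈ Ioo 0 s₀ := ⟨ht.1, ht.2.trans_le (hrs.trans hs.le)⟩
        have h2 : K ∩ (fun z => dist z x) ⁻¹' {t} = range fun i => arm x (φ i) t := by
          rw [← show K ∩ sphere x t = range fun i => arm x (φ i) t from h.eq t ht']
          rfl
        have h3 : Function.Injective fun i => arm x (φ i) t := fun j k hjk => h.arm_inj ht' hjk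
        rw [h2, ← image_univ, h3.encard_image, encard_univ]
        simp)
    rw [Real.volume_Ioo, sub_zero] at h1
    refine le_trans (by simpa using h1) (measure_mono ?_)
    rintro z ⟨hz, hz'⟩
    exact ⟨hz, hz'.2⟩
  have hBA : Disjoint (K ∩ ball x r) (⋃ j, A j) := by
    rw [Set.disjoint_left]
    rintro z ⟨-, hz⟩ hz'
    obtain ⟨j, hj⟩ := mem_iUnion.1 hz'
    obtain ⟨t, ht, h1, -⟩ := hAd j z hj
    exact absurd (mem_ball.1 hz) (by rw [h1]; exact not_lt.2 ht.1)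
  have hU : (K ∩ ball x r) ∪ (⋃ j, A j) ⊆ K ∩ closedBall x s := by
    rintro z (⟨hz, hz'⟩ | hz)
    · exact ⟨hz, ball_subset_closedBall.trans (closedBall_subset_closedBall hrs) hz'⟩
    · obtain ⟨j, hj⟩ := mem_iUnion.1 hz
      obtain ⟨t, ht, h1, rfl⟩ := hAd j z hj
      exact ⟨h.arm_mem j (hsub ht), by rw [mem_closedBall, h1]; exact ht.2⟩
  have hsum : μH[1] (K ∩ ball x r) + ∑ j, μH[1] (A j) ≤ μH[1] (K ∩ closedBall x s) := by
    have h1 : μH[1] (⋃ j, A j) = ∑ j, μH[1] (A j) := by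
      rw [measure_iUnion hdisj hAm, tsum_fintype]
    rw [← h1, ← measure_union hBA (MeasurableSet.iUnion hAm)]
    exact measure_mono hU
  have hd : ∀ j, s - r ≤ dist (arm x (φ j) r) (arm x (φ j) s) := by
    intro j
    have h1 := dist_triangle_left (arm x (φ j) s) x (arm x (φ j) r)
    rw [dist_arm_center x (φ j) (hr.le.trans hrs), dist_arm_center x (φ j) hr.le] at h1
    linarith
  have hlow : ENNReal.ofReal (2 * s + r + dist (arm x (φ i) r) (arm x (φ i) s)) ≤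
      μH[1] (K ∩ closedBall x s) := by
    refine le_trans ?_ hsum
    have h1 : ∀ j, ENNReal.ofReal (dist (arm x (φ j) r) (arm x (φ j) s)) ≤ μH[1] (A j) :=
      fun j => len_path_ge_arm hrs (hcont j)
    have h2 : ∑ j, ENNReal.ofReal (dist (arm x (φ j) r) (arm x (φ j) s)) ≤ ∑ j, μH[1] (A j) :=
      Finset.sum_le_sum fun j _ => h1 j
    refine le_trans ?_ (add_le_add hB h2)
    rw [← ENNReal.ofReal_sum_of_nonneg fun j _ => dist_nonneg,
      show (3 : ℝ≥0∞) = ENNReal.ofReal 3 by simp, ← ENNReal.ofReal_mul (by norm_num),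
      ← ENNReal.ofReal_add (by positivity) (Finset.sum_nonneg fun j _ => dist_nonneg)]
    refine ENNReal.ofReal_le_ofReal ?_
    have h3 : 2 * (s - r) + dist (arm x (φ i) r) (arm x (φ i) s) ≤
        ∑ j, dist (arm x (φ j) r) (arm x (φ j) s) := by
      rw [← Finset.sum_erase_add _ _ (Finset.mem_univ i)]
      refine add_le_add ?_ le_rfl
      have h4 : ∑ _j ∈ Finset.univ.erase i, (s - r) ≤
          ∑ j ∈ Finset.univ.erase i, dist (arm x (φ j) r) (arm x (φ j) s) :=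
        Finset.sum_le_sum fun j _ => hd j
      rw [Finset.sum_const, Finset.card_erase_of_mem (Finset.mem_univ i), Finset.card_univ,
        Fintype.card_fin] at h4
      simpa using h4
    linarith
  unfold Hn
  exact (ENNReal.ofReal_le_iff_le_toReal hfin).1 hlow

end Vale.Agent.P128.Q1
end

section

/-! P128, Q1, part V (TR7): the angles of the arms converge with a rate. Pure calculus. -/

open MeasureTheory Set Metric Filter
open scoped ENNReal NNReal Topology Real ContDiff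

namespace Vale.Agent.P128.Q1

open Vale.Agent.P128

theorem tr7_rpow_half {s₁ : ℝ} (hs₁ : 0 ≤ s₁) (k : ℕ) :
    (s₁ / 2 ^ k) ^ (1 / 4 : ℝ) = s₁ ^ (1 / 4 : ℝ) * ((1 / 2 : ℝ) ^ (1 / 4 : ℝ)) ^ k := by
  have e : s₁ / 2 ^ k = s₁ * (1 / 2 : ℝ) ^ k := by
    rw [one_div, inv_pow, div_eq_mul_inv]
  rw [e, Real.mul_rpow hs₁ (by positivity), ← Real.rpow_natCast, ← Real.rpow_natCast,
    ← Real.rpow_mul (by norm_num), ← Real.rpow_mul (by norm_num), mul_comm (k : ℝ)]

theorem tr7_rho : (1 / 2 : ℝ) ^ (1 / 4 : ℝ) < 1 :=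
  Real.rpow_lt_one (by norm_num) (by norm_num) (by norm_num)

theorem tr7_four {t : ℝ} (ht : 0 ≤ t) : (4 * t) ^ (1 / 4 : ℝ) ≤ 2 * t ^ (1 / 4 : ℝ) := by
  rw [Real.mul_rpow (by norm_num) ht]
  refine mul_le_mul_of_nonneg_right ?_ (Real.rpow_nonneg ht _)
  calc (4 : ℝ) ^ (1 / 4 : ℝ) ≤ 16 ^ (1 / 4 : ℝ) :=
        Real.rpow_le_rpow (by norm_num) (by norm_num) (by norm_num)
    _ = 2 := by
        rw [show (16 : ℝ) = 2 ^ (4 : ℝ) by norm_num, ← Real.rpow_mul (by norm_num)]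
        norm_num

/-- Angles that vary by at most `C s ^ (1/4)` over good dyadic steps converge with a rate. -/
theorem rate_of_good {ψ : ℝ → ℝ} {s₁ C : ℝ} (hs₁ : 0 < s₁) (hC : 0 ≤ C)
    (h : ∀ t, 0 < t → t ≤ s₁ → ∃ s ∈ Ioo (t / 2) t,
      ∀ r, s / 8 ≤ r → r ≤ s → |ψ s - ψ r| ≤ C * s ^ (1 / 4 : ℝ)) :
    ∃ a C' : ℝ, ∀ s, 0 < s → s < s₁ / 2 → |ψ s - a| ≤ C' * s ^ (1 / 4 : ℝ) := by
  set ρ : ℝ := (1 / 2 : ℝ) ^ (1 / 4 : ℝ) with hρ
  have hρ0 : 0 < ρ := by positivity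
  have hρ1 : ρ < 1 := tr7_rho
  set t : ℕ → ℝ := fun k => s₁ / 2 ^ k with ht
  have ht0 : ∀ k, 0 < t k := fun k => by positivity
  have ht1 : ∀ k, t k ≤ s₁ := fun k =>
    div_le_self hs₁.le (one_le_pow₀ (by norm_num))
  have htS : ∀ k, t (k + 1) = t k / 2 := fun k => by
    simp only [ht, pow_succ]
    rw [div_div]
  have htr : ∀ k, t k ^ (1 / 4 : ℝ) = s₁ ^ (1 / 4 : ℝ) * ρ ^ k := fun k =>
    tr7_rpow_half hs₁.le k
  choose s hs hg using fun k => h (t k) (ht0 k) (ht1 k)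
  have hs0 : ∀ k, 0 < s k := fun k => by linarith only [ht0 k, (hs k).1]
  have hlt : ∀ k, s (k + 1) < s k := fun k => by
    have h1 := (hs (k + 1)).2
    have h2 := (hs k).1
    rw [htS] at h1
    linarith only [h2, h1]
  have hgt : ∀ k, t k / 4 < s (k + 1) := fun k => by
    have h1 := (hs (k + 1)).1
    rw [htS] at h1
    linarith only [h1]
  have hpw : ∀ k, s k ^ (1 / 4 : ℝ) ≤ s₁ ^ (1 / 4 : ℝ) * ρ ^ k := fun k => by
    rw [← htr]
    exact Real.rpow_le_rpow (hs0 k).le (hs k).2.le (by norm_num)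
  have hstep : ∀ k, dist (ψ (s k)) (ψ (s (k + 1))) ≤ (C * s₁ ^ (1 / 4 : ℝ)) * ρ ^ k := by
    intro k
    rw [Real.dist_eq]
    refine (hg k (s (k + 1)) (by linarith [hgt k, (hs k).2, hs0 k]) (hlt k).le).trans ?_
    rw [mul_assoc]
    exact mul_le_mul_of_nonneg_left (hpw k) hC
  have hcau := cauchySeq_of_le_geometric ρ (C * s₁ ^ (1 / 4 : ℝ)) hρ1 hstep
  obtain ⟨a, ha⟩ := cauchySeq_tendsto_of_complete hcau
  have hlim : ∀ k, |ψ (s k) - a| ≤ C * t k ^ (1 / 4 : ℝ) / (1 - ρ) := by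
    intro k
    have := dist_le_of_le_geometric_of_tendsto ρ (C * s₁ ^ (1 / 4 : ℝ)) hρ1 hstep ha k
    rw [Real.dist_eq] at this
    rw [htr k, ← mul_assoc]
    exact this
  refine ⟨a, 2 * C + 2 * C / (1 - ρ), fun r hr hr1 => ?_⟩
  -- the good radii tend to zero
  have htend : Tendsto t atTop (𝓝 0) := by
    have h1 : Tendsto (fun k : ℕ => s₁ * (1 / 2 : ℝ) ^ k) atTop (𝓝 (s₁ * 0)) :=
      (tendsto_pow_atTop_nhds_zero_of_lt_one (by norm_num) (by norm_num)).const_mul s₁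
    rw [mul_zero] at h1
    refine h1.congr fun k => ?_
    simp only [ht]
    rw [one_div, inv_pow, div_eq_mul_inv]
  have hex : ∃ k, s k ≤ r := by
    obtain ⟨k, hk⟩ := ((tendsto_order.1 htend).2 r hr).exists
    exact ⟨k, ((hs k).2.trans hk).le⟩
  classical
  have hfind := Nat.find_spec hex
  have hne : Nat.find hex ≠ 0 := by
    intro h0
    rw [h0] at hfind
    have h1 := (hs 0).1
    have h2 : t 0 = s₁ := by simp [ht]
    rw [h2] at h1
    linarith only [h1, hfind, hr1]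
  obtain ⟨k, hk⟩ := Nat.exists_eq_succ_of_ne_zero hne
  have hk1 : s (k + 1) ≤ r := by rw [hk] at hfind; exact hfind
  have hk2 : r < s k := by
    have := Nat.find_min hex (m := k) (by omega)
    exact not_le.1 this
  have htk : t k ≤ 4 * r := by linarith [hgt k]
  have hA : |ψ (s k) - ψ r| ≤ C * s k ^ (1 / 4 : ℝ) :=
    hg k r (by linarith only [(hs k).2, hgt k, hk2, hk1]) hk2.le
  have hB : s k ^ (1 / 4 : ℝ) ≤ 2 * r ^ (1 / 4 : ℝ) :=
    (Real.rpow_le_rpow (hs0 k).le ((hs k).2.le.trans htk) (by norm_num)).trans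
      (tr7_four hr.le)
  have hD : t k ^ (1 / 4 : ℝ) ≤ 2 * r ^ (1 / 4 : ℝ) :=
    (Real.rpow_le_rpow (ht0 k).le htk (by norm_num)).trans (tr7_four hr.le)
  have h1ρ : 0 < 1 - ρ := by linarith only [hρ1]
  have hE : C * t k ^ (1 / 4 : ℝ) / (1 - ρ) ≤ (2 * C / (1 - ρ)) * r ^ (1 / 4 : ℝ) := by
    rw [div_mul_eq_mul_div]
    refine div_le_div_of_nonneg_right ?_ h1ρ.le
    calc C * t k ^ (1 / 4 : ℝ) ≤ C * (2 * r ^ (1 / 4 : ℝ)) := mul_le_mul_of_nonneg_left hD hC
      _ = 2 * C * r ^ (1 / 4 : ℝ) := by ring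
  have hF : C * s k ^ (1 / 4 : ℝ) ≤ 2 * C * r ^ (1 / 4 : ℝ) := by
    calc C * s k ^ (1 / 4 : ℝ) ≤ C * (2 * r ^ (1 / 4 : ℝ)) := mul_le_mul_of_nonneg_left hB hC
      _ = 2 * C * r ^ (1 / 4 : ℝ) := by ring
  have htri : |ψ r - a| ≤ |ψ (s k) - ψ r| + |ψ (s k) - a| := by
    have e : ψ r - a = -(ψ (s k) - ψ r) + (ψ (s k) - a) := by ring
    rw [e]
    exact (abs_add_le _ _).trans (by rw [abs_neg])
  rw [add_mul]
  linarith only [hlim k, htri, hF, hE, hA]

/-- Three directions with pairwise cosines at most `-1/2` are at angles of 120 degrees. -/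
theorem tr7_three {a : Fin 3 → ℝ} (h : ∀ i j, i ≠ j → Real.cos (a i - a j) ≤ -(1 / 2)) :
    ∀ i j, i ≠ j → Real.cos (a i - a j) = -(1 / 2) := by
  have h01 := h 0 1 (by decide)
  have h12 := h 1 2 (by decide)
  have h02 := h 0 2 (by decide)
  have e : (Real.cos (a 0) + Real.cos (a 1) + Real.cos (a 2)) ^ 2 +
      (Real.sin (a 0) + Real.sin (a 1) + Real.sin (a 2)) ^ 2 =
      3 + 2 * (Real.cos (a 0 - a 1) + Real.cos (a 1 - a 2) + Real.cos (a 0 - a 2)) := by
    rw [Real.cos_sub, Real.cos_sub, Real.cos_sub]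
    have e0 := Real.sin_sq_add_cos_sq (a 0)
    have e1 := Real.sin_sq_add_cos_sq (a 1)
    have e2 := Real.sin_sq_add_cos_sq (a 2)
    linear_combination e0 + e1 + e2
  have hp : 0 ≤ (Real.cos (a 0) + Real.cos (a 1) + Real.cos (a 2)) ^ 2 +
      (Real.sin (a 0) + Real.sin (a 1) + Real.sin (a 2)) ^ 2 := by positivity
  have g01 : Real.cos (a 0 - a 1) = -(1 / 2) := by linarith
  have g12 : Real.cos (a 1 - a 2) = -(1 / 2) := by linarith
  have g02 : Real.cos (a 0 - a 2) = -(1 / 2) := by linarith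
  have hs : ∀ x y : ℝ, Real.cos (x - y) = Real.cos (y - x) := fun x y => by
    rw [← Real.cos_neg, neg_sub]
  intro i j hij
  fin_cases i <;> fin_cases j
  · exact absurd rfl hij
  · exact g01
  · exact g02
  · exact (hs _ _).trans g01
  · exact absurd rfl hij
  · exact g12
  · exact (hs _ _).trans g02
  · exact (hs _ _).trans g12
  · exact absurd rfl hij

/-- `tripod_rates'` from the good radii (the hypothesis `hg` is `Branches.good`). -/
theorem tripod_rates_of_good {s₀ : ℝ} {φ : Fin 3 → ℝ → ℝ}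
    (hg : ∃ s₁ > 0, s₁ < s₀ ∧ ∃ C : ℝ, 0 ≤ C ∧ ∀ t, 0 < t → t ≤ s₁ → ∃ s ∈ Ioo (t / 2) t,
      (∀ i, ∀ r, s / 8 ≤ r → r ≤ s → |φ i s - φ i r| ≤ C * s ^ (1 / 4 : ℝ)) ∧
      ∀ i j, i ≠ j → Real.cos (φ i s - φ j s) ≤ -(1 / 2) + C * s ^ (1 / 4 : ℝ)) :
    ∃ (s₁ : ℝ) (a : Fin 3 → ℝ), 0 < s₁ ∧ s₁ ≤ s₀ ∧ Rates s₁ 3 φ a ∧
      ∀ i j, i ≠ j → Real.cos (a i - a j) = -(1 / 2) := by
  obtain ⟨s₁, hs₁, hs₀, C, hC, H⟩ := hg
  have h1 : ∀ i, ∃ a C' : ℝ, ∀ s, 0 < s → s < s₁ / 2 → |φ i s - a| ≤ C' * s ^ (1 / 4 : ℝ) :=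
    fun i => rate_of_good hs₁ hC fun t ht ht1 => by
      obtain ⟨s, hs, hs2, -⟩ := H t ht ht1
      exact ⟨s, hs, hs2 i⟩
  choose a C' ha using h1
  set D : ℝ := ∑ i, |C' i| with hD
  have hD0 : 0 ≤ D := Finset.sum_nonneg fun i _ => abs_nonneg _
  have hCD : ∀ i, C' i ≤ D := fun i => (le_abs_self _).trans
    (Finset.single_le_sum (f := fun i => |C' i|) (fun j _ => abs_nonneg _) (Finset.mem_univ i))
  have ha' : ∀ i, ∀ s, 0 < s → s < s₁ / 2 → |φ i s - a i| ≤ D * s ^ (1 / 4 : ℝ) :=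
    fun i s hs hs2 => (ha i s hs hs2).trans
      (mul_le_mul_of_nonneg_right (hCD i) (Real.rpow_nonneg hs.le _))
  refine ⟨s₁ / 2, a, by positivity, by linarith, ⟨D, 1 / 4, by norm_num, fun i s hs =>
    ha' i s hs.1 hs.2⟩, tr7_three fun i j hij => ?_⟩
  apply le_of_forall_pos_le_add
  intro ε hε
  set E : ℝ := C + 2 * D + 1 with hE
  have hE0 : 0 < E := by (clear * - hC; positivity)
  set t : ℝ := min (s₁ / 4) ((ε / E) ^ 4) with ht
  have ht0 : 0 < t := lt_min (by positivity) (by positivity)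
  have ht1 : t ≤ s₁ / 4 := min_le_left _ _
  obtain ⟨s, hs, -, hs2⟩ := H t ht0 (by linarith)
  have hs0 : 0 < s := by linarith [hs.1]
  have hpw : s ^ (1 / 4 : ℝ) ≤ ε / E := by
    calc s ^ (1 / 4 : ℝ) ≤ ((ε / E) ^ 4) ^ (1 / 4 : ℝ) :=
          Real.rpow_le_rpow hs0.le (hs.2.le.trans (min_le_right _ _)) (by norm_num)
      _ = ε / E := by
          rw [← Real.rpow_natCast, ← Real.rpow_mul (by (clear * - hε hC; positivity))]
          norm_num
  have hc := hs2 i j hij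
  have hi := ha' i s hs0 (by linarith only [hs.2, hs0, ht1])
  have hj := ha' j s hs0 (by linarith only [hs.2, hs0, ht1])
  have hlip : |Real.cos (a i - a j) - Real.cos (φ i s - φ j s)| ≤ 2 * D * s ^ (1 / 4 : ℝ) := by
    have h2 : |Real.cos (a i - a j) - Real.cos (φ i s - φ j s)| ≤
        |(a i - a j) - (φ i s - φ j s)| := by
      have := Real.lipschitzWith_cos.dist_le_mul (a i - a j) (φ i s - φ j s)
      rwa [Real.dist_eq, Real.dist_eq, NNReal.coe_one, one_mul] at this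
    refine h2.trans ?_
    have e : (a i - a j) - (φ i s - φ j s) = -(φ i s - a i) + (φ j s - a j) := by ring
    rw [e]
    calc |-(φ i s - a i) + (φ j s - a j)| ≤ |-(φ i s - a i)| + |φ j s - a j| := abs_add_le _ _
      _ = |φ i s - a i| + |φ j s - a j| := by rw [abs_neg]
      _ ≤ 2 * D * s ^ (1 / 4 : ℝ) := by linarith only [hj, hi]
  have h3 := (le_abs_self _).trans hlip
  have h4 : E * s ^ (1 / 4 : ℝ) ≤ ε := by
    have := mul_le_mul_of_nonneg_left hpw hE0.le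
    rwa [mul_div_cancel₀ _ hE0.ne'] at this
  have h5 : 0 ≤ s ^ (1 / 4 : ℝ) := Real.rpow_nonneg hs0.le _
  have h6 : E * s ^ (1 / 4 : ℝ) = C * s ^ (1 / 4 : ℝ) + 2 * D * s ^ (1 / 4 : ℝ) +
      s ^ (1 / 4 : ℝ) := by rw [hE]; ring
  linarith only [h5, h4, h3, hc]

end Vale.Agent.P128.Q1
end

section

/-! Part VI.2: admissibility and comparison. -/

open MeasureTheory Set Metric Filter
open scoped ENNReal NNReal ContDiff Topology Real

namespace Vale.Agent.P128.Q1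

open Vale.Agent.P128

variable {Ω : Set ℂ} {g u : ℂ → ℝ} {G : ℂ → ℂ} {K : Set ℂ} {M : ℝ} {x₀ : ℂ} {R₀ : ℝ}
variable {x e : ℂ} {s η t : ℝ} {Ψ : ℂ ≃ₜ ℂ}

/-! ### Set theory of the displacement -/

theorem tp_symm_mem (hD : Disp x e s η t Ψ) {z : ℂ} (hz : z ∈ closedBall x (s + η)) :
    Ψ.symm z ∈ closedBall x (s + η) := by
  rw [mem_closedBall] at hz ⊢
  rcases lt_or_eq_of_le hz with h | h
  · have := (hD.mem_ball (z := Ψ.symm z)).1 (by rwa [Ψ.apply_symm_apply])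
    exact this.le
  · rw [hD.outer_symm h.ge]; exact hz

theorem tp_symm_mem_iff (hD : Disp x e s η t Ψ) (hB : closedBall x (s + η) ⊆ Ω) (z : ℂ) :
    Ψ.symm z ∈ Ω ↔ z ∈ Ω := by
  by_cases hz : z ∈ closedBall x (s + η)
  · exact ⟨fun _ => hB hz, fun _ => hB (tp_symm_mem hD hz)⟩
  · rw [mem_closedBall, not_le] at hz
    rw [hD.outer_symm hz.le]

theorem tp_mem_image (Ψ : ℂ ≃ₜ ℂ) (K : Set ℂ) (z : ℂ) : z ∈ Ψ '' K ↔ Ψ.symm z ∈ K := by
  constructor
  · rintro ⟨w, hw, rfl⟩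
    rwa [Ψ.symm_apply_apply]
  · intro h
    exact ⟨Ψ.symm z, h, Ψ.apply_symm_apply z⟩

theorem tp_sub_Omega (h : MS Ω g u G K M x₀ R₀)
    (hsub : closedBall x (s + η) ⊆ closedBall x₀ (4 * R₀)) : closedBall x (s + η) ⊆ Ω :=
  hsub.trans h.sub

theorem tp_diff_eq (hD : Disp x e s η t Ψ) (hB : closedBall x (s + η) ⊆ Ω) :
    Ω \ Ψ '' K = Ψ.symm ⁻¹' (Ω \ K) := by
  ext z
  rw [mem_preimage, Set.mem_sdiff, Set.mem_sdiff, tp_mem_image, tp_symm_mem_iff hD hB]

theorem tp_locLip (h : MS Ω g u G K M x₀ R₀) (hD : Disp x e s η t Ψ)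
    (hsub : closedBall x (s + η) ⊆ closedBall x₀ (4 * R₀)) :
    IsOpen (Ω \ Ψ '' K) ∧ GM.LocLip (Ω \ Ψ '' K) (tpU u Ψ) := by
  have hB := tp_sub_Omega h hsub
  have hO : IsOpen (Ω \ K) := h.N.min.1.isOpen_diff h.N.isOpen
  rw [tp_diff_eq hD hB]
  refine ⟨hO.preimage Ψ.symm.continuous, fun z hz => ?_⟩
  obtain ⟨C, r, hr, hrU, hL⟩ := GM.LocLip.of_contDiffOn hO h.c1 (Ψ.symm z) hz
  have hmap : ∀ y ∈ ball z (r / 2), Ψ.symm y ∈ ball (Ψ.symm z) r := by
    intro y hy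
    rw [mem_ball] at hy ⊢
    have := hD.lip_symm.dist_le_mul y z
    push_cast at this
    linarith
  refine ⟨C * 2, r / 2, half_pos hr, fun y hy => hrU (hmap y hy), ?_⟩
  exact hL.comp (hD.lip_symm.lipschitzOnWith (s := ball z (r / 2))) hmap

/-! ### Change of variables inequality -/

theorem tp_volume_image_le (hD : Disp x e s η t Ψ) (A : Set ℂ) :
    volume (Ψ '' A) ≤ 4 * volume A := by
  have hfin : Module.finrank ℝ ℂ = 2 := Complex.finrank_real_complex
  have hH : (μH[(2 : ℝ)] : Measure ℂ).IsAddHaarMeasure := by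
    have := (inferInstance : (μH[(Module.finrank ℝ ℂ : ℝ)] : Measure ℂ).IsAddHaarMeasure)
    rw [hfin] at this
    exact_mod_cast this
  have hsc : (volume : Measure ℂ) =
      (Measure.addHaarScalarFactor (volume : Measure ℂ) μH[(2 : ℝ)]) • (μH[(2 : ℝ)] : Measure ℂ) :=
    Measure.isAddLeftInvariant_eq_smul _ _
  have h1 := hD.lip.hausdorffMeasure_image_le (d := 2) (by norm_num) A
  rw [hsc]
  simp only [Measure.smul_apply, ENNReal.smul_def, smul_eq_mul]
  calc _ ≤ ((Measure.addHaarScalarFactor (volume : Measure ℂ) μH[(2 : ℝ)] : ℝ≥0) : ℝ≥0∞) *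
        (((2 : ℝ≥0) : ℝ≥0∞) ^ (2 : ℝ) * μH[(2 : ℝ)] A) := by gcongr
    _ = _ := by
      have : (((2 : ℝ≥0) : ℝ≥0∞) ^ (2 : ℝ)) = 4 := by
        rw [ENNReal.rpow_two]; norm_num
      rw [this]
      ring

theorem tp_map_le (hD : Disp x e s η t Ψ) :
    Measure.map Ψ.symm (volume : Measure ℂ) ≤ (4 : ℝ≥0∞) • (volume : Measure ℂ) := by
  rw [Measure.le_iff]
  intro A hA
  rw [Measure.map_apply Ψ.symm.continuous.measurable hA]
  have : Ψ.symm ⁻¹' A = Ψ '' A := by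
    ext z; rw [tp_mem_image, mem_preimage]
  rw [this]
  simpa using tp_volume_image_le hD A

theorem tp_memLp_comp {E : Type*} [NormedAddCommGroup E] (hD : Disp x e s η t Ψ) {f : ℂ → E}
    (hf : MemLp f 2 (volume : Measure ℂ)) : MemLp (fun z => f (Ψ.symm z)) 2 volume := by
  have h1 : MemLp f 2 (Measure.map Ψ.symm (volume : Measure ℂ)) :=
    (hf.smul_measure (c := 4) (by norm_num)).mono_measure (tp_map_le hD)
  exact h1.comp_of_map Ψ.symm.continuous.measurable.aemeasurable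

theorem tp_grad_le (h : MS Ω g u G K M x₀ R₀) (hD : Disp x e s η t Ψ)
    (hB : closedBall x (s + η) ⊆ Ω) :
    ∀ᵐ z, ‖tpG Ω u K Ψ z‖ ≤ 2 * ‖G (Ψ.symm z)‖ := by
  have hO : IsOpen (Ω \ K) := h.N.min.1.isOpen_diff h.N.isOpen
  filter_upwards [hD.lip_symm.ae_differentiableAt (μ := (volume : Measure ℂ))] with z hz
  unfold tpG
  by_cases hzm : z ∈ Ω \ Ψ '' K
  · rw [indicator_of_mem hzm]
    rw [tp_diff_eq hD hB] at hzm
    have hz' : Ψ.symm z ∈ Ω \ K := hzm
    have hu : DifferentiableAt ℝ u (Ψ.symm z) :=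
      (h.c1.contDiffAt (hO.mem_nhds hz')).differentiableAt (by norm_num)
    rw [h.Gu _ hz', GM.norm_grad, GM.norm_grad]
    have e1 : fderiv ℝ (tpU u Ψ) z = (fderiv ℝ u (Ψ.symm z)).comp (fderiv ℝ Ψ.symm z) := by
      exact (hu.hasFDerivAt.comp z hz.hasFDerivAt).fderiv
    rw [e1]
    refine (ContinuousLinearMap.opNorm_comp_le _ _).trans ?_
    have h2 : ‖fderiv ℝ Ψ.symm z‖ ≤ 2 := by
      simpa using norm_fderiv_le_of_lipschitz ℝ hD.lip_symm (x₀ := z)
    rw [mul_comm]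
    gcongr
  · rw [indicator_of_notMem hzm]
    simp

theorem tp_memLp_tpG (h : MS Ω g u G K M x₀ R₀) (hD : Disp x e s η t Ψ)
    (hsub : closedBall x (s + η) ⊆ closedBall x₀ (4 * R₀)) :
    MemLp (tpG Ω u K Ψ) 2 (volume : Measure ℂ) := by
  have hB := tp_sub_Omega h hsub
  have h1 := tp_memLp_comp hD h.N.G_memLp
  refine MemLp.of_le_mul h1 ?_ (tp_grad_le h hD hB)
  exact ((GM.measurable_grad _).indicator (tp_locLip h hD hsub).1.measurableSet).aestronglyMeasurable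

theorem tp_adm (h : MS Ω g u G K M x₀ R₀) (hD : Disp x e s η t Ψ)
    (hsub : closedBall x (s + η) ⊆ closedBall x₀ (4 * R₀)) :
    Admissible Ω (tpU u Ψ) (tpG Ω u K Ψ) (Ψ '' K) := by
  have hB := tp_sub_Omega h hsub
  obtain ⟨hO', hLL⟩ := tp_locLip h hD hsub
  refine
    { subset := ?_
      relClosed := ?_
      finite := ?_
      memLp := (tp_memLp_comp hD h.N.u_memLp).restrict _
      grad_memLp := (tp_memLp_tpG h hD hsub).restrict _
      weak := ?_ }
  · intro z hz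
    rw [tp_mem_image] at hz
    exact (tp_symm_mem_iff hD hB z).1 (h.N.min.1.subset hz)
  · rintro z ⟨hzΩ, hz⟩
    rw [← Ψ.image_closure, tp_mem_image] at hz
    rw [tp_mem_image]
    exact h.N.min.1.relClosed ⟨(tp_symm_mem_iff hD hB z).2 hzΩ, hz⟩
  · have h1 := hD.lip.hausdorffMeasure_image_le (d := 1) (by norm_num) K
    refine h1.trans_lt (ENNReal.mul_lt_top ?_ h.N.min.1.finite)
    simp
  · refine (hLL.isWeakGrad hO').congr (ae_eq_refl _) ?_
    refine (ae_restrict_iff' hO'.measurableSet).2 (Eventually.of_forall fun z hz => ?_)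
    unfold tpG
    rw [indicator_of_mem hz]

theorem tpAdm_energy {w : ℂ → ℝ} {H : ℂ → ℂ} {L : Set ℂ} (N : Nice Ω g u G K M)
    (hw : MemLp w 2 (volume : Measure ℂ)) (hH : MemLp H 2 (volume : Measure ℂ))
    (hH0 : ∀ z ∈ L, H z = 0) (hLf : μH[1] L < ⊤) {r : ℝ} (hr : 0 < r) :
    energy g w H L (closedBall x r) = ENNReal.ofReal (En H x r + Hn L x r + Un g w x r) := by
  have hug : MemLp (fun z => w z - g z) 2 (volume.restrict (closedBall x r)) :=
    (hw.restrict _).sub (N.g_memLp measure_closedBall_lt_top.ne)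
  rw [energy_eq_ofReal ((hH.restrict _).norm.integrable_sq) hug.integrable_sq]
  have e1 : ∫ z in closedBall x r \ L, ‖H z‖ ^ 2 = En H x r := by
    unfold En
    rw [← setIntegral_congr_set (closedBall_ae_eq_ball x hr)]
    have : closedBall x r \ L ⊆ closedBall x r := sdiff_subset
    refine (setIntegral_eq_of_subset_of_forall_sdiff_eq_zero
      isClosed_closedBall.measurableSet this ?_).symm
    intro z hz
    have : z ∈ L := by
      by_contra hc
      exact hz.2 ⟨hz.1, hc⟩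
    rw [hH0 z this]
    simp
  have e2 : ∫ z in closedBall x r, (w z - g z) ^ 2 = Un g w x r := by
    unfold Un
    rw [← setIntegral_congr_set (closedBall_ae_eq_ball x hr)]
  have hfin : μH[1] (L ∩ closedBall x r) ≠ ⊤ :=
    ((measure_mono inter_subset_left).trans_lt hLf).ne
  have p1 : 0 ≤ En H x r := integral_nonneg fun _ => by positivity
  have p2 : 0 ≤ Un g w x r := integral_nonneg fun _ => by positivity
  have p3 : 0 ≤ Hn L x r := ENNReal.toReal_nonneg
  rw [e1, e2, ENNReal.ofReal_add (by positivity) p2, ENNReal.ofReal_add p1 p3]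
  congr 2
  exact (ENNReal.ofReal_toReal hfin).symm

theorem tp_compare (h : MS Ω g u G K M x₀ R₀) (hD : Disp x e s η t Ψ) {R : ℝ} (hR : s + η < R)
    (hsub : closedBall x R ⊆ closedBall x₀ (4 * R₀)) :
    En G x (s + η) + Hn K x (s + η) + Un g u x (s + η) ≤
      En (tpG Ω u K Ψ) x (s + η) + Hn (Ψ '' K) x (s + η) + Un g (tpU u Ψ) x (s + η) := by
  have hsub' : closedBall x (s + η) ⊆ closedBall x₀ (4 * R₀) :=
    (closedBall_subset_closedBall hR.le).trans hsub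
  have hRΩ : closedBall x R ⊆ Ω := hsub.trans h.sub
  have hB : closedBall x (s + η) ⊆ Ω := tp_sub_Omega h hsub'
  have hr : 0 < s + η := by have := hD.s0; have := hD.η0; linarith
  have hadm := tp_adm h hD hsub'
  have hoff : ∀ z ∉ closedBall x (s + η), Ψ.symm z = z := by
    intro z hz
    rw [mem_closedBall, not_le] at hz
    exact hD.outer_symm hz.le
  have hcomp := h.N.compare hR hRΩ hadm
    (fun z hz => by unfold tpU; rw [hoff z hz])
    (fun z hz => by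
      have hev : tpU u Ψ =ᶠ[𝓝 z] u := by
        filter_upwards [isClosed_closedBall.isOpen_compl.mem_nhds hz] with y hy
        unfold tpU; rw [hoff y hy]
      unfold tpG
      by_cases hz' : z ∈ Ω \ K
      · have hz'' : z ∈ Ω \ Ψ '' K := by
          rw [Set.mem_sdiff, tp_mem_image, hoff z hz]; exact hz'
        rw [indicator_of_mem hz'', GM.grad_congr hev, h.Gu z hz']
      · have hz'' : z ∉ Ω \ Ψ '' K := by
          rw [Set.mem_sdiff, tp_mem_image, hoff z hz]; exact hz'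
        rw [indicator_of_notMem hz'', h.N.G0 z hz'])
    (fun z hz => by rw [tp_mem_image, hoff z hz])
  rw [h.N.energy_closedBall hr hB, tpAdm_energy (w := tpU u Ψ) h.N (tp_memLp_comp hD h.N.u_memLp)
    (tp_memLp_tpG h hD hsub') (fun z hz => by
      unfold tpG
      exact indicator_of_notMem (fun h' => h'.2 hz) _) hadm.finite hr] at hcomp
  refine (ENNReal.ofReal_le_ofReal_iff ?_).mp hcomp
  have p1 : 0 ≤ En (tpG Ω u K Ψ) x (s + η) := integral_nonneg fun _ => by positivity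
  have p2 : 0 ≤ Un g (tpU u Ψ) x (s + η) := integral_nonneg fun _ => by positivity
  have p3 : 0 ≤ Hn (Ψ '' K) x (s + η) := ENNReal.toReal_nonneg
  positivity

end Vale.Agent.P128.Q1
end

section

/-! Part VI.2: the fidelity term. -/

open MeasureTheory Set Metric Filter
open scoped ENNReal NNReal ContDiff Topology Real

namespace Vale.Agent.P128.Q1

open Vale.Agent.P128

variable {Ω : Set ℂ} {g u : ℂ → ℝ} {G : ℂ → ℂ} {K : Set ℂ} {M : ℝ} {x₀ : ℂ} {R₀ : ℝ}
variable {x e : ℂ} {s η t : ℝ} {Ψ : ℂ ≃ₜ ℂ}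

/-- along a segment the oscillation is at most the integral of the gradient -/
theorem tpFid_seg {U : Set ℂ} (hU : IsOpen U) {u : ℂ → ℝ} {G : ℂ → ℂ}
    (c1 : ContDiffOn ℝ 1 u U) (Gu : ∀ z ∈ U, G z = grad u z) {e : ℂ} (he : ‖e‖ = 1) {z : ℂ}
    {τ₀ : ℝ} (h0 : 0 ≤ τ₀) (hz : ∀ τ ∈ Icc 0 τ₀, z - τ * e ∈ U) :
    ‖u (z - τ₀ * e) - u z‖ₑ ≤ ∫⁻ τ in Icc 0 τ₀, ‖G (z - τ * e)‖ₑ := by
  have hcf : ContinuousOn (fderiv ℝ u) U := c1.continuousOn_fderiv_of_isOpen hU le_rfl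
  have hpath : Continuous fun τ : ℝ => z - τ * e := by fun_prop
  have hder : ∀ τ ∈ uIcc 0 τ₀, HasDerivAt (fun τ : ℝ => u (z - τ * e))
      (fderiv ℝ u (z - τ * e) (-e)) τ := by
    intro τ hτ
    rw [uIcc_of_le h0] at hτ
    have h1 : HasFDerivAt u (fderiv ℝ u (z - τ * e)) (z - τ * e) :=
      ((c1.differentiableOn (by norm_num)).differentiableAt (hU.mem_nhds (hz τ hτ))).hasFDerivAt
    have h2 : HasDerivAt (fun τ : ℝ => z - τ * e) (-e) τ := by
      have := ((Complex.ofRealCLM.hasDerivAt (x := τ)).mul_const e).const_sub z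
      simpa using this
    exact h1.comp_hasDerivAt τ h2
  have hint : IntervalIntegrable (fun τ : ℝ => fderiv ℝ u (z - τ * e) (-e)) volume 0 τ₀ := by
    apply ContinuousOn.intervalIntegrable
    rw [uIcc_of_le h0]
    have h3 : ContinuousOn (fun τ : ℝ => fderiv ℝ u (z - τ * e)) (Icc 0 τ₀) :=
      hcf.comp hpath.continuousOn (fun τ hτ => hz τ hτ)
    exact h3.clm_apply continuousOn_const
  have hftc := intervalIntegral.integral_eq_sub_of_hasDerivAt hder hint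
  have e0 : z - ((0 : ℝ) : ℂ) * e = z := by simp
  rw [e0] at hftc
  rw [← hftc, intervalIntegral.integral_of_le h0]
  refine (enorm_integral_le_lintegral_enorm _).trans ?_
  refine (lintegral_mono_set Ioc_subset_Icc_self).trans ?_
  refine setLIntegral_mono' measurableSet_Icc ?_
  intro τ hτ
  rw [Gu _ (hz τ hτ), ← inner_grad]
  have h4 : ‖(inner ℝ (grad u (z - τ * e)) (-e) : ℝ)‖ ≤ ‖grad u (z - τ * e)‖ := by
    have := norm_inner_le_norm (𝕜 := ℝ) (grad u (z - τ * e)) (-e)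
    rwa [norm_neg, he, mul_one] at this
  rw [← ofReal_norm, ← ofReal_norm]
  exact ENNReal.ofReal_le_ofReal h4

theorem tpFid_core {Ω K : Set ℂ} {g u w : ℂ → ℝ} {G : ℂ → ℂ} {M s η t : ℝ} {x e : ℂ}
    (he : ‖e‖ = 1) (hη : 0 < η) (ht : 0 < t) (htη : 2 * t ≤ η) (hM : 0 ≤ M)
    (hΩK : IsOpen (Ω \ K)) (hsub : closedBall x (s + 2 * η) ⊆ Ω)
    (gm : Measurable g) (um : Measurable u) (wm : Measurable w) (Gm : Measurable G)
    (gb : ∀ z, |g z| ≤ M) (ub : ∀ z ∈ closedBall x (s + 2 * η), |u z| ≤ M)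
    (wb : ∀ z ∈ ball x (s + η), |w z| ≤ M)
    (c1 : ContDiffOn ℝ 1 u (Ω \ K)) (Gu : ∀ z ∈ Ω \ K, G z = grad u z)
    (G2 : MemLp G 2 (volume.restrict (Ω \ K))) (G0 : ∀ z ∉ Ω \ K, G z = 0)
    (hw : ∀ z, ∃ τ ∈ Icc 0 t, w z = u (z - τ * e))
    (hstrip : volume {z : ℂ | ∃ τ ∈ Icc 0 t, z - τ * e ∈ K ∩ closedBall x (s + 2 * η)} ≤
      ENNReal.ofReal t * μH[1] (K ∩ closedBall x (s + 2 * η)))
    (hfin : μH[1] K < ⊤) :
    Un g w x (s + η) ≤ Un g u x (s + η) +
      4 * M * t * ((∫ z in ball x (s + 2 * η), ‖G z‖) + 2 * M * Hn K x (s + 2 * η)) := by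
  set B0 := ball x (s + η) with hB0
  set B1 := ball x (s + 2 * η) with hB1
  set S := K ∩ closedBall x (s + 2 * η) with hS
  set T : Set ℂ := {z : ℂ | ∃ τ ∈ Icc 0 t, z - τ * e ∈ S} with hT
  have hB01 : B0 ⊆ closedBall x (s + 2 * η) := by
    intro z hz
    rw [hB0, mem_ball] at hz
    rw [mem_closedBall]; linarith
  -- distance of the moved points
  have hmove : ∀ z ∈ B0, ∀ τ ∈ Icc 0 t, z - τ * e ∈ B1 := by
    intro z hz τ hτ
    rw [hB0, mem_ball] at hz
    rw [hB1, mem_ball]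
    have h1 : dist (z - τ * e) z = τ := by
      rw [dist_eq_norm]
      have : z - τ * e - z = -(τ * e) := by ring
      rw [this, norm_neg, norm_mul, he, mul_one, Complex.norm_real, Real.norm_eq_abs,
        abs_of_nonneg hτ.1]
    have h2 := dist_triangle (z - τ * e) z x
    have h3 := hτ.2
    linarith
  -- pointwise estimate
  have hpt : ∀ z ∈ B0, ‖w z - u z‖ₑ ≤
      (toMeasurable volume T).indicator (fun _ => ENNReal.ofReal (2 * M)) z +
        ∫⁻ τ in Icc 0 t, ‖G (z - τ * e)‖ₑ := by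
    intro z hz
    by_cases hzT : z ∈ T
    · rw [indicator_of_mem (subset_toMeasurable _ _ hzT)]
      refine le_trans ?_ (le_add_right le_rfl)
      rw [← ofReal_norm]
      apply ENNReal.ofReal_le_ofReal
      have h1 := wb z hz
      have h2 := ub z (hB01 hz)
      calc ‖w z - u z‖ ≤ ‖w z‖ + ‖u z‖ := norm_sub_le _ _
        _ ≤ 2 * M := by rw [Real.norm_eq_abs, Real.norm_eq_abs]; linarith
    · refine le_trans ?_ (le_add_left le_rfl)
      obtain ⟨τ₀, hτ₀, hw0⟩ := hw z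
      have hU : ∀ τ ∈ Icc 0 τ₀, z - τ * e ∈ Ω \ K := by
        intro τ hτ
        have h1 : τ ∈ Icc 0 t := ⟨hτ.1, hτ.2.trans hτ₀.2⟩
        have h2 := ball_subset_closedBall (hmove z hz τ h1)
        exact ⟨hsub h2, fun h3 => hzT ⟨τ, h1, h3, h2⟩⟩
      rw [hw0]
      refine (tpFid_seg hΩK c1 Gu he hτ₀.1 hU).trans ?_
      exact lintegral_mono_set (Icc_subset_Icc_right hτ₀.2)
  -- the Tonelli estimate
  have hGe : Measurable fun p : ℂ × ℝ => ‖G (p.1 - p.2 * e)‖ₑ := by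
    apply (Gm.comp _).enorm
    fun_prop
  have hton : ∫⁻ z in B0, ∫⁻ τ in Icc 0 t, ‖G (z - τ * e)‖ₑ ≤
      ENNReal.ofReal t * ∫⁻ z in B1, ‖G z‖ₑ := by
    rw [lintegral_lintegral_swap hGe.aemeasurable]
    calc ∫⁻ τ in Icc 0 t, ∫⁻ z in B0, ‖G (z - τ * e)‖ₑ
        ≤ ∫⁻ τ in Icc 0 t, ∫⁻ z in B1, ‖G z‖ₑ := by
          refine setLIntegral_mono' measurableSet_Icc ?_
          intro τ hτ
          rw [← lintegral_indicator measurableSet_ball, ← lintegral_indicator measurableSet_ball]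
          calc ∫⁻ z, B0.indicator (fun z => ‖G (z - τ * e)‖ₑ) z
              ≤ ∫⁻ z, B1.indicator (fun z => ‖G z‖ₑ) (z - τ * e) := by
                refine lintegral_mono ?_
                intro z
                by_cases hz : z ∈ B0
                · rw [indicator_of_mem hz]
                  show ‖G (z - τ * e)‖ₑ ≤ B1.indicator (fun z => ‖G z‖ₑ) (z - τ * e)
                  rw [indicator_of_mem (hmove z hz τ hτ)]
                · rw [indicator_of_notMem hz]; exact bot_le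
            _ = ∫⁻ z, B1.indicator (fun z => ‖G z‖ₑ) z :=
                lintegral_sub_right_eq_self _ _
      _ = ENNReal.ofReal t * ∫⁻ z in B1, ‖G z‖ₑ := by
          rw [setLIntegral_const, Real.volume_Icc, sub_zero, mul_comm]
  -- total
  have htot : ∫⁻ z in B0, ‖w z - u z‖ₑ ≤
      ENNReal.ofReal (2 * M) * (ENNReal.ofReal t * μH[1] S) +
        ENNReal.ofReal t * ∫⁻ z in B1, ‖G z‖ₑ := by
    calc ∫⁻ z in B0, ‖w z - u z‖ₑ
        ≤ ∫⁻ z in B0, ((toMeasurable volume T).indicator (fun _ => ENNReal.ofReal (2 * M)) z +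
          ∫⁻ τ in Icc 0 t, ‖G (z - τ * e)‖ₑ) := setLIntegral_mono' measurableSet_ball hpt
      _ = (∫⁻ z in B0, (toMeasurable volume T).indicator (fun _ => ENNReal.ofReal (2 * M)) z) +
          ∫⁻ z in B0, ∫⁻ τ in Icc 0 t, ‖G (z - τ * e)‖ₑ := by
          rw [lintegral_add_left]
          exact measurable_const.indicator (measurableSet_toMeasurable _ _)
      _ ≤ _ := by
          refine add_le_add ?_ hton
          rw [lintegral_indicator_const (measurableSet_toMeasurable _ _)]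
          gcongr
          calc (volume.restrict B0) (toMeasurable volume T) ≤ volume (toMeasurable volume T) :=
                Measure.restrict_apply_le _ _
            _ = volume T := measure_toMeasurable _
            _ ≤ _ := hstrip
  have hSfin : μH[1] S < ⊤ := lt_of_le_of_lt (measure_mono inter_subset_left) hfin
  -- integrability of `G`
  have hGint : IntegrableOn G B1 volume := by
    have h1 : MemLp G 2 volume := by
      have : G = (Ω \ K).indicator G := by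
        ext z
        by_cases hz : z ∈ Ω \ K
        · rw [indicator_of_mem hz]
        · rw [indicator_of_notMem hz, G0 z hz]
      rw [this]
      exact (memLp_indicator_iff_restrict hΩK.measurableSet).mpr G2
    have h2 : MemLp G 2 (volume.restrict B1) := h1.restrict _
    have : IsFiniteMeasure (volume.restrict B1) :=
      ⟨by rw [Measure.restrict_apply_univ]; exact measure_ball_lt_top⟩
    exact memLp_one_iff_integrable.mp (h2.mono_exponent (by norm_num))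
  have hGfin : ∫⁻ z in B1, ‖G z‖ₑ < ⊤ := hGint.2
  have hGeq : ∫ z in B1, ‖G z‖ = (∫⁻ z in B1, ‖G z‖ₑ).toReal :=
    integral_norm_eq_lintegral_enorm hGint.1
  -- real form
  have hreal : ∫ z in B0, ‖w z - u z‖ ≤ t * ((∫ z in B1, ‖G z‖) + 2 * M * Hn K x (s + 2 * η)) := by
    rw [integral_norm_eq_lintegral_enorm (f := fun z => w z - u z)
      (wm.sub um).aestronglyMeasurable]
    have h1 : (ENNReal.ofReal (2 * M) * (ENNReal.ofReal t * μH[1] S) +
        ENNReal.ofReal t * ∫⁻ z in B1, ‖G z‖ₑ) ≠ ⊤ := by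
      refine ENNReal.add_ne_top.mpr ⟨?_, ?_⟩
      · exact ENNReal.mul_ne_top ENNReal.ofReal_ne_top
          (ENNReal.mul_ne_top ENNReal.ofReal_ne_top hSfin.ne)
      · exact ENNReal.mul_ne_top ENNReal.ofReal_ne_top hGfin.ne
    refine (ENNReal.toReal_mono h1 htot).trans (le_of_eq ?_)
    rw [ENNReal.toReal_add, ENNReal.toReal_mul, ENNReal.toReal_mul, ENNReal.toReal_mul,
      ENNReal.toReal_ofReal (by linarith only [hM]), ENNReal.toReal_ofReal ht.le, ← hGeq]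
    · unfold Hn
      ring
    · exact ENNReal.mul_ne_top ENNReal.ofReal_ne_top
          (ENNReal.mul_ne_top ENNReal.ofReal_ne_top hSfin.ne)
    · exact ENNReal.mul_ne_top ENNReal.ofReal_ne_top hGfin.ne
  -- integrability on `B0`
  have : IsFiniteMeasure (volume.restrict B0) :=
    ⟨by rw [Measure.restrict_apply_univ]; exact measure_ball_lt_top⟩
  have hbdd : ∀ f : ℂ → ℝ, Measurable f → ∀ C : ℝ, (∀ z ∈ B0, ‖f z‖ ≤ C) →
      IntegrableOn f B0 volume := by
    intro f hf C hC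
    refine Integrable.of_bound hf.aestronglyMeasurable C ?_
    exact (ae_restrict_iff' measurableSet_ball).mpr (Eventually.of_forall hC)
  have i1 : IntegrableOn (fun z => (w z - g z) ^ 2) B0 volume := by
    refine hbdd _ ((wm.sub gm).pow_const 2) ((2 * M) ^ 2) ?_
    intro z hz
    rw [Real.norm_eq_abs, abs_pow]
    have h1 : |w z - g z| ≤ 2 * M := by
      have := abs_sub (w z) (g z)
      have h2 := wb z hz
      have h3 := gb z
      linarith
    gcongr
  have i2 : IntegrableOn (fun z => (u z - g z) ^ 2) B0 volume := by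
    refine hbdd _ ((um.sub gm).pow_const 2) ((2 * M) ^ 2) ?_
    intro z hz
    rw [Real.norm_eq_abs, abs_pow]
    have h1 : |u z - g z| ≤ 2 * M := by
      have := abs_sub (u z) (g z)
      have h2 := ub z (hB01 hz)
      have h3 := gb z
      linarith
    gcongr
  have i3 : IntegrableOn (fun z => ‖w z - u z‖) B0 volume := by
    refine hbdd _ (wm.sub um).norm (2 * M) ?_
    intro z hz
    rw [norm_norm]
    have h1 := wb z hz
    have h2 := ub z (hB01 hz)
    calc ‖w z - u z‖ ≤ ‖w z‖ + ‖u z‖ := norm_sub_le _ _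
      _ ≤ 2 * M := by rw [Real.norm_eq_abs, Real.norm_eq_abs]; linarith
  have hmain : Un g w x (s + η) ≤ Un g u x (s + η) + 4 * M * ∫ z in B0, ‖w z - u z‖ := by
    unfold Un
    rw [← integral_const_mul, ← integral_add i2 (i3.const_mul _)]
    refine setIntegral_mono_on i1 (i2.add (i3.const_mul _)) measurableSet_ball ?_
    intro z hz
    have h1 := abs_le.mp (wb z hz)
    have h2 := abs_le.mp (ub z (hB01 hz))
    have h3 := abs_le.mp (gb z)
    have h4 : (w z - g z) ^ 2 - (u z - g z) ^ 2 = (w z - u z) * (w z + u z - 2 * g z) := by ring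
    have h5 : (w z - u z) * (w z + u z - 2 * g z) ≤ |w z - u z| * (4 * M) := by
      refine (le_abs_self _).trans ?_
      rw [abs_mul]
      refine mul_le_mul_of_nonneg_left ?_ (abs_nonneg _)
      rw [abs_le]; constructor <;> linarith [h1.1, h1.2, h2.1, h2.2, h3.1, h3.2]
    show (w z - g z) ^ 2 ≤ (u z - g z) ^ 2 + 4 * M * ‖w z - u z‖
    rw [Real.norm_eq_abs]
    linarith
  refine hmain.trans ?_
  have h6 := mul_le_mul_of_nonneg_left hreal (by linarith : (0 : ℝ) ≤ 4 * M)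
  linarith

theorem tp_fid (h : MS Ω g u G K M x₀ R₀) (hD : Disp x e s η t Ψ)
    (hsub : closedBall x (s + 2 * η) ⊆ closedBall x₀ (4 * R₀)) :
    Un g (tpU u Ψ) x (s + η) ≤ Un g u x (s + η) +
      4 * M * t * ((∫ z in ball x (s + 2 * η), ‖G z‖) + 2 * M * Hn K x (s + 2 * η)) := by
  have hη := hD.η0
  have hsubΩ : closedBall x (s + 2 * η) ⊆ Ω := hsub.trans h.sub
  have wb : ∀ z ∈ ball x (s + η), |tpU u Ψ z| ≤ M := by
    intro z hz
    have h1 : dist (Ψ.symm z) x < s + η := by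
      rw [← hD.mem_ball, Ψ.apply_symm_apply]
      exact hz
    refine h.bd _ (hsub ?_)
    rw [mem_closedBall]; linarith
  refine tpFid_core hD.e1 hD.η0 hD.t0 hD.tη h.N.M_nonneg (h.N.min.1.isOpen_diff h.N.isOpen) hsubΩ
    h.N.gm h.N.um (h.N.um.comp Ψ.symm.continuous.measurable) h.N.Gm h.N.gb
    (fun z hz => h.bd z (hsub hz)) wb h.c1 h.Gu h.N.min.1.grad_memLp h.N.G0 ?_
    (strip_volume_pos hD.e1 hD.t0) h.N.min.1.finite
  intro z
  obtain ⟨τ, hτ, h2⟩ := hD.symm_eq z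
  exact ⟨τ, hτ, by show u (Ψ.symm z) = _; rw [h2]⟩

end Vale.Agent.P128.Q1
end
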