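import Vale.Agent.P128.MathlibUsed
import Vale.Agent.P128.Bdl.K_GM_Defs
import Vale.Agent.P128.Bdl.B1

set_option linter.all false

section

/-! The logarithmic potential in the plane. -/

open MeasureTheory Set Metric Filter
open scoped ENNReal NNReal Topology Real ContDiff Convolution

namespace Vale.Agent.P128.GM

/-- The logarithmic kernel. -/
noncomputable def Nk (y : ℂ) : ℝ := (2 * π)⁻¹ * Real.log ‖y‖

theorem measurable_Nk : Measurable Nk :=
  (Real.measurable_log.comp measurable_norm).const_mul _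

theorem Nk_neg (y : ℂ) : Nk (-y) = Nk y := by simp [Nk]

theorem abs_Nk_le (y : ℂ) : |Nk y| ≤ 2 * ‖y‖ ^ (-(1 / 2 : ℝ)) + ‖y‖ := by
  have hpi : (2 * π)⁻¹ ≤ 1 := by
    rw [inv_le_one₀ (by positivity)]
    linarith only [Real.pi_gt_three]
  have hpi0 : 0 ≤ (2 * π)⁻¹ := by positivity
  rcases eq_or_ne y 0 with rfl | hy
  · simp [Nk]
  have hn : 0 < ‖y‖ := norm_pos_iff.2 hy
  have h1 : |Real.log ‖y‖| ≤ 2 * ‖y‖ ^ (-(1 / 2 : ℝ)) + ‖y‖ := by
    rw [abs_le]
    constructor
    · have := Real.log_le_sub_one_of_pos (x := ‖y‖ ^ (-(1 / 2 : ℝ))) (by positivity)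
      rw [Real.log_rpow hn] at this
      linarith only [hn, this]
    · have := Real.log_le_sub_one_of_pos hn
      linarith only [Real.rpow_pos_of_pos hn (-(1 / 2 : ℝ)), this]
  unfold Nk
  rw [abs_mul, abs_of_nonneg hpi0]
  calc (2 * π)⁻¹ * |Real.log ‖y‖| ≤ 1 * |Real.log ‖y‖| :=
        mul_le_mul_of_nonneg_right hpi (abs_nonneg _)
    _ ≤ _ := by rw [one_mul]; exact h1

theorem locInt_rpow {α : ℝ} (hα : α < 2) :
    LocallyIntegrable (fun y : ℂ => ‖y‖ ^ (-α)) := by
  refine locallyIntegrable_of_norm_le_rpow (C := 1) (α := α) ?_ ?_ ?_ ?_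
  · simp [Complex.finrank_real_complex]
  · simpa [Complex.finrank_real_complex] using hα
  · refine Eventually.of_forall fun x => ?_
    rw [Real.norm_of_nonneg (by positivity), one_mul]
  · exact ((measurable_norm).pow_const _).aestronglyMeasurable

theorem locInt_Nk : LocallyIntegrable Nk := by
  have h1 := locInt_rpow (α := 1 / 2) (by norm_num)
  have h2 : LocallyIntegrable (fun y : ℂ => ‖y‖) := continuous_norm.locallyIntegrable
  have h3 := (h1.smul (2 : ℝ)).add h2
  refine h3.mono measurable_Nk.aestronglyMeasurable (Eventually.of_forall fun y => ?_)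
  rw [Real.norm_eq_abs, Real.norm_eq_abs]
  refine (abs_Nk_le y).trans (le_abs_self _)

/-! ### Regularised kernel -/

noncomputable def Ne (e : ℝ) (y : ℂ) : ℝ := (4 * π)⁻¹ * Real.log (‖y‖ ^ 2 + e ^ 2)

theorem hasFDerivAt_Ne {e : ℝ} (he : 0 < e) (y : ℂ) :
    HasFDerivAt (Ne e) (((2 * π)⁻¹ * (‖y‖ ^ 2 + e ^ 2)⁻¹) • innerSL ℝ y) y := by
  have h0 : (0 : ℝ) < ‖y‖ ^ 2 + e ^ 2 := by positivity
  have h1 : HasFDerivAt (fun y : ℂ => ‖y‖ ^ 2 + e ^ 2) (2 • innerSL ℝ y) y :=
    ((hasStrictFDerivAt_norm_sq y).hasFDerivAt).add_const _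
  have h2 := (h1.log h0.ne').const_mul ((4 * π)⁻¹)
  refine h2.congr_fderiv ?_
  ext v
  simp
  field_simp
  norm_num

theorem abs_Ne_le {e : ℝ} (he : 0 < e) (he1 : e ≤ 1) {y : ℂ} (hy : y ≠ 0) :
    |Ne e y| ≤ |Nk y| + ‖y‖ ^ 2 := by
  have hn : 0 < ‖y‖ := norm_pos_iff.2 hy
  have h0 : (0 : ℝ) < ‖y‖ ^ 2 + e ^ 2 := by positivity
  have hpi : (4 * π)⁻¹ ≤ 1 := by
    rw [inv_le_one₀ (by positivity)]
    linarith only [Real.pi_gt_three]
  have hpi0 : 0 < (4 * π)⁻¹ := by positivity
  have hup : Real.log (‖y‖ ^ 2 + e ^ 2) ≤ ‖y‖ ^ 2 := by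
    have := Real.log_le_sub_one_of_pos h0
    nlinarith
  have hlo : 2 * Real.log ‖y‖ ≤ Real.log (‖y‖ ^ 2 + e ^ 2) := by
    have : Real.log (‖y‖ ^ 2) ≤ Real.log (‖y‖ ^ 2 + e ^ 2) :=
      Real.log_le_log (by positivity) (by nlinarith)
    rwa [Real.log_pow, Nat.cast_ofNat] at this
  have h1 : |Real.log (‖y‖ ^ 2 + e ^ 2)| ≤ 2 * |Real.log ‖y‖| + ‖y‖ ^ 2 := by
    rw [abs_le]
    constructor
    · linarith only [sq_nonneg ‖y‖, neg_abs_le (Real.log ‖y‖), hlo]
    · linarith only [abs_nonneg (Real.log ‖y‖), hup]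
  have h2 : |Nk y| = (2 * π)⁻¹ * |Real.log ‖y‖| := by
    unfold Nk
    rw [abs_mul, abs_of_nonneg (by positivity : (0 : ℝ) ≤ (2 * π)⁻¹)]
  unfold Ne
  rw [abs_mul, abs_of_nonneg hpi0.le, h2]
  calc (4 * π)⁻¹ * |Real.log (‖y‖ ^ 2 + e ^ 2)|
      ≤ (4 * π)⁻¹ * (2 * |Real.log ‖y‖| + ‖y‖ ^ 2) :=
        mul_le_mul_of_nonneg_left h1 hpi0.le
    _ = (2 * π)⁻¹ * |Real.log ‖y‖| + (4 * π)⁻¹ * ‖y‖ ^ 2 := by
        field_simp; ring
    _ ≤ _ := by (by_contra nlg; linarith only [nlg, mul_nonneg (sub_nonneg.2 hpi) (sq_nonneg ‖y‖), mul_pos (sub_pos.2 (not_le.1 nlg)) (sub_pos.2 hpi0), mul_nonneg (le_of_lt (sub_pos.2 (not_le.1 nlg))) (sub_nonneg.2 hpi)])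

theorem weak_Ne {e : ℝ} (he : 0 < e) {ψ : ℂ → ℝ} (hψ : ContDiff ℝ 1 ψ)
    (hc : HasCompactSupport ψ) (v : ℂ) :
    ∫ y, Ne e y * fderiv ℝ ψ y v =
      - ∫ y, ((2 * π)⁻¹ * (‖y‖ ^ 2 + e ^ 2)⁻¹ * inner ℝ y v) * ψ y := by
  have hcont : Continuous (Ne e) := by
    rw [continuous_iff_continuousAt]
    exact fun y => (hasFDerivAt_Ne he y).continuousAt
  have hfd : ∀ y, fderiv ℝ (Ne e) y v = (2 * π)⁻¹ * (‖y‖ ^ 2 + e ^ 2)⁻¹ * inner ℝ y v := by
    intro y
    rw [(hasFDerivAt_Ne he y).fderiv]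
    simp
  have hfc : Continuous fun y => fderiv ℝ (Ne e) y v := by
    simp_rw [hfd]
    have : ∀ y : ℂ, ‖y‖ ^ 2 + e ^ 2 ≠ 0 := fun y => by positivity
    fun_prop (disch := assumption)
  have hdc : Continuous fun y => fderiv ℝ ψ y v :=
    (hψ.continuous_fderiv one_ne_zero).clm_apply continuous_const
  have hdcs : HasCompactSupport fun y => fderiv ℝ ψ y v := hc.fderiv_apply ℝ v
  have := integral_mul_fderiv_eq_neg_fderiv_mul_of_integrable (𝕜 := ℝ) (μ := (volume : Measure ℂ))
    (f := Ne e) (g := ψ) (v := v)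
    ((hfc.mul hψ.continuous).integrable_of_hasCompactSupport hc.mul_left)
    ((hcont.mul hdc).integrable_of_hasCompactSupport hdcs.mul_left)
    ((hcont.mul hψ.continuous).integrable_of_hasCompactSupport hc.mul_left)
    (fun y _ => (hasFDerivAt_Ne he y).differentiableAt)
    (fun y _ => (hψ.differentiable one_ne_zero) y)
  rw [this]
  simp_rw [hfd]

/-- The weak gradient of the logarithmic kernel. -/
theorem weak_Nk {ψ : ℂ → ℝ} (hψ : ContDiff ℝ 1 ψ) (hc : HasCompactSupport ψ) (v : ℂ) :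
    ∫ y, Nk y * fderiv ℝ ψ y v = - ∫ y, ((2 * π)⁻¹ * (‖y‖ ^ 2)⁻¹ * inner ℝ y v) * ψ y := by
  have hdc : Continuous fun y => fderiv ℝ ψ y v :=
    (hψ.continuous_fderiv one_ne_zero).clm_apply continuous_const
  have hdcs : HasCompactSupport fun y => fderiv ℝ ψ y v := hc.fderiv_apply ℝ v
  set e : ℕ → ℝ := fun n => 1 / ((n : ℝ) + 1) with he
  have he0 : ∀ n, 0 < e n := fun n => by simp only [he]; positivity
  have he1 : ∀ n, e n ≤ 1 := fun n => by
    simp only [he]
    rw [div_le_one (by positivity)]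
    linarith [Nat.cast_nonneg (α := ℝ) n]
  have helim : Tendsto e atTop (𝓝 0) := tendsto_one_div_add_atTop_nhds_zero_nat
  have hae : ∀ᵐ y : ℂ, y ≠ 0 := by
    simp [ae_iff]
  have hsq : Tendsto (fun n => (e n) ^ 2) atTop (𝓝 0) := by
    simpa using helim.pow 2
  -- left side
  have hL : Tendsto (fun n => ∫ y, Ne (e n) y * fderiv ℝ ψ y v) atTop
      (𝓝 (∫ y, Nk y * fderiv ℝ ψ y v)) := by
    refine tendsto_integral_of_dominated_convergence
      (fun y => (|Nk y| + ‖y‖ ^ 2) * |fderiv ℝ ψ y v|) ?_ ?_ ?_ ?_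
    · intro n
      have : Continuous (Ne (e n)) := by
        rw [continuous_iff_continuousAt]
        exact fun y => (hasFDerivAt_Ne (he0 n) y).continuousAt
      exact (this.mul hdc).aestronglyMeasurable
    · have h1 : LocallyIntegrable (fun y : ℂ => |Nk y| + ‖y‖ ^ 2) := by
        refine LocallyIntegrable.add ?_ ?_
        · intro x
          obtain ⟨s, hs, h⟩ := locInt_Nk x
          exact ⟨s, hs, h.norm⟩
        · exact (continuous_norm.pow 2).locallyIntegrable
      exact h1.integrable_smul_right_of_hasCompactSupport hdc.abs hdcs.norm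
    · intro n
      filter_upwards [hae] with y hy
      rw [norm_mul, Real.norm_eq_abs, Real.norm_eq_abs]
      exact mul_le_mul_of_nonneg_right (abs_Ne_le (he0 n) (he1 n) hy) (abs_nonneg _)
    · filter_upwards [hae] with y hy
      refine Tendsto.mul_const _ ?_
      unfold Ne Nk
      have h1 : Tendsto (fun n => ‖y‖ ^ 2 + e n ^ 2) atTop (𝓝 (‖y‖ ^ 2 + 0)) :=
        tendsto_const_nhds.add hsq
      have h2 := (h1.log (by simpa using hy)).const_mul ((4 * π)⁻¹)
      convert h2 using 2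
      rw [add_zero, Real.log_pow]
      push_cast
      field_simp
      ring
  have hR : Tendsto (fun n => ∫ y, ((2 * π)⁻¹ * (‖y‖ ^ 2 + (e n) ^ 2)⁻¹ * inner ℝ y v) * ψ y)
      atTop (𝓝 (∫ y, ((2 * π)⁻¹ * (‖y‖ ^ 2)⁻¹ * inner ℝ y v) * ψ y)) := by
    refine tendsto_integral_of_dominated_convergence
      (fun y => ‖y‖ ^ (-(1 : ℝ)) * (‖v‖ * |ψ y|)) ?_ ?_ ?_ ?_
    · intro n
      have h0 : ∀ y : ℂ, ‖y‖ ^ 2 + e n ^ 2 ≠ 0 := fun y => by
        have := he0 n
        (clear * -; positivity)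
      have hc1 : Continuous fun y : ℂ => (2 * π)⁻¹ * (‖y‖ ^ 2 + (e n) ^ 2)⁻¹ * inner ℝ y v := by
        fun_prop (disch := assumption)
      exact (hc1.mul hψ.continuous).aestronglyMeasurable
    · refine (locInt_rpow (α := 1) (by norm_num)).integrable_smul_right_of_hasCompactSupport
        (continuous_const.mul hψ.continuous.abs) ?_
      exact hc.norm.mul_left
    · intro n
      filter_upwards [hae] with y hy
      have hn : 0 < ‖y‖ := norm_pos_iff.2 hy
      have he := he0 n
      rw [norm_mul, norm_mul, norm_mul, Real.norm_eq_abs (ψ y),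
        Real.norm_of_nonneg (by positivity : (0 : ℝ) ≤ (2 * π)⁻¹),
        Real.norm_of_nonneg (by positivity : (0 : ℝ) ≤ (‖y‖ ^ 2 + e n ^ 2)⁻¹)]
      have h1 : ‖(inner ℝ y v : ℝ)‖ ≤ ‖y‖ * ‖v‖ := norm_inner_le_norm _ _
      have h2 : (2 * π)⁻¹ ≤ 1 := by
        rw [inv_le_one₀ (by positivity)]
        linarith only [Real.pi_gt_three]
      have h3 : (‖y‖ ^ 2 + e n ^ 2)⁻¹ ≤ (‖y‖ ^ 2)⁻¹ := by
        apply inv_anti₀ (by positivity)
        (by_contra nlg; linarith only [nlg, mul_pos (sub_pos.2 (not_le.1 nlg)) (sub_pos.2 he), mul_nonneg (sq_nonneg (e n : ℝ)) (le_of_lt (sub_pos.2 he))])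
      have h4 : (2 * π)⁻¹ * (‖y‖ ^ 2 + e n ^ 2)⁻¹ * ‖(inner ℝ y v : ℝ)‖ ≤
          1 * (‖y‖ ^ 2)⁻¹ * (‖y‖ * ‖v‖) := by
        gcongr
      calc (2 * π)⁻¹ * (‖y‖ ^ 2 + e n ^ 2)⁻¹ * ‖(inner ℝ y v : ℝ)‖ * |ψ y|
          ≤ 1 * (‖y‖ ^ 2)⁻¹ * (‖y‖ * ‖v‖) * |ψ y| :=
            mul_le_mul_of_nonneg_right h4 (abs_nonneg _)
        _ = ‖y‖ ^ (-(1 : ℝ)) * (‖v‖ * |ψ y|) := by
            rw [Real.rpow_neg_one]; field_simp
    · filter_upwards [hae] with y hy
      refine Tendsto.mul_const _ (Tendsto.mul_const _ (Tendsto.const_mul _ ?_))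
      have h1 : Tendsto (fun n => ‖y‖ ^ 2 + e n ^ 2) atTop (𝓝 (‖y‖ ^ 2 + 0)) :=
        tendsto_const_nhds.add hsq
      rw [add_zero] at h1
      exact h1.inv₀ (by simpa using hy)
  have hEq : ∀ n, ∫ y, Ne (e n) y * fderiv ℝ ψ y v =
      - ∫ y, ((2 * π)⁻¹ * (‖y‖ ^ 2 + (e n) ^ 2)⁻¹ * inner ℝ y v) * ψ y :=
    fun n => weak_Ne (he0 n) hψ hc v
  exact tendsto_nhds_unique (hL.congr hEq) hR.neg

/-! ### The fundamental solution -/

theorem fderiv_apply_self (f : ℂ → ℝ) (z y : ℂ) :
    fderiv ℝ f z y = inner ℝ y 1 * fderiv ℝ f z 1 + inner ℝ y Complex.I * fderiv ℝ f z Complex.I := by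
  have h : y = (y.re : ℝ) • (1 : ℂ) + (y.im : ℝ) • Complex.I := by
    apply Complex.ext <;> simp
  have h1 : (inner ℝ y 1 : ℝ) = y.re := by
    rw [Complex.inner]; simp
  have h2 : (inner ℝ y Complex.I : ℝ) = y.im := by
    rw [Complex.inner]; simp
  rw [h1, h2]
  conv_lhs => rw [h]
  rw [map_add, map_smul, map_smul]
  simp

theorem radial_int {φ : ℂ → ℝ} (hφ : ContDiff ℝ 1 φ) (hc : HasCompactSupport φ) (θ : ℝ) :
    ∫ s in Ioi (0 : ℝ), fderiv ℝ φ (circleMap 0 s θ) (circleMap 0 1 θ) = - φ 0 := by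
  set e : ℂ := circleMap 0 1 θ with he
  have hcm : ∀ s : ℝ, circleMap 0 s θ = s • e := fun s => by
    simp [he, circleMap]
  have hne : ‖e‖ = 1 := by simp [he]
  have hd : ∀ s : ℝ, HasDerivAt (fun s : ℝ => φ (s • e)) (fderiv ℝ φ (circleMap 0 s θ) e) s := by
    intro s
    have h1 : HasFDerivAt φ (fderiv ℝ φ (s • e)) (s • e) :=
      ((hφ.differentiable one_ne_zero) _).hasFDerivAt
    have h2 : HasDerivAt (fun s : ℝ => s • e) e s := by
      simpa using (hasDerivAt_id s).smul_const e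
    rw [hcm]
    exact h1.comp_hasDerivAt s h2
  obtain ⟨R, hR⟩ := hc.isCompact.isBounded.exists_pos_norm_le
  have hzero : ∀ z : ℂ, R < ‖z‖ → φ z = 0 := by
    intro z hz
    by_contra h
    exact absurd (hR.2 z (subset_tsupport _ h)) (not_le.2 hz)
  have hlim : Tendsto (fun s : ℝ => φ (s • e)) atTop (𝓝 0) := by
    refine tendsto_const_nhds.congr' ?_
    filter_upwards [eventually_gt_atTop R] with s hs
    refine (hzero _ ?_).symm
    rw [norm_smul, hne, mul_one, Real.norm_eq_abs]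
    exact hs.trans_le (le_abs_self s)
  have hint : IntegrableOn (fun s => fderiv ℝ φ (circleMap 0 s θ) e) (Ioi 0) := by
    refine Integrable.integrableOn ?_
    refine Continuous.integrable_of_hasCompactSupport ?_ ?_
    · have h1 := hφ.continuous_fderiv one_ne_zero
      have h2 : Continuous fun s : ℝ => circleMap 0 s θ := by
        unfold circleMap; fun_prop
      exact (h1.comp h2).clm_apply continuous_const
    · refine HasCompactSupport.intro (isCompact_Icc (a := -R) (b := R)) fun s hs => ?_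
      have h1 : R < |s| := by
        by_contra hcon
        exact hs (abs_le.1 (not_lt.1 hcon))
      have h2 : circleMap 0 s θ ∉ tsupport φ := by
        intro hmem
        have := hR.2 _ hmem
        rw [hcm, norm_smul, hne, mul_one, Real.norm_eq_abs] at this
        linarith
      have h3 : fderiv ℝ φ (circleMap 0 s θ) = 0 := by
        by_contra hcon
        exact h2 (support_fderiv_subset ℝ hcon)
      simp [h3]
  have := integral_Ioi_of_hasDerivAt_of_tendsto' (a := 0) (fun s _ => hd s) hint hlim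
  rw [this]
  simp

theorem fund {φ : ℂ → ℝ} (hφ : ContDiff ℝ 2 φ) (hc : HasCompactSupport φ) :
    ∫ y, Nk y * lap φ y = φ 0 := by
  have hd1 : ∀ v : ℂ, ContDiff ℝ 1 fun w => fderiv ℝ φ w v := fun v =>
    (hφ.fderiv_right (m := 1) (by norm_num)).clm_apply contDiff_const
  have hc1 : ∀ v : ℂ, HasCompactSupport fun w => fderiv ℝ φ w v := fun v => hc.fderiv_apply ℝ v
  have hc2 : ∀ v w : ℂ, HasCompactSupport fun z => fderiv ℝ (fun w => fderiv ℝ φ w v) z w :=
    fun v w => (hc1 v).fderiv_apply ℝ w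
  have hk2 : ∀ v w : ℂ, Continuous fun z => fderiv ℝ (fun w => fderiv ℝ φ w v) z w := fun v w =>
    ((hd1 v).continuous_fderiv one_ne_zero).clm_apply continuous_const
  have hint : ∀ v w : ℂ, Integrable fun z => Nk z * fderiv ℝ (fun w => fderiv ℝ φ w v) z w :=
    fun v w => locInt_Nk.integrable_smul_right_of_hasCompactSupport (hk2 v w) (hc2 v w)
  set Q : ℂ → ℝ := fun y => (2 * π)⁻¹ * (‖y‖ ^ 2)⁻¹ * fderiv ℝ φ y y with hQ
  have hkv : ∀ v : ℂ, Integrable fun y => ((2 * π)⁻¹ * (‖y‖ ^ 2)⁻¹ * inner ℝ y v) * fderiv ℝ φ y v := by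
    intro v
    have hdom := (locInt_rpow (α := 1) (by norm_num)).integrable_smul_right_of_hasCompactSupport
      (continuous_const.mul (hd1 v).continuous.abs) ((hc1 v).norm.mul_left (f := fun _ => ‖v‖))
    refine hdom.mono' ?_ ?_
    · have : Measurable fun y : ℂ => ((2 * π)⁻¹ * (‖y‖ ^ 2)⁻¹ * inner ℝ y v) * fderiv ℝ φ y v := by
        have := (hd1 v).continuous.measurable
        fun_prop
      exact this.aestronglyMeasurable
    · refine Eventually.of_forall fun y => ?_
      have h2 : (2 * π)⁻¹ ≤ 1 := by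
        rw [inv_le_one₀ (by positivity)]
        linarith only [Real.pi_gt_three]
      rw [norm_mul, norm_mul, norm_mul, Real.norm_eq_abs (fderiv ℝ φ y v),
        Real.norm_of_nonneg (by positivity : (0 : ℝ) ≤ (2 * π)⁻¹),
        Real.norm_of_nonneg (by positivity : (0 : ℝ) ≤ (‖y‖ ^ 2)⁻¹)]
      have h1 : ‖(inner ℝ y v : ℝ)‖ ≤ ‖y‖ * ‖v‖ := norm_inner_le_norm _ _
      have h4 : (2 * π)⁻¹ * (‖y‖ ^ 2)⁻¹ * ‖(inner ℝ y v : ℝ)‖ ≤
          1 * (‖y‖ ^ 2)⁻¹ * (‖y‖ * ‖v‖) := by
        gcongr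
      calc (2 * π)⁻¹ * (‖y‖ ^ 2)⁻¹ * ‖(inner ℝ y v : ℝ)‖ * |fderiv ℝ φ y v|
          ≤ 1 * (‖y‖ ^ 2)⁻¹ * (‖y‖ * ‖v‖) * |fderiv ℝ φ y v| :=
            mul_le_mul_of_nonneg_right h4 (abs_nonneg _)
        _ = ‖y‖ ^ (-(1 : ℝ)) • (‖v‖ * |fderiv ℝ φ y v|) := by
            rw [Real.rpow_neg_one, smul_eq_mul]
            rcases eq_or_ne y 0 with rfl | hy
            · simp
            · have : ‖y‖ ≠ 0 := norm_ne_zero_iff.2 hy
              field_simp
  have hsum : ∀ y, Q y = ((2 * π)⁻¹ * (‖y‖ ^ 2)⁻¹ * inner ℝ y 1) * fderiv ℝ φ y 1 +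
      ((2 * π)⁻¹ * (‖y‖ ^ 2)⁻¹ * inner ℝ y Complex.I) * fderiv ℝ φ y Complex.I := by
    intro y
    simp only [hQ]
    rw [fderiv_apply_self φ y y]
    ring
  have hQi : Integrable Q := by
    have := (hkv 1).add (hkv Complex.I)
    refine this.congr (Eventually.of_forall fun y => ?_)
    exact (hsum y).symm
  have hQm : Measurable Q := by
    have h1 : Measurable fun y : ℂ => fderiv ℝ φ y y :=
      ((hφ.continuous_fderiv two_ne_zero).clm_apply continuous_id).measurable
    simp only [hQ]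
    fun_prop
  have step1 : ∫ y, Nk y * lap φ y = - ∫ y, Q y := by
    have h0 : (fun y => Nk y * lap φ y) = fun y =>
        Nk y * fderiv ℝ (fun w => fderiv ℝ φ w 1) y 1 +
        Nk y * fderiv ℝ (fun w => fderiv ℝ φ w Complex.I) y Complex.I := by
      funext y
      simp only [lap]
      ring
    rw [h0, integral_add (hint _ _) (hint _ _), weak_Nk (hd1 1) (hc1 1) 1,
      weak_Nk (hd1 Complex.I) (hc1 Complex.I) Complex.I, ← neg_add,
      ← integral_add (hkv 1) (hkv Complex.I)]
    congr 1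
    exact integral_congr_ae (Eventually.of_forall fun y => (hsum y).symm)
  rw [step1, integral_polar 0 hQm hQi]
  have hval : ∀ s : ℝ, 0 < s → ∀ θ : ℝ, s * Q (circleMap 0 s θ) =
      (2 * π)⁻¹ * fderiv ℝ φ (circleMap 0 s θ) (circleMap 0 1 θ) := by
    intro s hs θ
    have h1 : circleMap 0 s θ = s • circleMap 0 1 θ := by simp [circleMap]
    have h2 : ‖circleMap 0 s θ‖ = s := by simp [abs_of_pos hs]
    simp only [hQ]
    rw [h2]
    have h3 : fderiv ℝ φ (circleMap 0 s θ) (circleMap 0 s θ) =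
        s * fderiv ℝ φ (circleMap 0 s θ) (circleMap 0 1 θ) := by
      conv_lhs => rw [show fderiv ℝ φ (circleMap 0 s θ) (circleMap 0 s θ) =
        fderiv ℝ φ (circleMap 0 s θ) (s • circleMap 0 1 θ) by rw [← h1]]
      rw [map_smul, smul_eq_mul]
    rw [h3]
    field_simp
  have hprod := integrable_polar 0 hQm hQi
  have hswap : ∫ s in Ioi (0 : ℝ), s * ∫ θ in ang, Q (circleMap 0 s θ) =
      ∫ θ in ang, ∫ s in Ioi (0 : ℝ), s * Q (circleMap 0 s θ) := by
    have h1 : ∀ s : ℝ, s * ∫ θ in ang, Q (circleMap 0 s θ) =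
        ∫ θ in ang, s * Q (circleMap 0 s θ) := fun s => (integral_const_mul _ _).symm
    simp_rw [h1]
    exact integral_integral_swap hprod
  rw [hswap]
  have hin : ∀ θ : ℝ, ∫ s in Ioi (0 : ℝ), s * Q (circleMap 0 s θ) = (2 * π)⁻¹ * (- φ 0) := by
    intro θ
    rw [← radial_int (hφ.of_le (by norm_num)) hc θ, ← integral_const_mul]
    exact setIntegral_congr_fun measurableSet_Ioi fun s hs => hval s hs θ
  simp_rw [hin]
  rw [setIntegral_const]
  have hvol : (volume : Measure ℝ).real ang = 2 * π := by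
    rw [Measure.real, Real.volume_Ioo, ENNReal.toReal_ofReal (by linarith [Real.pi_pos])]
    ring
  rw [hvol, smul_eq_mul]
  have := Real.pi_pos
  field_simp

/-! ### The potential of a smooth compactly supported source -/

/-- The logarithmic potential of `s`. -/
noncomputable def pot (s : ℂ → ℝ) (x : ℂ) : ℝ := ∫ y, Nk y * s (x - y)

theorem pot_eq_conv (s : ℂ → ℝ) :
    pot s = (Nk ⋆[ContinuousLinearMap.mul ℝ ℝ, (volume : Measure ℂ)] s) := by
  funext x
  simp [pot, convolution_def]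

theorem contDiff_pot {s : ℂ → ℝ} (hs : ContDiff ℝ ∞ s) (hc : HasCompactSupport s) :
    ContDiff ℝ ∞ (pot s) := by
  rw [pot_eq_conv]
  exact hc.contDiff_convolution_right (n := ⊤) _ locInt_Nk hs

theorem fderiv_pot {s : ℂ → ℝ} (hs : ContDiff ℝ 1 s) (hc : HasCompactSupport s) (x v : ℂ) :
    fderiv ℝ (pot s) x v = pot (fun z => fderiv ℝ s z v) x := by
  rw [pot_eq_conv, pot_eq_conv,
    (hc.hasFDerivAt_convolution_right (ContinuousLinearMap.mul ℝ ℝ) locInt_Nk hs x).fderiv,
    convolution_precompR_apply _ locInt_Nk (hc.fderiv ℝ) (hs.continuous_fderiv one_ne_zero)]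

theorem fderiv_comp_sub_apply (f : ℂ → ℝ) (x y v : ℂ) :
    fderiv ℝ (fun y => f (x - y)) y v = - fderiv ℝ f (x - y) v := by
  have h1 : (fun y => f (x - y)) =
      (fun z => f (z + x)) ∘ (ContinuousLinearEquiv.neg ℝ : ℂ ≃L[ℝ] ℂ) := by
    funext y
    simp only [Function.comp_apply, ContinuousLinearEquiv.neg_apply]
    congr 1
    ring
  rw [h1, ContinuousLinearEquiv.comp_right_fderiv, fderiv_comp_add_right]
  simp only [ContinuousLinearMap.comp_apply, ContinuousLinearEquiv.coe_coe,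
    ContinuousLinearEquiv.neg_apply, map_neg]
  rw [show -y + x = x - y by ring]

theorem lap_comp_sub (f : ℂ → ℝ) (x y : ℂ) :
    lap (fun y => f (x - y)) y = lap f (x - y) := by
  have h1 : ∀ v : ℂ, (fun w => fderiv ℝ (fun y => f (x - y)) w v) =
      fun w => - fderiv ℝ f (x - w) v := by
    intro v
    funext w
    exact fderiv_comp_sub_apply f x w v
  unfold lap
  rw [h1, h1]
  have h2 : ∀ v : ℂ, fderiv ℝ (fun w => - fderiv ℝ f (x - w) v) y v =
      fderiv ℝ (fun w => fderiv ℝ f w v) (x - y) v := by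
    intro v
    rw [fderiv_fun_neg]
    have h3 := fderiv_comp_sub_apply (fun w => fderiv ℝ f w v) x y v
    rw [neg_apply, h3, neg_neg]
  rw [h2, h2]

theorem lap_pot {s : ℂ → ℝ} (hs : ContDiff ℝ ∞ s) (hc : HasCompactSupport s) (x : ℂ) :
    lap (pot s) x = s x := by
  have hs1 : ∀ v : ℂ, ContDiff ℝ ∞ fun z => fderiv ℝ s z v := fun v =>
    (hs.fderiv_right (m := ∞) (by simp)).clm_apply contDiff_const
  have hc1 : ∀ v : ℂ, HasCompactSupport fun z => fderiv ℝ s z v := fun v => hc.fderiv_apply ℝ v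
  have h1 : ∀ v : ℂ, (fun w => fderiv ℝ (pot s) w v) = pot (fun z => fderiv ℝ s z v) := by
    intro v
    funext w
    exact fderiv_pot (hs.of_le (by simp)) hc w v
  have hcs : ∀ v : ℂ, HasCompactSupport fun z => fderiv ℝ (fun z => fderiv ℝ s z v) z v :=
    fun v => (hc1 v).fderiv_apply ℝ v
  have hks : ∀ v : ℂ, Continuous fun z => fderiv ℝ (fun z => fderiv ℝ s z v) z v := fun v =>
    ((hs1 v).continuous_fderiv (by simp)).clm_apply continuous_const
  have hrefl : ∀ {g : ℂ → ℝ}, HasCompactSupport g → HasCompactSupport fun y => g (x - y) := by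
    intro g hg
    exact hg.comp_homeomorph (Homeomorph.subLeft x)
  have hint : ∀ v : ℂ, Integrable fun y => Nk y * fderiv ℝ (fun z => fderiv ℝ s z v) (x - y) v :=
    fun v => locInt_Nk.integrable_smul_right_of_hasCompactSupport
      ((hks v).comp (by fun_prop : Continuous fun y : ℂ => x - y)) (hrefl (hcs v))
  have h2 : lap (pot s) x = pot (lap s) x := by
    unfold lap
    rw [h1, h1, fderiv_pot ((hs1 1).of_le (by simp)) (hc1 1),
      fderiv_pot ((hs1 Complex.I).of_le (by simp)) (hc1 Complex.I)]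
    unfold pot
    rw [← integral_add (hint 1) (hint Complex.I)]
    exact integral_congr_ae (Eventually.of_forall fun y => by simp only; ring)
  rw [h2]
  have h3 : pot (lap s) x = ∫ y, Nk y * lap (fun y => s (x - y)) y := by
    unfold pot
    refine integral_congr_ae (Eventually.of_forall fun y => ?_)
    simp only
    rw [lap_comp_sub]
  have h4 : ContDiff ℝ 2 fun y => s (x - y) :=
    (hs.of_le (by norm_cast)).comp (contDiff_const.sub contDiff_id)
  rw [h3, fund h4 (hrefl hc)]
  simp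

theorem pot_comm (s : ℂ → ℝ) (x : ℂ) : pot s x = ∫ y, Nk (x - y) * s y := by
  unfold pot
  rw [← integral_sub_left_eq_self _ volume x]
  simp

theorem log_sub_le {x y : ℂ} (hx : x ≠ 0) (h : 2 * ‖y‖ ≤ ‖x‖) :
    |Real.log ‖x - y‖ - Real.log ‖x‖| ≤ 2 * ‖y‖ / ‖x‖ := by
  have hn : 0 < ‖x‖ := norm_pos_iff.2 hx
  have hy := norm_nonneg y
  have h1 : ‖x‖ - ‖y‖ ≤ ‖x - y‖ := norm_sub_norm_le x y
  have h2 : ‖x - y‖ ≤ ‖x‖ + ‖y‖ := norm_sub_le x y
  have hp : 0 < ‖x - y‖ := by linarith
  rw [← Real.log_div hp.ne' hn.ne', abs_le]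
  set r := ‖y‖ / ‖x‖ with hr
  have hr0 : 0 ≤ r := by positivity
  have hr1 : r ≤ 1 / 2 := by
    rw [hr, div_le_iff₀ hn]; linarith
  have h3 : 1 - r ≤ ‖x - y‖ / ‖x‖ := by
    rw [hr, le_div_iff₀ hn]; field_simp; linarith
  have h4 : ‖x - y‖ / ‖x‖ ≤ 1 + r := by
    rw [hr, div_le_iff₀ hn]; field_simp; linarith
  have h5 : 2 * ‖y‖ / ‖x‖ = 2 * r := by rw [hr]; ring
  rw [h5]
  have hq : 0 < ‖x - y‖ / ‖x‖ := by positivity
  constructor
  · have := Real.log_le_sub_one_of_pos (x := (‖x - y‖ / ‖x‖)⁻¹) (by positivity)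
    rw [Real.log_inv] at this
    have h6 : (‖x - y‖ / ‖x‖)⁻¹ ≤ (1 - r)⁻¹ := inv_anti₀ (by linarith) h3
    have h7 : (1 - r)⁻¹ ≤ 1 + 2 * r := by
      rw [inv_le_iff_one_le_mul₀ (by linarith only [hr1])]
      (by_contra nlg; linarith only [nlg, mul_nonneg (sub_nonneg.2 hr1) (sub_nonneg.2 h4), mul_nonneg (sub_nonneg.2 hr1) (sub_nonneg.2 h3), mul_pos (sub_pos.2 (not_le.1 nlg)) (sub_pos.2 hq), mul_nonneg (le_of_lt (sub_pos.2 (not_le.1 nlg))) (sub_nonneg.2 h4), mul_nonneg (le_of_lt (sub_pos.2 (not_le.1 nlg))) (sub_nonneg.2 hr1)])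
    linarith only [h7, h6, this]
  · have := Real.log_le_sub_one_of_pos hq
    linarith only [this, h4, h3]

theorem pot_decay {s : ℂ → ℝ} (hs : Continuous s) (hc : HasCompactSupport s)
    (h0 : ∫ x, s x = 0) : ∃ C R : ℝ, 0 < R ∧ ∀ x : ℂ, R ≤ ‖x‖ → |pot s x| ≤ C / ‖x‖ := by
  obtain ⟨R, hR0, hR⟩ := hc.isCompact.isBounded.exists_pos_norm_le
  refine ⟨2 * R * ∫ y, |s y|, 2 * R, by positivity, fun x hx => ?_⟩
  have hn : 0 < ‖x‖ := by linarith
  have hx0 : x ≠ 0 := norm_pos_iff.1 hn
  have hzero : ∀ z : ℂ, R < ‖z‖ → s z = 0 := by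
    intro z hz
    by_contra h
    exact absurd (hR z (subset_tsupport _ h)) (not_le.2 hz)
  have hsi : Integrable s := hs.integrable_of_hasCompactSupport hc
  have hrefl : HasCompactSupport fun y => s (x - y) :=
    hc.comp_homeomorph (Homeomorph.subLeft x)
  have hi1 : Integrable fun y => Nk (x - y) * s y := by
    have h1 : Integrable fun y => Nk y * s (x - y) :=
      locInt_Nk.integrable_smul_right_of_hasCompactSupport
        (hs.comp (by fun_prop : Continuous fun y : ℂ => x - y)) hrefl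
    have h2 := h1.comp_sub_left x
    simpa using h2
  have h1 : pot s x = ∫ y, (Nk (x - y) - Nk x) * s y := by
    have h2 : ∫ y, (Nk (x - y) - Nk x) * s y = (∫ y, Nk (x - y) * s y) - ∫ y, Nk x * s y := by
      rw [← integral_sub hi1 (hsi.const_mul _)]
      exact integral_congr_ae (Eventually.of_forall fun y => by simp only; ring)
    rw [h2, integral_const_mul, h0, mul_zero, sub_zero, pot_comm]
  rw [h1, ← Real.norm_eq_abs]
  calc ‖∫ y, (Nk (x - y) - Nk x) * s y‖ ≤ ∫ y, ‖(Nk (x - y) - Nk x) * s y‖ :=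
        norm_integral_le_integral_norm _
    _ ≤ ∫ y, (2 * R / ‖x‖) * |s y| := by
        refine integral_mono_of_nonneg (Eventually.of_forall fun y => norm_nonneg _)
          (hsi.abs.const_mul _) (Eventually.of_forall fun y => ?_)
        simp only
        rw [norm_mul, Real.norm_eq_abs, Real.norm_eq_abs]
        by_cases hy : ‖y‖ ≤ R
        · refine mul_le_mul_of_nonneg_right ?_ (abs_nonneg _)
          have h3 := log_sub_le hx0 (y := y) (by linarith)
          have h4 : |Nk (x - y) - Nk x| = (2 * π)⁻¹ * |Real.log ‖x - y‖ - Real.log ‖x‖| := by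
            unfold Nk
            rw [← mul_sub, abs_mul, abs_of_nonneg (by positivity : (0 : ℝ) ≤ (2 * π)⁻¹)]
          have h5 : (2 * π)⁻¹ ≤ 1 := by
            rw [inv_le_one₀ (by positivity)]
            linarith only [Real.pi_gt_three]
          rw [h4]
          calc (2 * π)⁻¹ * |Real.log ‖x - y‖ - Real.log ‖x‖|
              ≤ 1 * (2 * ‖y‖ / ‖x‖) := by
                refine mul_le_mul h5 h3 (abs_nonneg _) (by norm_num)
            _ ≤ 2 * R / ‖x‖ := by
                rw [one_mul]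
                gcongr
        · rw [hzero y (not_le.1 hy)]
          simp
    _ = _ := by
        rw [integral_const_mul]
        ring

theorem tendsto_pot {s : ℂ → ℝ} (hs : Continuous s) (hc : HasCompactSupport s)
    (h0 : ∫ x, s x = 0) : Tendsto (pot s) (cocompact ℂ) (𝓝 0) := by
  obtain ⟨C, R, hR, h⟩ := pot_decay hs hc h0
  have h1 : Tendsto (fun x : ℂ => C / ‖x‖) (cocompact ℂ) (𝓝 0) :=
    (tendsto_norm_cocompact_atTop).const_div_atTop C
  refine squeeze_zero_norm' ?_ h1
  filter_upwards [tendsto_norm_cocompact_atTop.eventually_ge_atTop R] with x hx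
  exact h x hx

theorem pot_even {s : ℂ → ℝ} (hs : Continuous s) (hc : HasCompactSupport s) (t : ℂ) :
    ∫ x, s x * pot s (x - t) = ∫ x, s x * pot s (x + t) := by
  obtain ⟨R, hR0, hR⟩ := hc.isCompact.isBounded.exists_pos_norm_le
  have hzero : ∀ z : ℂ, R < ‖z‖ → s z = 0 := by
    intro z hz
    by_contra h
    exact absurd (hR z (subset_tsupport _ h)) (not_le.2 hz)
  obtain ⟨S, hS⟩ : ∃ S, ∀ z, ‖s z‖ ≤ S := hs.bounded_above_of_compact_support hc
  have hsi : Integrable s := hs.integrable_of_hasCompactSupport hc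
  have key : ∀ t : ℂ, ∫ x, s x * pot s (x - t) = ∫ y, Nk y * ∫ x, s x * s (x - (t + y)) := by
    intro t
    set M := 2 * R + ‖t‖ with hM
    have hNi : Integrable ((closedBall (0 : ℂ) M).indicator Nk) :=
      (integrable_indicator_iff isClosed_closedBall.measurableSet).2
        (locInt_Nk.integrableOn_isCompact (isCompact_closedBall 0 M))
    have hF : Integrable (fun p : ℂ × ℂ => s p.1 * (Nk p.2 * s (p.1 - t - p.2)))
        (volume.prod volume) := by
      have hdom := (hsi.abs).mul_prod ((hNi.abs).const_mul S)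
      refine hdom.mono' ?_ (Eventually.of_forall fun p => ?_)
      · have : Measurable fun p : ℂ × ℂ => s p.1 * (Nk p.2 * s (p.1 - t - p.2)) := by
          have h1 := hs.measurable
          have h2 := measurable_Nk
          fun_prop
        exact this.aestronglyMeasurable
      · by_cases h1 : s p.1 = 0
        · simp [h1]
        by_cases h2 : s (p.1 - t - p.2) = 0
        · rw [h2]; simp
          have := (norm_nonneg (s 0)).trans (hS 0)
          (clear * - h1 this; positivity)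
        have h3 : ‖p.1‖ ≤ R := by
          by_contra h; exact h1 (hzero _ (not_le.1 h))
        have h4 : ‖p.1 - t - p.2‖ ≤ R := by
          by_contra h; exact h2 (hzero _ (not_le.1 h))
        have h5 : ‖p.2‖ ≤ M := by
          have : p.2 = p.1 - t - (p.1 - t - p.2) := by ring
          rw [this]
          calc ‖p.1 - t - (p.1 - t - p.2)‖ ≤ ‖p.1 - t‖ + ‖p.1 - t - p.2‖ := norm_sub_le _ _
            _ ≤ (‖p.1‖ + ‖t‖) + ‖p.1 - t - p.2‖ := by
                gcongr; exact norm_sub_le _ _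
            _ ≤ M := by rw [hM]; linarith
        have h6 : (closedBall (0 : ℂ) M).indicator Nk p.2 = Nk p.2 :=
          indicator_of_mem (by simpa using h5) _
        rw [norm_mul, norm_mul, h6, Real.norm_eq_abs, Real.norm_eq_abs]
        refine mul_le_mul_of_nonneg_left ?_ (abs_nonneg _)
        rw [mul_comm]
        exact mul_le_mul_of_nonneg_right (hS _) (abs_nonneg _)
    calc ∫ x, s x * pot s (x - t) = ∫ x, ∫ y, s x * (Nk y * s (x - t - y)) := by
          refine integral_congr_ae (Eventually.of_forall fun x => ?_)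
          simp only [pot]
          rw [← integral_const_mul]
      _ = ∫ y, ∫ x, s x * (Nk y * s (x - t - y)) := integral_integral_swap hF
      _ = _ := by
          refine integral_congr_ae (Eventually.of_forall fun y => ?_)
          simp only
          rw [← integral_const_mul]
          refine integral_congr_ae (Eventually.of_forall fun x => ?_)
          simp only
          rw [← sub_sub]
          ring_nf
  have hA : ∀ z : ℂ, ∫ x, s x * s (x - z) = ∫ x, s x * s (x - (-z)) := by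
    intro z
    rw [← integral_add_right_eq_self _ z]
    refine integral_congr_ae (Eventually.of_forall fun x => ?_)
    simp only [sub_neg_eq_add, add_sub_cancel_right]
    ring
  have h1 := key t
  have h2 := key (-t)
  simp only [sub_neg_eq_add] at h2
  rw [h1, h2, ← integral_neg_eq_self]
  refine integral_congr_ae (Eventually.of_forall fun y => ?_)
  simp only [Nk_neg]
  congr 1
  rw [hA]
  congr 2
  funext x
  congr 2
  ring

theorem integral_fderiv_zero {s : ℂ → ℝ} (hs : ContDiff ℝ 1 s) (hc : HasCompactSupport s)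
    (v : ℂ) : ∫ x, fderiv ℝ s x v = 0 := by
  have h1 : Continuous fun y => fderiv ℝ s y v :=
    (hs.continuous_fderiv one_ne_zero).clm_apply continuous_const
  have h2 : HasCompactSupport fun y => fderiv ℝ s y v := hc.fderiv_apply ℝ v
  have := integral_mul_fderiv_eq_neg_fderiv_mul_of_integrable (𝕜 := ℝ) (μ := (volume : Measure ℂ))
    (f := fun _ => (1 : ℝ)) (g := s) (v := v)
    (by simp)
    (by simpa using h1.integrable_of_hasCompactSupport h2)
    (by simpa using hs.continuous.integrable_of_hasCompactSupport hc)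
    (fun y _ => by fun_prop)
    (fun y _ => (hs.differentiable one_ne_zero) y)
  simpa using this

theorem tendsto_fderiv_pot {s : ℂ → ℝ} (hs : ContDiff ℝ ∞ s) (hc : HasCompactSupport s)
    (v : ℂ) : Tendsto (fun x => fderiv ℝ (pot s) x v) (cocompact ℂ) (𝓝 0) := by
  have h1 : (fun x => fderiv ℝ (pot s) x v) = pot (fun z => fderiv ℝ s z v) := by
    funext x
    exact fderiv_pot (hs.of_le (by simp)) hc x v
  rw [h1]
  exact tendsto_pot ((hs.continuous_fderiv (by simp)).clm_apply continuous_const)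
    (hc.fderiv_apply ℝ v) (integral_fderiv_zero (hs.of_le (by simp)) hc v)

theorem tendsto_grad_pot {s : ℂ → ℝ} (hs : ContDiff ℝ ∞ s) (hc : HasCompactSupport s) :
    Tendsto (grad (pot s)) (cocompact ℂ) (𝓝 0) := by
  have h1 := tendsto_fderiv_pot hs hc 1
  have h2 := tendsto_fderiv_pot hs hc Complex.I
  have h3 : grad (pot s) = fun z => (fderiv ℝ (pot s) z 1 : ℂ) +
      (fderiv ℝ (pot s) z Complex.I : ℂ) * Complex.I := by
    funext z
    apply Complex.ext <;> simp [grad]
  rw [h3]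
  have h4 : Tendsto (fun z => (fderiv ℝ (pot s) z 1 : ℂ)) (cocompact ℂ) (𝓝 ((0 : ℝ) : ℂ)) :=
    (Complex.continuous_ofReal.tendsto _).comp h1
  have h5 : Tendsto (fun z => (fderiv ℝ (pot s) z Complex.I : ℂ)) (cocompact ℂ)
      (𝓝 ((0 : ℝ) : ℂ)) := (Complex.continuous_ofReal.tendsto _).comp h2
  simpa using h4.add (h5.mul_const Complex.I)

/-- the logarithmic potential `w` of `s` -/
structure Pot (s w : ℂ → ℝ) : Prop where
  smooth : ContDiff ℝ ∞ w
  eqn : ∀ z, lap w z = s z
  lim : Tendsto w (cocompact ℂ) (𝓝 0)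
  glim : Tendsto (grad w) (cocompact ℂ) (𝓝 0)
  even : ∀ t : ℂ, ∫ x, s x * w (x - t) = ∫ x, s x * w (x + t)

theorem exists_pot {s : ℂ → ℝ} (h1 : ContDiff ℝ ∞ s) (h2 : HasCompactSupport s)
    (h3 : ∫ z, s z = 0) : ∃ w, Pot s w :=
  ⟨pot s, contDiff_pot h1 h2, lap_pot h1 h2, tendsto_pot h1.continuous h2 h3,
    tendsto_grad_pot h1 h2, pot_even h1.continuous h2⟩

end Vale.Agent.P128.GM
end

section

set_option linter.all false

open MeasureTheory Set Metric Filter InnerProductSpace
open scoped ENNReal NNReal ContDiff Topology Real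

namespace Vale.Agent.P128.GM

open Vale.Agent.P128

theorem GMin.rm_contDiffAt {u : ℂ → ℝ} {K : Set ℂ} (h : GMin u K) {z : ℂ} (hz : z ∉ K) (n : ℕ∞) :
    ContDiffAt ℝ n u z :=
  (HarmonicAt.analyticAt (h.harm z hz)).contDiffAt

theorem GMin.rm_isOpen {u : ℂ → ℝ} {K : Set ℂ} (h : GMin u K) : IsOpen Kᶜ :=
  h.gm.closed.isOpen_compl

theorem rm_memLp_restrict_union {F : Type*} [NormedAddCommGroup F] {f : ℂ → F} {S T : Set ℂ}
    (hS : MemLp f 2 (volume.restrict S)) (hT : MemLp f 2 (volume.restrict T)) :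
    MemLp f 2 (volume.restrict (S ∪ T)) := by
  have hm : AEStronglyMeasurable f (volume.restrict (S ∪ T)) :=
    aestronglyMeasurable_union_iff.2 ⟨hS.1, hT.1⟩
  have h1 := (memLp_two_iff_integrable_sq_norm hS.1).1 hS
  have h2 := (memLp_two_iff_integrable_sq_norm hT.1).1 hT
  rw [memLp_two_iff_integrable_sq_norm hm]
  exact IntegrableOn.union h1 h2

/-- The gradient is measurable off a null closed set -/
theorem GMin.rm_aesm_grad {u : ℂ → ℝ} {K : Set ℂ} (h : GMin u K) (hK0 : volume K = 0) :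
    AEStronglyMeasurable (grad u) volume := by
  have h1 : ContinuousOn (grad u) Kᶜ := by
    intro z hz
    have h2 : ContDiffAt ℝ 1 u z := h.rm_contDiffAt hz 1
    have h3 : ContinuousAt (fderiv ℝ u) z := (h2.fderiv_right (m := 0) (by (clear * -; norm_num))).continuousAt
    have h4 : ContinuousAt (fun z => fderiv ℝ u z 1) z := h3.clm_apply continuousAt_const
    have h5 : ContinuousAt (fun z => fderiv ℝ u z Complex.I) z := h3.clm_apply continuousAt_const
    have : grad u = fun z => (fderiv ℝ u z 1 : ℂ) + (fderiv ℝ u z Complex.I : ℂ) * Complex.I := by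
      funext z
      apply Complex.ext <;> simp [grad]
    rw [this]
    apply ContinuousAt.continuousWithinAt
    exact (Complex.continuous_ofReal.continuousAt.comp h4).add
      ((Complex.continuous_ofReal.continuousAt.comp h5).mul continuousAt_const)
  have h2 := h1.aestronglyMeasurable h.rm_isOpen.measurableSet (μ := volume)
  rwa [Measure.restrict_eq_self_of_ae_mem] at h2
  rw [ae_iff]
  simpa only [mem_compl_iff, not_not, ofPred_mem_eq] using hK0

theorem GMin.rm_aesm {u : ℂ → ℝ} {K : Set ℂ} (h : GMin u K) (hK0 : volume K = 0) :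
    AEStronglyMeasurable u volume := by
  have h1 : ContinuousOn u Kᶜ := fun z hz => (h.rm_contDiffAt hz 1).continuousAt.continuousWithinAt
  have h2 := h1.aestronglyMeasurable h.rm_isOpen.measurableSet (μ := volume)
  rwa [Measure.restrict_eq_self_of_ae_mem] at h2
  rw [ae_iff]
  simpa only [mem_compl_iff, not_not, ofPred_mem_eq] using hK0

theorem rm_ae_notMem {K : Set ℂ} (hK0 : volume K = 0) : ∀ᵐ z : ℂ, z ∉ K := by
  rw [ae_iff]; simpa only [not_not, ofPred_mem_eq] using hK0

/-- The gradient is locally square integrable. -/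
theorem GMin.rm_memLp_grad {u : ℂ → ℝ} {K : Set ℂ} (h : GMin u K) (hK0 : volume K = 0)
    (x : ℂ) (r : ℝ) : MemLp (grad u) 2 (volume.restrict (ball x r)) := by
  have hm : AEStronglyMeasurable (grad u) (volume.restrict (ball x r)) := (h.rm_aesm_grad hK0).restrict
  rw [memLp_two_iff_integrable_sq_norm hm]
  refine ⟨(hm.norm.pow 2), ?_⟩
  have hf := h.gm.finite x r
  have h1 : (∫⁻ z in ball x r \ K, ENNReal.ofReal (‖grad u z‖ ^ 2)) < ⊤ :=
    lt_of_le_of_lt (le_self_add) hf
  have h2 : (∫⁻ z in ball x r, ENNReal.ofReal (‖grad u z‖ ^ 2))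
      = ∫⁻ z in ball x r \ K, ENNReal.ofReal (‖grad u z‖ ^ 2) := by
    refine setLIntegral_congr ?_
    exact (diff_null_ae_eq_self hK0).symm
  rw [HasFiniteIntegral]
  refine lt_of_le_of_lt (le_of_eq ?_) (h2 ▸ h1)
  refine lintegral_congr fun z => ?_
  rw [← ofReal_norm_eq_enorm, Real.norm_of_nonneg (by (clear * -; positivity))]

/-- If `K` may be removed in a disk centred on `K`, a contradiction. -/
theorem GMin.not_removable {u : ℂ → ℝ} {K : Set ℂ} (h : GMin u K) (hK0 : volume K = 0)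
    {x0 : ℂ} (hx : x0 ∈ K) {r : ℝ} (hr : 0 < r)
    (hb : ∃ M, ∀ z ∈ ball x0 r, z ∉ K → |u z| ≤ M)
    (hw : IsWeakGrad (ball x0 r) u (grad u)) : False := by
  obtain ⟨M, hM⟩ := hb
  set L : Set ℂ := K \ ball x0 (r / 2) with hL
  have hLc : IsClosed L := h.gm.closed.sdiff isOpen_ball
  have hLo : IsOpen Lᶜ := hLc.isOpen_compl
  have hLcompl : Lᶜ = Kᶜ ∪ ball x0 (r / 2) := by
    rw [hL]; ext z; simp only [mem_compl_iff, mem_diff, mem_union, not_and, not_not]
    (clear * -; tauto)
  have hrr : r / 2 < r := by linarith only [hr]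
  -- boundedness in the disk
  have hub : ∀ ρ : ℝ, ρ ≤ r → MemLp u 2 (volume.restrict (ball x0 ρ)) := by
    intro ρ hρ
    haveI : IsFiniteMeasure (volume.restrict (ball x0 ρ)) := ⟨by
      rw [Measure.restrict_apply_univ]; exact measure_ball_lt_top⟩
    refine MemLp.of_bound (h.rm_aesm hK0).restrict M ?_
    rw [ae_restrict_iff' measurableSet_ball]
    filter_upwards [rm_ae_notMem hK0] with z hz hzb
    exact hM z (ball_subset_ball hρ hzb) hz
  have hC : ∀ C : Set ℂ, IsCompact C → C ⊆ Lᶜ → IsCompact (C \ ball x0 (r / 2)) ∧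
      C \ ball x0 (r / 2) ⊆ Kᶜ := by
    intro C hC1 hC2
    refine ⟨hC1.diff isOpen_ball, fun z hz hzK => hC2 hz.1 ⟨hzK, hz.2⟩⟩
  have hsob : W12loc Lᶜ u (grad u) := by
    refine ⟨fun C hC1 hC2 => ?_, fun C hC1 hC2 => ?_, ?_⟩
    · obtain ⟨h1, h2⟩ := hC C hC1 hC2
      have h3 := rm_memLp_restrict_union (h.gm.sobolev.memLp _ h1 h2) (hub (r / 2) hrr.le)
      exact h3.mono_measure (Measure.restrict_mono (by
        intro z hz
        by_cases hzb : z ∈ ball x0 (r / 2)
        · exact Or.inr hzb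
        · exact Or.inl ⟨hz, hzb⟩) le_rfl)
    · obtain ⟨h1, h2⟩ := hC C hC1 hC2
      have h3 := rm_memLp_restrict_union (h.gm.sobolev.grad_memLp _ h1 h2)
        (h.rm_memLp_grad hK0 x0 (r / 2))
      exact h3.mono_measure (Measure.restrict_mono (by
        intro z hz
        by_cases hzb : z ∈ ball x0 (r / 2)
        · exact Or.inr hzb
        · exact Or.inl ⟨hz, hzb⟩) le_rfl)
    · refine isWeakGrad_of_test fun φ h1 h2 h3 v => ?_
      let χ : ContDiffBump x0 := ⟨r / 2, 3 * r / 4, by linarith only [hr], by (clear * - hr; linarith)⟩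
      have hχ : ContDiff ℝ ∞ (χ : ℂ → ℝ) := χ.contDiff
      have hχt : tsupport (χ : ℂ → ℝ) = closedBall x0 (3 * r / 4) := χ.tsupport_eq
      have hφ1 : ContDiff ℝ ∞ (fun z => χ z * φ z) := hχ.mul h1
      have hφ2 : ContDiff ℝ ∞ (fun z => (1 - χ z) * φ z) := (contDiff_const.sub hχ).mul h1
      have c1 : HasCompactSupport (fun z => χ z * φ z) := h2.mul_left
      have c2 : HasCompactSupport (fun z => (1 - χ z) * φ z) := h2.mul_left
      have s1 : tsupport (fun z => χ z * φ z) ⊆ ball x0 r := by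
        refine (tsupport_mul_subset_left).trans ?_
        rw [hχt]
        exact closedBall_subset_ball (by linarith only [hr])
      have s2 : tsupport (fun z => (1 - χ z) * φ z) ⊆ Kᶜ := by
        intro z hz hzK
        have hzL : z ∈ Lᶜ := h3 (tsupport_mul_subset_right hz)
        have hz1 : z ∈ ball x0 (r / 2) := by
          by_contra hzb
          exact hzL ⟨hzK, hzb⟩
        have hz2 : z ∈ tsupport (fun z => 1 - χ z) := tsupport_mul_subset_left hz
        have hz3 : z ∉ tsupport (fun z => 1 - χ z) := by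
          rw [notMem_tsupport_iff_eventuallyEq]
          filter_upwards [isOpen_ball.mem_nhds hz1] with w hw
          have : χ w = 1 := χ.one_of_mem_closedBall (ball_subset_closedBall hw)
          simp [this]
        exact hz3 hz2
      have t1 := hw.test hφ1 c1 s1 v
      have t2 := h.gm.sobolev.weak.test hφ2 c2 s2 v
      have hd1 : ∀ z, fderiv ℝ φ z v = fderiv ℝ (fun z => χ z * φ z) z v
          + fderiv ℝ (fun z => (1 - χ z) * φ z) z v := by
        intro z
        have e1 := (hφ1.differentiable (by simp)) z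
        have e2 := (hφ2.differentiable (by simp)) z
        have : φ = fun z => χ z * φ z + (1 - χ z) * φ z := by funext z; ring
        conv_lhs => rw [this]
        rw [fderiv_fun_add e1 e2]
        rfl
      have hcont : ∀ g : ℂ → ℝ, ContDiff ℝ ∞ g → Continuous fun z => fderiv ℝ g z v :=
        fun g hg => (hg.continuous_fderiv (by simp)).clm_apply continuous_const
      -- integrability of `u` against continuous functions supported in a compact set of `Lᶜ`
      have hint : ∀ {F : ℂ → ℝ} {g : ℂ → ℝ} (S : Set ℂ), IsCompact S →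
          MemLp F 2 (volume.restrict S) → Continuous g → HasCompactSupport g → tsupport g ⊆ S →
          Integrable fun z => F z * g z := by
        intro F g S hS hF hg hgc hgS
        have hF1 : IntegrableOn F S := by
          haveI : IsFiniteMeasure (volume.restrict S) := ⟨by
            rw [Measure.restrict_apply_univ]; exact hS.measure_lt_top⟩
          exact hF.integrable (by norm_num)
        obtain ⟨B, hB⟩ := hgc.exists_bound_of_continuous hg
        have h4 : IntegrableOn (fun z => F z * g z) S := by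
          refine Integrable.mul_bdd (c := B) hF1 hg.aestronglyMeasurable ?_
          exact Eventually.of_forall hB
        refine (integrableOn_iff_integrable_of_support_subset ?_).1 h4
        intro z hz
        apply hgS
        apply subset_tsupport
        intro h0
        exact hz (by simp [h0])
      have hrc : IsCompact (closedBall x0 (3 * r / 4)) := isCompact_closedBall _ _
      have hrs : closedBall x0 (3 * r / 4) ⊆ ball x0 r := closedBall_subset_ball (by linarith only [hr])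
      have mu1 : MemLp u 2 (volume.restrict (closedBall x0 (3 * r / 4))) :=
        (hub r le_rfl).mono_measure (Measure.restrict_mono hrs le_rfl)
      have mg1 : MemLp (fun z => (inner ℝ (grad u z) v : ℝ)) 2
          (volume.restrict (closedBall x0 (3 * r / 4))) :=
        ((h.rm_memLp_grad hK0 x0 r).mono_measure (Measure.restrict_mono hrs le_rfl)).inner_const v
      have ts1 : tsupport (fun z => χ z * φ z) ⊆ closedBall x0 (3 * r / 4) := by
        refine (tsupport_mul_subset_left).trans ?_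
        rw [hχt]
      have ts2c : IsCompact (tsupport (fun z => (1 - χ z) * φ z)) := c2
      have mu2 := h.gm.sobolev.memLp _ ts2c s2
      have mg2 : MemLp (fun z => (inner ℝ (grad u z) v : ℝ)) 2
          (volume.restrict (tsupport (fun z => (1 - χ z) * φ z))) :=
        (h.gm.sobolev.grad_memLp _ ts2c s2).inner_const v
      have i1 := hint _ hrc mu1 (hcont _ hφ1) (c1.fderiv_apply ℝ v)
        ((tsupport_fderiv_apply_subset ℝ v).trans ts1)
      have i2 := hint _ ts2c mu2 (hcont _ hφ2) (c2.fderiv_apply ℝ v)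
        (tsupport_fderiv_apply_subset ℝ v)
      have i3 := hint _ hrc mg1 hφ1.continuous c1 ts1
      have i4 := hint _ ts2c mg2 hφ2.continuous c2 le_rfl
      calc ∫ z, u z * fderiv ℝ φ z v
          = ∫ z, (u z * fderiv ℝ (fun z => χ z * φ z) z v
              + u z * fderiv ℝ (fun z => (1 - χ z) * φ z) z v) := by
            refine integral_congr_ae (Eventually.of_forall fun z => ?_)
            simp only [hd1 z]; ring
        _ = (- ∫ z, inner ℝ (grad u z) v * (χ z * φ z))
              + (- ∫ z, inner ℝ (grad u z) v * ((1 - χ z) * φ z)) := by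
            rw [integral_add i1 i2, t1, t2]
        _ = - ∫ z, (inner ℝ (grad u z) v * (χ z * φ z)
              + inner ℝ (grad u z) v * ((1 - χ z) * φ z)) := by
            rw [integral_add i3 i4]; ring
        _ = - ∫ z, inner ℝ (grad u z) v * φ z := by
            congr 1
            refine integral_congr_ae (Eventually.of_forall fun z => ?_)
            ring
  -- comparison
  have hcmp := h.gm.minimal x0 r u (grad u) L hLc hsob
    ⟨closedBall x0 (r / 2), isCompact_closedBall _ _, closedBall_subset_ball hrr, by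
      intro z hz
      rw [symmDiff_def] at hz
      rcases hz with hz | hz
      · exact absurd hz.1.1 hz.2
      · by_contra hzb
        exact hz.2 ⟨hz.1, fun hb => hzb (ball_subset_closedBall hb)⟩,
      Eventually.of_forall fun z _ => rfl⟩
    (by
      intro p q hp hq hpq
      exfalso
      have hp' : p ∈ Kᶜ := fun hh => hp (Or.inr hh)
      have hq' : q ∈ Kᶜ := fun hh => hq (Or.inr hh)
      exact hpq (h.conn.subset_connectedComponentIn hp' le_rfl hq'))
  unfold genergy at hcmp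
  have e1 : (∫⁻ z in ball x0 r \ L, ENNReal.ofReal (‖grad u z‖ ^ 2))
      = ∫⁻ z in ball x0 r \ K, ENNReal.ofReal (‖grad u z‖ ^ 2) := by
    refine setLIntegral_congr ?_
    have h1 : (ball x0 r \ L : Set ℂ) =ᵐ[volume] ball x0 r :=
      diff_null_ae_eq_self (measure_mono_null diff_subset hK0)
    have h2 : (ball x0 r \ K : Set ℂ) =ᵐ[volume] ball x0 r := diff_null_ae_eq_self hK0
    exact h1.trans h2.symm
  have e2 : μH[1] (K ∩ ball x0 r) = μH[1] (L ∩ ball x0 r) + μH[1] (K ∩ ball x0 (r / 2)) := by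
    rw [← measure_diff_add_inter (K ∩ ball x0 r) (isOpen_ball (x := x0) (ε := r / 2)).measurableSet]
    congr 1
    · congr 1
      rw [hL]; ext z; simp only [mem_diff, mem_inter_iff]; (clear * -; tauto)
    · congr 1
      ext z
      simp only [mem_inter_iff]
      exact ⟨fun hz => ⟨hz.1.1, hz.2⟩, fun hz => ⟨⟨hz.1, ball_subset_ball hrr.le hz.2⟩, hz.2⟩⟩
  have hfin := h.gm.finite x0 r
  unfold genergy at hfin
  have hred := h.red x0 hx (r / 2) (by linarith only [hr])
  rw [e1, e2] at hcmp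
  rw [e2] at hfin
  set a := ∫⁻ z in ball x0 r \ K, ENNReal.ofReal (‖grad u z‖ ^ 2)
  set l := μH[1] (L ∩ ball x0 r)
  set m := μH[1] (K ∩ ball x0 (r / 2))
  have ha : a + l ≠ ⊤ := by
    have : a + l ≤ a + (l + m) := by
      rw [← add_assoc]; exact le_self_add
    exact (lt_of_le_of_lt this hfin).ne
  have hlt : a + l < a + l + m := ENNReal.lt_add_right ha hred.ne'
  rw [← add_assoc] at hcmp
  exact absurd hcmp (not_le.2 hlt)

theorem rm_locLip_of_contDiffAt {U : Set ℂ} (hU : IsOpen U) {v : ℂ → ℝ}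
    (hv : ∀ z ∈ U, ContDiffAt ℝ 1 v z) : LocLip U v := by
  intro z hz
  obtain ⟨M, t, ht, hL⟩ := (hv z hz).exists_lipschitzOnWith
  obtain ⟨r, hr, hr2⟩ := Metric.mem_nhds_iff.1 (Filter.inter_mem ht (hU.mem_nhds hz))
  exact ⟨M, r, hr, fun w hw => (hr2 hw).2, hL.mono fun w hw => (hr2 hw).1⟩

theorem rm_grad_mul_eq {u v : ℂ → ℝ} {z : ℂ} (hu : DifferentiableAt ℝ u z)
    (hv : DifferentiableAt ℝ v z) :
    grad (fun w => u w * v w) z = (v z : ℂ) * grad u z + (u z : ℂ) * grad v z := by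
  unfold grad
  rw [fderiv_fun_mul hu hv]
  apply Complex.ext <;> simp <;> ring

/-- A smooth function times `u`, where the smooth function has support in a small disk. -/
theorem GMin.rm_mul_test {u : ℂ → ℝ} {K : Set ℂ} (h : GMin u K) (hK0 : volume K = 0)
    {x0 : ℂ} {r : ℝ} (hb : ∃ M, ∀ z ∈ ball x0 r, z ∉ K → |u z| ≤ M)
    {T : ℂ → ℝ} (hT : ContDiff ℝ ∞ T) (hTs : ∃ ρ < r, ∀ z ∉ ball x0 ρ, T z = 0) :
    LocLip Kᶜ (fun z => u z * T z) ∧ (∃ ρ < r, ∀ z ∉ ball x0 ρ, u z * T z = 0) ∧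
      Integrable (fun z => ‖grad (fun z => u z * T z) z‖ ^ 2) ∧
      (∀ z ∉ K, grad (fun z => u z * T z) z = (T z : ℂ) * grad u z + (u z : ℂ) * grad T z) ∧
      AEStronglyMeasurable (fun z => grad (fun z => u z * T z) z) volume := by
  obtain ⟨M, hM⟩ := hb
  obtain ⟨ρ, hρ, hT0⟩ := hTs
  have hdT : ∀ z, DifferentiableAt ℝ T z := fun z => (hT.differentiable (by simp)) z
  have hgr : ∀ z ∉ K, grad (fun z => u z * T z) z = (T z : ℂ) * grad u z + (u z : ℂ) * grad T z :=
    fun z hz => rm_grad_mul_eq ((h.rm_contDiffAt hz 1).differentiableAt (by norm_num)) (hdT z)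
  have hm : AEStronglyMeasurable (fun z => grad (fun z => u z * T z) z) volume := by
    have h1 : AEStronglyMeasurable (fun z => (T z : ℂ) * grad u z + (u z : ℂ) * grad T z)
        volume := by
      refine AEStronglyMeasurable.add ?_ ?_
      · exact (Complex.continuous_ofReal.comp hT.continuous).aestronglyMeasurable.mul
          (h.rm_aesm_grad hK0)
      · exact (Complex.continuous_ofReal.comp_aestronglyMeasurable (h.rm_aesm hK0)).mul
          (continuous_grad hT).aestronglyMeasurable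
    refine h1.congr ?_
    filter_upwards [rm_ae_notMem hK0] with z hz
    exact (hgr z hz).symm
  refine ⟨?_, ⟨ρ, hρ, fun z hz => by rw [hT0 z hz, mul_zero]⟩, ?_, hgr, hm⟩
  · refine rm_locLip_of_contDiffAt h.rm_isOpen fun z hz => ?_
    exact (h.rm_contDiffAt hz 1).mul (hT.contDiffAt.of_le (by norm_cast))
  · -- integrability
    have hTc : HasCompactSupport T := HasCompactSupport.intro (isCompact_closedBall x0 ρ)
      (fun z hz => hT0 z (fun hh => hz (ball_subset_closedBall hh)))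
    have htsT : tsupport T ⊆ closedBall x0 ρ := by
      refine closure_minimal ?_ isClosed_closedBall
      intro z hz
      by_contra hh
      exact hz (hT0 z fun hb => hh (ball_subset_closedBall hb))
    obtain ⟨B1, hB1⟩ := hTc.exists_bound_of_continuous hT.continuous
    have hgTc : Continuous (grad T) := continuous_grad hT
    have hgTs : HasCompactSupport (grad T) := HasCompactSupport.intro hTc
      (fun z hz => grad_eq_zero_of_notMem hz)
    obtain ⟨B2, hB2⟩ := hgTs.exists_bound_of_continuous hgTc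
    have hI1 : IntegrableOn (fun z => ‖grad u z‖ ^ 2) (ball x0 r) :=
      (memLp_two_iff_integrable_sq_norm (h.rm_aesm_grad hK0).restrict).1 (h.rm_memLp_grad hK0 x0 r)
    have hI2 : IntegrableOn (fun z => 2 * (B1 ^ 2 * ‖grad u z‖ ^ 2) + 2 * (M ^ 2 * B2 ^ 2))
        (ball x0 r) := by
      refine Integrable.add ((hI1.const_mul _).const_mul _) ?_
      exact integrableOn_const (measure_ball_lt_top.ne)
    have hzero : ∀ z ∉ closedBall x0 ρ, grad (fun z => u z * T z) z = 0 := by
      intro z hz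
      have : (fun z => u z * T z) =ᶠ[𝓝 z] fun _ => 0 := by
        filter_upwards [isClosed_closedBall.isOpen_compl.mem_nhds hz] with w hw
        rw [hT0 w fun hb => hw (ball_subset_closedBall hb), mul_zero]
      unfold grad
      rw [this.fderiv_eq]
      simp only [fderiv_fun_const, Pi.zero_apply, zero_apply, Complex.ext_iff, Complex.zero_re, Complex.zero_im, and_self]
    have h4 : IntegrableOn (fun z => ‖grad (fun z => u z * T z) z‖ ^ 2) (ball x0 r) := by
      refine Integrable.mono' hI2 (hm.norm.pow 2).restrict ?_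
      rw [ae_restrict_iff' measurableSet_ball]
      filter_upwards [rm_ae_notMem hK0] with z hz hzb
      rw [Real.norm_of_nonneg (by (clear * -; positivity)), hgr z hz]
      have n1 : ‖(T z : ℂ) * grad u z + (u z : ℂ) * grad T z‖ ≤ B1 * ‖grad u z‖ + M * B2 := by
        refine (norm_add_le _ _).trans ?_
        rw [norm_mul, norm_mul, Complex.norm_real, Complex.norm_real]
        have hM0 : 0 ≤ M := (abs_nonneg _).trans (hM z hzb hz)
        refine add_le_add (mul_le_mul_of_nonneg_right (hB1 z) (norm_nonneg _)) ?_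
        exact mul_le_mul (hM z hzb hz) (hB2 z) (norm_nonneg _) hM0
      have n2 : ‖(T z : ℂ) * grad u z + (u z : ℂ) * grad T z‖ ^ 2
          ≤ (B1 * ‖grad u z‖ + M * B2) ^ 2 := pow_le_pow_left₀ (norm_nonneg _) n1 2
      (clear * - n2; linarith only [sq_nonneg (B1 * ‖grad u z‖ - M * B2), n2])
    refine (integrableOn_iff_integrable_of_support_subset ?_).1 h4
    intro z hz
    by_contra hh
    apply hz
    have : z ∉ closedBall x0 ρ := fun hb => hh (closedBall_subset_ball hρ hb)
    simp [hzero z this]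

theorem rm_integrable_mul_holo {g F : ℂ → ℂ} {x0 : ℂ} {r ρ : ℝ} (hρ : ρ < r)
    (hg : ContinuousOn g (ball x0 r)) (hFm : AEStronglyMeasurable F volume)
    (hF2 : Integrable fun z => ‖F z‖ ^ 2) (hF0 : ∀ z ∉ closedBall x0 ρ, F z = 0) :
    Integrable fun z => g z * F z := by
  have hsub : closedBall x0 ρ ⊆ ball x0 r := closedBall_subset_ball hρ
  haveI : IsFiniteMeasure (volume.restrict (closedBall x0 ρ)) := ⟨by
    rw [Measure.restrict_apply_univ]; exact measure_closedBall_lt_top⟩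
  have h1 : MemLp F 2 (volume.restrict (closedBall x0 ρ)) :=
    (memLp_two_iff_integrable_sq_norm hFm.restrict).2 hF2.integrableOn
  have h2 : Integrable F (volume.restrict (closedBall x0 ρ)) := h1.integrable (by norm_num)
  have hgc : ContinuousOn g (closedBall x0 ρ) := hg.mono hsub
  obtain ⟨B, hB⟩ := (isCompact_closedBall x0 ρ).exists_bound_of_continuousOn hgc
  have h3 : IntegrableOn (fun z => g z * F z) (closedBall x0 ρ) := by
    refine Integrable.bdd_mul (c := B) h2
      (hgc.aestronglyMeasurable isClosed_closedBall.measurableSet) ?_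
    rw [ae_restrict_iff' isClosed_closedBall.measurableSet]
    exact Eventually.of_forall hB
  refine (integrableOn_iff_integrable_of_support_subset ?_).1 h3
  intro z hz
  by_contra hh
  exact hz (by simp [hF0 z hh])

/-- Removability: if `∫ g ∇ψ = 0` for all `ψ` supported near a point `x0` of `K`, with `g`
holomorphic and `g x0 ≠ 0`, a contradiction. -/
theorem GMin.removable {u : ℂ → ℝ} {K : Set ℂ} (h : GMin u K) (hK0 : volume K = 0)
    {x0 : ℂ} (hx : x0 ∈ K) {r : ℝ} (hr : 0 < r)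
    {g : ℂ → ℂ} (hg : DifferentiableOn ℂ g (ball x0 r)) (hg0 : g x0 ≠ 0)
    (hb : ∃ M, ∀ z ∈ ball x0 r, z ∉ K → |u z| ≤ M)
    (hN : ∀ ψ : ℂ → ℝ, LocLip Kᶜ ψ → (∃ ρ < r, ∀ z ∉ ball x0 ρ, ψ z = 0) →
      Integrable (fun z => ‖grad ψ z‖ ^ 2) → ∫ z, g z * grad ψ z = 0) : False := by
  -- a smaller disk where `g ≠ 0`
  have hx0 : x0 ∈ ball x0 r := mem_ball_self hr
  have hgc : ContinuousAt g x0 :=
    (hg.differentiableAt (isOpen_ball.mem_nhds hx0)).continuousAt
  obtain ⟨r1, hr1, hr1s⟩ := Metric.mem_nhds_iff.1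
    (Filter.inter_mem (hgc.eventually_ne hg0) (isOpen_ball.mem_nhds hx0))
  have hg1 : ∀ z ∈ ball x0 r1, g z ≠ 0 := fun z hz => (hr1s hz).1
  have hb1 : ball x0 r1 ⊆ ball x0 r := fun z hz => (hr1s hz).2
  obtain ⟨M, hM⟩ := hb
  set r2 : ℝ := min r1 r with hr2
  have hr2p : 0 < r2 := lt_min hr1 hr
  have hr21 : r2 ≤ r1 := min_le_left _ _
  have hr2r : r2 ≤ r := min_le_right _ _
  refine h.not_removable hK0 hx hr2p ⟨M, fun z hz => hM z (ball_subset_ball hr2r hz)⟩ ?_
  refine isWeakGrad_of_test fun φ h1 h2 h3 v => ?_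
  -- φ vanishes off a smaller disk
  obtain ⟨ρ, hρ, hφ0⟩ : ∃ ρ < r2, ∀ z ∉ ball x0 ρ, φ z = 0 := by
    obtain ⟨ρ, hρ, hs⟩ := exists_lt_subset_ball (isClosed_tsupport φ) h3
    exact ⟨ρ, hρ, fun z hz => image_eq_zero_of_notMem_tsupport fun hh => hz (hs hh)⟩
  -- the function `Θ = φ / g`
  set Θ : ℂ → ℂ := fun z => (φ z : ℂ) / g z with hΘ
  have hΘs : ∀ z ∉ ball x0 ρ, Θ z = 0 := by
    intro z hz
    simp only [hΘ, hφ0 z hz, Complex.ofReal_zero, zero_div]
  have hΘc : ContDiff ℝ ∞ Θ := by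
    rw [contDiff_iff_contDiffAt]
    intro z
    by_cases hz : z ∈ ball x0 r2
    · have hz1 : z ∈ ball x0 r1 := ball_subset_ball hr21 hz
      have hga : AnalyticAt ℂ g z :=
        (hg.mono (ball_subset_ball hr2r)).analyticAt (isOpen_ball.mem_nhds hz)
      have hga' : ContDiffAt ℝ ∞ g z := hga.restrictScalars.contDiffAt
      have hφ' : ContDiffAt ℝ ∞ (fun z => (φ z : ℂ)) z :=
        Complex.ofRealCLM.contDiff.contDiffAt.comp z h1.contDiffAt
      simp only [hΘ, div_eq_mul_inv]
      exact hφ'.mul (hga'.inv (hg1 z hz1))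
    · have hz' : z ∉ closedBall x0 ρ := fun hh => hz (closedBall_subset_ball hρ hh)
      have : Θ =ᶠ[𝓝 z] fun _ => 0 := by
        filter_upwards [isClosed_closedBall.isOpen_compl.mem_nhds hz'] with w hw
        exact hΘs w fun hb => hw (ball_subset_closedBall hb)
      exact contDiffAt_const.congr_of_eventuallyEq this
  set T1 : ℂ → ℝ := fun z => (Θ z).re with hT1
  set T2 : ℂ → ℝ := fun z => (Θ z).im with hT2
  have cT1 : ContDiff ℝ ∞ T1 := Complex.reCLM.contDiff.comp hΘc
  have cT2 : ContDiff ℝ ∞ T2 := Complex.imCLM.contDiff.comp hΘc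
  have sT1 : ∃ ρ < r, ∀ z ∉ ball x0 ρ, T1 z = 0 :=
    ⟨ρ, hρ.trans_le hr2r, fun z hz => by simp only [hT1, hΘs z hz, Complex.zero_re]⟩
  have sT2 : ∃ ρ < r, ∀ z ∉ ball x0 ρ, T2 z = 0 :=
    ⟨ρ, hρ.trans_le hr2r, fun z hz => by simp only [hT2, hΘs z hz, Complex.zero_im]⟩
  obtain ⟨a1, a2, a3, a4, a5⟩ := h.rm_mul_test hK0 ⟨M, hM⟩ cT1 sT1
  obtain ⟨b1, b2, b3, b4, b5⟩ := h.rm_mul_test hK0 ⟨M, hM⟩ cT2 sT2
  have N1 := hN _ a1 a2 a3
  have N2 := hN _ b1 b2 b3
  -- pointwise identity
  have hpt : ∀ z ∉ K, g z * grad (fun z => u z * T1 z) z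
      + Complex.I * (g z * grad (fun z => u z * T2 z) z)
        = (φ z : ℂ) * grad u z + (u z : ℂ) * grad φ z := by
    intro z hz
    rw [a4 z hz, b4 z hz]
    by_cases hzb : z ∈ ball x0 r2
    · have hgz : g z ≠ 0 := hg1 z (ball_subset_ball hr21 hzb)
      have hgd : HasDerivAt g (deriv g z) z :=
        ((hg.mono (ball_subset_ball hr2r)).differentiableAt (isOpen_ball.mem_nhds hzb)).hasDerivAt
      have hgR : HasFDerivAt g ((ContinuousLinearMap.toSpanSingleton ℂ (deriv g z)).restrictScalars ℝ) z :=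
        hgd.hasFDerivAt.restrictScalars ℝ
      have hΘd : DifferentiableAt ℝ Θ z := (hΘc.differentiable (by simp)) z
      have hφd : DifferentiableAt ℝ φ z := (h1.differentiable (by simp)) z
      have hprod : (fun w => (φ w : ℂ)) =ᶠ[𝓝 z] fun w => g w * Θ w := by
        filter_upwards [isOpen_ball.mem_nhds hzb] with w hw
        have hgw : g w ≠ 0 := hg1 w (ball_subset_ball hr21 hw)
        simp only [hΘ]
        (clear * - hgw; field_simp)
      have hfd : ∀ e : ℂ, ((fderiv ℝ φ z e : ℝ) : ℂ) = g z * fderiv ℝ Θ z e + deriv g z * e * Θ z := by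
        intro e
        have l1 : fderiv ℝ (fun w => (φ w : ℂ)) z e = ((fderiv ℝ φ z e : ℝ) : ℂ) := by
          have : HasFDerivAt (fun w => (φ w : ℂ)) (Complex.ofRealCLM.comp (fderiv ℝ φ z)) z :=
            Complex.ofRealCLM.hasFDerivAt.comp z hφd.hasFDerivAt
          rw [this.fderiv]; rfl
        rw [← l1, hprod.fderiv_eq]
        have l2 := hgR.mul hΘd.hasFDerivAt
        have l3 : fderiv ℝ (fun w => g w * Θ w) z = _ := l2.fderiv
        rw [l3]
        simp only [add_apply, smul_apply, smul_eq_mul, ContinuousLinearMap.coe_restrictScalars', ContinuousLinearMap.toSpanSingleton_apply, add_right_inj]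
        ring
      have hT1d : ∀ e : ℂ, fderiv ℝ T1 z e = (fderiv ℝ Θ z e).re := by
        intro e
        have : HasFDerivAt T1 (Complex.reCLM.comp (fderiv ℝ Θ z)) z :=
          Complex.reCLM.hasFDerivAt.comp z hΘd.hasFDerivAt
        rw [this.fderiv]; rfl
      have hT2d : ∀ e : ℂ, fderiv ℝ T2 z e = (fderiv ℝ Θ z e).im := by
        intro e
        have : HasFDerivAt T2 (Complex.imCLM.comp (fderiv ℝ Θ z)) z :=
          Complex.imCLM.hasFDerivAt.comp z hΘd.hasFDerivAt
        rw [this.fderiv]; rfl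
      have hgT : grad T1 z + Complex.I * grad T2 z = fderiv ℝ Θ z 1 + Complex.I * fderiv ℝ Θ z Complex.I := by
        unfold grad
        rw [hT1d, hT1d, hT2d, hT2d]
        apply Complex.ext <;> simp <;> ring
      have hgφ : grad φ z = ((fderiv ℝ φ z 1 : ℝ) : ℂ) + Complex.I * ((fderiv ℝ φ z Complex.I : ℝ) : ℂ) := by
        unfold grad
        apply Complex.ext <;> simp
      have hΘz : (T1 z : ℂ) + Complex.I * (T2 z : ℂ) = Θ z := by
        simp only [hT1, hT2]
        rw [mul_comm]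
        exact Complex.re_add_im _
      have hgΘ : g z * Θ z = (φ z : ℂ) := by
        simp only [hΘ]; (clear * - hgz; field_simp)
      calc g z * ((T1 z : ℂ) * grad u z + (u z : ℂ) * grad T1 z)
            + Complex.I * (g z * ((T2 z : ℂ) * grad u z + (u z : ℂ) * grad T2 z))
          = g z * ((T1 z : ℂ) + Complex.I * (T2 z : ℂ)) * grad u z
            + (u z : ℂ) * (g z * (grad T1 z + Complex.I * grad T2 z)) := by ring
        _ = (φ z : ℂ) * grad u z + (u z : ℂ) * grad φ z := by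
            rw [hΘz, hgΘ, hgT, hgφ, hfd, hfd]
            have hI : Complex.I * Complex.I = -1 := Complex.I_mul_I
            linear_combination (-(u z : ℂ) * deriv g z * Θ z) * hI
    · have hz' : z ∉ closedBall x0 ρ := fun hh => hzb (closedBall_subset_ball hρ hh)
      have z0 : ∀ {F : ℂ → ℝ}, (∀ w ∉ ball x0 ρ, F w = 0) → F z = 0 ∧ grad F z = 0 := by
        intro F hF
        refine ⟨hF z fun hb => hz' (ball_subset_closedBall hb), ?_⟩
        have : F =ᶠ[𝓝 z] fun _ => 0 := by
          filter_upwards [isClosed_closedBall.isOpen_compl.mem_nhds hz'] with w hw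
          exact hF w fun hb => hw (ball_subset_closedBall hb)
        unfold grad
        rw [this.fderiv_eq]
        simp only [fderiv_fun_const, Pi.zero_apply, zero_apply, Complex.ext_iff, Complex.zero_re, Complex.zero_im, and_self]
      obtain ⟨p1, p2⟩ := z0 (F := T1) (fun w hw => by simp only [hT1, hΘs w hw, Complex.zero_re])
      obtain ⟨q1, q2⟩ := z0 (F := T2) (fun w hw => by simp only [hT2, hΘs w hw, Complex.zero_im])
      obtain ⟨s1, s2⟩ := z0 (F := φ) hφ0
      rw [p1, p2, q1, q2, s1, s2]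
      simp
  have hgcont : ContinuousOn g (ball x0 r) := hg.continuousOn
  have hz0 : ∀ {T : ℂ → ℝ}, (∀ w ∉ ball x0 ρ, T w = 0) → ∀ z ∉ closedBall x0 ρ,
      grad (fun z => u z * T z) z = 0 := by
    intro T hT z hz
    have : (fun z => u z * T z) =ᶠ[𝓝 z] fun _ => 0 := by
      filter_upwards [isClosed_closedBall.isOpen_compl.mem_nhds hz] with w hw
      rw [hT w fun hb => hw (ball_subset_closedBall hb), mul_zero]
    unfold grad
    rw [this.fderiv_eq]
    simp only [fderiv_fun_const, Pi.zero_apply, zero_apply, Complex.ext_iff, Complex.zero_re, Complex.zero_im, and_self]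
  have hρr : ρ < r := hρ.trans_le hr2r
  have I1 : Integrable fun z => g z * grad (fun z => u z * T1 z) z :=
    rm_integrable_mul_holo hρr hgcont a5 a3
      (hz0 (T := T1) (fun w hw => by simp only [hT1, hΘs w hw, Complex.zero_re]))
  have I2 : Integrable fun z => g z * grad (fun z => u z * T2 z) z :=
    rm_integrable_mul_holo hρr hgcont b5 b3
      (hz0 (T := T2) (fun w hw => by simp only [hT2, hΘs w hw, Complex.zero_im]))
  have hae : (fun z => g z * grad (fun z => u z * T1 z) z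
      + Complex.I * (g z * grad (fun z => u z * T2 z) z))
        =ᵐ[volume] fun z => (φ z : ℂ) * grad u z + (u z : ℂ) * grad φ z := by
    filter_upwards [rm_ae_notMem hK0] with z hz
    exact hpt z hz
  have J : Integrable fun z => (φ z : ℂ) * grad u z + (u z : ℂ) * grad φ z :=
    (I1.add (I2.const_mul Complex.I)).congr hae
  have J0 : ∫ z, ((φ z : ℂ) * grad u z + (u z : ℂ) * grad φ z) = 0 := by
    rw [← integral_congr_ae hae, integral_add I1 (I2.const_mul Complex.I), N1,
      integral_const_mul, N2]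
    simp
  have J1 : ∫ z, inner ℝ v ((φ z : ℂ) * grad u z + (u z : ℂ) * grad φ z) = 0 := by
    have := integral_inner (𝕜 := ℝ) J v
    rw [this, J0, inner_zero_right]
  have hptw : ∀ z, inner ℝ v ((φ z : ℂ) * grad u z + (u z : ℂ) * grad φ z)
      = inner ℝ (grad u z) v * φ z + u z * fderiv ℝ φ z v := by
    intro z
    rw [← inner_grad φ z v, inner_eq, inner_eq, inner_eq]
    simp only [Complex.add_re, Complex.mul_re, Complex.ofReal_re, Complex.ofReal_im, zero_mul, sub_zero, Complex.add_im, Complex.mul_im, add_zero]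
    ring
  have K1 : Integrable fun z => inner ℝ (grad u z) v * φ z := by
    have m1 : MemLp (fun z => (inner ℝ (grad u z) v : ℝ)) 2 (volume.restrict (ball x0 r)) :=
      (h.rm_memLp_grad hK0 x0 r).inner_const v
    haveI : IsFiniteMeasure (volume.restrict (ball x0 r)) := ⟨by
      rw [Measure.restrict_apply_univ]; exact measure_ball_lt_top⟩
    have m2 : IntegrableOn (fun z => (inner ℝ (grad u z) v : ℝ)) (ball x0 r) :=
      m1.integrable (by norm_num)
    obtain ⟨B, hB⟩ := h2.exists_bound_of_continuous h1.continuous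
    have m3 : IntegrableOn (fun z => inner ℝ (grad u z) v * φ z) (ball x0 r) :=
      Integrable.mul_bdd (c := B) m2 h1.continuous.aestronglyMeasurable
        (Eventually.of_forall hB)
    refine (integrableOn_iff_integrable_of_support_subset ?_).1 m3
    intro z hz
    by_contra hh
    exact hz (by simp only [Complex.inner, Complex.mul_re, Complex.conj_re, Complex.conj_im, mul_neg, sub_neg_eq_add, hφ0 z fun hb => hh (ball_subset_ball hρr.le hb), mul_zero])
  have K2 : Integrable fun z => u z * fderiv ℝ φ z v := by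
    have e : (fun z => u z * fderiv ℝ φ z v)
        = fun z => inner ℝ v ((φ z : ℂ) * grad u z + (u z : ℂ) * grad φ z)
          - inner ℝ (grad u z) v * φ z := by
      funext z; rw [hptw z]; ring
    rw [e]
    exact (J.const_inner v).sub K1
  simp only [hptw] at J1
  rw [integral_add K1 K2] at J1
  linarith only [J1]

end Vale.Agent.P128.GM
end

section

open MeasureTheory Set Metric Filter
open scoped ENNReal NNReal Topology Real ContDiff

namespace Vale.Agent.P128

end Vale.Agent.P128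
end

section

open Set Metric Filter
open scoped Topology Real

namespace Vale.Agent.P128

/-- A logarithm of `(z - p) / (z - q)` away from a connected set that contains `p` and `q`. -/
theorem exists_log_of_chain {C : Set ℂ} {ε : ℝ} {p q : ℂ}
    (h : Relation.ReflTransGen (fun a b => b ∈ C ∧ dist a b < ε) p q) (hp : p ∈ C) (hε : 0 < ε) :
    ∃ L : ℂ → ℂ, ContinuousOn L {z | ∀ c ∈ C, ε ≤ dist z c} ∧
      ∀ z, (∀ c ∈ C, ε ≤ dist z c) → Complex.exp (L z) = (z - p) / (z - q) := by
  induction h with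
  | refl =>
    refine ⟨fun _ => 0, continuousOn_const, fun z hz => ?_⟩
    have h1 := hz p hp
    have h2 : z - p ≠ 0 := by
      intro h
      rw [sub_eq_zero] at h
      rw [h, dist_self] at h1
      linarith only [hε, h1]
    rw [Complex.exp_zero, div_self h2]
  | @tail b c hab hbc ih =>
    obtain ⟨L, hL, hLe⟩ := ih
    have hbC : b ∈ C := by
      rcases hab.cases_tail with h | ⟨d, -, h⟩
      · rw [h]; exact hp
      · exact h.1
    obtain ⟨hc, hbc⟩ := hbc
    have key : ∀ z ∈ {z | ∀ c ∈ C, ε ≤ dist z c}, (z - b) / (z - c) ∈ Complex.slitPlane := by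
      intro z hz
      have h1 := hz c hc
      have h2 : z - c ≠ 0 := by
        intro h
        rw [sub_eq_zero] at h
        rw [h, dist_self] at h1
        linarith
      have e1 : (z - b) / (z - c) = 1 + (c - b) / (z - c) := by field_simp; ring
      rw [e1]
      left
      rw [Complex.add_re, Complex.one_re]
      have h3 : ‖(c - b) / (z - c)‖ < 1 := by
        rw [norm_div, div_lt_one (norm_pos_iff.mpr h2)]
        rw [dist_eq_norm] at h1
        rw [dist_comm, dist_eq_norm] at hbc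
        exact hbc.trans_le h1
      have h4 := (Complex.abs_re_le_norm ((c - b) / (z - c))).trans_lt h3
      linarith only [(abs_lt.mp h4).1]
    refine ⟨fun z => L z + Complex.log ((z - b) / (z - c)), ?_, fun z hz => ?_⟩
    · refine hL.add (ContinuousOn.clog ?_ key)
      refine ContinuousOn.div (by (clear * -; fun_prop)) (by fun_prop) fun z hz => ?_
      have h1 := hz c hc
      intro h
      rw [sub_eq_zero] at h
      rw [h, dist_self] at h1
      linarith
    · have h1 := hz b hbC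
      have h2 : z - b ≠ 0 := by
        intro h
        rw [sub_eq_zero] at h
        rw [h, dist_self] at h1
        linarith
      have h3 : (z - b) / (z - c) ≠ 0 := Complex.slitPlane_ne_zero (key z hz)
      rw [Complex.exp_add, hLe z hz, Complex.exp_log h3]
      field_simp

theorem chain_of_preconnected {C : Set ℂ} (hC : IsPreconnected C) {ε : ℝ} (hε : 0 < ε) {p q : ℂ}
    (hp : p ∈ C) (hq : q ∈ C) : Relation.ReflTransGen (fun a b => b ∈ C ∧ dist a b < ε) p q := by
  by_contra hcon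
  set S : Set ℂ := {y | y ∈ C ∧ Relation.ReflTransGen (fun a b => b ∈ C ∧ dist a b < ε) p y} with hS
  have h1 : C ⊆ (⋃ y ∈ S, ball y ε) ∪ ⋃ y ∈ C \ S, ball y ε := by
    intro z hz
    by_cases hzS : z ∈ S
    · left
      exact mem_iUnion₂.mpr ⟨z, hzS, mem_ball_self hε⟩
    · right
      exact mem_iUnion₂.mpr ⟨z, ⟨hz, hzS⟩, mem_ball_self hε⟩
  have h2 : (C ∩ ⋃ y ∈ S, ball y ε).Nonempty :=
    ⟨p, hp, mem_iUnion₂.mpr ⟨p, ⟨hp, Relation.ReflTransGen.refl⟩, mem_ball_self hε⟩⟩
  have h3 : (C ∩ ⋃ y ∈ C \ S, ball y ε).Nonempty :=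
    ⟨q, hq, mem_iUnion₂.mpr ⟨q, ⟨hq, fun h => hcon h.2⟩, mem_ball_self hε⟩⟩
  obtain ⟨z, hz, hz1, hz2⟩ := hC _ _ (isOpen_biUnion fun _ _ => isOpen_ball)
    (isOpen_biUnion fun _ _ => isOpen_ball) h1 h2 h3
  obtain ⟨y, hy, hzy⟩ := mem_iUnion₂.mp hz1
  obtain ⟨y', hy', hzy'⟩ := mem_iUnion₂.mp hz2
  have h4 : Relation.ReflTransGen (fun a b => b ∈ C ∧ dist a b < ε) p z :=
    hy.2.tail ⟨hz, by rw [dist_comm]; exact mem_ball.mp hzy⟩
  exact hy'.2 ⟨hy'.1, h4.tail ⟨hy'.1, mem_ball.mp hzy'⟩⟩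

/-- A continuous function with constant exponential is constant on connected sets. -/
theorem eq_of_exp_eq {S : Set ℂ} (hS : IsPreconnected S) {D : ℂ → ℂ} (hD : ContinuousOn D S)
    {c : ℂ} (hc : ∀ z ∈ S, Complex.exp (D z) = c) {a b : ℂ} (ha : a ∈ S) (hb : b ∈ S) :
    D a = D b := by
  have hπ := Real.pi_pos
  have h1 : ∀ z ∈ S, ∃ n : ℤ, D z = D a + n * (2 * π * Complex.I) := by
    intro z hz
    have : Complex.exp (D z) = Complex.exp (D a) := by rw [hc z hz, hc a ha]
    exact Complex.exp_eq_exp_iff_exists_int.mp this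
  have hF : ContinuousOn (fun z => ((D z).im - (D a).im) / (2 * π)) S :=
    ((Complex.continuous_im.comp_continuousOn hD).sub continuousOn_const).div_const _
  have hval : ∀ z ∈ S, ∀ n : ℤ, D z = D a + n * (2 * π * Complex.I) →
      ((D z).im - (D a).im) / (2 * π) = n := by
    intro z _ n hn
    rw [hn]
    simp
  have hO : (((fun z => ((D z).im - (D a).im) / (2 * π)) '' S)).OrdConnected :=
    (hS.image _ hF).ordConnected
  obtain ⟨n, hn⟩ := h1 b hb
  have hn0 : n = 0 := by
    by_contra hne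
    have hb' := hval b hb n hn
    have ha' := hval a ha 0 (by simp)
    -- a half-integer value between
    have hmem : ∃ t : ℝ, t ∈ uIcc (((D a).im - (D a).im) / (2 * π))
        (((D b).im - (D a).im) / (2 * π)) ∧ ∀ k : ℤ, t ≠ k := by
      rw [hb', ha']
      rcases lt_or_gt_of_ne hne with h | h
      · refine ⟨-1 / 2, ?_, ?_⟩
        · rw [uIcc_of_ge (by exact_mod_cast h.le)]
          have : (n : ℝ) ≤ -1 := by exact_mod_cast Int.le_sub_one_of_lt h
          constructor
          · linarith only [this]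
          · norm_num
        · intro k hk
          have h2 : (2 : ℝ) * k = -1 := by rw [← hk]; norm_num
          have h3 : (2 : ℤ) * k = -1 := by exact_mod_cast h2
          omega
      · refine ⟨1 / 2, ?_, ?_⟩
        · rw [uIcc_of_le (by exact_mod_cast h.le)]
          have : (1 : ℝ) ≤ n := by exact_mod_cast h
          constructor
          · norm_num
          · linarith only [this]
        · intro k hk
          have h2 : (2 : ℝ) * k = 1 := by rw [← hk]; norm_num
          have h3 : (2 : ℤ) * k = 1 := by exact_mod_cast h2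
          omega
    obtain ⟨t, ht, htk⟩ := hmem
    obtain ⟨z, hz, hzt⟩ := hO.uIcc_subset (mem_image_of_mem _ ha) (mem_image_of_mem _ hb) ht
    obtain ⟨k, hk⟩ := h1 z hz
    exact htk k (by rw [← hzt]; exact hval z hz k hk)
  rw [hn, hn0]
  simp

end Vale.Agent.P128
end

section

open Set Metric Filter
open scoped Topology Real ComplexConjugate

namespace Vale.Agent.P128

theorem exists_uc_Ico {w : ℂ} (hw : ‖w‖ = 1) : ∃ t ∈ Ico 0 (2 * π), w = uc t := by
  have hπ := Real.pi_pos
  have h1 := Complex.neg_pi_lt_arg w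
  have h2 := Complex.arg_le_pi w
  rcases le_or_gt 0 w.arg with h | h
  · exact ⟨w.arg, ⟨h, by linarith only [hπ, h2]⟩, (uc_arg hw).symm⟩
  · refine ⟨w.arg + 2 * π, ⟨by linarith only [h1, h], by linarith only [h]⟩, ?_⟩
    rw [uc_add, uc_two_pi, mul_one, uc_arg hw]

/-- The rotated cross-ratio. -/
noncomputable def mob (x : ℂ) (s : ℝ) (p : ℂ) (γ : ℝ) (z : ℂ) : ℂ :=
  (z - (x + s * p)) / (z - (x + s * (p * uc γ))) * uc (γ / 2)

theorem mob_eq (x : ℂ) (s : ℝ) (p : ℂ) (γ : ℝ) (z : ℂ) : mob x s p γ z =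
    ((‖(z - x) - s * (p * uc γ)‖ ^ 2)⁻¹ : ℝ) *
      (((z - x) - s * p) * conj ((z - x) - s * (p * uc γ)) * uc (γ / 2)) := by
  unfold mob
  rw [show z - (x + s * p) = (z - x) - s * p by ring,
    show z - (x + s * (p * uc γ)) = (z - x) - s * (p * uc γ) by ring, div_eq_mul_inv,
    Complex.inv_def, Complex.normSq_eq_norm_sq]
  ring

theorem mob_im {x : ℂ} {s : ℝ} {p : ℂ} (hp : ‖p‖ = 1) (γ : ℝ) (z : ℂ) :
    (mob x s p γ z).im = (‖(z - x) - s * (p * uc γ)‖ ^ 2)⁻¹ *
      ((‖z - x‖ ^ 2 - s ^ 2) * Real.sin (γ / 2)) := by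
  rw [mob_eq, Complex.im_ofReal_mul, sep_im hp]

theorem sin_half_pos {γ : ℝ} (h0 : 0 < γ) (h1 : γ < 2 * π) : 0 < Real.sin (γ / 2) :=
  Real.sin_pos_of_pos_of_lt_pi (by linarith only [h0]) (by linarith only [h1])

theorem mob_im_neg {x : ℂ} {s : ℝ} {p : ℂ} (hp : ‖p‖ = 1) {γ : ℝ} (h0 : 0 < γ)
    (h1 : γ < 2 * π) {z : ℂ} (hz : ‖z - x‖ < s) : (mob x s p γ z).im < 0 := by
  rw [mob_im hp]
  have hs : 0 < s := (norm_nonneg _).trans_lt hz
  have h2 := sin_half_pos h0 h1
  have h3 : ‖(z - x) - s * (p * uc γ)‖ ≠ 0 := by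
    rw [norm_ne_zero_iff, sub_ne_zero]
    intro h
    rw [h, norm_mul, norm_mul, hp, norm_uc, Complex.norm_real, Real.norm_of_nonneg hs.le] at hz
    linarith only [hz]
  have h4 : ‖z - x‖ ^ 2 - s ^ 2 < 0 := by
    have := norm_nonneg (z - x)
    linarith only [mul_nonneg (le_of_lt (sub_pos.2 hz)) (sub_nonneg.2 this), mul_pos (sub_pos.2 hz) (sub_pos.2 hz)]
  exact mul_neg_of_pos_of_neg (by positivity) (mul_neg_of_neg_of_pos h4 h2)

theorem mob_im_pos {x : ℂ} {s : ℝ} (hs : 0 ≤ s) {p : ℂ} (hp : ‖p‖ = 1) {γ : ℝ} (h0 : 0 < γ)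
    (h1 : γ < 2 * π) {z : ℂ} (hz : s < ‖z - x‖) : 0 < (mob x s p γ z).im := by
  rw [mob_im hp]
  have h2 := sin_half_pos h0 h1
  have h3 : ‖(z - x) - s * (p * uc γ)‖ ≠ 0 := by
    rw [norm_ne_zero_iff, sub_ne_zero]
    intro h
    rw [h, norm_mul, norm_mul, hp, norm_uc, Complex.norm_real, Real.norm_of_nonneg hs] at hz
    linarith only [hz]
  have h4 : 0 < ‖z - x‖ ^ 2 - s ^ 2 := by linarith only [mul_pos (sub_pos.2 hz) (sub_pos.2 hz), mul_nonneg (sub_nonneg.2 hs) (le_of_lt (sub_pos.2 hz))]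
  exact mul_pos (by positivity) (mul_pos h4 h2)

theorem mob_re_arc {x : ℂ} {s : ℝ} (_hs : 0 < s) {p : ℂ} (hp : ‖p‖ = 1) (γ t : ℝ) :
    (mob x s p γ (x + s * (p * uc t))).re =
      (‖(s : ℂ) * (p * uc t) - s * (p * uc γ)‖ ^ 2)⁻¹ *
        (2 * s ^ 2 * (Real.cos (γ / 2) - Real.cos (t - γ / 2))) := by
  rw [mob_eq, Complex.re_ofReal_mul, add_sub_cancel_left, sep_re hp]

theorem arc_ne {s : ℝ} (hs : 0 < s) {p : ℂ} (hp : ‖p‖ = 1) {γ t : ℝ} (hne : t ≠ γ)
    (hd : |t - γ| < 2 * π) : ‖(s : ℂ) * (p * uc t) - s * (p * uc γ)‖ ≠ 0 := by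
  rw [norm_ne_zero_iff, sub_ne_zero]
  intro h
  have hs' : (s : ℂ) ≠ 0 := by exact_mod_cast hs.ne'
  have hp0 : p ≠ 0 := by rw [← norm_ne_zero_iff, hp]; exact one_ne_zero
  exact hne (uc_inj (mul_left_cancel₀ hp0 (mul_left_cancel₀ hs' h)) hd)

/-- On the open arc the cross-ratio is a negative real number. -/
theorem mob_arc_neg {x : ℂ} {s : ℝ} (hs : 0 < s) {p : ℂ} (hp : ‖p‖ = 1) {γ t : ℝ}
    (h1 : γ < 2 * π) (ht : t ∈ Ioo 0 γ) :
    (mob x s p γ (x + s * (p * uc t))).re < 0 ∧ (mob x s p γ (x + s * (p * uc t))).im = 0 := by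
  have hπ := Real.pi_pos
  constructor
  · rw [mob_re_arc hs hp]
    have h3 := arc_ne hs hp ht.2.ne (by rw [abs_lt]; constructor <;> linarith only [h1, ht.1, hπ, ht.2])
    have h4 : Real.cos (γ / 2) < Real.cos (t - γ / 2) := by
      rw [← Real.cos_abs (t - γ / 2)]
      refine Real.cos_lt_cos_of_nonneg_of_le_pi (abs_nonneg _) (by linarith) ?_
      rw [abs_lt]
      constructor <;> linarith only [ht.1, ht.2]
    refine mul_neg_of_pos_of_neg (by positivity) ?_
    exact mul_neg_of_pos_of_neg (by positivity) (by linarith)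
  · rw [mob_im hp]
    have : ‖x + (s : ℂ) * (p * uc t) - x‖ = s := by
      rw [add_sub_cancel_left, norm_mul, norm_mul, hp, norm_uc, Complex.norm_real,
        Real.norm_of_nonneg hs.le]
      ring
    rw [this]
    ring

/-- Off the closed arc the cross-ratio lies in the slit plane. -/
theorem mob_slit {x : ℂ} {s : ℝ} (hs : 0 < s) {p : ℂ} (hp : ‖p‖ = 1) {γ : ℝ} (h0 : 0 < γ)
    (h1 : γ < 2 * π) {z : ℂ} (hz : z ∉ cArc x s p γ) : mob x s p γ z ∈ Complex.slitPlane := by
  have hπ := Real.pi_pos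
  rw [Complex.mem_slitPlane_iff]
  rcases lt_trichotomy ‖z - x‖ s with h | h | h
  · right; exact (mob_im_neg hp h0 h1 h).ne
  · left
    have hs' : (s : ℂ) ≠ 0 := by exact_mod_cast hs.ne'
    have hp0 : p ≠ 0 := by rw [← norm_ne_zero_iff, hp]; exact one_ne_zero
    obtain ⟨t, ht, hte⟩ := exists_uc_Ico (w := (z - x) / (s * p)) (by
      rw [norm_div, norm_mul, hp, h, Complex.norm_real, Real.norm_of_nonneg hs.le, mul_one,
        div_self hs.ne'])
    have hze : z = x + s * (p * uc t) := by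
      rw [← hte]
      field_simp
      ring
    have htγ : γ < t := by
      by_contra hcon
      push Not at hcon
      exact hz ⟨t, ⟨ht.1, hcon⟩, hze⟩
    rw [hze, mob_re_arc hs hp]
    have h3 := arc_ne hs hp htγ.ne' (by rw [abs_lt]; constructor <;> linarith only [h0, h1, htγ, ht.2])
    have h4 : Real.cos (t - γ / 2) < Real.cos (γ / 2) := by
      rcases le_or_gt (t - γ / 2) π with h5 | h5
      · exact Real.cos_lt_cos_of_nonneg_of_le_pi (by linarith only [h0]) h5 (by linarith only [htγ])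
      · have h6 : Real.cos (t - γ / 2) = Real.cos (2 * π - (t - γ / 2)) := by
          rw [Real.cos_two_pi_sub]
        rw [h6]
        exact Real.cos_lt_cos_of_nonneg_of_le_pi (by linarith only [h0]) (by linarith only [h5]) (by linarith only [ht.2])
    exact mul_pos (by (clear * - h3; positivity)) (mul_pos (by positivity) (by linarith only [h4]))
  · right; exact (mob_im_pos hs.le hp h0 h1 h).ne'

end Vale.Agent.P128
end

section

open Set Metric Filter
open scoped Topology Real ComplexConjugate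

namespace Vale.Agent.P128

/-- The two sides of an arc of a circle, whose end points lie in a connected closed set `C`, are
separated by `C` and the arc. -/
theorem sep_arc {C : Set ℂ} (hCc : IsClosed C) (hC : IsPreconnected C) {x : ℂ} {s : ℝ}
    (hs : 0 < s) {p : ℂ} (hp : ‖p‖ = 1) {γ : ℝ} (h0 : 0 < γ) (h1 : γ < 2 * π)
    (hP : x + s * p ∈ C) (hQ : x + s * (p * uc γ) ∈ C) {t₀ : ℝ} (ht₀ : t₀ ∈ Ioo 0 γ)
    (hz₀ : x + s * (p * uc t₀) ∉ C) {W : Set ℂ} (hWo : IsOpen W) (hWc : IsPreconnected W)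
    (hW : W ⊆ (C ∪ cArc x s p γ)ᶜ) (hin : x + s * (p * uc t₀) ∈ closure (W ∩ ball x s))
    (hout : x + s * (p * uc t₀) ∈ closure (W ∩ (closedBall x s)ᶜ)) : False := by
  have hπ := Real.pi_pos
  obtain ⟨z₀, hz₀d⟩ : ∃ z₀, z₀ = x + s * (p * uc t₀) := ⟨_, rfl⟩
  rw [← hz₀d] at hz₀ hin hout
  obtain ⟨P, hPd⟩ : ∃ P, P = x + s * p := ⟨_, rfl⟩
  obtain ⟨Q, hQd⟩ : ∃ Q, Q = x + s * (p * uc γ) := ⟨_, rfl⟩
  rw [← hPd] at hP
  rw [← hQd] at hQ
  have hzP : z₀ ≠ P := fun h => hz₀ (h ▸ hP)
  have hzQ : z₀ ≠ Q := fun h => hz₀ (h ▸ hQ)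
  have hzP' : z₀ - P ≠ 0 := sub_ne_zero.mpr hzP
  have hzQ' : z₀ - Q ≠ 0 := sub_ne_zero.mpr hzQ
  -- the quotient `v`
  obtain ⟨w₀, hw₀⟩ : ∃ w₀, w₀ = (z₀ - P) / (z₀ - Q) := ⟨_, rfl⟩
  have hw₀0 : w₀ ≠ 0 := by rw [hw₀]; exact div_ne_zero hzP' hzQ'
  let v : ℂ → ℂ := fun z => (z - P) / (z - Q) / w₀
  have hvc : ContinuousAt v z₀ := by
    have c1 : ContinuousAt (fun z : ℂ => z - P) z₀ := by fun_prop
    have c2 : ContinuousAt (fun z : ℂ => z - Q) z₀ := by fun_prop
    exact (c1.div c2 hzQ').div_const _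
  have hv₀ : v z₀ = 1 := by
    simp only [v]
    rw [← hw₀, div_self hw₀0]
  obtain ⟨η, hη, hη1, hη2⟩ : ∃ η > 0, (∀ z ∈ ball z₀ (2 * η), z ∉ C) ∧
      ∀ z ∈ ball z₀ (2 * η), ‖v z - 1‖ < 1 := by
    have a1 : ∀ᶠ z in 𝓝 z₀, z ∉ C := hCc.isOpen_compl.mem_nhds hz₀
    have a2 : ∀ᶠ z in 𝓝 z₀, ‖v z - 1‖ < 1 := by
      have : Tendsto (fun z => ‖v z - 1‖) (𝓝 z₀) (𝓝 0) := by
        have h : Tendsto (fun z => ‖v z - 1‖) (𝓝 z₀) (𝓝 ‖v z₀ - 1‖) :=
          (hvc.sub (continuousAt_const (y := (1 : ℂ)))).norm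
        rw [hv₀, sub_self, norm_zero] at h
        exact h
      exact this.eventually (gt_mem_nhds one_pos)
    obtain ⟨η, hη, h⟩ := Metric.eventually_nhds_iff_ball.mp (a1.and a2)
    refine ⟨η / 2, by (clear * - hη; positivity), fun z hz => ?_, fun z hz => ?_⟩
    · rw [show 2 * (η / 2) = η by ring] at hz
      exact (h z hz).1
    · rw [show 2 * (η / 2) = η by ring] at hz
      exact (h z hz).2
  -- the two points
  obtain ⟨a, ⟨haW, has⟩, haη⟩ : ((W ∩ ball x s) ∩ ball z₀ η).Nonempty := by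
    rw [inter_comm]
    exact mem_closure_iff.mp hin _ isOpen_ball (mem_ball_self hη)
  obtain ⟨b, ⟨hbW, hbs⟩, hbη⟩ : ((W ∩ (closedBall x s)ᶜ) ∩ ball z₀ η).Nonempty := by
    rw [inter_comm]
    exact mem_closure_iff.mp hout _ isOpen_ball (mem_ball_self hη)
  -- a path between them
  have hWconn : IsConnected W := ⟨⟨a, haW⟩, hWc⟩
  have hWpath := (hWo.isConnected_iff_isPathConnected).mp hWconn
  obtain ⟨γp, hγp⟩ := hWpath.joinedIn a haW b hbW
  have hTc : IsCompact (range γp) := isCompact_range γp.continuous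
  have hTp : IsPreconnected (range γp) := isPreconnected_range γp.continuous
  have hTW : range γp ⊆ W := by rintro _ ⟨t, rfl⟩; exact hγp t
  have haT : a ∈ range γp := ⟨0, γp.source⟩
  have hbT : b ∈ range γp := ⟨1, γp.target⟩
  have hdis : Disjoint (range γp) C := by
    rw [disjoint_left]
    intro z hz hzC
    exact hW (hTW hz) (Or.inl hzC)
  obtain ⟨ε₀, hε₀, hε₀d⟩ := hdis.exists_thickenings hTc hCc
  have hε₀' : ∀ z ∈ range γp, ∀ c ∈ C, ε₀ ≤ dist z c := by
    intro z hz c hc
    by_contra hcon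
    push Not at hcon
    exact disjoint_left.mp hε₀d (self_subset_thickening hε₀ _ hz)
      (mem_thickening_iff.mpr ⟨c, hc, hcon⟩)
  obtain ⟨ε, hε⟩ : ∃ ε, ε = min ε₀ η := ⟨_, rfl⟩
  have hε0 : 0 < ε := by rw [hε]; exact lt_min hε₀ hη
  have hεε₀ : ε ≤ ε₀ := by rw [hε]; exact min_le_left _ _
  have hεη : ε ≤ η := by rw [hε]; exact min_le_right _ _
  obtain ⟨L, hLc, hLe⟩ := exists_log_of_chain (chain_of_preconnected hC hε0 hP hQ) hP hε0
  have hT1 : range γp ⊆ {z | ∀ c ∈ C, ε ≤ dist z c} := fun z hz c hc => hεε₀.trans (hε₀' z hz c hc)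
  have hB1 : ball z₀ η ⊆ {z | ∀ c ∈ C, ε ≤ dist z c} := by
    intro z hz c hc
    by_contra hcon
    push Not at hcon
    refine hη1 c ?_ hc
    rw [mem_ball] at hz ⊢
    calc dist c z₀ ≤ dist z c + dist z z₀ := by rw [dist_comm z c]; exact dist_triangle _ _ _
      _ < 2 * η := by linarith only [hεη, hz, hcon]
  have hnz : ∀ z ∈ {z | ∀ c ∈ C, ε ≤ dist z c}, z - P ≠ 0 ∧ z - Q ≠ 0 := by
    intro z hz
    constructor
    · intro h
      rw [sub_eq_zero] at h
      have := hz P hP
      rw [h, dist_self] at this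
      linarith only [hε0, this]
    · intro h
      rw [sub_eq_zero] at h
      have := hz Q hQ
      rw [h, dist_self] at this
      linarith only [hε0, this]
  have hmob : ∀ z, mob x s p γ z = (z - P) / (z - Q) * uc (γ / 2) := by
    intro z; rw [hPd, hQd]; rfl
  -- first constancy
  have hslit : ∀ z ∈ range γp, mob x s p γ z ∈ Complex.slitPlane := by
    intro z hz
    exact mob_slit hs hp h0 h1 fun hc => hW (hTW hz) (Or.inr hc)
  have hmc : ContinuousOn (mob x s p γ) (range γp) := by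
    have : mob x s p γ = fun z => (z - P) / (z - Q) * uc (γ / 2) := funext hmob
    rw [this]
    exact (ContinuousOn.div (by fun_prop) (by fun_prop) fun z hz => (hnz z (hT1 hz)).2).mul
      continuousOn_const
  have e1 := eq_of_exp_eq hTp (D := fun z => L z - Complex.log (mob x s p γ z))
    (c := (uc (γ / 2))⁻¹) ((hLc.mono hT1).sub (hmc.clog hslit)) (by
      intro z hz
      have h2 := hnz z (hT1 hz)
      have h3 : mob x s p γ z ≠ 0 := Complex.slitPlane_ne_zero (hslit z hz)
      rw [Complex.exp_sub, Complex.exp_log h3, hLe z (hT1 hz), hmob z]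
      have h4 := h2.1
      have h5 := h2.2
      have h6 := uc_ne_zero (γ / 2)
      field_simp) haT hbT
  -- second constancy
  have hvslit : ∀ z ∈ ball z₀ η, v z ∈ Complex.slitPlane := by
    intro z hz
    have h2 := hη2 z (ball_subset_ball (by linarith only [hη]) hz)
    left
    have h3 := (Complex.abs_re_le_norm (v z - 1)).trans_lt h2
    rw [Complex.sub_re, Complex.one_re] at h3
    linarith only [(abs_lt.mp h3).1]
  have hvc' : ContinuousOn v (ball z₀ η) :=
    (ContinuousOn.div (by fun_prop) (by fun_prop) fun z hz => (hnz z (hB1 hz)).2).div_const _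
  have e2 := eq_of_exp_eq (convex_ball z₀ η).isPreconnected
    (D := fun z => L z - Complex.log (v z)) (c := w₀) ((hLc.mono hB1).sub (hvc'.clog hvslit)) (by
      intro z hz
      have h2 := hnz z (hB1 hz)
      have h3 : v z ≠ 0 := Complex.slitPlane_ne_zero (hvslit z hz)
      rw [Complex.exp_sub, Complex.exp_log h3, hLe z (hB1 hz)]
      simp only [v]
      have h4 := h2.1
      have h5 := h2.2
      field_simp) haη hbη
  have e3 : Complex.log (mob x s p γ a) - Complex.log (mob x s p γ b) =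
      Complex.log (v a) - Complex.log (v b) := by
    linear_combination e2 - e1
  -- arguments
  obtain ⟨k1, k2⟩ := mob_arc_neg (x := x) hs hp h1 ht₀
  obtain ⟨κ, hκ⟩ : ∃ κ : ℝ, κ = -(mob x s p γ z₀).re := ⟨_, rfl⟩
  have hκ0 : 0 < κ := by rw [hκ, hz₀d]; linarith only [k1]
  have hm₀ : mob x s p γ z₀ = -(κ : ℂ) := by
    apply Complex.ext
    · rw [hκ]; simp
    · rw [hz₀d, k2]; simp
  have hmv : ∀ z, mob x s p γ z = κ * (-(v z)) := by
    intro z
    have h2 : mob x s p γ z = v z * mob x s p γ z₀ := by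
      rw [hmob, hmob, ← hw₀]
      simp only [v]
      (clear * - hw₀0; field_simp)
    rw [h2, hm₀]
    ring
  have hargm : ∀ z, (mob x s p γ z).arg = (-(v z)).arg := by
    intro z
    rw [hmv, Complex.arg_real_mul _ hκ0]
  have himm : ∀ z, (mob x s p γ z).im = - κ * (v z).im := by
    intro z
    rw [hmv, Complex.im_ofReal_mul, Complex.neg_im]
    ring
  have hva : 0 < (v a).im := by
    have h2 := mob_im_neg hp h0 h1 (z := a) (x := x) (s := s) (by
      rw [← dist_eq_norm]; exact mem_ball.mp has)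
    rw [himm] at h2
    nlinarith only [h2, hκ0]
  have hvb : (v b).im < 0 := by
    have h2 := mob_im_pos hs.le hp h0 h1 (z := b) (x := x) (s := s) (by
      rw [← dist_eq_norm]
      rw [mem_compl_iff, mem_closedBall, not_le] at hbs
      exact hbs)
    rw [himm] at h2
    nlinarith only [h2, hκ0]
  have e4 := congrArg Complex.im e3
  simp only [Complex.sub_im, Complex.log_im] at e4
  rw [hargm, hargm, Complex.arg_neg_eq_arg_sub_pi_of_im_pos hva,
    Complex.arg_neg_eq_arg_add_pi_of_im_neg hvb] at e4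
  linarith only [h0, h1, e4]

end Vale.Agent.P128
end

section

open Set Metric Filter
open scoped Topology Real ComplexConjugate

namespace Vale.Agent.P128

/-- Polar parametrisation with base direction `p`. -/
noncomputable def pol (x p : ℂ) (a : ℝ × ℝ) : ℂ := x + a.1 * (p * uc a.2)

theorem continuous_pol (x p : ℂ) : Continuous (pol x p) := by
  unfold pol
  have := continuous_uc
  fun_prop

theorem norm_pol_sub {x p : ℂ} (hp : ‖p‖ = 1) {r : ℝ} (hr : 0 ≤ r) (t : ℝ) :
    ‖pol x p (r, t) - x‖ = r := by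
  simp only [pol, add_sub_cancel_left, norm_mul, Complex.norm_real, Real.norm_of_nonneg hr, hp, norm_uc, mul_one]

theorem dist_pol {x p : ℂ} (hp : ‖p‖ = 1) (r s t : ℝ) :
    dist (pol x p (r, t)) (pol x p (s, t)) = |r - s| := by
  rw [dist_eq_norm]
  have : pol x p (r, t) - pol x p (s, t) = ((r - s : ℝ) : ℂ) * (p * uc t) := by
    simp only [pol]; push_cast; ring
  rw [this, norm_mul, norm_mul, hp, norm_uc, Complex.norm_real, Real.norm_eq_abs]
  ring

theorem cArc_subset_sphere {x : ℂ} {s : ℝ} (hs : 0 ≤ s) {p : ℂ} (hp : ‖p‖ = 1) (γ : ℝ) :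
    cArc x s p γ ⊆ sphere x s := by
  rintro z ⟨t, -, rfl⟩
  rw [mem_sphere, dist_eq_norm]
  exact norm_pol_sub hp hs t

theorem isPreconnected_compl_closedBall (x : ℂ) {ρ : ℝ} (hρ : 0 ≤ ρ) :
    IsPreconnected (closedBall x ρ)ᶜ := by
  have : (closedBall x ρ)ᶜ = pol x 1 '' (Ioi ρ ×ˢ univ) := by
    ext z
    constructor
    · intro hz
      rw [mem_compl_iff, mem_closedBall, not_le, dist_eq_norm] at hz
      refine ⟨(‖z - x‖, (z - x).arg), ⟨hz, mem_univ _⟩, ?_⟩
      simp only [pol, one_mul, uc]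
      rw [Complex.norm_mul_exp_arg_mul_I]
      ring
    · rintro ⟨⟨r, t⟩, ⟨hr, -⟩, rfl⟩
      have hr' : ρ < r := hr
      rw [mem_compl_iff, mem_closedBall, not_le, dist_eq_norm,
        norm_pol_sub norm_one (hρ.trans hr'.le)]
      exact hr'
  rw [this]
  exact (isPreconnected_Ioi.prod isPreconnected_univ).image _ (continuous_pol x 1).continuousOn

/-- Collars of a compact part of the arc. -/
theorem exists_collar {C : Set ℂ} (hCc : IsClosed C) {x : ℂ} {s : ℝ} {p : ℂ}
    (hp : ‖p‖ = 1) {a b : ℝ} (hab : ∀ t ∈ uIcc a b, x + s * (p * uc t) ∉ C) :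
    ∃ η > 0, ∀ r, |r - s| < η → ∀ t ∈ uIcc a b, pol x p (r, t) ∉ C := by
  have hT : IsCompact (pol x p '' ({s} ×ˢ uIcc a b)) :=
    (isCompact_singleton.prod isCompact_uIcc).image (continuous_pol x p)
  have hdis : Disjoint (pol x p '' ({s} ×ˢ uIcc a b)) C := by
    rw [disjoint_left]
    rintro _ ⟨⟨r, t⟩, ⟨hr, ht⟩, rfl⟩ hC
    rw [mem_singleton_iff] at hr
    simp only at hr
    rw [hr] at hC
    exact hab t ht hC
  obtain ⟨η, hη, hd⟩ := hdis.exists_thickenings hT hCc
  refine ⟨η, hη, fun r hr t ht hC => ?_⟩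
  refine disjoint_left.mp hd ?_ (self_subset_thickening hη _ hC)
  rw [mem_thickening_iff]
  exact ⟨pol x p (s, t), ⟨(s, t), ⟨rfl, ht⟩, rfl⟩, by rw [dist_pol hp]; exact hr⟩

/-- The bounded region cut off by an arc. -/
theorem exists_region {C : Set ℂ} (hCc : IsClosed C) (hC : IsPreconnected C) {x : ℂ} {s ρ : ℝ}
    (hs : 0 < s) (hsρ : s ≤ ρ) (hCρ : C ⊆ closedBall x ρ) {p : ℂ} (hp : ‖p‖ = 1) {γ : ℝ}
    (h0 : 0 < γ) (h1 : γ < 2 * π) (hP : x + s * p ∈ C) (hQ : x + s * (p * uc γ) ∈ C)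
    (hI : ∀ t ∈ Ioo 0 γ, x + s * (p * uc t) ∉ C) :
    ∃ U : Set ℂ, IsOpen U ∧ U ⊆ closedBall x ρ ∧ U ⊆ (C ∪ cArc x s p γ)ᶜ ∧
      (∀ z ∈ closure U, z ∉ C ∪ cArc x s p γ → z ∈ U) ∧
      ((∀ t ∈ Ioo 0 γ, (∀ᶠ r in 𝓝[<] s, pol x p (r, t) ∈ U) ∧
          ∀ᶠ r in 𝓝[>] s, pol x p (r, t) ∉ U) ∨
        ∀ t ∈ Ioo 0 γ, (∀ᶠ r in 𝓝[<] s, pol x p (r, t) ∉ U) ∧
          ∀ᶠ r in 𝓝[>] s, pol x p (r, t) ∈ U) := by
  obtain ⟨O, hO⟩ : ∃ O, O = (C ∪ cArc x s p γ)ᶜ := ⟨_, rfl⟩
  have hOo : IsOpen O := by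
    rw [hO]; exact (hCc.union (isCompact_cArc x s p γ).isClosed).isOpen_compl
  have hmid : γ / 2 ∈ Ioo 0 γ := ⟨by linarith only [h0], by linarith only [h0]⟩
  have huI : ∀ t ∈ Ioo 0 γ, ∀ t' ∈ uIcc (γ / 2) t, x + s * (p * uc t') ∉ C := by
    intro t ht t' ht'
    refine hI t' ?_
    rw [mem_uIcc] at ht'
    rcases ht' with h | h
    · exact ⟨by linarith only [h0, h], by linarith only [h, ht.2]⟩
    · exact ⟨by linarith only [h, ht.1], by linarith only [h0, h]⟩
  have hoff : ∀ r t, 0 < r → r ≠ s → pol x p (r, t) ∉ C → pol x p (r, t) ∈ O := by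
    intro r t hr hrs hC
    rw [hO]
    rintro (h | h)
    · exact hC h
    · have := cArc_subset_sphere hs.le hp γ h
      rw [mem_sphere, dist_eq_norm, norm_pol_sub hp hr.le] at this
      exact hrs this
  obtain ⟨η₀, hη₀, hη₀C⟩ := exists_collar hCc hp (huI (γ / 2) hmid)
  obtain ⟨δ, hδ⟩ : ∃ δ, δ = min (η₀ / 2) (s / 2) := ⟨_, rfl⟩
  have hδ0 : 0 < δ := by rw [hδ]; (clear * - hη₀ hs; positivity)
  have hδ1 : δ < η₀ := by rw [hδ]; exact (min_le_left _ _).trans_lt (by linarith only [hη₀])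
  have hδ2 : δ < s := by rw [hδ]; exact (min_le_right _ _).trans_lt (by linarith only [hs])
  obtain ⟨zi, hzi⟩ : ∃ z, z = pol x p (s - δ, γ / 2) := ⟨_, rfl⟩
  obtain ⟨zo, hzo⟩ : ∃ z, z = pol x p (s + δ, γ / 2) := ⟨_, rfl⟩
  have hmm : γ / 2 ∈ uIcc (γ / 2) (γ / 2) := by simp
  have hziO : zi ∈ O := by
    rw [hzi]
    exact hoff _ _ (by linarith only [hδ2]) (by linarith only [hδ0])
      (hη₀C _ (by rw [abs_lt]; constructor <;> linarith only [hδ0, hδ1]) _ hmm)
  have hzoO : zo ∈ O := by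
    rw [hzo]
    exact hoff _ _ (by linarith only [hδ0, hδ2]) (by linarith only [hδ0])
      (hη₀C _ (by rw [abs_lt]; constructor <;> linarith only [hδ0, hδ1]) _ hmm)
  obtain ⟨Ui, hUi⟩ : ∃ U, U = connectedComponentIn O zi := ⟨_, rfl⟩
  obtain ⟨Uo, hUo⟩ : ∃ U, U = connectedComponentIn O zo := ⟨_, rfl⟩
  -- the inner and outer collars
  have hin : ∀ t ∈ Ioo 0 γ, ∀ᶠ r in 𝓝[<] s, pol x p (r, t) ∈ Ui := by
    intro t ht
    obtain ⟨η, hη, hηC⟩ := exists_collar hCc hp (huI t ht)
    obtain ⟨η', hη'⟩ : ∃ η', η' = min η δ := ⟨_, rfl⟩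
    have hη'0 : 0 < η' := by rw [hη']; exact lt_min hη hδ0
    have hη'1 : η' ≤ η := by rw [hη']; exact min_le_left _ _
    have hη'2 : η' ≤ δ := by rw [hη']; exact min_le_right _ _
    filter_upwards [Ioo_mem_nhdsLT (show s - η' < s by linarith only [hη'0])] with r hr
    -- the radial segment at the middle
    have hS1 : IsPreconnected (pol x p '' (Ico (s - δ) s ×ˢ {γ / 2})) :=
      (isPreconnected_Ico.prod isPreconnected_singleton).image _ (continuous_pol x p).continuousOn
    have hS1O : pol x p '' (Ico (s - δ) s ×ˢ {γ / 2}) ⊆ O := by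
      rintro _ ⟨⟨r', t'⟩, ⟨hr', ht'⟩, rfl⟩
      rw [mem_singleton_iff] at ht'
      simp only at hr' ht'
      rw [ht']
      exact hoff _ _ (by linarith only [hδ2, hr'.1]) (ne_of_lt hr'.2)
        (hη₀C _ (by rw [abs_lt]; constructor <;> linarith only [hδ0, hδ1, hr'.2, hr'.1]) _ hmm)
    have hS1U : pol x p '' (Ico (s - δ) s ×ˢ {γ / 2}) ⊆ Ui := by
      rw [hUi]
      exact hS1.subset_connectedComponentIn
        ⟨(s - δ, γ / 2), ⟨⟨le_rfl, by simp only; linarith only [hδ0]⟩, rfl⟩, hzi.symm⟩ hS1O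
    have hS2 : IsPreconnected (pol x p '' (Ioo (s - η') s ×ˢ uIcc (γ / 2) t)) :=
      (isPreconnected_Ioo.prod isPreconnected_uIcc).image _ (continuous_pol x p).continuousOn
    have hS2O : pol x p '' (Ioo (s - η') s ×ˢ uIcc (γ / 2) t) ⊆ O := by
      rintro _ ⟨⟨r', t'⟩, ⟨hr', ht'⟩, rfl⟩
      simp only at hr' ht'
      exact hoff _ _ (by linarith only [hδ2, hη'2, hr'.1]) (ne_of_lt hr'.2)
        (hηC _ (by rw [abs_lt]; constructor <;> linarith only [hη'1, hr'.1, hη, hr'.2]) _ ht')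
    have hy : pol x p (r, γ / 2) ∈ Ui :=
      hS1U ⟨(r, γ / 2), ⟨⟨by simp only; linarith only [hη'2, hr.1], hr.2⟩, rfl⟩, rfl⟩
    rw [hUi] at hy ⊢
    rw [connectedComponentIn_eq hy]
    exact hS2.subset_connectedComponentIn ⟨(r, γ / 2), ⟨hr, left_mem_uIcc⟩, rfl⟩ hS2O
      ⟨(r, t), ⟨hr, right_mem_uIcc⟩, rfl⟩
  have hout : ∀ t ∈ Ioo 0 γ, ∀ᶠ r in 𝓝[>] s, pol x p (r, t) ∈ Uo := by
    intro t ht
    obtain ⟨η, hη, hηC⟩ := exists_collar hCc hp (huI t ht)
    obtain ⟨η', hη'⟩ : ∃ η', η' = min η δ := ⟨_, rfl⟩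
    have hη'0 : 0 < η' := by rw [hη']; exact lt_min hη hδ0
    have hη'1 : η' ≤ η := by rw [hη']; exact min_le_left _ _
    have hη'2 : η' ≤ δ := by rw [hη']; exact min_le_right _ _
    filter_upwards [Ioo_mem_nhdsGT (show s < s + η' by linarith only [hη'0])] with r hr
    have hS1 : IsPreconnected (pol x p '' (Ioc s (s + δ) ×ˢ {γ / 2})) :=
      (isPreconnected_Ioc.prod isPreconnected_singleton).image _ (continuous_pol x p).continuousOn
    have hS1O : pol x p '' (Ioc s (s + δ) ×ˢ {γ / 2}) ⊆ O := by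
      rintro _ ⟨⟨r', t'⟩, ⟨hr', ht'⟩, rfl⟩
      rw [mem_singleton_iff] at ht'
      simp only at hr' ht'
      rw [ht']
      exact hoff _ _ (by linarith only [hδ0, hδ2, hr'.1]) (ne_of_gt hr'.1)
        (hη₀C _ (by rw [abs_lt]; constructor <;> linarith only [hδ0, hδ1, hr'.1, hr'.2]) _ hmm)
    have hS1U : pol x p '' (Ioc s (s + δ) ×ˢ {γ / 2}) ⊆ Uo := by
      rw [hUo]
      exact hS1.subset_connectedComponentIn
        ⟨(s + δ, γ / 2), ⟨⟨by simp only; linarith only [hδ0], le_rfl⟩, rfl⟩, hzo.symm⟩ hS1O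
    have hS2 : IsPreconnected (pol x p '' (Ioo s (s + η') ×ˢ uIcc (γ / 2) t)) :=
      (isPreconnected_Ioo.prod isPreconnected_uIcc).image _ (continuous_pol x p).continuousOn
    have hS2O : pol x p '' (Ioo s (s + η') ×ˢ uIcc (γ / 2) t) ⊆ O := by
      rintro _ ⟨⟨r', t'⟩, ⟨hr', ht'⟩, rfl⟩
      simp only at hr' ht'
      exact hoff _ _ (by linarith only [hδ0, hδ2, hr'.1]) (ne_of_gt hr'.1)
        (hηC _ (by rw [abs_lt]; constructor <;> linarith only [hη'1, hr'.2, hη, hr'.1]) _ ht')
    have hy : pol x p (r, γ / 2) ∈ Uo :=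
      hS1U ⟨(r, γ / 2), ⟨⟨hr.1, by simp only; linarith only [hη'2, hr.2]⟩, rfl⟩, rfl⟩
    rw [hUo] at hy ⊢
    rw [connectedComponentIn_eq hy]
    exact hS2.subset_connectedComponentIn ⟨(r, γ / 2), ⟨hr, left_mem_uIcc⟩, rfl⟩ hS2O
      ⟨(r, t), ⟨hr, right_mem_uIcc⟩, rfl⟩
  -- disjointness
  have hdisj : Disjoint Ui Uo := by
    rw [disjoint_left]
    intro y hyi hyo
    have e1 : Ui = Uo := by
      rw [hUi] at hyi ⊢
      rw [hUo] at hyo ⊢
      rw [connectedComponentIn_eq hyi, connectedComponentIn_eq hyo]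
    have hz₀ : Tendsto (fun r => pol x p (r, γ / 2)) (𝓝 s) (𝓝 (x + s * (p * uc (γ / 2)))) := by
      have hc : Continuous fun r : ℝ => pol x p (r, γ / 2) :=
        (continuous_pol x p).comp (by fun_prop)
      exact hc.tendsto s
    refine sep_arc hCc hC hs hp h0 h1 hP hQ hmid (hI _ hmid) (W := Ui) ?_ ?_ ?_ ?_ ?_
    · rw [hUi]; exact hOo.connectedComponentIn
    · rw [hUi]; exact isPreconnected_connectedComponentIn
    · rw [hUi, ← hO]; exact connectedComponentIn_subset _ _
    · have : (𝓝[<] s).NeBot := inferInstance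
      refine mem_closure_of_tendsto (hz₀.mono_left (nhdsWithin_le_nhds (s := Iio s))) ?_
      filter_upwards [hin _ hmid, self_mem_nhdsWithin,
        Ioo_mem_nhdsLT (show s / 2 < s by linarith only [hδ0, hδ2])] with r hr hrs hr2
      refine ⟨hr, ?_⟩
      rw [mem_ball, dist_eq_norm, norm_pol_sub hp (by linarith only [hδ0, hδ2, hr2.1])]
      exact hrs
    · have : (𝓝[>] s).NeBot := inferInstance
      refine mem_closure_of_tendsto (hz₀.mono_left (nhdsWithin_le_nhds (s := Ioi s))) ?_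
      filter_upwards [hout _ hmid, self_mem_nhdsWithin] with r hr hrs
      have hrs' : s < r := hrs
      refine ⟨by rw [e1]; exact hr, ?_⟩
      rw [mem_compl_iff, mem_closedBall, not_le, dist_eq_norm, norm_pol_sub hp (by linarith only [hδ0, hδ2, hrs'])]
      exact hrs
  -- closure property
  have hcl : ∀ y, ∀ z ∈ closure (connectedComponentIn O y), z ∉ C ∪ cArc x s p γ →
      z ∈ connectedComponentIn O y := by
    intro y z hz hzO
    have hzO' : z ∈ O := by rw [hO]; exact hzO
    obtain ⟨ε, hε, hεO⟩ := Metric.isOpen_iff.mp hOo z hzO'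
    obtain ⟨y', hy', hy''⟩ := mem_closure_iff.mp hz _ isOpen_ball (mem_ball_self hε)
    rw [connectedComponentIn_eq hy'']
    exact (convex_ball z ε).isPreconnected.subset_connectedComponentIn hy' hεO (mem_ball_self hε)
  -- boundedness
  have hρ0 : 0 ≤ ρ := hs.le.trans hsρ
  have hEO : (closedBall x ρ)ᶜ ⊆ O := by
    rw [hO]
    refine compl_subset_compl.mpr (union_subset hCρ ?_)
    exact (cArc_subset_sphere hs.le hp γ).trans
      (sphere_subset_closedBall.trans (closedBall_subset_closedBall hsρ))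
  have hcase : Ui ⊆ closedBall x ρ ∨ Uo ⊆ closedBall x ρ := by
    by_contra hcon
    push Not at hcon
    obtain ⟨ha, hb⟩ := hcon
    obtain ⟨a, haU, haρ⟩ := not_subset.mp ha
    obtain ⟨b, hbU, hbρ⟩ := not_subset.mp hb
    have hE := isPreconnected_compl_closedBall x hρ0
    have h2 : (closedBall x ρ)ᶜ ⊆ Ui := by
      rw [hUi] at haU ⊢
      rw [connectedComponentIn_eq haU]
      exact hE.subset_connectedComponentIn haρ hEO
    exact disjoint_left.mp hdisj (h2 hbρ) hbU
  rcases hcase with h | h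
  · refine ⟨Ui, ?_, h, ?_, ?_, Or.inl fun t ht => ⟨hin t ht, ?_⟩⟩
    · rw [hUi]; exact hOo.connectedComponentIn
    · rw [hUi, ← hO]; exact connectedComponentIn_subset _ _
    · rw [hUi]; exact hcl zi
    · filter_upwards [hout t ht] with r hr hc
      exact disjoint_left.mp hdisj hc hr
  · refine ⟨Uo, ?_, h, ?_, ?_, Or.inr fun t ht => ⟨?_, hout t ht⟩⟩
    · rw [hUo]; exact hOo.connectedComponentIn
    · rw [hUo, ← hO]; exact connectedComponentIn_subset _ _
    · rw [hUo]; exact hcl zo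
    · filter_upwards [hin t ht] with r hr hc
      exact disjoint_left.mp hdisj hr hc

end Vale.Agent.P128
end

section

/-! Topological lemmas for the pieces of `K`. -/

open Set Metric Filter
open scoped Topology Real

namespace Vale.Agent.P128.GM

open Vale.Agent.P128

/-! ### One common point -/

theorem preconnected_of_one {X : Type*} [TopologicalSpace X] {K A B : Set X}
    (hK : IsPreconnected K) (hA : IsClosed A) (hB : IsClosed B) (hAB : A ∪ B = K) {x : X}
    (hx : A ∩ B ⊆ {x}) (hxA : x ∈ A) : IsPreconnected A := by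
  rw [isPreconnected_closed_iff] at hK ⊢
  have key : ∀ t t' : Set X, IsClosed t → IsClosed t' → A ⊆ t ∪ t' → (A ∩ t).Nonempty →
      (A ∩ t').Nonempty → x ∈ t → (A ∩ (t ∩ t')).Nonempty := by
    intro t t' ht ht' hcov h1 h2 hxt
    obtain ⟨z, hzK, hz1, hz2⟩ := hK ((A ∩ t) ∪ B) (A ∩ t') ((hA.inter ht).union hB)
      (hA.inter ht') (by
        rw [← hAB]
        rintro z (hz | hz)
        · rcases hcov hz with h | h
          · exact Or.inl (Or.inl ⟨hz, h⟩)
          · exact Or.inr ⟨hz, h⟩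
        · exact Or.inl (Or.inr hz))
      (by
        obtain ⟨z, hz⟩ := h1
        exact ⟨z, hAB ▸ Or.inl hz.1, Or.inl hz⟩)
      (by
        obtain ⟨z, hz⟩ := h2
        exact ⟨z, hAB ▸ Or.inl hz.1, hz⟩)
    rcases hz1 with hz1 | hz1
    · exact ⟨z, hz2.1, hz1.2, hz2.2⟩
    · have : z = x := hx ⟨hz2.1, hz1⟩
      exact ⟨x, hxA, hxt, this ▸ hz2.2⟩
  intro t t' ht ht' hcov h1 h2
  rcases hcov hxA with hxt | hxt
  · exact key t t' ht ht' hcov h1 h2 hxt
  · rw [inter_comm t t']
    exact key t' t ht' ht (by rwa [union_comm]) h2 h1 hxt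

theorem subset_or_of_closed {X : Type*} [TopologicalSpace X] {S F1 F2 : Set X}
    (hS : IsPreconnected S) (h1 : IsClosed F1) (h2 : IsClosed F2) (hd : Disjoint F1 F2)
    (hc : S ⊆ F1 ∪ F2) : S ⊆ F1 ∨ S ⊆ F2 := by
  rw [isPreconnected_closed_iff] at hS
  by_cases a1 : (S ∩ F1).Nonempty
  · by_cases a2 : (S ∩ F2).Nonempty
    · obtain ⟨z, -, hz1, hz2⟩ := hS F1 F2 h1 h2 hc a1 a2
      exact (disjoint_left.1 hd hz1 hz2).elim
    · left
      intro z hz
      rcases hc hz with h | h
      · exact h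
      · exact (a2 ⟨z, hz, h⟩).elim
  · right
    intro z hz
    rcases hc hz with h | h
    · exact (a1 ⟨z, hz, h⟩).elim
    · exact h

/-! ### Two points on a circle -/

theorem exists_uc {x : ℂ} {s : ℝ} (hs : 0 < s) {P Q : ℂ} (hP : P ∈ sphere x s)
    (hQ : Q ∈ sphere x s) (hPQ : P ≠ Q) : ∃ (p : ℂ) (γ : ℝ), ‖p‖ = 1 ∧ 0 < γ ∧ γ < 2 * π ∧
      x + s * p = P ∧ x + s * (p * uc γ) = Q := by
  have hs0 : (s : ℂ) ≠ 0 := by exact_mod_cast hs.ne'
  rw [mem_sphere, dist_eq_norm] at hP hQ
  set p : ℂ := (P - x) / s with hp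
  set q : ℂ := (Q - x) / s with hq
  have hp1 : ‖p‖ = 1 := by
    rw [hp, norm_div, hP, Complex.norm_real, Real.norm_of_nonneg hs.le, div_self hs.ne']
  have hq1 : ‖q‖ = 1 := by
    rw [hq, norm_div, hQ, Complex.norm_real, Real.norm_of_nonneg hs.le, div_self hs.ne']
  have hp0 : p ≠ 0 := by rw [← norm_ne_zero_iff, hp1]; exact one_ne_zero
  have hr1 : ‖q / p‖ = 1 := by rw [norm_div, hp1, hq1, div_one]
  have hxP : x + s * p = P := by rw [hp]; field_simp; ring
  have hxQ : x + s * q = Q := by rw [hq]; field_simp; ring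
  have hne : q / p ≠ 1 := by
    intro h
    rw [div_eq_one_iff_eq hp0] at h
    exact hPQ (by rw [← hxP, ← hxQ, h])
  have harg0 : (q / p).arg ≠ 0 := by
    intro h
    have := uc_arg hr1
    rw [h, uc_zero] at this
    exact hne this.symm
  by_cases hpos : 0 < (q / p).arg
  · refine ⟨p, (q / p).arg, hp1, hpos, ?_, hxP, ?_⟩
    · linarith only [Real.pi_pos, Complex.arg_le_pi (q / p)]
    · rw [uc_arg hr1, mul_div_cancel₀ _ hp0, hxQ]
  · have hneg : (q / p).arg < 0 := lt_of_le_of_ne (not_lt.1 hpos) harg0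
    refine ⟨p, (q / p).arg + 2 * π, hp1, ?_, by linarith only [hneg], hxP, ?_⟩
    · linarith only [Complex.neg_pi_lt_arg (q / p), hneg]
    · rw [uc_add, uc_two_pi, mul_one, uc_arg hr1, mul_div_cancel₀ _ hp0, hxQ]

theorem mem_cArc_or {x : ℂ} {s : ℝ} (hs : 0 < s) {p : ℂ} (hp : ‖p‖ = 1) {γ : ℝ} (h0 : 0 < γ)
    (h1 : γ < 2 * π) {z : ℂ} (hz : z ∈ sphere x s) :
    ∃ t, 0 ≤ t ∧ t < 2 * π ∧ z = x + s * (p * uc t) := by
  by_cases hzP : x + s * p = z
  · exact ⟨0, le_rfl, by linarith, by rw [uc_zero, mul_one, hzP]⟩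
  · have hPs : x + s * p ∈ sphere x s := by
      rw [mem_sphere, dist_eq_norm, add_sub_cancel_left, norm_mul, hp, Complex.norm_real,
        Real.norm_of_nonneg hs.le, mul_one]
    obtain ⟨p', t, -, ht0, ht1, hp', hz'⟩ := exists_uc hs hPs hz hzP
    have hs0 : (s : ℂ) ≠ 0 := by exact_mod_cast hs.ne'
    have : p' = p := mul_left_cancel₀ hs0 (add_left_cancel hp')
    exact ⟨t, ht0.le, ht1, by rw [← hz', this]⟩

theorem pt_inj {x : ℂ} {s : ℝ} (hs : 0 < s) {p : ℂ} (hp : ‖p‖ = 1) {t t' : ℝ}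
    (h : x + s * (p * uc t) = x + s * (p * uc t')) (ht : |t - t'| < 2 * π) : t = t' := by
  have hs0 : (s : ℂ) ≠ 0 := by exact_mod_cast hs.ne'
  have hp0 : p ≠ 0 := by rw [← norm_ne_zero_iff, hp]; exact one_ne_zero
  exact uc_inj (mul_left_cancel₀ hp0 (mul_left_cancel₀ hs0 (add_left_cancel h))) ht

/-- A connected set inside and a connected set outside a disk, meeting in two points of the
circle, disconnect the plane. -/
theorem sep_two {K : Set ℂ} (hK : IsClosed K) (hKc : IsPreconnected Kᶜ) {x : ℂ} {s : ℝ}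
    (hs : 0 < s) {P Q : ℂ} (hPQ : P ≠ Q) (hcap : K ∩ sphere x s = {P, Q})
    (hin : IsPreconnected (K ∩ closedBall x s)) (hout : IsPreconnected (K \ ball x s)) :
    False := by
  have hπ := Real.pi_pos
  have hPm : P ∈ K ∩ sphere x s := by rw [hcap]; exact Or.inl rfl
  have hQm : Q ∈ K ∩ sphere x s := by rw [hcap]; exact Or.inr rfl
  obtain ⟨p, γ, hp, h0, h1, hxP, hxQ⟩ := exists_uc hs hPm.2 hQm.2 hPQ
  set A : Set ℂ := cArc x s p γ with hA
  have hAs : A ⊆ sphere x s := cArc_subset_sphere hs.le hp γ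
  have hAc : IsClosed A := (isCompact_cArc x s p γ).isClosed
  set C1 : Set ℂ := K \ ball x s with hC1
  set C2 : Set ℂ := K ∩ closedBall x s with hC2
  have hC1c : IsClosed C1 := hK.sdiff isOpen_ball
  have hC2c : IsClosed C2 := hK.inter isClosed_closedBall
  set O1 : Set ℂ := (C1 ∪ A)ᶜ with hO1
  set O2 : Set ℂ := (C2 ∪ A)ᶜ with hO2
  have hO1o : IsOpen O1 := (hC1c.union hAc).isOpen_compl
  have hO2o : IsOpen O2 := (hC2c.union hAc).isOpen_compl
  have hball : ball x s ⊆ O1 := by
    rintro z hz (h | h)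
    · exact h.2 hz
    · exact (ne_of_lt (mem_ball.1 hz)) (mem_sphere.1 (hAs h))
  have hext : (closedBall x s)ᶜ ⊆ O2 := by
    rintro z hz (h | h)
    · exact hz h.2
    · exact hz (sphere_subset_closedBall (hAs h))
  have hextc : IsPreconnected (closedBall x s)ᶜ := isPreconnected_compl_closedBall x hs.le
  have hxO1 : x ∈ O1 := hball (mem_ball_self hs)
  obtain ⟨y0, hy0⟩ : ∃ y0, y0 ∈ (closedBall x s)ᶜ := by
    refine ⟨x + (2 * s : ℝ), ?_⟩
    rw [mem_compl_iff, mem_closedBall, dist_eq_norm, add_sub_cancel_left, Complex.norm_real,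
      Real.norm_of_nonneg (by linarith)]
    linarith
  set U1 : Set ℂ := connectedComponentIn O1 x with hU1
  set U2 : Set ℂ := connectedComponentIn O2 y0 with hU2
  have hU1o : IsOpen U1 := hO1o.connectedComponentIn
  have hU2o : IsOpen U2 := hO2o.connectedComponentIn
  have hU1c : IsPreconnected U1 := isPreconnected_connectedComponentIn
  have hU2c : IsPreconnected U2 := isPreconnected_connectedComponentIn
  have hU1s : U1 ⊆ O1 := connectedComponentIn_subset _ _
  have hU2s : U2 ⊆ O2 := connectedComponentIn_subset _ _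
  have hbU : ball x s ⊆ U1 :=
    (convex_ball x s).isPreconnected.subset_connectedComponentIn (mem_ball_self hs) hball
  have heU : (closedBall x s)ᶜ ⊆ U2 := hextc.subset_connectedComponentIn hy0 hext
  -- points of the sphere are in both closures
  have hcl1 : ∀ z ∈ sphere x s, z ∈ closure (ball x s) := fun z hz => by
    rw [closure_ball x hs.ne']; exact sphere_subset_closedBall hz
  have hcl2 : ∀ z ∈ sphere x s, z ∈ closure (closedBall x s)ᶜ := fun z hz => by
    rw [closure_compl, interior_closedBall x hs.ne', mem_compl_iff, mem_ball, not_lt]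
    exact (mem_sphere.1 hz).ge
  have habs : ∀ z ∈ U1, z ∉ A := fun z hz h => hU1s hz (Or.inr h)
  -- the two open sets
  set V : Set ℂ := {z | (z ∈ ball x s ∧ z ∈ U2) ∨ (z ∈ (closedBall x s)ᶜ ∧ z ∈ U1) ∨
    (z ∈ sphere x s ∧ z ∉ A ∧ z ∉ K)} with hV
  set V' : Set ℂ := {z | (z ∈ ball x s ∧ z ∉ U2 ∧ z ∉ K) ∨ (z ∈ (closedBall x s)ᶜ ∧ z ∉ U1 ∧ z ∉ K) ∨
    (z ∈ sphere x s ∧ z ∈ A ∧ z ∉ K)} with hV'
  have hVo : IsOpen V := by
    rw [isOpen_iff_mem_nhds]
    rintro z (hz | hz | hz)
    · exact mem_of_superset ((isOpen_ball.inter hU2o).mem_nhds hz) fun y hy => Or.inl hy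
    · exact mem_of_superset ((isClosed_closedBall.isOpen_compl.inter hU1o).mem_nhds hz)
        fun y hy => Or.inr (Or.inl hy)
    · obtain ⟨hzs, hzA, hzK⟩ := hz
      have hz1 : z ∈ O1 := by
        rintro (h | h)
        · exact hzK h.1
        · exact hzA h
      have hz2 : z ∈ O2 := by
        rintro (h | h)
        · exact hzK h.1
        · exact hzA h
      obtain ⟨δ, hδ, hδs⟩ := Metric.isOpen_iff.1 (hO1o.inter hO2o) z ⟨hz1, hz2⟩
      have hb1 : ball z δ ⊆ U1 := by
        obtain ⟨y, hyb, hys⟩ := mem_closure_iff.1 (hcl1 z hzs) (ball z δ) isOpen_ball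
          (mem_ball_self hδ)
        have hc : IsPreconnected (ball z δ ∪ ball x s) :=
          (convex_ball z δ).isPreconnected.union y hyb hys (convex_ball x s).isPreconnected
        exact subset_union_left.trans (hc.subset_connectedComponentIn (Or.inr (mem_ball_self hs))
          (union_subset (hδs.trans inter_subset_left) hball))
      have hb2 : ball z δ ⊆ U2 := by
        obtain ⟨y, hyb, hys⟩ := mem_closure_iff.1 (hcl2 z hzs) (ball z δ) isOpen_ball
          (mem_ball_self hδ)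
        have hc : IsPreconnected (ball z δ ∪ (closedBall x s)ᶜ) :=
          (convex_ball z δ).isPreconnected.union y hyb hys hextc
        exact subset_union_left.trans (hc.subset_connectedComponentIn (Or.inr hy0)
          (union_subset (hδs.trans inter_subset_right) hext))
      refine mem_of_superset (ball_mem_nhds z hδ) fun y hy => ?_
      rcases lt_trichotomy (dist y x) s with hlt | heq | hgt
      · exact Or.inl ⟨hlt, hb2 hy⟩
      · refine Or.inr (Or.inr ⟨heq, habs y (hb1 hy), fun hyK => ?_⟩)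
        refine (hδs hy).1 (Or.inl ⟨hyK, ?_⟩)
        rw [mem_ball, not_lt]; exact heq.ge
      · refine Or.inr (Or.inl ⟨?_, hb1 hy⟩)
        rw [mem_compl_iff, mem_closedBall, not_le]; exact hgt
  have hVo' : IsOpen V' := by
    rw [isOpen_iff_mem_nhds]
    rintro z (hz | hz | hz)
    · obtain ⟨hzb, hzU, hzK⟩ := hz
      have hz2 : z ∈ O2 := by
        rintro (h | h)
        · exact hzK h.1
        · exact (ne_of_lt (mem_ball.1 hzb)) (mem_sphere.1 (hAs h))
      have hopen : IsOpen (ball x s ∩ connectedComponentIn O2 z) :=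
        isOpen_ball.inter hO2o.connectedComponentIn
      refine mem_of_superset (hopen.mem_nhds ⟨hzb, mem_connectedComponentIn hz2⟩) fun y hy => ?_
      refine Or.inl ⟨hy.1, fun hyU => hzU ?_, fun hyK => ?_⟩
      · have e1 := connectedComponentIn_eq hy.2
        have e2 := connectedComponentIn_eq hyU
        rw [hU2, e2, ← e1]
        exact mem_connectedComponentIn hz2
      · exact (connectedComponentIn_subset _ _ hy.2) (Or.inl ⟨hyK, ball_subset_closedBall hy.1⟩)
    · obtain ⟨hzb, hzU, hzK⟩ := hz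
      have hz1 : z ∈ O1 := by
        rintro (h | h)
        · exact hzK h.1
        · exact hzb (sphere_subset_closedBall (hAs h))
      have hopen : IsOpen ((closedBall x s)ᶜ ∩ connectedComponentIn O1 z) :=
        isClosed_closedBall.isOpen_compl.inter hO1o.connectedComponentIn
      refine mem_of_superset (hopen.mem_nhds ⟨hzb, mem_connectedComponentIn hz1⟩) fun y hy => ?_
      refine Or.inr (Or.inl ⟨hy.1, fun hyU => hzU ?_, fun hyK => ?_⟩)
      · have e1 := connectedComponentIn_eq hy.2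
        have e2 := connectedComponentIn_eq hyU
        rw [hU1, e2, ← e1]
        exact mem_connectedComponentIn hz1
      · exact (connectedComponentIn_subset _ _ hy.2)
          (Or.inl ⟨hyK, fun hyb => hy.1 (ball_subset_closedBall hyb)⟩)
    · obtain ⟨hzs, hzA, hzK⟩ := hz
      obtain ⟨t₀, ht₀, hzt⟩ := hzA
      have ht0 : t₀ ≠ 0 := by
        rintro rfl
        apply hzK
        rw [hzt, uc_zero, mul_one, hxP]
        exact hPm.1
      have htγ : t₀ ≠ γ := by
        rintro rfl
        apply hzK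
        rw [hzt, hxQ]
        exact hQm.1
      have htI : t₀ ∈ Ioo 0 γ := ⟨lt_of_le_of_ne ht₀.1 (Ne.symm ht0), lt_of_le_of_ne ht₀.2 htγ⟩
      have hPC1 : x + s * p ∈ C1 := by
        rw [hxP]; exact ⟨hPm.1, by rw [mem_ball, not_lt]; exact (mem_sphere.1 hPm.2).ge⟩
      have hQC1 : x + s * (p * uc γ) ∈ C1 := by
        rw [hxQ]; exact ⟨hQm.1, by rw [mem_ball, not_lt]; exact (mem_sphere.1 hQm.2).ge⟩
      have hPC2 : x + s * p ∈ C2 := by
        rw [hxP]; exact ⟨hPm.1, sphere_subset_closedBall hPm.2⟩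
      have hQC2 : x + s * (p * uc γ) ∈ C2 := by
        rw [hxQ]; exact ⟨hQm.1, sphere_subset_closedBall hQm.2⟩
      have n1 : z ∉ closure (U1 ∩ (closedBall x s)ᶜ) := by
        intro hcl
        refine sep_arc hC1c hout hs hp h0 h1 hPC1 hQC1 htI ?_ hU1o hU1c hU1s ?_ ?_
        · rw [← hzt]; exact fun h => hzK h.1
        · rw [← hzt, inter_eq_self_of_subset_right hbU]; exact hcl1 z hzs
        · rw [← hzt]; exact hcl
      have n2 : z ∉ closure (U2 ∩ ball x s) := by
        intro hcl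
        refine sep_arc hC2c hin hs hp h0 h1 hPC2 hQC2 htI ?_ hU2o hU2c hU2s ?_ ?_
        · rw [← hzt]; exact fun h => hzK h.1
        · rw [← hzt]; exact hcl
        · rw [← hzt, inter_eq_self_of_subset_right heU]; exact hcl2 z hzs
      -- the complementary arc
      have hA'c : IsClosed (cArc x s (p * uc γ) (2 * π - γ)) := (isCompact_cArc _ _ _ _).isClosed
      have n3 : z ∉ cArc x s (p * uc γ) (2 * π - γ) := by
        rintro ⟨t, ht, htz⟩
        rw [hzt, mul_assoc, ← uc_add] at htz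
        have := pt_inj hs hp htz (by rw [abs_lt]; constructor <;> linarith [ht.1, ht.2, htI.1, htI.2])
        linarith [ht.1, htI.2]
      filter_upwards [isClosed_closure.isOpen_compl.mem_nhds n1,
        isClosed_closure.isOpen_compl.mem_nhds n2, hA'c.isOpen_compl.mem_nhds n3,
        hK.isOpen_compl.mem_nhds hzK] with y m1 m2 m3 m4
      rcases lt_trichotomy (dist y x) s with hlt | heq | hgt
      · exact Or.inl ⟨hlt, fun hyU => m2 (subset_closure ⟨hyU, hlt⟩), m4⟩
      · refine Or.inr (Or.inr ⟨heq, ?_, m4⟩)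
        obtain ⟨t, ht0, ht1, hyt⟩ := mem_cArc_or hs hp h0 h1 (mem_sphere.2 heq)
        by_cases htγ : t ≤ γ
        · exact ⟨t, ⟨ht0, htγ⟩, hyt⟩
        · exfalso
          rw [not_le] at htγ
          refine m3 ⟨t - γ, ⟨by linarith, by linarith⟩, ?_⟩
          rw [mul_assoc, ← uc_add, add_sub_cancel, hyt]
      · have hy : y ∈ (closedBall x s)ᶜ := by
          rw [mem_compl_iff, mem_closedBall, not_le]; exact hgt
        exact Or.inr (Or.inl ⟨hy, fun hyU => m1 (subset_closure ⟨hyU, hy⟩), m4⟩)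
  -- the cover
  have hcov : Kᶜ ⊆ V ∪ V' := by
    intro z hz
    rcases lt_trichotomy (dist z x) s with hlt | heq | hgt
    · by_cases h : z ∈ U2
      · exact Or.inl (Or.inl ⟨hlt, h⟩)
      · exact Or.inr (Or.inl ⟨hlt, h, hz⟩)
    · by_cases h : z ∈ A
      · exact Or.inr (Or.inr (Or.inr ⟨heq, h, hz⟩))
      · exact Or.inl (Or.inr (Or.inr ⟨heq, h, hz⟩))
    · have hy : z ∈ (closedBall x s)ᶜ := by
        rw [mem_compl_iff, mem_closedBall, not_le]; exact hgt
      by_cases h : z ∈ U1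
      · exact Or.inl (Or.inr (Or.inl ⟨hy, h⟩))
      · exact Or.inr (Or.inr (Or.inl ⟨hy, h, hz⟩))
  have hmemK : ∀ t, t ≠ 0 → t ≠ γ → 0 ≤ t → t < 2 * π → x + s * (p * uc t) ∉ K := by
    intro t ht0 htγ ht ht' hmem
    have hsph : x + s * (p * uc t) ∈ sphere x s := by
      rw [mem_sphere, dist_eq_norm]; exact norm_pol_sub hp hs.le t
    have : x + s * (p * uc t) ∈ ({P, Q} : Set ℂ) := by rw [← hcap]; exact ⟨hmem, hsph⟩
    rcases this with h | h
    · rw [← hxP, show x + s * p = x + s * (p * uc 0) by rw [uc_zero, mul_one]] at h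
      exact ht0 (pt_inj hs hp h (by rw [abs_lt]; constructor <;> linarith))
    · rw [mem_singleton_iff, ← hxQ] at h
      exact htγ (pt_inj hs hp h (by rw [abs_lt]; constructor <;> linarith))
  have hne1 : (Kᶜ ∩ V).Nonempty := by
    refine ⟨x + s * (p * uc ((γ + 2 * π) / 2)), ?_, Or.inr (Or.inr ⟨?_, ?_, ?_⟩)⟩
    · exact hmemK _ (by linarith) (by linarith) (by linarith) (by linarith)
    · rw [mem_sphere, dist_eq_norm]; exact norm_pol_sub hp hs.le _
    · rintro ⟨t, ht, h⟩
      have := pt_inj hs hp h (by rw [abs_lt]; constructor <;> linarith [ht.1, ht.2])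
      linarith [ht.2]
    · exact hmemK _ (by linarith) (by linarith) (by linarith) (by linarith)
  have hne2 : (Kᶜ ∩ V').Nonempty := by
    refine ⟨x + s * (p * uc (γ / 2)), ?_, Or.inr (Or.inr ⟨?_, ?_, ?_⟩)⟩
    · exact hmemK _ (by linarith) (by linarith) (by linarith) (by linarith)
    · rw [mem_sphere, dist_eq_norm]; exact norm_pol_sub hp hs.le _
    · exact ⟨γ / 2, ⟨by linarith, by linarith⟩, rfl⟩
    · exact hmemK _ (by linarith) (by linarith) (by linarith) (by linarith)
  obtain ⟨z, -, hz1, hz2⟩ := hKc V V' hVo hVo' hcov hne1 hne2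
  have d1 : ∀ z, z ∈ ball x s → z ∉ (closedBall x s)ᶜ := fun z h1 h2 =>
    h2 (ball_subset_closedBall h1)
  have d2 : ∀ z, z ∈ ball x s → z ∉ sphere x s := fun z h1 h2 =>
    (ne_of_lt (mem_ball.1 h1)) (mem_sphere.1 h2)
  have d3 : ∀ z, z ∈ (closedBall x s)ᶜ → z ∉ sphere x s := fun z h1 h2 =>
    h1 (sphere_subset_closedBall h2)
  rcases hz1 with a | a | a <;> rcases hz2 with b | b | b
  · exact b.2.1 a.2
  · exact d1 z a.1 b.1
  · exact d2 z a.1 b.1
  · exact d1 z b.1 a.1
  · exact b.2.1 a.2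
  · exact d3 z a.1 b.1
  · exact d2 z b.1 a.1
  · exact d3 z b.1 a.1
  · exact a.2.1 b.2.1

end Vale.Agent.P128.GM
end

section

/-! Pieces of a connected closed set: the parts hanging at one point. -/

open Set Metric Filter
open scoped Topology Real

namespace Vale.Agent.P128.GM

open Vale.Agent.P128

/-- `U` is a nonempty bounded part of `K` hanging at the point `x`. -/
structure Pc (K U : Set ℂ) (x : ℂ) : Prop where
  sub : U ⊆ K
  ne : U.Nonempty
  bdd : Bornology.IsBounded U
  cc : IsClosed (K \ U)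
  base : x ∈ K
  nb : x ∉ U
  ic : IsClosed (insert x U)

variable {K U U' : Set ℂ} {x x' : ℂ}

theorem Pc.union_eq (h : Pc K U x) : insert x U ∪ (K \ U) = K := by
  ext z
  constructor
  · rintro ((rfl | hz) | hz)
    · exact h.base
    · exact h.sub hz
    · exact hz.1
  · intro hz
    by_cases hU : z ∈ U
    · exact Or.inl (Or.inr hU)
    · exact Or.inr ⟨hz, hU⟩

theorem Pc.inter_sub (_h : Pc K U x) : insert x U ∩ (K \ U) ⊆ {x} := by
  rintro z ⟨hz1 | hz1, hz2⟩
  · exact hz1
  · exact (hz2.2 hz1).elim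

theorem Pc.rest_preconnected (hK : IsPreconnected K) (h : Pc K U x) : IsPreconnected (K \ U) :=
  preconnected_of_one hK h.cc h.ic (by rw [union_comm]; exact h.union_eq)
    (by rw [inter_comm]; exact h.inter_sub) ⟨h.base, h.nb⟩

theorem Pc.piece_preconnected (hK : IsPreconnected K) (h : Pc K U x) :
    IsPreconnected (insert x U) :=
  preconnected_of_one hK h.ic h.cc h.union_eq h.inter_sub (mem_insert _ _)

theorem Pc.rest_unbounded (hu : ¬ Bornology.IsBounded K) (h : Pc K U x) :
    ¬ Bornology.IsBounded (K \ U) := fun hb => hu (by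
  have := h.bdd.union hb
  rwa [union_sdiff_cancel h.sub] at this)

theorem Pc.nest (hK : IsPreconnected K) (hu : ¬ Bornology.IsBounded K) (h : Pc K U x)
    (h' : Pc K U' x') (hx : x' ∈ U) : U' ⊆ U := by
  have hpre := h.rest_preconnected hK
  rw [isPreconnected_closed_iff] at hpre
  by_contra hcon
  obtain ⟨z, hz', hz⟩ := not_subset.1 hcon
  obtain ⟨y, hy, hyK⟩ : ((K \ U) ∩ (K \ U')).Nonempty := by
    by_contra hne
    apply h.rest_unbounded hu
    refine h'.bdd.subset fun y hy => ?_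
    by_contra hyU'
    exact hne ⟨y, hy, hy.1, hyU'⟩
  obtain ⟨a, ha, ha1, ha2⟩ := hpre (insert x' U') (K \ U') h'.ic h'.cc
    (sdiff_subset.trans h'.union_eq.ge) ⟨z, ⟨h'.sub hz', hz⟩, Or.inr hz'⟩ ⟨y, hy, hyK⟩
  have : a = x' := h'.inter_sub ⟨ha1, ha2⟩
  exact ha.2 (this ▸ hx)

/-! ### Cuts -/

/-- The part of `K` outside the disk splits into `F1` (unbounded) and `F2` (bounded). -/
structure Cut (K : Set ℂ) (w : ℂ) (r : ℝ) (F1 F2 : Set ℂ) (p q : ℂ) : Prop where
  c1 : IsClosed F1
  c2 : IsClosed F2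
  dis : Disjoint F1 F2
  un : F1 ∪ F2 = K \ ball w r
  p1 : p ∈ F1
  q2 : q ∈ F2
  cap : K ∩ sphere w r = {p, q}
  b2 : Bornology.IsBounded F2

namespace Cut

variable {w : ℂ} {r r' : ℝ} {F1 F2 F1' F2' : Set ℂ} {p q p' q' : ℂ}

theorem s1 (h : Cut K w r F1 F2 p q) : F1 ⊆ K \ ball w r := by rw [← h.un]; exact subset_union_left

theorem s2 (h : Cut K w r F1 F2 p q) : F2 ⊆ K \ ball w r := by rw [← h.un]; exact subset_union_right

theorem pmem (h : Cut K w r F1 F2 p q) : p ∈ K ∩ sphere w r := by rw [h.cap]; exact Or.inl rfl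

theorem qmem (h : Cut K w r F1 F2 p q) : q ∈ K ∩ sphere w r := by rw [h.cap]; exact Or.inr rfl

/-- a point of the circle in `F1` is `p` -/
theorem eqp (h : Cut K w r F1 F2 p q) {z : ℂ} (hz : z ∈ F1) (hz' : z ∈ closedBall w r) : z = p := by
  have h1 := h.s1 hz
  have h2 : z ∈ K ∩ sphere w r := ⟨h1.1, by
    have := h1.2
    rw [mem_ball, not_lt] at this
    exact le_antisymm (mem_closedBall.1 hz') this⟩
  rw [h.cap] at h2
  rcases h2 with h2 | h2
  · exact h2
  · rw [mem_singleton_iff] at h2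
    exact (disjoint_left.1 h.dis hz (h2 ▸ h.q2)).elim

theorem eqq (h : Cut K w r F1 F2 p q) {z : ℂ} (hz : z ∈ F2) (hz' : z ∈ closedBall w r) : z = q := by
  have h1 := h.s2 hz
  have h2 : z ∈ K ∩ sphere w r := ⟨h1.1, by
    have := h1.2
    rw [mem_ball, not_lt] at this
    exact le_antisymm (mem_closedBall.1 hz') this⟩
  rw [h.cap] at h2
  rcases h2 with h2 | h2
  · exact (disjoint_left.1 h.dis (h2 ▸ h.p1) hz).elim
  · exact h2

theorem cover (h : Cut K w r F1 F2 p q) : (K ∩ closedBall w r) ∪ (F1 ∪ F2) = K := by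
  rw [h.un]
  ext z
  constructor
  · rintro (hz | hz)
    · exact hz.1
    · exact hz.1
  · intro hz
    by_cases hb : z ∈ ball w r
    · exact Or.inl ⟨hz, ball_subset_closedBall hb⟩
    · exact Or.inr ⟨hz, hb⟩

theorem pre1 (hK : IsPreconnected K) (hc : IsClosed K) (h : Cut K w r F1 F2 p q) :
    IsPreconnected F1 := by
  refine preconnected_of_one (B := (K ∩ closedBall w r) ∪ F2) (x := p) hK h.c1
    ((hc.inter isClosed_closedBall).union h.c2) ?_ ?_ h.p1
  · conv_rhs => rw [← h.cover]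
    ext z
    simp only [mem_union]
    tauto
  · rintro z ⟨hz1, hz2 | hz2⟩
    · exact h.eqp hz1 hz2.2
    · exact (disjoint_left.1 h.dis hz1 hz2).elim

theorem pre2 (hK : IsPreconnected K) (hc : IsClosed K) (h : Cut K w r F1 F2 p q) :
    IsPreconnected F2 := by
  refine preconnected_of_one (B := (K ∩ closedBall w r) ∪ F1) (x := q) hK h.c2
    ((hc.inter isClosed_closedBall).union h.c1) ?_ ?_ h.q2
  · conv_rhs => rw [← h.cover]
    ext z
    simp only [mem_union]
    tauto
  · rintro z ⟨hz1, hz2 | hz2⟩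
    · exact h.eqq hz1 hz2.2
    · exact (disjoint_left.1 h.dis hz2 hz1).elim

theorem unb (hu : ¬ Bornology.IsBounded K) (h : Cut K w r F1 F2 p q) :
    ¬ Bornology.IsBounded F1 := fun hb => hu (by
  rw [← h.cover]
  exact ((isBounded_closedBall).subset inter_subset_right).union (hb.union h.b2))

/-- monotonicity of the cuts -/
theorem mono (hK : IsPreconnected K) (hc : IsClosed K) (hu : ¬ Bornology.IsBounded K)
    (hw : w ∈ K) (hr' : 0 < r') (hrr : r' < r)
    (hsp : ∀ U x, Pc K U x → U ⊆ closedBall w r → False)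
    (h : Cut K w r F1 F2 p q) (h' : Cut K w r' F1' F2' p' q') : F1 ⊆ F1' ∧ F2 ⊆ F2' := by
  have hbb : ball w r' ⊆ ball w r := ball_subset_ball hrr.le
  have hcov1 : F1 ⊆ F1' ∪ F2' := by
    rw [h'.un]
    exact h.s1.trans (sdiff_subset_sdiff_right hbb)
  have hcov2 : F2 ⊆ F1' ∪ F2' := by
    rw [h'.un]
    exact h.s2.trans (sdiff_subset_sdiff_right hbb)
  have a1 : F1 ⊆ F1' := by
    rcases subset_or_of_closed (h.pre1 hK hc) h'.c1 h'.c2 h'.dis hcov1 with h1 | h1
    · exact h1
    · exact (h.unb hu (h'.b2.subset h1)).elim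
  refine ⟨a1, ?_⟩
  rcases subset_or_of_closed (h.pre2 hK hc) h'.c1 h'.c2 h'.dis hcov2 with h1 | h1
  · exfalso
    -- then `F2'` lies in the larger disk
    have hF2' : F2' ⊆ ball w r := by
      intro z hz
      by_contra hzb
      have hz' : z ∈ F1 ∪ F2 := by
        rw [h.un]
        exact ⟨(h'.s2 hz).1, hzb⟩
      rcases hz' with hz' | hz'
      · exact disjoint_left.1 h'.dis (a1 hz') hz
      · exact disjoint_left.1 h'.dis (h1 hz') hz
    have hKin : IsClosed (K ∩ closedBall w r') := hc.inter isClosed_closedBall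
    by_cases hq : F2' = {q'}
    · -- the inner part without `p'`
      refine hsp ((K ∩ closedBall w r') \ {p'}) p' ⟨?_, ?_, ?_, ?_, ?_, ?_, ?_⟩ ?_
      · exact sdiff_subset.trans inter_subset_left
      · refine ⟨w, ⟨hw, mem_closedBall_self hr'.le⟩, fun hwp => ?_⟩
        have := h'.pmem.2
        rw [mem_singleton_iff] at hwp
        rw [← hwp, mem_sphere, dist_self] at this
        exact hr'.ne this
      · exact isBounded_closedBall.subset (sdiff_subset.trans inter_subset_right)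
      · have : K \ ((K ∩ closedBall w r') \ {p'}) = F1' := by
          ext z
          constructor
          · rintro ⟨hz1, hz2⟩
            by_cases hzp : z = p'
            · rw [hzp]; exact h'.p1
            · have hzb : z ∉ closedBall w r' := fun hb => hz2 ⟨⟨hz1, hb⟩, hzp⟩
              have hz3 : z ∈ F1' ∪ F2' := by
                rw [h'.un]; exact ⟨hz1, fun hb => hzb (ball_subset_closedBall hb)⟩
              rcases hz3 with hz3 | hz3
              · exact hz3
              · rw [hq, mem_singleton_iff] at hz3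
                rw [hz3] at hzb
                exact (hzb (sphere_subset_closedBall h'.qmem.2)).elim
          · intro hz
            refine ⟨(h'.s1 hz).1, fun hz2 => hz2.2 ?_⟩
            exact h'.eqp hz hz2.1.2
        rw [this]
        exact h'.c1
      · exact h'.pmem.1
      · exact fun hm => hm.2 rfl
      · rw [insert_sdiff_singleton, insert_eq_of_mem
          (show p' ∈ K ∩ closedBall w r' from ⟨h'.pmem.1, sphere_subset_closedBall h'.pmem.2⟩)]
        exact hKin
      · exact (sdiff_subset.trans inter_subset_right).trans (closedBall_subset_closedBall hrr.le)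
    · -- the bounded part without `q'`
      refine hsp (F2' \ {q'}) q' ⟨?_, ?_, ?_, ?_, ?_, ?_, ?_⟩ ?_
      · exact sdiff_subset.trans (h'.s2.trans sdiff_subset)
      · by_contra hne
        rw [not_nonempty_iff_eq_empty, sdiff_eq_empty] at hne
        exact hq (Subset.antisymm hne (singleton_subset_iff.2 h'.q2))
      · exact h'.b2.subset sdiff_subset
      · have : K \ (F2' \ {q'}) = (K ∩ closedBall w r') ∪ F1' := by
          ext z
          constructor
          · rintro ⟨hz1, hz2⟩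
            have hz3 := h'.cover.ge hz1
            rcases hz3 with hz3 | hz3 | hz3
            · exact Or.inl hz3
            · exact Or.inr hz3
            · by_cases hzq : z = q'
              · rw [hzq]
                exact Or.inl ⟨h'.qmem.1, sphere_subset_closedBall h'.qmem.2⟩
              · exact (hz2 ⟨hz3, hzq⟩).elim
          · rintro (hz | hz)
            · exact ⟨hz.1, fun hz2 => hz2.2 (h'.eqq hz2.1 hz.2)⟩
            · exact ⟨(h'.s1 hz).1, fun hz2 => disjoint_left.1 h'.dis hz hz2.1⟩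
        rw [this]
        exact hKin.union h'.c1
      · exact h'.qmem.1
      · exact fun hm => hm.2 rfl
      · rw [insert_sdiff_singleton, insert_eq_of_mem h'.q2]
        exact h'.c2
      · exact (sdiff_subset.trans hF2').trans ball_subset_closedBall
  · exact h1

end Cut

/-! ### Existence of cuts -/

theorem split_of_not {S : Set ℂ} (hS : IsClosed S) (hn : ¬ IsPreconnected S) :
    ∃ A B : Set ℂ, IsClosed A ∧ IsClosed B ∧ Disjoint A B ∧ A ∪ B = S ∧ A.Nonempty ∧
      B.Nonempty := by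
  rw [isPreconnected_closed_iff] at hn
  push Not at hn
  obtain ⟨t, t', ht, ht', hcov, h1, h2, h3⟩ := hn
  refine ⟨S ∩ t, S ∩ t', hS.inter ht, hS.inter ht', ?_, ?_, h1, h2⟩
  · rw [disjoint_left]
    intro z hz hz'
    have : z ∈ S ∩ (t ∩ t') := ⟨hz.1, hz.2, hz'.2⟩
    rw [h3] at this
    exact this
  · rw [← inter_union_distrib_left]
    exact inter_eq_left.2 hcov

/-- a part of one half missing the two points contradicts connectedness -/
theorem split_points {S T A B : Set ℂ} (hK : IsPreconnected K) (hT : IsClosed T) (hST : S ∪ T = K)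
    (hA : IsClosed A) (hB : IsClosed B) (hd : Disjoint A B) (hAB : A ∪ B = S) (hAn : A.Nonempty)
    (hBn : B.Nonempty) (hi : S ∩ T ⊆ A) : False := by
  obtain ⟨a, ha⟩ := hAn
  obtain ⟨b, hb⟩ := hBn
  have hd' : Disjoint (A ∪ T) B := by
    rw [disjoint_left]
    rintro z (hz | hz) hzB
    · exact disjoint_left.1 hd hz hzB
    · exact disjoint_left.1 hd (hi ⟨by rw [← hAB]; exact Or.inr hzB, hz⟩) hzB
  have hc : K ⊆ (A ∪ T) ∪ B := by
    rw [← hST, ← hAB]
    intro z hz
    simp only [mem_union] at hz ⊢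
    tauto
  rcases subset_or_of_closed hK (hA.union hT) hB hd' hc with h | h
  · have : b ∈ K := by rw [← hST, ← hAB]; exact Or.inl (Or.inr hb)
    exact disjoint_left.1 hd' (h this) hb
  · have : a ∈ K := by rw [← hST, ← hAB]; exact Or.inl (Or.inl ha)
    exact disjoint_left.1 hd ha (h this)

theorem one_end (hK : IsPreconnected K) (hc : IsClosed K) {s : ℝ} {p : ℂ}
    (h : K ∩ sphere 0 s = {p}) : IsPreconnected (K \ ball 0 s) := by
  have hp : p ∈ K ∩ sphere (0 : ℂ) s := by rw [h]; rfl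
  refine preconnected_of_one (B := K ∩ closedBall 0 s) (x := p) hK (hc.sdiff isOpen_ball)
    (hc.inter isClosed_closedBall) ?_ ?_ ⟨hp.1, ?_⟩
  · ext z
    constructor
    · rintro (hz | hz)
      · exact hz.1
      · exact hz.1
    · intro hz
      by_cases hb : z ∈ ball (0 : ℂ) s
      · exact Or.inr ⟨hz, ball_subset_closedBall hb⟩
      · exact Or.inl ⟨hz, hb⟩
  · rintro z ⟨hz1, hz2⟩
    rw [← h]
    refine ⟨hz1.1, le_antisymm (mem_closedBall.1 hz2.2) ?_⟩
    have := hz1.2
    rwa [mem_ball, not_lt] at this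
  · rw [mem_ball, not_lt]; exact (mem_sphere.1 hp.2).ge

/-- the part of one half with `w`, hanging at `p` -/
theorem inner_piece (hc : IsClosed K) {w : ℂ} {r : ℝ} (hr : 0 < r) {p q : ℂ}
    (hcap : K ∩ sphere w r = {p, q}) {A B : Set ℂ} (hA : IsClosed A) (hB : IsClosed B)
    (hd : Disjoint A B) (hAB : A ∪ B = K ∩ closedBall w r) (hp : p ∈ A) (hq : q ∈ B)
    (hw : w ∈ A) : Pc K (A \ {p}) p := by
  have hps : p ∈ K ∩ sphere w r := by rw [hcap]; exact Or.inl rfl
  have hAK : A ⊆ K ∩ closedBall w r := by rw [← hAB]; exact subset_union_left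
  have hBK : B ⊆ K ∩ closedBall w r := by rw [← hAB]; exact subset_union_right
  refine ⟨?_, ?_, ?_, ?_, ?_, ?_, ?_⟩
  · exact (sdiff_subset.trans hAK).trans inter_subset_left
  · refine ⟨w, hw, fun hwp => ?_⟩
    rw [mem_singleton_iff] at hwp
    have := hps.2
    rw [← hwp, mem_sphere, dist_self] at this
    exact hr.ne this
  · exact isBounded_closedBall.subset ((sdiff_subset.trans hAK).trans inter_subset_right)
  · have : K \ (A \ {p}) = B ∪ (K \ ball w r) := by
      ext z
      constructor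
      · rintro ⟨hz1, hz2⟩
        by_cases hb : z ∈ ball w r
        · have hz3 : z ∈ A ∪ B := by rw [hAB]; exact ⟨hz1, ball_subset_closedBall hb⟩
          rcases hz3 with hz3 | hz3
          · exfalso
            refine hz2 ⟨hz3, fun hzp => ?_⟩
            rw [mem_singleton_iff] at hzp
            rw [hzp] at hb
            exact (ne_of_lt (mem_ball.1 hb)) (mem_sphere.1 hps.2)
          · exact Or.inl hz3
        · exact Or.inr ⟨hz1, hb⟩
      · rintro (hz | hz)
        · exact ⟨(hBK hz).1, fun hz2 => disjoint_left.1 hd hz2.1 hz⟩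
        · refine ⟨hz.1, fun hz2 => hz2.2 ?_⟩
          have h1 : z ∈ K ∩ sphere w r := ⟨hz.1, by
            have h2 := (hAK hz2.1).2
            have h3 := hz.2
            rw [mem_ball, not_lt] at h3
            exact le_antisymm (mem_closedBall.1 h2) h3⟩
          rw [hcap] at h1
          rcases h1 with h1 | h1
          · exact h1
          · rw [mem_singleton_iff] at h1
            exact (disjoint_left.1 hd hz2.1 (h1 ▸ hq)).elim
    rw [this]
    exact hB.union (hc.sdiff isOpen_ball)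
  · exact hps.1
  · exact fun hm => hm.2 rfl
  · rw [insert_sdiff_singleton, insert_eq_of_mem hp]
    exact hA

theorem exists_cut (hK : IsPreconnected K) (hc : IsClosed K) (hu : ¬ Bornology.IsBounded K)
    (hKc : IsPreconnected Kᶜ)
    (hone : ∀ R : ℝ, ∃ s, R ≤ s ∧ ∃ p, K ∩ sphere (0 : ℂ) s = {p}) {w : ℂ} (hw : w ∈ K) {r : ℝ}
    (hr : 0 < r) (hn : (K ∩ sphere w r).encard ≤ 2)
    (hsp : ∀ U x, Pc K U x → U ⊆ closedBall w r → False) :
    ∃ F1 F2 p q, Cut K w r F1 F2 p q := by
  have hKin : IsClosed (K ∩ closedBall w r) := hc.inter isClosed_closedBall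
  have hF : IsClosed (K \ ball w r) := hc.sdiff isOpen_ball
  have hun : (K ∩ closedBall w r) ∪ (K \ ball w r) = K := by
    ext z
    constructor
    · rintro (hz | hz)
      · exact hz.1
      · exact hz.1
    · intro hz
      by_cases hb : z ∈ ball w r
      · exact Or.inl ⟨hz, ball_subset_closedBall hb⟩
      · exact Or.inr ⟨hz, hb⟩
  have hin : (K ∩ closedBall w r) ∩ (K \ ball w r) = K ∩ sphere w r := by
    ext z
    constructor
    · rintro ⟨hz1, hz2⟩
      have h3 := hz2.2
      rw [mem_ball, not_lt] at h3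
      exact ⟨hz1.1, le_antisymm (mem_closedBall.1 hz1.2) h3⟩
    · rintro ⟨hz1, hz2⟩
      refine ⟨⟨hz1, sphere_subset_closedBall hz2⟩, hz1, ?_⟩
      rw [mem_ball, not_lt]; exact (mem_sphere.1 hz2).ge
  -- a far point
  obtain ⟨y, hyK, hy⟩ : ∃ y ∈ K, y ∉ closedBall w r := by
    by_contra hcon
    push Not at hcon
    exact hu (isBounded_closedBall.subset hcon)
  -- the circle is met
  obtain ⟨p, hp⟩ : (K ∩ sphere w r).Nonempty := by
    by_contra hne
    rw [not_nonempty_iff_eq_empty] at hne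
    have hd : Disjoint (K ∩ closedBall w r) (K \ ball w r) := by
      rw [disjoint_iff_inter_eq_empty, hin, hne]
    rcases subset_or_of_closed hK hKin hF hd hun.ge with h | h
    · exact hy (h hyK).2
    · exact (h hw).2 (mem_ball_self hr)
  by_cases hone' : ∃ q ∈ K ∩ sphere w r, q ≠ p
  swap
  · -- one crossing point
    push Not at hone'
    have hcap : K ∩ sphere w r = {p} := Subset.antisymm hone' (singleton_subset_iff.2 hp)
    exfalso
    refine hsp ((K ∩ closedBall w r) \ {p}) p ⟨?_, ?_, ?_, ?_, ?_, ?_, ?_⟩ ?_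
    · exact sdiff_subset.trans inter_subset_left
    · refine ⟨w, ⟨hw, mem_closedBall_self hr.le⟩, fun hwp => ?_⟩
      rw [mem_singleton_iff] at hwp
      have := hp.2
      rw [← hwp, mem_sphere, dist_self] at this
      exact hr.ne this
    · exact isBounded_closedBall.subset (sdiff_subset.trans inter_subset_right)
    · have : K \ ((K ∩ closedBall w r) \ {p}) = K \ ball w r := by
        ext z
        constructor
        · rintro ⟨hz1, hz2⟩
          refine ⟨hz1, fun hb => hz2 ⟨⟨hz1, ball_subset_closedBall hb⟩, fun hzp => ?_⟩⟩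
          rw [mem_singleton_iff] at hzp
          rw [hzp] at hb
          exact (ne_of_lt (mem_ball.1 hb)) (mem_sphere.1 hp.2)
        · rintro ⟨hz1, hz2⟩
          refine ⟨hz1, fun hz3 => hz3.2 ?_⟩
          rw [← hcap, ← hin]
          exact ⟨hz3.1, hz1, hz2⟩
      rw [this]
      exact hF
    · exact hp.1
    · exact fun hm => hm.2 rfl
    · rw [insert_sdiff_singleton, insert_eq_of_mem
        (show p ∈ K ∩ closedBall w r from ⟨hp.1, sphere_subset_closedBall hp.2⟩)]
      exact hKin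
    · exact sdiff_subset.trans inter_subset_right
  -- two crossing points
  obtain ⟨q, hq, hqp⟩ := hone'
  have hcap : K ∩ sphere w r = {p, q} := by
    refine Subset.antisymm (fun z hz => ?_) ?_
    · by_contra hne
      have hzp : z ≠ p := fun h => hne (Or.inl h)
      have hzq : z ≠ q := fun h => hne (Or.inr h)
      have h3 : ({z, p, q} : Set ℂ) ⊆ K ∩ sphere w r := by
        rintro a (rfl | rfl | ha)
        · exact hz
        · exact hp
        · rw [mem_singleton_iff] at ha; rw [ha]; exact hq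
      have h4 := (encard_le_encard h3).trans hn
      rw [encard_insert_of_notMem (by simp [hzp, hzq]), encard_pair hqp.symm] at h4
      norm_num at h4
    · rintro a (rfl | ha)
      · exact hp
      · rw [mem_singleton_iff] at ha; rw [ha]; exact hq
  -- the inner part is connected
  have hpreIn : IsPreconnected (K ∩ closedBall w r) := by
    by_contra hnot
    obtain ⟨A, B, hA, hB, hd, hAB, hAn, hBn⟩ := split_of_not hKin hnot
    have hpAB : p ∈ A ∪ B := by rw [hAB]; exact ⟨hp.1, sphere_subset_closedBall hp.2⟩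
    have hqAB : q ∈ A ∪ B := by rw [hAB]; exact ⟨hq.1, sphere_subset_closedBall hq.2⟩
    have hwAB : w ∈ A ∪ B := by rw [hAB]; exact ⟨hw, mem_closedBall_self hr.le⟩
    have hAK : A ⊆ closedBall w r := fun z hz =>
      (show z ∈ K ∩ closedBall w r by rw [← hAB]; exact Or.inl hz).2
    have hBK : B ⊆ closedBall w r := fun z hz =>
      (show z ∈ K ∩ closedBall w r by rw [← hAB]; exact Or.inr hz).2
    have hcap' : K ∩ sphere w r = {q, p} := by rw [hcap, pair_comm]
    have hBA : B ∪ A = K ∩ closedBall w r := by rw [union_comm, hAB]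
    rcases hpAB with hpA | hpB
    · rcases hqAB with hqA | hqB
      · refine split_points hK hF hun hA hB hd hAB hAn hBn ?_
        rw [hin, hcap]
        rintro a (rfl | ha)
        · exact hpA
        · rw [mem_singleton_iff] at ha; rw [ha]; exact hqA
      · rcases hwAB with hwA | hwB
        · exact hsp _ _ (inner_piece hc hr hcap hA hB hd hAB hpA hqB hwA) (sdiff_subset.trans hAK)
        · exact hsp _ _ (inner_piece hc hr hcap' hB hA hd.symm hBA hqB hpA hwB)
            (sdiff_subset.trans hBK)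
    · rcases hqAB with hqA | hqB
      · rcases hwAB with hwA | hwB
        · exact hsp _ _ (inner_piece hc hr hcap' hA hB hd hAB hqA hpB hwA)
            (sdiff_subset.trans hAK)
        · exact hsp _ _ (inner_piece hc hr hcap hB hA hd.symm hBA hpB hqA hwB)
            (sdiff_subset.trans hBK)
      · refine split_points hK hF hun hB hA hd.symm hBA hBn hAn ?_
        rw [hin, hcap]
        rintro a (rfl | ha)
        · exact hpB
        · rw [mem_singleton_iff] at ha; rw [ha]; exact hqB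
  -- the outer part is not connected
  have hnotF : ¬ IsPreconnected (K \ ball w r) := fun hout =>
    sep_two hc hKc hr hqp.symm hcap hpreIn hout
  obtain ⟨A, B, hA, hB, hd, hAB, hAn, hBn⟩ := split_of_not hF hnotF
  have hpF : p ∈ K \ ball w r := ⟨hp.1, by rw [mem_ball, not_lt]; exact (mem_sphere.1 hp.2).ge⟩
  have hqF : q ∈ K \ ball w r := ⟨hq.1, by rw [mem_ball, not_lt]; exact (mem_sphere.1 hq.2).ge⟩
  have hBA : B ∪ A = K \ ball w r := by rw [union_comm, hAB]
  have hun' : (K \ ball w r) ∪ (K ∩ closedBall w r) = K := by rw [union_comm, hun]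
  have hin' : (K \ ball w r) ∩ (K ∩ closedBall w r) = {p, q} := by rw [inter_comm, hin, hcap]
  -- the far part
  obtain ⟨s, hs, p₀, hp₀⟩ := hone (‖w‖ + r)
  have hball : ball w r ⊆ ball 0 s := by
    intro z hz
    rw [mem_ball_zero_iff]
    rw [mem_ball, dist_eq_norm] at hz
    calc ‖z‖ = ‖(z - w) + w‖ := by rw [sub_add_cancel]
      _ ≤ ‖z - w‖ + ‖w‖ := norm_add_le _ _
      _ < s := by linarith
  have hfar := one_end hK hc hp₀
  have hfarc : K \ ball 0 s ⊆ A ∪ B := by
    rw [hAB]; exact sdiff_subset_sdiff_right hball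
  have hAK : A ⊆ K \ ball w r := by rw [← hAB]; exact subset_union_left
  have hBK : B ⊆ K \ ball w r := by rw [← hAB]; exact subset_union_right
  have key : ∀ A B : Set ℂ, IsClosed A → IsClosed B → Disjoint A B → A ∪ B = K \ ball w r →
      p ∈ A → q ∈ B → K \ ball 0 s ⊆ A ∪ B → ∃ F1 F2 p q, Cut K w r F1 F2 p q := by
    intro A B hA hB hd hAB hpA hqB hfarc
    have hAK : A ⊆ K \ ball w r := by rw [← hAB]; exact subset_union_left
    have hBK : B ⊆ K \ ball w r := by rw [← hAB]; exact subset_union_right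
    rcases subset_or_of_closed hfar hA hB hd hfarc with h | h
    · refine ⟨A, B, p, q, hA, hB, hd, hAB, hpA, hqB, hcap, ?_⟩
      refine (isBounded_ball (x := (0 : ℂ)) (r := s)).subset fun z hz => ?_
      by_contra hzs
      exact disjoint_left.1 hd (h ⟨(hBK hz).1, hzs⟩) hz
    · refine ⟨B, A, q, p, hB, hA, hd.symm, by rw [union_comm, hAB], hqB, hpA,
        by rw [hcap, pair_comm], ?_⟩
      refine (isBounded_ball (x := (0 : ℂ)) (r := s)).subset fun z hz => ?_
      by_contra hzs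
      exact disjoint_left.1 hd hz (h ⟨(hAK hz).1, hzs⟩)
  have hpAB : p ∈ A ∪ B := by rw [hAB]; exact hpF
  have hqAB : q ∈ A ∪ B := by rw [hAB]; exact hqF
  rcases hpAB with hpA | hpB
  · rcases hqAB with hqA | hqB
    · exfalso
      refine split_points hK hKin hun' hA hB hd hAB hAn hBn ?_
      rw [hin']
      rintro a (rfl | ha)
      · exact hpA
      · rw [mem_singleton_iff] at ha; rw [ha]; exact hqA
    · exact key A B hA hB hd hAB hpA hqB hfarc
  · rcases hqAB with hqA | hqB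
    · exact key B A hB hA hd.symm hBA hpB hqA (by rwa [union_comm])
    · exfalso
      refine split_points hK hKin hun' hB hA hd.symm hBA hBn hAn ?_
      rw [hin']
      rintro a (rfl | ha)
      · exact hpB
      · rw [mem_singleton_iff] at ha; rw [ha]; exact hqB

/-! ### The branch at a point -/

theorem exists_branch (hK : IsPreconnected K) (hc : IsClosed K) (hu : ¬ Bornology.IsBounded K)
    (hKc : IsPreconnected Kᶜ)
    (hone : ∀ R : ℝ, ∃ s, R ≤ s ∧ ∃ p, K ∩ sphere (0 : ℂ) s = {p}) {w : ℂ} (hw : w ∈ K)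
    (hn : ∀ ε > 0, ∃ r, 0 < r ∧ r < ε ∧ (K ∩ sphere w r).encard ≤ 2) {r₀ : ℝ} (hr₀ : 0 < r₀)
    (hsp : ∀ U x, Pc K U x → U ⊆ closedBall w r₀ → False) : ∃ U, Pc K U w := by
  set G : Set ℝ := {r | 0 < r ∧ r ≤ r₀ ∧ (K ∩ sphere w r).encard ≤ 2} with hG
  have hGs : ∀ ε > 0, ∃ r ∈ G, r < ε := by
    intro ε hε
    obtain ⟨r, hr, hr', hr''⟩ := hn (min ε r₀) (lt_min hε hr₀)
    exact ⟨r, ⟨hr, hr'.le.trans (min_le_right _ _), hr''⟩, hr'.trans_le (min_le_left _ _)⟩
  have hsp' : ∀ r ∈ G, ∀ U x, Pc K U x → U ⊆ closedBall w r → False := fun r hr U x h1 h2 =>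
    hsp U x h1 (h2.trans (closedBall_subset_closedBall hr.2.1))
  have hex : ∀ r ∈ G, ∃ F1 F2 p q, Cut K w r F1 F2 p q := fun r hr =>
    exists_cut hK hc hu hKc hone hw hr.1 hr.2.2 (hsp' r hr)
  choose! F1 F2 p q hcut using hex
  have hmono : ∀ r ∈ G, ∀ r' ∈ G, r' < r → F1 r ⊆ F1 r' ∧ F2 r ⊆ F2 r' := fun r hr r' hr' hlt =>
    Cut.mono hK hc hu hw hr'.1 hlt (hsp' r hr) (hcut r hr) (hcut r' hr')
  have hdis : ∀ r ∈ G, ∀ r' ∈ G, Disjoint (F1 r) (F2 r') := by
    intro r hr r' hr'
    rcases lt_trichotomy r r' with h | h | h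
    · exact (hcut r hr).dis.mono_right (hmono r' hr' r hr h).2
    · rw [← h]; exact (hcut r hr).dis
    · exact (hcut r' hr').dis.mono_left (hmono r hr r' hr' h).1
  set U : Set ℂ := ⋃ r ∈ G, F2 r with hU
  obtain ⟨r1, hr1, -⟩ := hGs 1 one_pos
  -- a far connected part
  obtain ⟨s, hs, p₀, hp₀⟩ := hone (‖w‖ + r₀)
  have hfar := one_end hK hc hp₀
  have hfarU : ¬ Bornology.IsBounded (K \ ball 0 s) := fun hb => hu (by
    refine (hb.union (isBounded_ball (x := (0 : ℂ)) (r := s))).subset fun z hz => ?_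
    by_cases hzs : z ∈ ball (0 : ℂ) s
    · exact Or.inr hzs
    · exact Or.inl ⟨hz, hzs⟩)
  have hF2s : ∀ r ∈ G, F2 r ⊆ ball 0 s := by
    intro r hr z hz
    by_contra hzs
    have hball : ball w r ⊆ ball 0 s := by
      intro z hz
      rw [mem_ball_zero_iff]
      rw [mem_ball, dist_eq_norm] at hz
      calc ‖z‖ = ‖(z - w) + w‖ := by rw [sub_add_cancel]
        _ ≤ ‖z - w‖ + ‖w‖ := norm_add_le _ _
        _ < s := by linarith [hr.2.1]
    have h := hcut r hr
    have hc' : K \ ball 0 s ⊆ F1 r ∪ F2 r := by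
      rw [h.un]; exact sdiff_subset_sdiff_right hball
    rcases subset_or_of_closed hfar h.c1 h.c2 h.dis hc' with h1 | h1
    · exact disjoint_left.1 h.dis (h1 ⟨(h.s2 hz).1, hzs⟩) hz
    · exact hfarU (h.b2.subset h1)
  have hUK : U ⊆ K := iUnion₂_subset fun r hr => (hcut r hr).s2.trans sdiff_subset
  have hwU : w ∉ U := by
    intro h
    obtain ⟨r, hr, hwr⟩ := mem_iUnion₂.1 h
    exact ((hcut r hr).s2 hwr).2 (mem_ball_self hr.1)
  refine ⟨U, hUK, ⟨q r1, mem_iUnion₂.2 ⟨r1, hr1, (hcut r1 hr1).q2⟩⟩, ?_, ?_, hw, hwU, ?_⟩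
  · exact isBounded_ball.subset (iUnion₂_subset hF2s)
  · -- `K \ U` is closed
    refine isClosed_of_closure_subset fun z hz => ?_
    have hzK : z ∈ K := (closure_minimal sdiff_subset hc) hz
    refine ⟨hzK, fun hzU => ?_⟩
    obtain ⟨r, hr, hzr⟩ := mem_iUnion₂.1 hzU
    have hzw : 0 < dist z w := dist_pos.2 fun h => hwU (h ▸ hzU)
    obtain ⟨m, hm, hmlt⟩ := hGs (min (dist z w) r) (lt_min hzw hr.1)
    have hzm : z ∈ F2 m := (hmono r hr m hm (hmlt.trans_le (min_le_right _ _))).2 hzr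
    have hN : {y : ℂ | m < dist y w} ∩ (F1 m)ᶜ ∈ 𝓝 z := by
      refine inter_mem ((isOpen_lt continuous_const (continuous_id.dist continuous_const)).mem_nhds
        (hmlt.trans_le (min_le_left _ _))) ((hcut m hm).c1.isOpen_compl.mem_nhds ?_)
      exact fun h => disjoint_left.1 (hcut m hm).dis h hzm
    obtain ⟨y, hy, hyKU⟩ := mem_closure_iff_nhds.1 hz _ hN
    have hy' : y ∈ F1 m ∪ F2 m := by
      rw [(hcut m hm).un]
      exact ⟨hyKU.1, by rw [mem_ball, not_lt]; exact le_of_lt hy.1⟩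
    rcases hy' with hy' | hy'
    · exact hy.2 hy'
    · exact hyKU.2 (mem_iUnion₂.2 ⟨m, hm, hy'⟩)
  · -- `insert w U` is closed
    refine isClosed_of_closure_subset fun z hz => ?_
    have hzK : z ∈ K := (closure_minimal (insert_subset hw hUK) hc) hz
    by_contra hcon
    have hzw' : z ≠ w := fun h => hcon (Or.inl h)
    have hzU : z ∉ U := fun h => hcon (Or.inr h)
    have hzw : 0 < dist z w := dist_pos.2 hzw'
    obtain ⟨m, hm, hmlt⟩ := hGs (dist z w) hzw
    have hzm : z ∉ F2 m := fun h => hzU (mem_iUnion₂.2 ⟨m, hm, h⟩)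
    have hN : {y : ℂ | m < dist y w} ∩ (F2 m)ᶜ ∈ 𝓝 z :=
      inter_mem ((isOpen_lt continuous_const (continuous_id.dist continuous_const)).mem_nhds
        hmlt) ((hcut m hm).c2.isOpen_compl.mem_nhds hzm)
    obtain ⟨y, hy, hyU⟩ := mem_closure_iff_nhds.1 hz _ hN
    rcases hyU with rfl | hyU
    · have := hy.1
      rw [mem_ofPred_eq, dist_self] at this
      exact absurd hm.1 (not_lt.2 this.le)
    · obtain ⟨k, hk, hyk⟩ := mem_iUnion₂.1 hyU
      have hy' : y ∈ F1 m ∪ F2 m := by
        rw [(hcut m hm).un]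
        exact ⟨hUK hyU, by rw [mem_ball, not_lt]; exact le_of_lt hy.1⟩
      rcases hy' with hy' | hy'
      · exact disjoint_left.1 (hdis m hm k hk) hy' hyk
      · exact hy.2 hy'

end Vale.Agent.P128.GM
end
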