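import Vale.Agent.P128.MathlibUsed
import Vale.Agent.P128.Bdl.B5
import Vale.Agent.P128.Bdl.B1
import Vale.Agent.P128.Bdl.B2
import Vale.Agent.P128.Bdl.K_GM_Defs
import Vale.Agent.P128.Bdl.B3
import Vale.Agent.P128.Bdl.K_GM_D_NetDefs
import Vale.Agent.P128.Bdl.B7
import Vale.Agent.P128.Bdl.B9

set_option linter.all false

section

/-! Maximum principle: a harmonic function with the Euler-Lagrange equation on `Kᶜ` is bounded. -/

open MeasureTheory Set Metric Filter InnerProductSpace
open scoped ENNReal NNReal ContDiff Topology Real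

namespace Vale.Agent.P128.GM

open Vale.Agent.P128

/-! ### the truncation -/

/-- `t - clamp t`. -/
noncomputable def bddc (m t : ℝ) : ℝ := t - max (-m) (min m t)

theorem bddc_eq_zero {m t : ℝ} (h : |t| ≤ m) : bddc m t = 0 := by
  obtain ⟨h1, h2⟩ := abs_le.1 h
  unfold bddc
  rw [min_eq_right h2, max_eq_right h1, sub_self]

theorem bddc_pos {m t : ℝ} (hm : 0 ≤ m) (h : m < t) : bddc m t = t - m := by
  unfold bddc
  rw [min_eq_left h.le, max_eq_right (by linarith)]

theorem bddc_neg {m t : ℝ} (hm : 0 ≤ m) (h : t < -m) : bddc m t = t + m := by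
  unfold bddc
  rw [min_eq_right (by linarith), max_eq_left h.le]
  ring

/-- firm nonexpansiveness -/
theorem bddc_firm (m x y : ℝ) :
    (bddc m x - bddc m y) ^ 2 ≤ (bddc m x - bddc m y) * (x - y) := by
  have key : ∀ x y : ℝ, y ≤ x → 0 ≤ bddc m x - bddc m y ∧ bddc m x - bddc m y ≤ x - y := by
    intro x y hxy
    unfold bddc
    constructor
    · have : max (-m) (min m x) - max (-m) (min m y) ≤ x - y := by
        rcases max_cases (-m) (min m x) with h1 | h1 <;> rcases max_cases (-m) (min m y) with h2 | h2 <;>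
        rcases min_cases m x with h3 | h3 <;> rcases min_cases m y with h4 | h4 <;>
        linarith
      linarith
    · have : max (-m) (min m y) ≤ max (-m) (min m x) :=
        max_le_max le_rfl (min_le_min le_rfl hxy)
      linarith
  rcases le_total y x with h | h
  · obtain ⟨h1, h2⟩ := key x y h
    linarith only [mul_nonneg (sub_nonneg.2 h1) (sub_nonneg.2 h2)]
  · obtain ⟨h1, h2⟩ := key y x h
    nlinarith

theorem bddc_lip (m : ℝ) : LipschitzWith 1 (bddc m) := by
  refine LipschitzWith.of_dist_le_mul fun x y => ?_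
  rw [NNReal.coe_one, one_mul, Real.dist_eq, Real.dist_eq]
  have h := bddc_firm m x y
  have h1 : |bddc m x - bddc m y| ^ 2 ≤ |bddc m x - bddc m y| * |x - y| := by
    rw [sq_abs, ← abs_mul]
    exact h.trans (le_abs_self _)
  by_cases h0 : |bddc m x - bddc m y| = 0
  · rw [h0]; exact abs_nonneg _
  · have h2 : 0 < |bddc m x - bddc m y| := lt_of_le_of_ne (abs_nonneg _) (Ne.symm h0)
    (by_contra nlg; linarith only [nlg, mul_pos (sub_pos.2 (not_le.1 nlg)) (sub_pos.2 h2), h1])

/-- gradient inequality for a firmly nonexpansive function of `g` -/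
theorem grad_firm (m : ℝ) {g : ℂ → ℝ} {z : ℂ} (hg : DifferentiableAt ℝ g z) :
    ‖grad (fun w => bddc m (g w)) z‖ ^ 2 ≤ inner ℝ (grad g z) (grad (fun w => bddc m (g w)) z) := by
  by_cases hf : DifferentiableAt ℝ (fun w => bddc m (g w)) z
  swap
  · have : grad (fun w => bddc m (g w)) z = 0 := by
      unfold grad
      rw [fderiv_zero_of_not_differentiableAt hf]
      apply Complex.ext <;> simp
    rw [this]
    simp
  set f := fun w => bddc m (g w) with hfdef
  have key : ∀ v : ℂ, (fderiv ℝ f z v) ^ 2 ≤ fderiv ℝ f z v * fderiv ℝ g z v := by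
    intro v
    have hline : ∀ {φ : ℂ → ℝ}, DifferentiableAt ℝ φ z →
        Tendsto (fun t : ℝ => t⁻¹ * (φ (z + t • v) - φ z)) (𝓝[≠] 0) (𝓝 (fderiv ℝ φ z v)) := by
      intro φ hφ
      have h1 : HasDerivAt (fun t : ℝ => φ (z + t • v)) (fderiv ℝ φ z v) 0 := by
        have h2 : HasDerivAt (fun t : ℝ => z + t • v) v 0 := by
          simpa using ((hasDerivAt_id (0 : ℝ)).smul_const v).const_add z
        have h3 : HasFDerivAt φ (fderiv ℝ φ z) (z + (0 : ℝ) • v) := by
          simpa using hφ.hasFDerivAt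
        exact h3.comp_hasDerivAt 0 h2
      have h4 := hasDerivAt_iff_tendsto_slope_zero.1 h1
      simpa using h4
    have hF := hline hf
    have hG := hline hg
    refine le_of_tendsto_of_tendsto (hF.pow 2) (hF.mul hG) (Eventually.of_forall fun t => ?_)
    have h5 := bddc_firm m (g (z + t • v)) (g z)
    have h6 : (0 : ℝ) ≤ (t⁻¹) ^ 2 := sq_nonneg _
    have h7 := mul_le_mul_of_nonneg_left h5 h6
    simp only [hfdef]
    linarith only [h7]
  set a := grad f z with ha
  have h1 : fderiv ℝ f z a = ‖a‖ ^ 2 := by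
    rw [← inner_grad, ← ha, real_inner_self_eq_norm_sq]
  have h2 : fderiv ℝ g z a = inner ℝ (grad g z) a := (inner_grad g z a).symm
  have h3 := key a
  rw [h1, h2] at h3
  by_cases h0 : ‖a‖ ^ 2 = 0
  · have : a = 0 := by simpa using h0
    rw [this]
    simp
  · have h4 : 0 < ‖a‖ ^ 2 := lt_of_le_of_ne (sq_nonneg _) (Ne.symm h0)
    (by_contra nlg; linarith only [nlg, mul_pos (sub_pos.2 (not_le.1 nlg)) (sub_pos.2 h4), h3])

theorem norm_le_of_firm {a b : ℂ} (h : ‖a‖ ^ 2 ≤ inner ℝ b a) : ‖a‖ ≤ ‖b‖ := by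
  have h1 := real_inner_le_norm b a
  by_cases h0 : ‖a‖ = 0
  · rw [h0]; exact norm_nonneg _
  · have h2 : 0 < ‖a‖ := lt_of_le_of_ne (norm_nonneg _) (Ne.symm h0)
    nlinarith

/-! ### boundedness on a good circle -/

theorem bdd_circle {u : ℂ → ℝ} {K : Set ℂ}
    (hu : ∀ z ∈ Kᶜ, DifferentiableAt ℝ u z) (hgc : ContinuousOn (grad u) Kᶜ) {ρ : ℝ}
    (hρ : 0 < ρ)
    (hfin : (K ∩ sphere 0 ρ).Finite)
    (hint : IntegrableOn (fun θ => ‖grad u (circleMap 0 ρ θ)‖) ang) :
    ∃ M : ℝ, 0 ≤ M ∧ ∀ z ∈ sphere (0 : ℂ) ρ, z ∉ K → |u z| ≤ M := by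
  set q : ℝ → ℝ := fun θ => ‖grad u (circleMap 0 ρ θ)‖ with hq
  have hqper : Function.Periodic q (2 * π) := fun θ => by
    simp only [hq, (periodic_circleMap 0 ρ) θ]
  -- integrability on every bounded interval
  have hqint : ∀ a b : ℝ, IntervalIntegrable q volume a b := by
    have h0 : IntervalIntegrable q volume (-π) (-π + 2 * π) := by
      have e : -π + 2 * π = π := by ring
      rw [e, intervalIntegrable_iff_integrableOn_Ioo_of_le (by linarith [Real.pi_pos])]
      exact hint
    exact fun a b => hqper.intervalIntegrable Real.two_pi_pos.ne' h0 a b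
  set I : ℝ := ρ * ∫ θ in (-(2 * π))..(4 * π), q θ with hI
  set f : ℝ → ℝ := fun θ => u (circleMap 0 ρ θ) with hf
  have hfd : ∀ θ, circleMap 0 ρ θ ∉ K → HasDerivAt f (fderiv ℝ u (circleMap 0 ρ θ)
      (circleMap 0 ρ θ * Complex.I)) θ := by
    intro θ hθ
    exact ((hu _ hθ).hasFDerivAt).comp_hasDerivAt θ (hasDerivAt_circleMap 0 ρ θ)
  have hfb : ∀ θ, |fderiv ℝ u (circleMap 0 ρ θ) (circleMap 0 ρ θ * Complex.I)| ≤ ρ * q θ := by
    intro θ
    rw [← inner_grad]
    refine (abs_real_inner_le_norm _ _).trans ?_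
    rw [norm_mul, Complex.norm_I, mul_one, norm_circleMap_zero, abs_of_pos hρ, mul_comm]
  -- the oscillation on an interval without crossing
  have hosc : ∀ a b : ℝ, -(2 * π) ≤ a → a ≤ b → b ≤ 4 * π →
      (∀ θ ∈ Icc a b, circleMap 0 ρ θ ∉ K) → |f b - f a| ≤ I := by
    intro a b ha hab hb hout
    have hcont : ContinuousOn (fun θ => fderiv ℝ u (circleMap 0 ρ θ)
        (circleMap 0 ρ θ * Complex.I)) (Icc a b) := by
      have h1 : (fun θ => fderiv ℝ u (circleMap 0 ρ θ) (circleMap 0 ρ θ * Complex.I)) =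
          fun θ => inner ℝ (grad u (circleMap 0 ρ θ)) (circleMap 0 ρ θ * Complex.I) := by
        funext θ
        rw [inner_grad]
      rw [h1]
      have h2 : ContinuousOn (fun θ => grad u (circleMap 0 ρ θ)) (Icc a b) :=
        hgc.comp (continuous_circleMap 0 ρ).continuousOn (fun θ hθ => hout θ hθ)
      have h3 : ContinuousOn (fun θ => circleMap 0 ρ θ * Complex.I) (Icc a b) :=
        ((continuous_circleMap 0 ρ).mul continuous_const).continuousOn
      exact h2.inner h3
    have hii : IntervalIntegrable (fun θ => fderiv ℝ u (circleMap 0 ρ θ)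
        (circleMap 0 ρ θ * Complex.I)) volume a b :=
      (hcont.mono (by rw [uIcc_of_le hab])).intervalIntegrable
    have h1 := intervalIntegral.integral_eq_sub_of_hasDerivAt (f := f)
      (f' := fun θ => fderiv ℝ u (circleMap 0 ρ θ) (circleMap 0 ρ θ * Complex.I))
      (a := a) (b := b) (fun θ hθ => hfd θ (hout θ (by rwa [uIcc_of_le hab] at hθ))) hii
    rw [← h1]
    refine (intervalIntegral.abs_integral_le_integral_abs hab).trans ?_
    have h2 : ∫ θ in a..b, |fderiv ℝ u (circleMap 0 ρ θ) (circleMap 0 ρ θ * Complex.I)| ≤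
        ∫ θ in a..b, ρ * q θ :=
      intervalIntegral.integral_mono_on hab hii.abs ((hqint a b).const_mul ρ)
        fun θ _ => hfb θ
    refine h2.trans ?_
    rw [intervalIntegral.integral_const_mul, hI]
    refine mul_le_mul_of_nonneg_left ?_ hρ.le
    exact intervalIntegral.integral_mono_interval ha hab hb
      (Eventually.of_forall fun θ => norm_nonneg _) (hqint _ _)
  -- crossing angles are isolated
  have hiso : ∀ θ₀ : ℝ, ∃ ε > 0, ε ≤ π ∧ ∀ θ, θ ≠ θ₀ → |θ - θ₀| < ε → circleMap 0 ρ θ ∉ K := by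
    intro θ₀
    have hA : {θ : ℝ | θ ∈ Icc (θ₀ - π / 2) (θ₀ + π / 2) ∧ circleMap 0 ρ θ ∈ K}.Finite := by
      have h1 : InjOn (circleMap 0 ρ) {θ : ℝ | θ ∈ Icc (θ₀ - π / 2) (θ₀ + π / 2) ∧
          circleMap 0 ρ θ ∈ K} := by
        refine (injOn_circleMap_of_abs_sub_le' (a := θ₀ - π) (b := θ₀ + π) hρ.ne'
          (by linarith)).mono fun θ hθ => ?_
        obtain ⟨h1, h2⟩ := hθ.1
        have := Real.pi_pos
        constructor <;> linarith
      refine Set.Finite.of_finite_image (f := circleMap 0 ρ) (hfin.subset ?_) h1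
      rintro _ ⟨θ, hθ, rfl⟩
      exact ⟨hθ.2, circleMap_mem_sphere 0 hρ.le θ⟩
    have hA' := hA.subset (sdiff_subset (t := {θ₀}))
    have h2 : ∀ᶠ θ in 𝓝 θ₀, θ ∉ {θ : ℝ | θ ∈ Icc (θ₀ - π / 2) (θ₀ + π / 2) ∧
        circleMap 0 ρ θ ∈ K} \ {θ₀} :=
      hA'.isClosed.isOpen_compl.mem_nhds fun h => h.2 rfl
    obtain ⟨ε, hε, hball⟩ := Metric.eventually_nhds_iff_ball.1 h2
    refine ⟨min ε (π / 2), lt_min hε (by positivity), (min_le_right _ _).trans
      (by linarith [Real.pi_pos]), fun θ hne hθ hθK => ?_⟩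
    have h3 := hball θ (by rw [mem_ball, Real.dist_eq]; exact hθ.trans_le (min_le_left _ _))
    refine h3 ⟨⟨?_, hθK⟩, hne⟩
    have h4 := abs_lt.1 (hθ.trans_le (min_le_right _ _))
    constructor <;> linarith
  -- local boundedness
  have hloc : ∀ θ₀ ∈ Icc 0 (2 * π), ∃ t ∈ 𝓝[Icc 0 (2 * π)] θ₀, ∃ M, ∀ θ ∈ t,
      circleMap 0 ρ θ ∉ K → |f θ| ≤ M := by
    intro θ₀ hθ₀
    obtain ⟨ε, hε, hεπ, hout⟩ := hiso θ₀
    have hπ := Real.pi_pos
    refine ⟨ball θ₀ (ε / 2), mem_nhdsWithin_of_mem_nhds (ball_mem_nhds _ (by positivity)),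
      max (|f (θ₀ - ε / 2)| + I) (max (|f (θ₀ + ε / 2)| + I) |f θ₀|), fun θ hθ hθK => ?_⟩
    rw [mem_ball, Real.dist_eq, abs_lt] at hθ
    rcases lt_trichotomy θ θ₀ with h | h | h
    · refine le_max_of_le_left ?_
      have h1 := hosc (θ₀ - ε / 2) θ (by linarith only [hθ₀.1, hπ, hεπ]) (by linarith) (by linarith [hθ₀.2])
        fun s hs => hout s (by linarith [hs.2]) (by
          rw [abs_lt]; constructor <;> linarith [hs.1, hs.2])
      have h2 := abs_sub_abs_le_abs_sub (f θ) (f (θ₀ - ε / 2))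
      linarith
    · rw [h]
      exact le_max_of_le_right (le_max_right _ _)
    · refine le_max_of_le_right (le_max_of_le_left ?_)
      have h1 := hosc θ (θ₀ + ε / 2) (by linarith [hθ₀.1]) (by linarith) (by linarith [hθ₀.2])
        fun s hs => hout s (by linarith [hs.1]) (by
          rw [abs_lt]; constructor <;> linarith [hs.1, hs.2])
      have h2 := abs_sub_abs_le_abs_sub (f θ) (f (θ₀ + ε / 2))
      rw [abs_sub_comm] at h1
      linarith only [h2, h1]
  have hcomp : ∃ M, ∀ θ ∈ Icc 0 (2 * π), circleMap 0 ρ θ ∉ K → |f θ| ≤ M := by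
    refine isCompact_Icc.induction_on (p := fun s => ∃ M, ∀ θ ∈ s, circleMap 0 ρ θ ∉ K →
      |f θ| ≤ M) ⟨0, fun θ hθ => hθ.elim⟩ (fun s t hst ⟨M, hM⟩ => ⟨M, fun θ hθ => hM θ (hst hθ)⟩)
      (fun s t ⟨M, hM⟩ ⟨M', hM'⟩ => ⟨max M M', fun θ hθ hK => ?_⟩) hloc
    rcases hθ with hθ | hθ
    · exact (hM θ hθ hK).trans (le_max_left _ _)
    · exact (hM' θ hθ hK).trans (le_max_right _ _)
  obtain ⟨M, hM⟩ := hcomp
  refine ⟨max M 0, le_max_right _ _, fun z hz hzK => ?_⟩
  have h1 : z ∈ circleMap 0 ρ '' Ioc 0 (2 * π) := by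
    rw [image_circleMap_Ioc, abs_of_pos hρ]
    exact hz
  obtain ⟨θ, hθ, rfl⟩ := h1
  exact (hM θ (Ioc_subset_Icc_self hθ) hzK).trans (le_max_left _ _)

/-! ### the test function -/

/-- the truncated function, extended by zero outside the disk -/
noncomputable def bpsi (u : ℂ → ℝ) (m ρ : ℝ) (z : ℂ) : ℝ := if ‖z‖ < ρ then bddc m (u z) else 0

theorem bpsi_locLip {u : ℂ → ℝ} {K : Set ℂ} (hu : LocLip Kᶜ u) {m ρ : ℝ}
    (hM : ∀ z ∈ sphere (0 : ℂ) ρ, z ∉ K → |u z| ≤ m) : LocLip Kᶜ (bpsi u m ρ) := by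
  intro z hz
  obtain ⟨M, r, hr, hrU, hL⟩ := (hu.comp_lipschitz (bddc_lip m)) z hz
  have key : ∀ p ∈ ball z r, ∀ q ∈ ball z r, ‖p‖ < ρ → ρ ≤ ‖q‖ →
      |bddc m (u p)| ≤ M * dist p q := by
    intro p hp q hq h1 h2
    have hcont : ContinuousOn (fun t : ℝ => ‖AffineMap.lineMap p q t‖) (Icc 0 1) :=
      (AffineMap.lineMap_continuous.norm).continuousOn
    have hmem : ρ ∈ Icc ‖(AffineMap.lineMap p q (0 : ℝ) : ℂ)‖ ‖(AffineMap.lineMap p q (1 : ℝ) : ℂ)‖ := by
      rw [AffineMap.lineMap_apply_zero, AffineMap.lineMap_apply_one]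
      exact ⟨h1.le, h2⟩
    obtain ⟨t, ht, hteq⟩ := intermediate_value_Icc (zero_le_one' ℝ) hcont hmem
    set s : ℂ := AffineMap.lineMap p q t with hs
    have hsb : s ∈ ball z r := (convex_ball z r).lineMap_mem hp hq ht
    have hsK : s ∉ K := hrU hsb
    have hs0 : bddc m (u s) = 0 := bddc_eq_zero (hM s (by
      rw [mem_sphere_zero_iff_norm]; exact hteq) hsK)
    have h3 := hL.dist_le_mul p hp s hsb
    rw [Real.dist_eq, hs0, sub_zero] at h3
    have h4 : dist p s ≤ dist p q := by
      rw [hs, dist_left_lineMap, Real.norm_eq_abs, abs_of_nonneg ht.1]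
      exact mul_le_of_le_one_left dist_nonneg ht.2
    exact h3.trans (mul_le_mul_of_nonneg_left h4 M.2)
  refine ⟨M, r, hr, hrU, LipschitzOnWith.of_dist_le_mul fun p hp q hq => ?_⟩
  unfold bpsi
  rw [Real.dist_eq]
  by_cases h1 : ‖p‖ < ρ <;> by_cases h2 : ‖q‖ < ρ
  · rw [if_pos h1, if_pos h2]
    exact hL.dist_le_mul p hp q hq
  · rw [if_pos h1, if_neg h2, sub_zero]
    exact key p hp q hq h1 (not_lt.1 h2)
  · rw [if_neg h1, if_pos h2, zero_sub, abs_neg, dist_comm]
    exact key q hq p hp h2 (not_lt.1 h1)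
  · rw [if_neg h1, if_neg h2, sub_self, abs_zero]
    positivity

theorem bpsi_inside {u : ℂ → ℝ} {m ρ : ℝ} {z : ℂ} (hz : ‖z‖ < ρ) :
    bpsi u m ρ =ᶠ[𝓝 z] fun w => bddc m (u w) := by
  have h1 : ∀ᶠ w : ℂ in 𝓝 z, ‖w‖ < ρ := continuous_norm.continuousAt.eventually_lt_const hz
  filter_upwards [h1] with w hw
  unfold bpsi
  rw [if_pos hw]

theorem bpsi_outside {u : ℂ → ℝ} {m ρ : ℝ} {z : ℂ} (hz : ρ < ‖z‖) :
    bpsi u m ρ =ᶠ[𝓝 z] fun _ => 0 := by
  have h1 : ∀ᶠ w : ℂ in 𝓝 z, ρ < ‖w‖ := continuous_norm.continuousAt.eventually_const_lt hz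
  filter_upwards [h1] with w hw
  unfold bpsi
  rw [if_neg (not_lt.2 hw.le)]

/-- The maximum principle. -/
theorem bdd_of {u : ℂ → ℝ} {K : Set ℂ} (hK : IsClosed K) (harm : HarmonicOnNhd u Kᶜ)
    (conn : IsPreconnected Kᶜ) (hvol : volume K = 0)
    (hfin : ∀ᵐ s : ℝ, 0 < s → (K ∩ sphere 0 s).Finite)
    (hint : ∀ R : ℝ, IntegrableOn (fun z => ‖grad u z‖ ^ 2) (ball 0 R))
    (hel : ∀ ψ : ℂ → ℝ, LocLip Kᶜ ψ → (∃ R : ℝ, ∀ z, z ∉ K → R ≤ ‖z‖ → ψ z = 0) →
      Integrable (fun z => ‖grad ψ z‖ ^ 2) → ∫ z, inner ℝ (grad u z) (grad ψ z) = 0)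
    (R : ℝ) : ∃ M : ℝ, ∀ z ∈ ball (0 : ℂ) R, z ∉ K → |u z| ≤ M := by
  have hKo : IsOpen Kᶜ := hK.isOpen_compl
  have hC2 : ContDiffOn ℝ 2 u Kᶜ := harm.contDiffOn
  have hlip : LocLip Kᶜ u := LocLip.of_contDiffOn hKo (hC2.of_le (by norm_num))
  have hdiff : ∀ z ∈ Kᶜ, DifferentiableAt ℝ u z := fun z hz =>
    (harm z hz).1.differentiableAt (by norm_num)
  have hgc : ContinuousOn (grad u) Kᶜ := by
    have h1 : ContinuousOn (fderiv ℝ u) Kᶜ := hC2.continuousOn_fderiv_of_isOpen hKo (by norm_num)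
    have h2 : ContinuousOn (fun z => fderiv ℝ u z 1) Kᶜ := h1.clm_apply continuousOn_const
    have h3 : ContinuousOn (fun z => fderiv ℝ u z Complex.I) Kᶜ := h1.clm_apply continuousOn_const
    have : grad u = fun z => (fderiv ℝ u z 1 : ℂ) + (fderiv ℝ u z Complex.I : ℂ) * Complex.I := by
      funext z
      apply Complex.ext <;> simp [grad]
    rw [this]
    exact (Complex.continuous_ofReal.comp_continuousOn h2).add
      ((Complex.continuous_ofReal.comp_continuousOn h3).mul continuousOn_const)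
  -- a good radius
  set R' : ℝ := max R 1 with hR'
  have hR'1 : 1 ≤ R' := le_max_right _ _
  obtain ⟨ρ, hρR, hρfin, hρint⟩ : ∃ ρ : ℝ, R' < ρ ∧ (K ∩ sphere 0 ρ).Finite ∧
      IntegrableOn (fun θ => ‖grad u (circleMap 0 ρ θ)‖) ang := by
    set F : ℂ → ℝ := (ball (0 : ℂ) (R' + 1)).indicator (fun z => ‖grad u z‖ ^ 2) with hF
    have hFm : Measurable F := ((measurable_grad u).norm.pow_const 2).indicator measurableSet_ball
    have hFi : Integrable F := (hint (R' + 1)).integrable_indicator measurableSet_ball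
    have h1 := (integrable_polar 0 hFm hFi).prod_right_ae
    rw [ae_restrict_iff' measurableSet_Ioi] at h1
    have h2 : ∀ᵐ s : ℝ, s ∈ Ioo R' (R' + 1) → (K ∩ sphere 0 s).Finite ∧
        IntegrableOn (fun θ => ‖grad u (circleMap 0 s θ)‖) ang := by
      filter_upwards [h1, hfin] with s hs1 hs2 hs
      have hs0 : 0 < s := by linarith [hs.1]
      refine ⟨hs2 hs0, ?_⟩
      have h3 := hs1 hs0
      have h4 : Integrable (fun θ => ‖grad u (circleMap 0 s θ)‖ ^ 2) (volume.restrict ang) := by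
        have h5 := h3.const_mul s⁻¹
        refine h5.congr (Eventually.of_forall fun θ => ?_)
        have h6 : circleMap 0 s θ ∈ ball (0 : ℂ) (R' + 1) := by
          rw [mem_ball_zero_iff, norm_circleMap_zero, abs_of_pos hs0]
          exact hs.2
        simp only [hF, indicator_of_mem h6]
        field_simp
      have hfinm : IsFiniteMeasure (volume.restrict ang) := by
        refine ⟨?_⟩
        rw [Measure.restrict_apply_univ]
        exact measure_Ioo_lt_top
      refine Integrable.mono' (h4.add (integrable_const (1 : ℝ)))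
        (((measurable_grad u).comp (measurable_circleMap 0 s)).norm.aestronglyMeasurable)
        (Eventually.of_forall fun θ => ?_)
      rw [Real.norm_eq_abs, abs_of_nonneg (norm_nonneg _)]
      simp only [Pi.add_apply]
      linarith only [norm_nonneg (grad u (circleMap 0 s θ)), sq_nonneg (‖grad u (circleMap 0 s θ)‖ - 1)]
    have h3 : ∃ s ∈ Ioo R' (R' + 1), (K ∩ sphere 0 s).Finite ∧
        IntegrableOn (fun θ => ‖grad u (circleMap 0 s θ)‖) ang := by
      by_contra hcon
      push Not at hcon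
      have h4 : volume (Ioo R' (R' + 1)) = 0 := by
        rw [measure_eq_zero_iff_ae_notMem]
        filter_upwards [h2] with s hs hsI
        exact hcon s hsI (hs hsI).1 (hs hsI).2
      rw [Real.volume_Ioo] at h4
      norm_num at h4
    obtain ⟨s, hs, h4, h5⟩ := h3
    exact ⟨s, hs.1, h4, h5⟩
  have hρ0 : 0 < ρ := by linarith
  obtain ⟨m, hm, hM⟩ := bdd_circle hdiff hgc hρ0 hρfin hρint
  -- the test
  set ψ := bpsi u m ρ with hψ
  have hψL : LocLip Kᶜ ψ := bpsi_locLip hlip hM
  have hsph : ∀ᵐ z : ℂ, z ∉ K ∧ ‖z‖ ≠ ρ := by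
    have h1 : ∀ᵐ z : ℂ, z ∉ K := measure_eq_zero_iff_ae_notMem.1 hvol
    have h2 : ∀ᵐ z : ℂ, z ∉ sphere (0 : ℂ) ρ :=
      measure_eq_zero_iff_ae_notMem.1 (Measure.addHaar_sphere volume 0 ρ)
    filter_upwards [h1, h2] with z hz1 hz2
    exact ⟨hz1, fun h => hz2 (by rwa [mem_sphere_zero_iff_norm])⟩
  have hpt : ∀ᵐ z : ℂ, ‖grad ψ z‖ ^ 2 ≤ inner ℝ (grad u z) (grad ψ z) ∧
      ‖grad ψ z‖ ≤ (ball (0 : ℂ) ρ).indicator (fun z => ‖grad u z‖) z := by
    filter_upwards [hsph] with z hz
    rcases lt_or_gt_of_ne hz.2 with h | h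
    · rw [indicator_of_mem (mem_ball_zero_iff.2 h), hψ, grad_congr (bpsi_inside h)]
      have h1 := grad_firm m (hdiff z hz.1)
      exact ⟨h1, norm_le_of_firm h1⟩
    · have h1 : grad ψ z = 0 := by
        rw [hψ, grad_congr (bpsi_outside h), grad_const]
      rw [h1, norm_zero, inner_zero_right]
      exact ⟨by norm_num, indicator_nonneg (fun _ _ => norm_nonneg _) _⟩
  have hind : Integrable ((ball (0 : ℂ) ρ).indicator (fun z => ‖grad u z‖ ^ 2)) :=
    (hint ρ).integrable_indicator measurableSet_ball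
  have hψi : Integrable (fun z => ‖grad ψ z‖ ^ 2) := by
    refine hind.mono' ((measurable_grad ψ).norm.pow_const 2).aestronglyMeasurable ?_
    filter_upwards [hpt] with z hz
    rw [Real.norm_eq_abs, abs_of_nonneg (sq_nonneg _)]
    have h1 := pow_le_pow_left₀ (norm_nonneg _) hz.2 2
    by_cases hzb : z ∈ ball (0 : ℂ) ρ
    · rw [indicator_of_mem hzb] at h1 ⊢
      exact h1
    · rw [indicator_of_notMem hzb] at h1 ⊢
      simpa using h1
  have hint0 := hel ψ hψL ⟨ρ, fun z _ hz => by rw [hψ]; unfold bpsi; rw [if_neg (not_lt.2 hz)]⟩ hψi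
  have hhi : Integrable (fun z => (inner ℝ (grad u z) (grad ψ z) : ℝ)) := by
    refine hind.mono' ((measurable_grad u).inner (measurable_grad ψ)).aestronglyMeasurable ?_
    filter_upwards [hpt] with z hz
    refine (abs_real_inner_le_norm _ _).trans ?_
    by_cases hzb : z ∈ ball (0 : ℂ) ρ
    · rw [indicator_of_mem hzb] at hz ⊢
      linarith only [mul_nonneg (sub_nonneg.2 hz.2) (sub_nonneg.2 (norm_nonneg (grad u z)))]
    · rw [indicator_of_notMem hzb] at hz ⊢
      have : ‖grad ψ z‖ = 0 := le_antisymm hz.2 (norm_nonneg _)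
      rw [this, mul_zero]
  have hzero : ∀ᵐ z : ℂ, grad ψ z = 0 := by
    have h1 := (integral_eq_zero_iff_of_nonneg_ae (f := fun z =>
      (inner ℝ (grad u z) (grad ψ z) : ℝ)) (by
        filter_upwards [hpt] with z hz
        exact (sq_nonneg _).trans hz.1) hhi).1 hint0
    filter_upwards [h1, hpt] with z hz1 hz2
    have h2 : (inner ℝ (grad u z) (grad ψ z) : ℝ) = 0 := hz1
    rw [h2] at hz2
    have h3 : ‖grad ψ z‖ ^ 2 = 0 := le_antisymm hz2.1 (sq_nonneg _)
    simpa using h3
  -- the set where `|u| > m`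
  set W : Set ℂ := {z | ‖z‖ < ρ} ∩ (Kᶜ ∩ {z | m < |u z|}) with hW
  have huc : ContinuousOn u Kᶜ := hlip.continuousOn
  have hWo : IsOpen W :=
    (isOpen_lt continuous_norm continuous_const).inter
      (huc.abs.isOpen_inter_preimage hKo isOpen_Ioi)
  by_cases hne : W.Nonempty
  · obtain ⟨z₀, hz₀⟩ := hne
    have hWK : W ⊆ Kᶜ := fun z hz => hz.2.1
    have hWg : ∀ z ∈ W, grad ψ z = grad u z := by
      intro z hz
      have hzm : m < |u z| := hz.2.2
      rw [hψ, grad_congr (bpsi_inside hz.1)]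
      have hcz : ContinuousAt u z := huc.continuousAt (hKo.mem_nhds hz.2.1)
      rcases lt_abs.1 hzm with h | h
      · have h1 : ∀ᶠ w in 𝓝 z, m < u w := hcz.eventually_const_lt h
        have h2 : (fun w => bddc m (u w)) =ᶠ[𝓝 z] fun w => u w - m := by
          filter_upwards [h1] with w hw using bddc_pos hm hw
        rw [grad_congr h2, grad_sub (hdiff z hz.2.1) (differentiableAt_const m), grad_const,
          sub_zero]
      · have h1 : ∀ᶠ w in 𝓝 z, u w < -m := hcz.eventually_lt_const (by linarith)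
        have h2 : (fun w => bddc m (u w)) =ᶠ[𝓝 z] fun w => u w + m := by
          filter_upwards [h1] with w hw using bddc_neg hm hw
        rw [grad_congr h2, grad_add (hdiff z hz.2.1) (differentiableAt_const m), grad_const,
          add_zero]
    have hg0 : EqOn (grad u) (fun _ => 0) W := by
      refine Measure.eqOn_open_of_ae_eq (μ := volume) ?_ hWo (hgc.mono hWK) continuousOn_const
      rw [EventuallyEq, ae_restrict_iff' hWo.measurableSet]
      filter_upwards [hzero] with z hz hzW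
      rw [← hWg z hzW, hz]
    obtain ⟨r, hr, hball⟩ := Metric.isOpen_iff.1 hWo z₀ hz₀
    have hf0 : (ball z₀ r).EqOn (fderiv ℝ u) 0 := by
      intro z hz
      have h1 := hg0 (hball hz)
      have h2 : ‖fderiv ℝ u z‖ = 0 := by
        rw [← norm_grad, h1, norm_zero]
      simpa using h2
    have hcst : ∀ z ∈ ball z₀ r, u z = u z₀ := fun z hz =>
      isOpen_ball.is_const_of_fderiv_eq_zero (convex_ball z₀ r).isPreconnected
        (fun w hw => (hdiff w (hWK (hball hw))).differentiableWithinAt) hf0 hz (mem_ball_self hr)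
    have hana : AnalyticOnNhd ℝ u Kᶜ := fun z hz => HarmonicAt.analyticAt (harm z hz)
    have hall := hana.eqOn_of_preconnected_of_eventuallyEq
      (analyticOnNhd_const (v := u z₀)) conn (hWK hz₀) (by
        filter_upwards [ball_mem_nhds z₀ hr] with z hz using hcst z hz)
    exact ⟨|u z₀|, fun z _ hzK => by rw [hall hzK]⟩
  · refine ⟨m, fun z hz hzK => ?_⟩
    by_contra hcon
    push Not at hcon
    refine hne ⟨z, ?_, hzK, hcon⟩
    rw [mem_ball_zero_iff] at hz
    have : R ≤ R' := le_max_left _ _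
    exact lt_trans (lt_of_lt_of_le hz this) hρR

end Vale.Agent.P128.GM
end

section

/-! Crossings of circles, length lower bound, nontrivial energy. -/

open MeasureTheory Set Metric Filter
open scoped ENNReal NNReal ContDiff Topology Real

namespace Vale.Agent.P128.GM

open Vale.Agent.P128

variable {u : ℂ → ℝ} {K : Set ℂ}

theorem inter_norm_preimage (K : Set ℂ) (s : ℝ) :
    K ∩ (fun z : ℂ => ‖z‖) ⁻¹' {s} = K ∩ sphere 0 s := by
  ext z
  simp only [mem_inter_iff, mem_preimage, mem_singleton_iff, mem_sphere_iff_norm, sub_zero]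

/-- finitely many crossings -/
theorem GMin.ae_finite (h : GMin u K) : ∀ᵐ s : ℝ, 0 < s → (K ∩ sphere 0 s).Finite := by
  have key : ∀ n : ℕ, volume {s : ℝ | s < n ∧ (K ∩ sphere (0 : ℂ) s).Infinite} = 0 := by
    intro n
    by_contra h0
    obtain ⟨m, hm⟩ := ENNReal.exists_nat_mul_gt h0 (h.len_fin 0 n)
    have h1 := eilenberg (X := ℂ) lipschitzWith_one_norm (E := K) (m := m)
      (S := {s : ℝ | s < n ∧ (K ∩ sphere (0 : ℂ) s).Infinite}) (fun s hs => by
        rw [inter_norm_preimage, hs.2.encard_eq]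
        exact le_top)
    refine absurd (hm.trans_le (h1.trans (measure_mono ?_))) (lt_irrefl _)
    rintro z ⟨hz, hz'⟩
    refine ⟨hz, ?_⟩
    rw [mem_ball_zero_iff]
    exact hz'.1
  have h2 : ∀ᵐ s : ℝ, ∀ n : ℕ, ¬ (s < n ∧ (K ∩ sphere (0 : ℂ) s).Infinite) := by
    rw [ae_all_iff]
    intro n
    rw [ae_iff]
    simpa only [not_and, not_infinite, Classical.not_imp, Set.not_finite] using key n
  filter_upwards [h2] with s hs _
  obtain ⟨n, hn⟩ := exists_nat_gt s
  by_contra hinf
  exact hs n ⟨hn, hinf⟩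

/-- Eilenberg -/
theorem GMin.len_ge (h : GMin u K) {R₀ : ℝ} (hR₀ : 0 ≤ R₀)
    (h2 : ∀ s : ℝ, R₀ < s → ∃ p q : ℂ, p ≠ q ∧ p ∈ K ∩ sphere 0 s ∧ q ∈ K ∩ sphere 0 s) {s : ℝ}
    (hs : R₀ ≤ s) : 2 * (s - R₀) ≤ Len K s := by
  have _ := hR₀
  have h1 := eilenberg (X := ℂ) lipschitzWith_one_norm (E := K) (m := 2)
    (S := Ioo R₀ s) (fun t ht => by
      obtain ⟨p, q, hpq, hp, hq⟩ := h2 t ht.1
      rw [inter_norm_preimage]
      have e := encard_pair hpq
      calc ((2 : ℕ) : ℕ∞) = ({p, q} : Set ℂ).encard := by rw [e]; rfl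
        _ ≤ _ := encard_le_encard (by
          rintro x hx
          rcases hx with rfl | hx
          · exact hp
          · rw [mem_singleton_iff] at hx
            rw [hx]
            exact hq))
  have h3 : ((2 : ℕ) : ℝ≥0∞) * volume (Ioo R₀ s) ≤ μH[1] (K ∩ ball (0 : ℂ) s) := by
    refine h1.trans (measure_mono ?_)
    rintro z ⟨hz, hz'⟩
    refine ⟨hz, ?_⟩
    rw [mem_ball_zero_iff]
    exact hz'.2
  have h4 := ENNReal.toReal_mono (h.len_fin 0 s) h3
  rw [Real.volume_Ioo, ENNReal.toReal_mul, ENNReal.toReal_ofReal (by linarith only [hs])] at h4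
  unfold Len
  simpa only [ge_iff_le, Nat.cast_ofNat, ENNReal.toReal_ofNat] using h4

/-- nontrivial energy -/
theorem GMin.en_pos (h : GMin u K) (hne : K.Nonempty) : ∃ R : ℝ, 0 < R ∧ 0 < En u R := by
  by_contra hcon
  push Not at hcon
  -- the gradient vanishes off `K`
  have hd : ∀ z ∈ Kᶜ, DifferentiableAt ℝ u z := fun z hz =>
    (h.harm z hz).1.differentiableAt (by norm_num)
  have hgc : ContinuousOn (fderiv ℝ u) Kᶜ := by
    have h1 : ContDiffOn ℝ 2 u Kᶜ := InnerProductSpace.HarmonicOnNhd.contDiffOn h.harm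
    exact h1.continuousOn_fderiv_of_isOpen h.isOpen_compl (by norm_num)
  have hg0 : ∀ z ∈ Kᶜ, fderiv ℝ u z = 0 := by
    intro z hz
    by_contra hne0
    have hpos : 0 < ‖fderiv ℝ u z‖ := norm_pos_iff.2 hne0
    have h1 : ∀ᶠ y in 𝓝 z, y ∈ Kᶜ ∧ 0 < ‖fderiv ℝ u y‖ := by
      have h2 := ((hgc.continuousAt (h.isOpen_compl.mem_nhds hz)).norm).eventually
        (lt_mem_nhds hpos)
      exact (eventually_of_mem (h.isOpen_compl.mem_nhds hz) fun y hy => hy).and h2
    obtain ⟨r, hr, hb⟩ := Metric.eventually_nhds_iff_ball.1 h1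
    set R : ℝ := ‖z‖ + r with hR
    have hRp : 0 < R := by (clear * - hr; positivity)
    have h3 := hcon R hRp
    have h4 : En u R = 0 := le_antisymm h3 (integral_nonneg fun _ => by (clear * -; positivity))
    unfold En at h4
    rw [integral_eq_zero_iff_of_nonneg_ae (Eventually.of_forall fun _ => by (clear * -; positivity))
      (h.integrableOn R)] at h4
    have hsub : ball z r ⊆ ball 0 R := by
      refine ball_subset_ball' ?_
      rw [dist_zero_right, hR, add_comm]
    have h5 : ∀ᵐ y ∂(volume.restrict (ball z r)), ‖grad u y‖ ^ 2 = 0 :=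
      ae_mono (Measure.restrict_mono hsub le_rfl) h4
    rw [ae_restrict_iff' measurableSet_ball] at h5
    have h6 : volume (ball z r) = 0 := by
      refine measure_mono_null ?_ (ae_iff.1 h5)
      intro y hy
      simp only [mem_ofPred_eq, not_forall]
      refine ⟨hy, ?_⟩
      rw [norm_grad]
      exact (pow_pos (hb y hy).2 2).ne'
    exact (isOpen_ball.measure_pos volume (nonempty_ball.2 hr)).ne' h6
  -- `u` is constant off `K`
  obtain ⟨x, hx⟩ := hne
  obtain ⟨c, hc⟩ : ∃ c : ℝ, ∀ z, z ∉ K → u z = c := by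
    obtain ⟨c, hc⟩ := h.isOpen_compl.exists_is_const_of_fderiv_eq_zero h.conn
      (fun z hz => (hd z hz).differentiableWithinAt) (fun z hz => hg0 z hz)
    exact ⟨c, fun z hz => hc z hz⟩
  have hL : IsClosed (K \ ball x 1) := h.closed.sdiff isOpen_ball
  have hv : LocLip (K \ ball x 1)ᶜ (fun _ => c) := LocLip.const hL.isOpen_compl c
  have key := h.compare_gen (x := x) (r := 2) (C := closedBall x 1) (v := fun _ => c) hL hv
    (isCompact_closedBall x 1) (closedBall_subset_ball (by norm_num)) (by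
      rintro z (⟨⟨hz, _⟩, hz'⟩ | ⟨hz, hz'⟩)
      · exact absurd hz hz'
      · by_contra hz2
        exact hz' ⟨hz, fun hz3 => hz2 (ball_subset_closedBall hz3)⟩)
    (fun z _ hz => (hc z hz).symm)
  unfold genergy at key
  have e1 : (∫⁻ z in ball x 2 \ (K \ ball x 1), ENNReal.ofReal (‖grad (fun _ => c) z‖ ^ 2)) = 0 := by
    simp only [grad_const, norm_zero, ne_eq, OfNat.ofNat_ne_zero, not_false_eq_true, zero_pow, ENNReal.ofReal_zero, lintegral_const, MeasurableSet.univ, Measure.restrict_apply, univ_inter, zero_mul]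
  rw [e1, zero_add] at key
  have key2 : μH[1] (K ∩ ball x 2) ≤ μH[1] (K \ ball x 1 ∩ ball x 2) :=
    le_trans le_add_self key
  have e2 : μH[1] (K ∩ ball x 2 ∩ ball x 1) + μH[1] ((K ∩ ball x 2) \ ball x 1)
      = μH[1] (K ∩ ball x 2) := measure_inter_add_sdiff _ measurableSet_ball
  have e3 : (K ∩ ball x 2) \ ball x 1 = K \ ball x 1 ∩ ball x 2 := by
    ext z
    simp only [Set.mem_sdiff, mem_inter_iff]
    (clear * -; tauto)
  have e4 : K ∩ ball x 2 ∩ ball x 1 = K ∩ ball x 1 := by
    rw [inter_assoc, inter_eq_self_of_subset_right (ball_subset_ball (by norm_num))]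
  rw [e3, e4] at e2
  have hfin : μH[1] (K \ ball x 1 ∩ ball x 2) ≠ ⊤ := by
    refine ne_top_of_le_ne_top (h.len_fin x 2) (measure_mono ?_)
    rintro z ⟨⟨hz, _⟩, hz'⟩
    exact ⟨hz, hz'⟩
  have hred := h.red x hx 1 one_pos
  rw [← e2] at key2
  have h7 : μH[1] (K ∩ ball x 1) + μH[1] (K \ ball x 1 ∩ ball x 2)
      ≤ 0 + μH[1] (K \ ball x 1 ∩ ball x 2) := by rwa [zero_add]
  exact hred.ne' (le_antisymm (ENNReal.le_of_add_le_add_right hfin h7) bot_le)

end Vale.Agent.P128.GM
end

section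

/-! Global minimizers with connected complement are locally bounded (maximum principle). -/

open MeasureTheory Set Metric

namespace Vale.Agent.P128.GM

theorem GMin.bdd {u : ℂ → ℝ} {K : Set ℂ} (h : GMin u K) (R : ℝ) :
    ∃ M : ℝ, ∀ z ∈ ball (0 : ℂ) R, z ∉ K → |u z| ≤ M :=
  bdd_of h.gm.closed h.harm h.conn h.vol_zero h.ae_finite h.integrableOn
    (fun _ hψ hs hi => h.el hψ hs hi) R

end Vale.Agent.P128.GM
end

section

/-! Definitions for the case where the complement of `K` is not connected. -/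

open MeasureTheory Set Metric Filter InnerProductSpace
open scoped ENNReal NNReal ContDiff Topology Real

namespace Vale.Agent.P128.GM

open Vale.Agent.P128

/-- A reduced global minimizer, `u` being the harmonic representative. Nothing is assumed on the
complement of `K`. -/
structure CMin (u : ℂ → ℝ) (K : Set ℂ) : Prop where
  gm : IsGlobalMin u (grad u) K
  harm : HarmonicOnNhd u Kᶜ
  red : ∀ x ∈ K, ∀ r > 0, 0 < μH[1] (K ∩ ball x r)

/-- The complement of `K` has no bounded component. -/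
def NoBdd (K : Set ℂ) : Prop := ∀ z, z ∉ K → ¬ Bornology.IsBounded (connectedComponentIn Kᶜ z)

end Vale.Agent.P128.GM
end

section

/-! D-01 (GM/D/CBase.lean, helper32) : basics, as in GM/Compare, Classical, EL, Growth -/

open MeasureTheory Set Metric Filter InnerProductSpace
open scoped ENNReal NNReal ContDiff Topology Real

namespace Vale.Agent.P128.GM

open Vale.Agent.P128

variable {u : ℂ → ℝ} {G : ℂ → ℂ} {K L A W : Set ℂ} {η w : ℂ → ℝ} {δ : ℝ}

theorem SepOut.of_subset (h : K ⊆ L) (W : Set ℂ) : SepOut K L W :=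
  fun _ _ _ _ _ hz => connectedComponentIn_mono _ (compl_subset_compl.2 h) hz

/-- the disk is replaced by its boundary circle -/
theorem SepOut.of_circle {K L W : Set ℂ} (_hK : IsClosed K) {y : ℂ} {s : ℝ}
    (hL : K \ ball y s ⊆ L) (hLs : sphere y s ⊆ L) (hW : closedBall y s ⊆ W) : SepOut K L W := by
  intro z z' hzL hzW hz'W hz'
  have hzL' : z ∈ Lᶜ := hzL
  have hzK : z ∈ Kᶜ := fun h => hzL (hL ⟨h, fun hb => hzW (hW (ball_subset_closedBall hb))⟩)
  have hzc : z ∉ closedBall y s := fun h => hzW (hW h)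
  have hsub : connectedComponentIn Lᶜ z ⊆ (closedBall y s)ᶜ := by
    have h1 := (isPreconnected_connectedComponentIn (F := Lᶜ) (x := z))
    refine h1.subset_left_of_subset_union isClosed_closedBall.isOpen_compl
      (isOpen_ball (x := y) (ε := s)) ?_ ?_ ⟨z, mem_connectedComponentIn hzL', hzc⟩
    · exact disjoint_left.2 fun a ha hb => ha (ball_subset_closedBall hb)
    · intro a ha
      have haL : a ∉ L := connectedComponentIn_subset _ _ ha
      by_cases hab : a ∈ ball y s
      · exact Or.inr hab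
      · refine Or.inl fun hac => haL (hLs ?_)
        rw [mem_ball, not_lt] at hab
        rw [mem_closedBall] at hac
        exact le_antisymm hac hab
  have hsub2 : connectedComponentIn Lᶜ z ⊆ Kᶜ := by
    intro a ha haK
    have haL : a ∉ L := connectedComponentIn_subset _ _ ha
    exact haL (hL ⟨haK, fun hb => hsub ha (ball_subset_closedBall hb)⟩)
  exact isPreconnected_connectedComponentIn.subset_connectedComponentIn
    (mem_connectedComponentIn hzL') hsub2 hz'

theorem IsGlobalMin.compare_sep {v : ℂ → ℝ} {H : ℂ → ℂ} (h : IsGlobalMin u G K) {x : ℂ} {r : ℝ}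
    {C : Set ℂ}
    (hL : IsClosed L) (hv : W12loc Lᶜ v H) (hC : IsCompact C) (hCb : C ⊆ ball x r)
    (hLK : symmDiff L K ⊆ C) (hvu : ∀ᵐ z : ℂ, z ∉ C → v z = u z)
    (hsep : SepOut K L (ball x r)) :
    genergy G K (ball x r) ≤ genergy H L (ball x r) := by
  refine h.minimal x r v H L hL hv ⟨C, hC, hCb, hLK, hvu⟩ fun p q hp hq hpq hpL => ?_
  rw [mem_union, not_or] at hp hq
  have hpL' : p ∉ L := fun h1 => hp.1 (hCb (hLK (Or.inl ⟨h1, hp.2⟩)))
  exact hpq (hsep p q hpL' hp.1 hq.1 hpL)

namespace CMin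

variable {v : ℂ → ℝ}

theorem closed (h : CMin u K) : IsClosed K := h.gm.closed

theorem isOpen_compl (h : CMin u K) : IsOpen Kᶜ := h.gm.closed.isOpen_compl

theorem volume_zero (h : CMin u K) : volume K = 0 := h.gm.volume_zero

theorem vol_zero (h : CMin u K) : volume K = 0 := h.gm.volume_zero

theorem ae_compl (h : CMin u K) : ∀ᵐ z : ℂ, z ∉ K := h.gm.ae_compl

theorem len_fin (h : CMin u K) (x : ℂ) (r : ℝ) : μH[1] (K ∩ ball x r) ≠ ⊤ := h.gm.len_fin x r

theorem len_lt (h : CMin u K) (R : ℝ) : μH[1] (K ∩ ball 0 R) < ⊤ :=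
  lt_top_iff_ne_top.2 (h.len_fin 0 R)

theorem locLip (h : CMin u K) : LocLip Kᶜ u := by
  refine LocLip.of_contDiffOn h.isOpen_compl ?_
  exact (InnerProductSpace.HarmonicOnNhd.contDiffOn h.harm).of_le (by norm_num)

theorem lint_fin (h : CMin u K) (x : ℂ) (r : ℝ) :
    ∫⁻ z in ball x r, ENNReal.ofReal (‖grad u z‖ ^ 2) ≠ ⊤ := by
  have := h.gm.en_fin x r
  rwa [h.gm.restrict_compl] at this

theorem integrableOn' (h : CMin u K) (x : ℂ) (r : ℝ) :
    IntegrableOn (fun z => ‖grad u z‖ ^ 2) (ball x r) := by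
  refine ⟨((measurable_grad u).norm.pow_const 2).aestronglyMeasurable, ?_⟩
  rw [hasFiniteIntegral_iff_norm]
  refine lt_of_le_of_lt (lintegral_mono fun z => ?_) (lt_top_iff_ne_top.2 (h.lint_fin x r))
  rw [Real.norm_of_nonneg (by positivity)]

theorem integrableOn (h : CMin u K) (R : ℝ) :
    IntegrableOn (fun z => ‖grad u z‖ ^ 2) (ball 0 R) := h.integrableOn' 0 R

theorem memLp (h : CMin u K) (x : ℂ) (r : ℝ) :
    MemLp (grad u) 2 (volume.restrict (ball x r)) := by
  rw [memLp_two_iff_integrable_sq_norm (measurable_grad u).aestronglyMeasurable]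
  exact h.integrableOn' x r

/-- Sobolev competitors -/
theorem minimal (h : CMin u K) {x : ℂ} {r : ℝ} {C : Set ℂ} {H : ℂ → ℂ}
    (hL : IsClosed L) (hv : W12loc Lᶜ v H) (hC : IsCompact C) (hCb : C ⊆ ball x r)
    (hLK : symmDiff L K ⊆ C) (hvu : ∀ᵐ z : ℂ, z ∉ C → v z = u z)
    (hsep : SepOut K L (ball x r)) :
    genergy (grad u) K (ball x r) ≤ genergy H L (ball x r) :=
  h.gm.compare_sep hL hv hC hCb hLK hvu hsep

/-- locally Lipschitz competitors -/
theorem compare_real (h : CMin u K) {x : ℂ} {r : ℝ} {C : Set ℂ}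
    (hL : IsClosed L) (hv : LocLip Lᶜ v) (hC : IsCompact C) (hCb : C ⊆ ball x r)
    (hLK : symmDiff L K ⊆ C) (hvu : ∀ z ∉ C, z ∉ K → v z = u z)
    (hint : IntegrableOn (fun z => ‖grad v z‖ ^ 2) (ball x r))
    (hlen : μH[1] (L ∩ ball x r) ≠ ⊤) (hsep : SepOut K L (ball x r)) :
    (∫ z in ball x r, ‖grad u z‖ ^ 2) + (μH[1] (K ∩ ball x r)).toReal ≤
      (∫ z in ball x r, ‖grad v z‖ ^ 2) + (μH[1] (L ∩ ball x r)).toReal := by
  have key := h.minimal hL (hv.w12loc hL.isOpen_compl) hC hCb hLK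
    (h.ae_compl.mono fun z hz hzC => hvu z hzC hz) hsep
  unfold genergy at key
  rw [h.gm.restrict_compl, GMin.lintegral_grad (h.integrableOn' x r)] at key
  have h2 : ∫⁻ z in ball x r \ L, ENNReal.ofReal (‖grad v z‖ ^ 2) ≤
      ENNReal.ofReal (∫ z in ball x r, ‖grad v z‖ ^ 2) := by
    rw [← GMin.lintegral_grad hint]
    exact lintegral_mono_set sdiff_subset
  have h3 := key.trans (add_le_add_left h2 _)
  rw [← ENNReal.ofReal_toReal (h.len_fin x r), ← ENNReal.ofReal_toReal hlen,
    ← ENNReal.ofReal_add (by positivity) (by positivity),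
    ← ENNReal.ofReal_add (by positivity) (by positivity)] at h3
  exact (ENNReal.ofReal_le_ofReal_iff (by positivity)).1 h3

theorem compare (h : CMin u K) {R : ℝ} (hL : IsClosed L)
    (hv : LocLip Lᶜ v) (hfin : IntegrableOn (fun z => ‖grad v z‖ ^ 2) (ball 0 R))
    (hlen : μH[1] (L ∩ ball 0 R) < ⊤)
    (hC : ∃ C, IsCompact C ∧ C ⊆ ball 0 R ∧ symmDiff L K ⊆ C ∧ ∀ z, z ∉ C → z ∉ K → v z = u z)
    (hsep : SepOut K L (ball 0 R)) :
    En u R + Len K R ≤ En v R + Len L R := by
  obtain ⟨C, h1, h2, h3, h4⟩ := hC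
  exact h.compare_real hL hv h1 h2 h3 h4 hfin hlen.ne hsep

theorem grad_ae (h : CMin u K) {ψ : ℂ → ℝ} (hψ : LocLip Kᶜ ψ) (t : ℝ) :
    ∀ᵐ z, grad (fun w => u w + t * ψ w) z = grad u z + t • grad ψ z := by
  filter_upwards [h.ae_compl, h.locLip.ae_diff h.isOpen_compl, hψ.ae_diff h.isOpen_compl]
    with z hz h1 h2
  rw [grad_add (h1 hz) ((h2 hz).const_mul t), grad_const_mul (h2 hz)]

theorem el (h : CMin u K) {ψ : ℂ → ℝ} (hψ : LocLip Kᶜ ψ)
    (hs : ∃ R : ℝ, ∀ z, z ∉ K → R ≤ ‖z‖ → ψ z = 0)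
    (hi : Integrable (fun z => ‖grad ψ z‖ ^ 2)) :
    ∫ z, inner ℝ (grad u z) (grad ψ z) = 0 := by
  obtain ⟨R₀, hR₀⟩ := hs
  set R : ℝ := max R₀ 0 with hR
  have hR0 : 0 ≤ R := le_max_right _ _
  have hRψ : ∀ z, z ∉ K → R ≤ ‖z‖ → ψ z = 0 := fun z hz h1 => hR₀ z hz ((le_max_left _ _).trans h1)
  -- the gradient of `ψ` vanishes far away
  have hg0 : ∀ z, z ∉ K → R < ‖z‖ → grad ψ z = 0 := by
    intro z hz hzR
    have hev : ψ =ᶠ[𝓝 z] fun _ => (0 : ℝ) := by
      have h1 : {w : ℂ | R < ‖w‖} ∈ 𝓝 z := (isOpen_lt continuous_const continuous_norm).mem_nhds hzR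
      filter_upwards [h1, h.isOpen_compl.mem_nhds hz] with w hw hwK
      exact hRψ w hwK (le_of_lt hw)
    rw [grad_congr hev, grad_const]
  set B : Set ℂ := ball 0 (R + 1) with hB
  have hfull : ∫ z, (inner ℝ (grad u z) (grad ψ z) : ℝ) =
      ∫ z in B, (inner ℝ (grad u z) (grad ψ z) : ℝ) := by
    symm
    rw [← integral_indicator measurableSet_ball]
    refine integral_congr_ae ?_
    filter_upwards [h.ae_compl] with z hz
    by_cases hzB : z ∈ B
    · rw [indicator_of_mem hzB]
    · rw [indicator_of_notMem hzB]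
      have : R < ‖z‖ := by
        rw [hB, mem_ball_zero_iff, not_lt] at hzB
        linarith
      simp [hg0 z hz this]
  rw [hfull]
  have hum := (measurable_grad u).aestronglyMeasurable (μ := (volume.restrict B : Measure ℂ))
  have hψm := (measurable_grad ψ).aestronglyMeasurable (μ := (volume.restrict B : Measure ℂ))
  have i1 : Integrable (fun z => ‖grad u z‖ ^ 2) (volume.restrict B) := h.integrableOn (R + 1)
  have i3 : Integrable (fun z => ‖grad ψ z‖ ^ 2) (volume.restrict B) := hi.restrict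
  have i2 := integrable_inner_of_sq hum hψm i1 i3
  refine quad_zero (Q := ∫ z in B, ‖grad ψ z‖ ^ 2) fun t => ?_
  have hae : ∀ᵐ z ∂(volume.restrict B : Measure ℂ), ‖grad (fun w => u w + t * ψ w) z‖ ^ 2 =
      ‖grad u z‖ ^ 2 + (2 * t * inner ℝ (grad u z) (grad ψ z) + t ^ 2 * ‖grad ψ z‖ ^ 2) := by
    filter_upwards [ae_restrict_of_ae (h.grad_ae hψ t)] with z hz
    rw [hz, norm_add_sq_real, inner_smul_right, norm_smul, mul_pow, Real.norm_eq_abs, sq_abs]
    ring
  have I2 : Integrable (fun z => 2 * t * inner ℝ (grad u z) (grad ψ z) + t ^ 2 * ‖grad ψ z‖ ^ 2)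
      (volume.restrict B) := (i2.const_mul (2 * t)).add (i3.const_mul (t ^ 2))
  have I1 : IntegrableOn (fun z => ‖grad (fun w => u w + t * ψ w) z‖ ^ 2) B :=
    (i1.add I2).congr (hae.mono fun z hz => hz.symm)
  have hv : LocLip Kᶜ fun w => u w + t * ψ w := h.locLip.add (hψ.const_mul h.isOpen_compl t)
  have hcmp := h.compare (R := R + 1) h.closed hv I1 (h.len_lt _)
    ⟨closedBall 0 R, isCompact_closedBall _ _, closedBall_subset_ball (by linarith), by simp,
      fun z hz hzK => by
        have : R ≤ ‖z‖ := by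
          rw [mem_closedBall_zero_iff, not_le] at hz
          exact hz.le
        simp only [hRψ z hzK this, mul_zero, add_zero]⟩ (SepOut.of_subset le_rfl _)
  have hE : En (fun w => u w + t * ψ w) (R + 1) = En u (R + 1) +
      (2 * t * (∫ z in B, (inner ℝ (grad u z) (grad ψ z) : ℝ))
        + t ^ 2 * ∫ z in B, ‖grad ψ z‖ ^ 2) := by
    unfold En
    rw [integral_congr_ae hae]
    rw [integral_add i1 I2]
    congr 1
    rw [← integral_const_mul, ← integral_const_mul]
    exact integral_add (i2.const_mul (2 * t)) (i3.const_mul (t ^ 2))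
  rw [hE] at hcmp
  linarith


theorem growth (h : CMin u K) {R : ℝ} (hR : 0 < R) : En u R + Len K R ≤ 2 * π * R := by
  set L : Set ℂ := (K \ ball 0 R) ∪ sphere 0 R with hL
  set v : ℂ → ℝ := fun z => if ‖z‖ < R then 0 else u z with hv
  have hLc : IsClosed L := (h.closed.sdiff isOpen_ball).union isClosed_sphere
  have hv1 : ∀ z ∈ ball (0 : ℂ) R, v z = 0 := fun z hz => by
    rw [mem_ball_zero_iff] at hz
    simp only [hv, if_pos hz]
  have hv2 : ∀ z, R ≤ ‖z‖ → v z = u z := fun z hz => by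
    simp only [hv, if_neg (not_lt.2 hz)]
  have hLip : LocLip Lᶜ v := by
    have h1 : LocLip (ball (0 : ℂ) R) v :=
      (LocLip.const isOpen_ball 0).congr fun z hz => (hv1 z hz).symm
    have h2 : LocLip (Kᶜ ∩ (closedBall (0 : ℂ) R)ᶜ) v := by
      refine (h.locLip.mono (h.isOpen_compl.inter isClosed_closedBall.isOpen_compl)
        inter_subset_left).congr fun z hz => ?_
      have := hz.2
      rw [mem_compl_iff, mem_closedBall_zero_iff, not_le] at this
      exact (hv2 z this.le).symm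
    refine (h1.union h2).mono hLc.isOpen_compl fun z hz => ?_
    rw [hL, mem_compl_iff, mem_union, not_or] at hz
    by_cases hzb : z ∈ ball (0 : ℂ) R
    · exact Or.inl hzb
    · refine Or.inr ⟨fun hzK => hz.1 ⟨hzK, hzb⟩, fun hzc => hz.2 ?_⟩
      rw [mem_ball_zero_iff, not_lt] at hzb
      rw [mem_closedBall_zero_iff] at hzc
      rw [mem_sphere_zero_iff_norm]
      exact le_antisymm hzc hzb
  -- gradients
  have hg1 : ∀ z ∈ ball (0 : ℂ) R, grad v z = 0 := fun z hz => by
    have : v =ᶠ[𝓝 z] fun _ => (0 : ℝ) := by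
      filter_upwards [isOpen_ball.mem_nhds hz] with w hw using hv1 w hw
    rw [grad_congr this, grad_const]
  have hg2 : ∀ z, R < ‖z‖ → grad v z = grad u z := fun z hz => by
    have : v =ᶠ[𝓝 z] u := by
      filter_upwards [(isOpen_lt continuous_const continuous_norm).mem_nhds hz] with w hw
      exact hv2 w (le_of_lt hw)
    exact grad_congr this
  set B : Set ℂ := ball 0 (R + 1) with hB
  have hbB : ball (0 : ℂ) R ⊆ B := ball_subset_ball (by linarith)
  have hsph : ∀ᵐ z : ℂ, z ∉ sphere (0 : ℂ) R := by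
    have h0 : {z : ℂ | ¬ z ∉ sphere (0 : ℂ) R} = sphere 0 R := by
      ext z
      simp only [mem_ofPred_eq, not_not]
    rw [ae_iff, h0]
    exact Measure.addHaar_sphere (volume : Measure ℂ) 0 R
  have hae : ∀ᵐ z : ℂ, ‖grad v z‖ ^ 2 = (ball (0 : ℂ) R)ᶜ.indicator (fun z => ‖grad u z‖ ^ 2) z := by
    filter_upwards [hsph] with z hz
    by_cases hzb : z ∈ ball (0 : ℂ) R
    · rw [indicator_of_notMem (by simpa using hzb), hg1 z hzb]
      simp
    · rw [indicator_of_mem (by simpa using hzb), hg2 z]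
      rw [mem_ball_zero_iff, not_lt] at hzb
      rw [mem_sphere_zero_iff_norm] at hz
      exact lt_of_le_of_ne hzb (Ne.symm hz)
  have iu : IntegrableOn (fun z => ‖grad u z‖ ^ 2) B := h.integrableOn (R + 1)
  have iv : IntegrableOn (fun z => ‖grad v z‖ ^ 2) B := by
    have h1 : IntegrableOn ((ball (0 : ℂ) R)ᶜ.indicator (fun z => ‖grad u z‖ ^ 2)) B :=
      Integrable.indicator iu measurableSet_ball.compl
    exact h1.congr (ae_restrict_of_ae (hae.mono fun z hz => hz.symm))
  have hLfin : μH[1] (L ∩ B) < ⊤ := by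
    refine lt_of_le_of_lt (measure_mono (union_inter_distrib_right _ _ _).subset) ?_
    refine lt_of_le_of_lt (measure_union_le _ _) (ENNReal.add_lt_top.2 ⟨?_, ?_⟩)
    · exact lt_of_le_of_lt (measure_mono (inter_subset_inter_left _ sdiff_subset)) (h.len_lt _)
    · exact lt_of_le_of_lt ((measure_mono inter_subset_left).trans (hausdorff_sphere_le 0 hR.le))
        ENNReal.ofReal_lt_top
  have hcmp := h.compare (R := R + 1) hLc hLip iv hLfin
    ⟨closedBall 0 R, isCompact_closedBall _ _, closedBall_subset_ball (by linarith), by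
      intro z hz
      rcases hz with hz | hz
      · rcases hz.1 with h1 | h1
        · exact (hz.2 h1.1).elim
        · exact sphere_subset_closedBall h1
      · by_contra hzb
        exact hz.2 (Or.inl ⟨hz.1, fun h1 => hzb (ball_subset_closedBall h1)⟩), fun z hz hzK => by
        rw [mem_closedBall_zero_iff, not_le] at hz
        exact hv2 z hz.le⟩
    (SepOut.of_circle h.closed subset_union_left subset_union_right
      (closedBall_subset_ball (by linarith)))
  -- energies
  have hEv : En v (R + 1) = En u (R + 1) - En u R := by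
    unfold En
    rw [integral_congr_ae (ae_restrict_of_ae hae),
      setIntegral_indicator measurableSet_ball.compl, ← Set.sdiff_eq,
      setIntegral_sdiff measurableSet_ball iu hbB]
  -- lengths
  have hm : MeasurableSet (ball (0 : ℂ) R) := measurableSet_ball
  have hK1 : μH[1] (K ∩ B) = μH[1] (K ∩ ball 0 R) + μH[1] ((K ∩ B) \ ball 0 R) := by
    rw [← measure_inter_add_sdiff (μ := μH[1]) (K ∩ B) hm]
    congr 2
    rw [inter_assoc, inter_eq_self_of_subset_right hbB]
  have hKd : μH[1] ((K ∩ B) \ ball 0 R) ≠ ⊤ :=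
    (lt_of_le_of_lt (measure_mono sdiff_subset) (h.len_lt _)).ne
  have hLK : Len K (R + 1) = Len K R + (μH[1] ((K ∩ B) \ ball 0 R)).toReal := by
    unfold Len
    rw [← hB, hK1, ENNReal.toReal_add (h.len_lt _).ne hKd]
  have hLL : Len L (R + 1) ≤ (μH[1] ((K ∩ B) \ ball 0 R)).toReal + 2 * π * R := by
    unfold Len
    rw [← hB, ← ENNReal.toReal_ofReal (show 0 ≤ 2 * π * R by positivity),
      ← ENNReal.toReal_add hKd ENNReal.ofReal_ne_top]
    refine ENNReal.toReal_mono (ENNReal.add_ne_top.2 ⟨hKd, ENNReal.ofReal_ne_top⟩) ?_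
    refine (measure_mono (union_inter_distrib_right _ _ _).subset).trans
      ((measure_union_le _ _).trans (add_le_add (measure_mono ?_) ?_))
    · rintro z ⟨⟨h1, h2⟩, h3⟩
      exact ⟨⟨h1, h3⟩, h2⟩
    · exact (measure_mono inter_subset_left).trans (hausdorff_sphere_le 0 hR.le)
  rw [hEv, hLK] at hcmp
  linarith


/-- finitely many crossings -/
theorem ae_finite (h : CMin u K) : ∀ᵐ s : ℝ, 0 < s → (K ∩ sphere 0 s).Finite := by
  have key : ∀ n : ℕ, volume {s : ℝ | s < n ∧ (K ∩ sphere (0 : ℂ) s).Infinite} = 0 := by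
    intro n
    by_contra h0
    obtain ⟨m, hm⟩ := ENNReal.exists_nat_mul_gt h0 (h.len_fin 0 n)
    have h1 := eilenberg (X := ℂ) lipschitzWith_one_norm (E := K) (m := m)
      (S := {s : ℝ | s < n ∧ (K ∩ sphere (0 : ℂ) s).Infinite}) (fun s hs => by
        rw [inter_norm_preimage, hs.2.encard_eq]
        exact le_top)
    refine absurd (hm.trans_le (h1.trans (measure_mono ?_))) (lt_irrefl _)
    rintro z ⟨hz, hz'⟩
    refine ⟨hz, ?_⟩
    rw [mem_ball_zero_iff]
    exact hz'.1
  have h2 : ∀ᵐ s : ℝ, ∀ n : ℕ, ¬ (s < n ∧ (K ∩ sphere (0 : ℂ) s).Infinite) := by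
    rw [ae_all_iff]
    intro n
    rw [ae_iff]
    simpa using key n
  filter_upwards [h2] with s hs _
  obtain ⟨n, hn⟩ := exists_nat_gt s
  by_contra hinf
  exact hs n ⟨hn, hinf⟩

/-- Eilenberg -/
theorem len_ge (h : CMin u K) {R₀ : ℝ} (hR₀ : 0 ≤ R₀)
    (h2 : ∀ s : ℝ, R₀ < s → ∃ p q : ℂ, p ≠ q ∧ p ∈ K ∩ sphere 0 s ∧ q ∈ K ∩ sphere 0 s) {s : ℝ}
    (hs : R₀ ≤ s) : 2 * (s - R₀) ≤ Len K s := by
  have _ := hR₀
  have h1 := eilenberg (X := ℂ) lipschitzWith_one_norm (E := K) (m := 2)
    (S := Ioo R₀ s) (fun t ht => by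
      obtain ⟨p, q, hpq, hp, hq⟩ := h2 t ht.1
      rw [inter_norm_preimage]
      have e := encard_pair hpq
      calc ((2 : ℕ) : ℕ∞) = ({p, q} : Set ℂ).encard := by rw [e]; rfl
        _ ≤ _ := encard_le_encard (by
          rintro x hx
          rcases hx with rfl | hx
          · exact hp
          · rw [mem_singleton_iff] at hx
            rw [hx]
            exact hq))
  have h3 : ((2 : ℕ) : ℝ≥0∞) * volume (Ioo R₀ s) ≤ μH[1] (K ∩ ball (0 : ℂ) s) := by
    refine h1.trans (measure_mono ?_)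
    rintro z ⟨hz, hz'⟩
    refine ⟨hz, ?_⟩
    rw [mem_ball_zero_iff]
    exact hz'.2
  have h4 := ENNReal.toReal_mono (h.len_fin 0 s) h3
  rw [Real.volume_Ioo, ENNReal.toReal_mul, ENNReal.toReal_ofReal (by linarith)] at h4
  unfold Len
  simpa using h4


end CMin

/-- First variation. -/
theorem IsGlobalMin.first_variation_sep (h : IsGlobalMin u G K)
    {φ : ℂ → ℝ} (hφ : ContDiff ℝ ∞ φ) (hφc : HasCompactSupport φ) (hs : tsupport φ ⊆ Kᶜ) :
    ∫ z, (inner ℝ (G z) (grad φ z) : ℝ) = 0 := by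
  obtain ⟨r, hr⟩ := hφc.isCompact.isBounded.subset_ball (0 : ℂ)
  set C : Set ℂ := tsupport φ with hC
  have hCm : MeasurableSet C := (isClosed_tsupport φ).measurableSet
  have hG : MemLp G 2 (volume.restrict C) := h.sobolev.grad_memLp C hφc.isCompact hs
  have hφ2 : MemLp (grad φ) 2 (volume.restrict C) := clMemGrad hφ hφc C
  have hCB : (ball (0 : ℂ) r \ K) ∩ C = C := by
    refine inter_eq_right.2 fun z hz => ⟨hr hz, hs hz⟩
  -- comparison
  have key : ∀ t : ℝ, ∫ z in C, ‖G z‖ ^ 2 ≤ ∫ z in C, ‖G z + t • grad φ z‖ ^ 2 := by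
    intro t
    have h1 := h.compare_sep (x := 0) (r := r) (C := C) h.closed (clW12 h.sobolev hφ hφc t)
      hφc.isCompact hr (by simp) (Eventually.of_forall fun z hz => by
        rw [image_eq_zero_of_notMem_tsupport hz]; ring) (SepOut.of_subset le_rfl _)
    unfold genergy at h1
    have h2 := (ENNReal.add_le_add_iff_right (h.len_fin 0 r)).1 h1
    rw [← lintegral_inter_add_sdiff (fun z => ENNReal.ofReal (‖G z‖ ^ 2)) (ball (0 : ℂ) r \ K) hCm,
      ← lintegral_inter_add_sdiff (fun z => ENNReal.ofReal (‖G z + t • grad φ z‖ ^ 2))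
        (ball (0 : ℂ) r \ K) hCm, hCB] at h2
    have h3 : ∫⁻ z in (ball (0 : ℂ) r \ K) \ C, ENNReal.ofReal (‖G z + t • grad φ z‖ ^ 2) =
        ∫⁻ z in (ball (0 : ℂ) r \ K) \ C, ENNReal.ofReal (‖G z‖ ^ 2) := by
      refine setLIntegral_congr_fun
        (((measurableSet_ball).diff h.closed.measurableSet).diff hCm) fun z hz => ?_
      rw [grad_eq_zero_of_notMem hz.2, smul_zero, add_zero]
    rw [h3] at h2
    have hfin : ∫⁻ z in (ball (0 : ℂ) r \ K) \ C, ENNReal.ofReal (‖G z‖ ^ 2) ≠ ⊤ :=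
      ne_top_of_le_ne_top (h.en_fin 0 r) (lintegral_mono_set sdiff_subset)
    have h4 := (ENNReal.add_le_add_iff_right hfin).1 h2
    have i1 : Integrable (fun z => ‖G z‖ ^ 2) (volume.restrict C) :=
      hG.integrable_norm_pow (by norm_num)
    have i2 : Integrable (fun z => ‖G z + t • grad φ z‖ ^ 2) (volume.restrict C) :=
      (hG.add (hφ2.const_smul t)).integrable_norm_pow (by norm_num)
    rw [← ofReal_integral_eq_lintegral_ofReal i1 (Eventually.of_forall fun _ => by positivity),
      ← ofReal_integral_eq_lintegral_ofReal i2 (Eventually.of_forall fun _ => by positivity)] at h4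
    exact (ENNReal.ofReal_le_ofReal_iff (by positivity)).1 h4
  have i1 : Integrable (fun z => ‖G z‖ ^ 2) (volume.restrict C) :=
    hG.integrable_norm_pow (by norm_num)
  have i2 : Integrable (fun z => (inner ℝ (G z) (grad φ z) : ℝ)) (volume.restrict C) := by
    have e : (fun z => (inner ℝ (G z) (grad φ z) : ℝ)) =
        fun z => (G z).re * (grad φ z).re + (G z).im * (grad φ z).im := by
      funext z; exact inner_eq _ _
    rw [e]
    exact (hG.re.integrable_mul hφ2.re).add (hG.im.integrable_mul hφ2.im)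
  have i3 : Integrable (fun z => ‖grad φ z‖ ^ 2) (volume.restrict C) :=
    hφ2.integrable_norm_pow (by norm_num)
  set a : ℝ := ∫ z in C, (inner ℝ (G z) (grad φ z) : ℝ) with ha
  set b : ℝ := ∫ z in C, ‖grad φ z‖ ^ 2 with hb
  have hb0 : 0 ≤ b := integral_nonneg fun _ => by positivity
  have key2 : ∀ t : ℝ, 0 ≤ 2 * t * a + t ^ 2 * b := by
    intro t
    have h1 := key t
    have e : (∫ z in C, ‖G z + t • grad φ z‖ ^ 2) =
        (∫ z in C, ‖G z‖ ^ 2) + (2 * t) * a + t ^ 2 * b := by
      have i4 : Integrable (fun z => ‖G z‖ ^ 2 + 2 * t * (inner ℝ (G z) (grad φ z) : ℝ))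
          (volume.restrict C) := i1.add (i2.const_mul _)
      rw [ha, hb, ← integral_const_mul, ← integral_const_mul, ← integral_add i1 (i2.const_mul _),
        ← integral_add i4 (i3.const_mul _)]
      refine integral_congr_ae (Eventually.of_forall fun z => ?_)
      simp only []
      rw [norm_add_sq_real, norm_smul, inner_smul_right, mul_pow, Real.norm_eq_abs, sq_abs]
      ring
    rw [e] at h1
    linarith
  have ha0 : a = 0 := by
    by_contra hne
    have h1 := key2 (-a / (b + 1))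
    have hb1 : 0 < b + 1 := by linarith
    have h2 : 2 * (-a / (b + 1)) * a + (-a / (b + 1)) ^ 2 * b =
        - (a ^ 2 * (b + 2)) / (b + 1) ^ 2 := by
      field_simp
      ring
    rw [h2] at h1
    have h3 : 0 < a ^ 2 * (b + 2) / (b + 1) ^ 2 := by (clear * - hne; positivity)
    rw [neg_div] at h1
    linarith only [h3, h1]
  have e : ∫ z, (inner ℝ (G z) (grad φ z) : ℝ) = a := by
    rw [ha]
    refine (setIntegral_eq_integral_of_forall_compl_eq_zero fun z hz => ?_).symm
    rw [grad_eq_zero_of_notMem hz, inner_zero_right]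
  rw [e, ha0]

/-- `u` is weakly harmonic off `K`. -/
theorem IsGlobalMin.weak_harm_sep (h : IsGlobalMin u G K)
    {φ : ℂ → ℝ} (hφ : ContDiff ℝ ∞ φ) (hφc : HasCompactSupport φ) (hs : tsupport φ ⊆ Kᶜ) :
    ∫ z, u z * lap φ z = 0 := by
  have c : ∀ v : ℂ, ContDiff ℝ ∞ fun z => fderiv ℝ φ z v := contDiff_fderiv_apply hφ
  have s : ∀ v : ℂ, HasCompactSupport fun z => fderiv ℝ φ z v := hasCompactSupport_fderiv_apply hφc
  have ts : ∀ v : ℂ, tsupport (fun z => fderiv ℝ φ z v) ⊆ Kᶜ := fun v => (clTsupp v).trans hs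
  have e : ∀ v : ℂ, ∫ z, u z * fderiv ℝ (fun w => fderiv ℝ φ w v) z v =
      - ∫ z, inner ℝ (G z) v * fderiv ℝ φ z v := fun v =>
    h.sobolev.weak.test (c v) (s v) (ts v) v
  have i : ∀ v : ℂ, Integrable fun z => u z * fderiv ℝ (fun w => fderiv ℝ φ w v) z v := fun v =>
    clInt h.sobolev.memLp (contDiff_fderiv_apply (c v) v).continuous
      (hasCompactSupport_fderiv_apply (s v) v) ((clTsupp v).trans (ts v))
  have j : ∀ v : ℂ, Integrable fun z => inner ℝ (G z) v * fderiv ℝ φ z v := fun v =>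
    clInt (fun C hC hCU => clInner (h.sobolev.grad_memLp C hC hCU) v) (c v).continuous (s v) (ts v)
  have h1 := h.first_variation_sep hφ hφc hs
  have h2 : ∫ z, (inner ℝ (G z) (grad φ z) : ℝ) =
      (∫ z, inner ℝ (G z) 1 * fderiv ℝ φ z 1) +
        ∫ z, inner ℝ (G z) Complex.I * fderiv ℝ φ z Complex.I := by
    rw [← integral_add (j 1) (j Complex.I)]
    refine integral_congr_ae (Eventually.of_forall fun z => ?_)
    simp only [inner_eq, grad_re, grad_im, Complex.one_re, Complex.one_im, Complex.I_re,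
      Complex.I_im]
    ring
  have h3 : ∫ z, u z * lap φ z =
      (∫ z, u z * fderiv ℝ (fun w => fderiv ℝ φ w 1) z 1) +
        ∫ z, u z * fderiv ℝ (fun w => fderiv ℝ φ w Complex.I) z Complex.I := by
    rw [← integral_add (i 1) (i Complex.I)]
    refine integral_congr_ae (Eventually.of_forall fun z => ?_)
    simp only [lap]
    ring
  rw [h3, e 1, e Complex.I]
  rw [h2] at h1
  linarith


/-- the harmonic representative -/
theorem IsGlobalMin.exists_cmin (h : IsGlobalMin u G K) (hr : IsReduced univ K) :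
    ∃ u', CMin u' K ∧ ∀ᵐ z, z ∉ K → G z = grad u' z := by
  have hU : IsOpen Kᶜ := h.closed.isOpen_compl
  obtain ⟨u', hu', hae⟩ := clWeyl hU (clLI hU h.sobolev.memLp) fun φ h1 h2 h3 =>
    h.weak_harm_sep h1 h2 h3
  rw [ae_restrict_iff' hU.measurableSet] at hae
  have hW : W12loc Kᶜ u' (grad u') :=
    (LocLip.of_contDiffOn hU ((HarmonicOnNhd.smooth hu').of_le (by simp))).w12loc hU
  have hG : ∀ᵐ z, z ∈ Kᶜ → G z = grad u' z := clUniq hU h.sobolev hW hae
  have hen : ∀ (x : ℂ) (r : ℝ), genergy (grad u') K (ball x r) = genergy G K (ball x r) := by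
    intro x r
    unfold genergy
    congr 1
    refine lintegral_congr_ae ?_
    rw [EventuallyEq, ae_restrict_iff' (measurableSet_ball.diff h.closed.measurableSet)]
    filter_upwards [hG] with z hz hz2
    rw [hz hz2.2]
  refine ⟨u', ⟨⟨h.closed, hW, fun x r => ?_, fun x r v H L hL hv hC hsep => ?_⟩, hu',
    fun x hx r hr0 => hr x hx r hr0 (subset_univ _)⟩, hG⟩
  · rw [hen]; exact h.finite x r
  · rw [hen]
    refine h.minimal x r v H L hL hv ?_ hsep
    obtain ⟨C, h1, h2, h3, h4⟩ := hC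
    refine ⟨C, h1, h2, h3, ?_⟩
    filter_upwards [h4, hae, h.ae_compl] with z a b c hz
    rw [a hz, b c]


end Vale.Agent.P128.GM
end

section

/-! D-03 (GM/D/SepB.lean) : competitors in a disk -/

open MeasureTheory Set Metric Filter InnerProductSpace
open scoped ENNReal NNReal ContDiff Topology Real

namespace Vale.Agent.P128.GM

open Vale.Agent.P128

variable {u : ℂ → ℝ} {G : ℂ → ℂ} {K L A W : Set ℂ} {η w : ℂ → ℝ} {δ : ℝ}

/-- the rest of an open set without one of its components is open -/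
theorem sepb_rest_open (hK : IsClosed K) (z : ℂ) : IsOpen (Kᶜ \ connectedComponentIn Kᶜ z) := by
  rw [isOpen_iff_forall_mem_open]
  rintro x ⟨hxK, hxD⟩
  refine ⟨connectedComponentIn Kᶜ x, ?_, hK.isOpen_compl.connectedComponentIn,
    mem_connectedComponentIn hxK⟩
  intro y hy
  refine ⟨connectedComponentIn_subset _ _ hy, fun hyD => hxD ?_⟩
  rw [connectedComponentIn_eq hyD, ← connectedComponentIn_eq hy]
  exact mem_connectedComponentIn hxK

/-- a component which does not meet the ball absorbs the component of `Lᶜ` -/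
theorem sepb_absorb (hK : IsClosed K) {y : ℂ} {r : ℝ} (hL : K \ ball y r ⊆ L) {z : ℂ}
    (hzK : z ∉ K) (hzL : z ∉ L) (hD : ¬ (connectedComponentIn Kᶜ z ∩ ball y r).Nonempty) :
    connectedComponentIn Lᶜ z ⊆ connectedComponentIn Kᶜ z := by
  refine isPreconnected_connectedComponentIn.subset_of_closure_inter_subset
    hK.isOpen_compl.connectedComponentIn ⟨z, mem_connectedComponentIn hzL,
      mem_connectedComponentIn hzK⟩ ?_
  rintro x ⟨hxc, hxL⟩
  by_contra hxD
  have hxL' : x ∉ L := connectedComponentIn_subset _ _ hxL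
  by_cases hxK : x ∈ K
  · have hxb : x ∈ ball y r := by
      by_contra hb
      exact hxL' (hL ⟨hxK, hb⟩)
    obtain ⟨w, hw1, hw2⟩ := mem_closure_iff.1 hxc _ isOpen_ball hxb
    exact hD ⟨w, hw2, hw1⟩
  · obtain ⟨w, hw1, hw2⟩ := mem_closure_iff.1 hxc _ (sepb_rest_open hK z) ⟨hxK, hxD⟩
    exact hw1.2 hw2

/-- if at most one component of `Kᶜ` reaches both the disk `ball y r` and the outside of `W`,
everything may be changed in the disk -/
theorem SepOut.of_single (hK : IsClosed K) {y : ℂ} {r : ℝ} (hL : K \ ball y r ⊆ L)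
    (hW : ball y r ⊆ W)
    (h1 : ∀ p q : ℂ, p ∉ W → q ∉ W → p ∉ K → q ∉ K →
      (connectedComponentIn Kᶜ p ∩ ball y r).Nonempty →
      (connectedComponentIn Kᶜ q ∩ ball y r).Nonempty → q ∈ connectedComponentIn Kᶜ p) :
    SepOut K L W := by
  intro z z' hzL hzW hz'W hzz'
  have hz'L : z' ∉ L := connectedComponentIn_subset _ _ hzz'
  have hzK : z ∉ K := fun h => hzL (hL ⟨h, fun h' => hzW (hW h')⟩)
  have hz'K : z' ∉ K := fun h => hz'L (hL ⟨h, fun h' => hz'W (hW h')⟩)
  by_cases hD : (connectedComponentIn Kᶜ z ∩ ball y r).Nonempty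
  · by_cases hD' : (connectedComponentIn Kᶜ z' ∩ ball y r).Nonempty
    · exact h1 z z' hzW hz'W hzK hz'K hD hD'
    · have h2 := sepb_absorb hK hL hz'K hz'L hD'
      rw [← connectedComponentIn_eq hzz'] at h2
      have h3 : z ∈ connectedComponentIn Kᶜ z' := h2 (mem_connectedComponentIn hzL)
      rw [← connectedComponentIn_eq h3]
      exact mem_connectedComponentIn hz'K
  · exact sepb_absorb hK hL hzK hzL hD hzz'

/-- the disk is attached to the outside through one arc `I` only -/
theorem SepOut.of_arc (hK : IsClosed K) {y : ℂ} {s : ℝ} {I : Set ℂ} (hI : IsPreconnected I)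
    (hIK : Disjoint I K) (hIs : I ⊆ sphere y s) (hL : K \ ball y s ⊆ L)
    (hLs : sphere y s \ I ⊆ L) (hW : closedBall y s ⊆ W) : SepOut K L W := by
  intro z z' hzL hzW hz'W hzz'
  have hz'L : z' ∉ L := connectedComponentIn_subset _ _ hzz'
  have hzb : z ∉ closedBall y s := fun h => hzW (hW h)
  have hz'b : z' ∉ closedBall y s := fun h => hz'W (hW h)
  have hzK : z ∉ K := fun h => hzL (hL ⟨h, fun h' => hzb (ball_subset_closedBall h')⟩)
  have hz'K : z' ∉ K := fun h => hz'L (hL ⟨h, fun h' => hz'b (ball_subset_closedBall h')⟩)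
  by_contra hcon
  set D := connectedComponentIn Kᶜ z with hDdef
  have hDo : IsOpen D := hK.isOpen_compl.connectedComponentIn
  have hRo : IsOpen (Kᶜ \ D) := sepb_rest_open hK z
  have hzD : z ∈ D := mem_connectedComponentIn hzK
  have hcl : IsOpen (closedBall y s)ᶜ := isClosed_closedBall.isOpen_compl
  have hcov : ∀ x ∈ connectedComponentIn Lᶜ z, x ∈ ball y s ∨ x ∈ I ∨
      (x ∉ closedBall y s ∧ x ∉ K) := by
    intro x hx
    have hxL : x ∉ L := connectedComponentIn_subset _ _ hx
    by_cases h1 : x ∈ ball y s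
    · exact Or.inl h1
    · by_cases h2 : x ∈ closedBall y s
      · right; left
        by_contra h3
        refine hxL (hLs ⟨?_, h3⟩)
        rw [mem_sphere]
        rw [mem_ball, not_lt] at h1
        rw [mem_closedBall] at h2
        exact le_antisymm h2 h1
      · exact Or.inr (Or.inr ⟨h2, fun hxK => hxL (hL ⟨hxK, h1⟩)⟩)
  have hpre : IsPreconnected (connectedComponentIn Lᶜ z) := isPreconnected_connectedComponentIn
  have hzC : z ∈ connectedComponentIn Lᶜ z := mem_connectedComponentIn hzL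
  by_cases hID : (I ∩ D).Nonempty
  · obtain ⟨i, hiI, hiD⟩ := hID
    have hsub : I ⊆ D := by
      have h1 := hI.subset_connectedComponentIn (F := Kᶜ) hiI
        (fun x hx hxK => (disjoint_left.1 hIK hx) hxK)
      rwa [← connectedComponentIn_eq hiD] at h1
    obtain ⟨x, hxC, hx1, hx2⟩ := hpre (D ∪ ball y s) ((Kᶜ \ D) ∩ (closedBall y s)ᶜ)
      (hDo.union isOpen_ball) (hRo.inter hcl) (by
        intro x hx
        rcases hcov x hx with h | h | ⟨h, h'⟩
        · exact Or.inl (Or.inr h)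
        · exact Or.inl (Or.inl (hsub h))
        · by_cases hxD : x ∈ D
          · exact Or.inl (Or.inl hxD)
          · exact Or.inr ⟨⟨h', hxD⟩, h⟩) ⟨z, hzC, Or.inl hzD⟩ ⟨z', hzz', ⟨hz'K, hcon⟩, hz'b⟩
    rcases hx1 with h | h
    · exact hx2.1.2 h
    · exact hx2.2 (ball_subset_closedBall h)
  · obtain ⟨x, hxC, hx1, hx2⟩ := hpre (D ∩ (closedBall y s)ᶜ) ((Kᶜ \ D) ∪ ball y s)
      (hDo.inter hcl) (hRo.union isOpen_ball) (by
        intro x hx
        rcases hcov x hx with h | h | ⟨h, h'⟩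
        · exact Or.inr (Or.inr h)
        · exact Or.inr (Or.inl ⟨fun hxK => (disjoint_left.1 hIK h) hxK, fun hxD => hID ⟨x, h, hxD⟩⟩)
        · by_cases hxD : x ∈ D
          · exact Or.inl ⟨hxD, h⟩
          · exact Or.inr (Or.inl ⟨h', hxD⟩)) ⟨z, hzC, hzD, hzb⟩ ⟨z', hzz', Or.inl ⟨hz'K, hcon⟩⟩
    rcases hx2 with h | h
    · exact h.2 hx1.1
    · exact hx1.2 (ball_subset_closedBall h)

end Vale.Agent.P128.GM
end

section

/-! D-05 (GM/D/CRemov.lean, helper276) : removability -/

open MeasureTheory Set Metric Filter InnerProductSpace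
open scoped ENNReal NNReal ContDiff Topology Real

namespace Vale.Agent.P128.GM

open Vale.Agent.P128

variable {u : ℂ → ℝ} {G : ℂ → ℂ} {K L A W : Set ℂ} {η w : ℂ → ℝ} {δ : ℝ}

/-- continuous functions off a null closed set are measurable -/
theorem crem_aesm (hK : IsClosed K) (hK0 : volume K = 0) {f : ℂ → ℝ} (hf : ContinuousOn f Kᶜ) :
    AEStronglyMeasurable f volume := by
  have h2 := hf.aestronglyMeasurable hK.isOpen_compl.measurableSet (μ := volume)
  rwa [Measure.restrict_eq_self_of_ae_mem] at h2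
  rw [ae_iff]
  simpa using hK0

theorem CMin.not_removable (h : CMin u K) {x0 : ℂ} (hx : x0 ∈ K) {r : ℝ} (hr : 0 < r)
    (hb : ∃ M, ∀ z ∈ ball x0 r, z ∉ K → |u z| ≤ M)
    (hw : IsWeakGrad (ball x0 r) u (grad u)) {x1 : ℂ} {R : ℝ} (hR : ball x0 r ⊆ ball x1 R)
    (hsep : SepOut K (K \ ball x0 (r / 2)) (ball x1 R)) : False := by
  have hK0 : volume K = 0 := h.volume_zero
  obtain ⟨M, hM⟩ := hb
  set L : Set ℂ := K \ ball x0 (r / 2) with hL
  have hLc : IsClosed L := h.gm.closed.sdiff isOpen_ball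
  have hrr : r / 2 < r := by linarith only [hr]
  -- boundedness in the disk
  have hub : ∀ ρ : ℝ, ρ ≤ r → MemLp u 2 (volume.restrict (ball x0 ρ)) := by
    intro ρ hρ
    haveI : IsFiniteMeasure (volume.restrict (ball x0 ρ)) := ⟨by
      rw [Measure.restrict_apply_univ]; exact measure_ball_lt_top⟩
    refine MemLp.of_bound (crem_aesm h.closed hK0 h.locLip.continuousOn).restrict M ?_
    rw [ae_restrict_iff' measurableSet_ball]
    filter_upwards [rm_ae_notMem hK0] with z hz hzb
    exact hM z (ball_subset_ball hρ hzb) hz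
  have hC : ∀ C : Set ℂ, IsCompact C → C ⊆ Lᶜ → IsCompact (C \ ball x0 (r / 2)) ∧
      C \ ball x0 (r / 2) ⊆ Kᶜ := by
    intro C hC1 hC2
    refine ⟨hC1.diff isOpen_ball, fun z hz hzK => hC2 hz.1 ⟨hzK, hz.2⟩⟩
  have hsob : W12loc Lᶜ u (grad u) := by
    refine ⟨fun C hC1 hC2 => ?_, fun C hC1 hC2 => ?_, ?_⟩
    · obtain ⟨h1, h2⟩ := hC C hC1 hC2
      have h3 := rm_memLp_restrict_union (h.gm.sobolev.memLp _ h1 h2) (hub (r / 2) hrr.le)
      exact h3.mono_measure (Measure.restrict_mono (by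
        intro z hz
        by_cases hzb : z ∈ ball x0 (r / 2)
        · exact Or.inr hzb
        · exact Or.inl ⟨hz, hzb⟩) le_rfl)
    · obtain ⟨h1, h2⟩ := hC C hC1 hC2
      have h3 := rm_memLp_restrict_union (h.gm.sobolev.grad_memLp _ h1 h2)
        (h.memLp x0 (r / 2))
      exact h3.mono_measure (Measure.restrict_mono (by
        intro z hz
        by_cases hzb : z ∈ ball x0 (r / 2)
        · exact Or.inr hzb
        · exact Or.inl ⟨hz, hzb⟩) le_rfl)
    · refine isWeakGrad_of_test fun φ h1 h2 h3 v => ?_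
      let χ : ContDiffBump x0 := ⟨r / 2, 3 * r / 4, by linarith only [hr], by linarith only [hr]⟩
      have hχ : ContDiff ℝ ∞ (χ : ℂ → ℝ) := χ.contDiff
      have hχt : tsupport (χ : ℂ → ℝ) = closedBall x0 (3 * r / 4) := χ.tsupport_eq
      have hφ1 : ContDiff ℝ ∞ (fun z => χ z * φ z) := hχ.mul h1
      have hφ2 : ContDiff ℝ ∞ (fun z => (1 - χ z) * φ z) := (contDiff_const.sub hχ).mul h1
      have c1 : HasCompactSupport (fun z => χ z * φ z) := h2.mul_left
      have c2 : HasCompactSupport (fun z => (1 - χ z) * φ z) := h2.mul_left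
      have s1 : tsupport (fun z => χ z * φ z) ⊆ ball x0 r := by
        refine (tsupport_mul_subset_left).trans ?_
        rw [hχt]
        exact closedBall_subset_ball (by linarith only [hr])
      have s2 : tsupport (fun z => (1 - χ z) * φ z) ⊆ Kᶜ := by
        intro z hz hzK
        have hzL : z ∈ Lᶜ := h3 (tsupport_mul_subset_right hz)
        have hz1 : z ∈ ball x0 (r / 2) := by
          by_contra hzb
          exact hzL ⟨hzK, hzb⟩
        have hz2 : z ∈ tsupport (fun z => 1 - χ z) := tsupport_mul_subset_left hz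
        have hz3 : z ∉ tsupport (fun z => 1 - χ z) := by
          rw [notMem_tsupport_iff_eventuallyEq]
          filter_upwards [isOpen_ball.mem_nhds hz1] with w hw
          have : χ w = 1 := χ.one_of_mem_closedBall (ball_subset_closedBall hw)
          simp [this]
        exact hz3 hz2
      have t1 := hw.test hφ1 c1 s1 v
      have t2 := h.gm.sobolev.weak.test hφ2 c2 s2 v
      have hd1 : ∀ z, fderiv ℝ φ z v = fderiv ℝ (fun z => χ z * φ z) z v
          + fderiv ℝ (fun z => (1 - χ z) * φ z) z v := by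
        intro z
        have e1 := (hφ1.differentiable (by simp)) z
        have e2 := (hφ2.differentiable (by simp)) z
        have : φ = fun z => χ z * φ z + (1 - χ z) * φ z := by funext z; ring
        conv_lhs => rw [this]
        rw [fderiv_fun_add e1 e2]
        rfl
      have hcont : ∀ g : ℂ → ℝ, ContDiff ℝ ∞ g → Continuous fun z => fderiv ℝ g z v :=
        fun g hg => (hg.continuous_fderiv (by simp)).clm_apply continuous_const
      -- integrability of `u` against continuous functions supported in a compact set of `Lᶜ`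
      have hint : ∀ {F : ℂ → ℝ} {g : ℂ → ℝ} (S : Set ℂ), IsCompact S →
          MemLp F 2 (volume.restrict S) → Continuous g → HasCompactSupport g → tsupport g ⊆ S →
          Integrable fun z => F z * g z := by
        intro F g S hS hF hg hgc hgS
        have hF1 : IntegrableOn F S := by
          haveI : IsFiniteMeasure (volume.restrict S) := ⟨by
            rw [Measure.restrict_apply_univ]; exact hS.measure_lt_top⟩
          exact hF.integrable (by norm_num)
        obtain ⟨B, hB⟩ := hgc.exists_bound_of_continuous hg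
        have h4 : IntegrableOn (fun z => F z * g z) S := by
          refine Integrable.mul_bdd (c := B) hF1 hg.aestronglyMeasurable ?_
          exact Eventually.of_forall hB
        refine (integrableOn_iff_integrable_of_support_subset ?_).1 h4
        intro z hz
        apply hgS
        apply subset_tsupport
        intro h0
        exact hz (by simp [h0])
      have hrc : IsCompact (closedBall x0 (3 * r / 4)) := isCompact_closedBall _ _
      have hrs : closedBall x0 (3 * r / 4) ⊆ ball x0 r :=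
        closedBall_subset_ball (by linarith only [hr])
      have mu1 : MemLp u 2 (volume.restrict (closedBall x0 (3 * r / 4))) :=
        (hub r le_rfl).mono_measure (Measure.restrict_mono hrs le_rfl)
      have mg1 : MemLp (fun z => (inner ℝ (grad u z) v : ℝ)) 2
          (volume.restrict (closedBall x0 (3 * r / 4))) :=
        ((h.memLp x0 r).mono_measure (Measure.restrict_mono hrs le_rfl)).inner_const v
      have ts1 : tsupport (fun z => χ z * φ z) ⊆ closedBall x0 (3 * r / 4) := by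
        refine (tsupport_mul_subset_left).trans ?_
        rw [hχt]
      have ts2c : IsCompact (tsupport (fun z => (1 - χ z) * φ z)) := c2
      have mu2 := h.gm.sobolev.memLp _ ts2c s2
      have mg2 : MemLp (fun z => (inner ℝ (grad u z) v : ℝ)) 2
          (volume.restrict (tsupport (fun z => (1 - χ z) * φ z))) :=
        (h.gm.sobolev.grad_memLp _ ts2c s2).inner_const v
      have i1 := hint _ hrc mu1 (hcont _ hφ1) (c1.fderiv_apply ℝ v)
        ((tsupport_fderiv_apply_subset ℝ v).trans ts1)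
      have i2 := hint _ ts2c mu2 (hcont _ hφ2) (c2.fderiv_apply ℝ v)
        (tsupport_fderiv_apply_subset ℝ v)
      have i3 := hint _ hrc mg1 hφ1.continuous c1 ts1
      have i4 := hint _ ts2c mg2 hφ2.continuous c2 le_rfl
      calc ∫ z, u z * fderiv ℝ φ z v
          = ∫ z, (u z * fderiv ℝ (fun z => χ z * φ z) z v
              + u z * fderiv ℝ (fun z => (1 - χ z) * φ z) z v) := by
            refine integral_congr_ae (Eventually.of_forall fun z => ?_)
            simp only [hd1 z]; ring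
        _ = (- ∫ z, inner ℝ (grad u z) v * (χ z * φ z))
              + (- ∫ z, inner ℝ (grad u z) v * ((1 - χ z) * φ z)) := by
            rw [integral_add i1 i2, t1, t2]
        _ = - ∫ z, (inner ℝ (grad u z) v * (χ z * φ z)
              + inner ℝ (grad u z) v * ((1 - χ z) * φ z)) := by
            rw [integral_add i3 i4]; ring
        _ = - ∫ z, inner ℝ (grad u z) v * φ z := by
            congr 1
            refine integral_congr_ae (Eventually.of_forall fun z => ?_)
            ring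
  -- comparison
  have hsub : ball x0 (r / 2) ⊆ ball x1 R := (ball_subset_ball hrr.le).trans hR
  have hcmp := h.minimal (x := x1) (r := R) hLc hsob (isCompact_closedBall x0 (r / 2))
    ((closedBall_subset_ball hrr).trans hR) (by
      intro z hz
      rw [symmDiff_def] at hz
      rcases hz with hz | hz
      · exact absurd hz.1.1 hz.2
      · by_contra hzb
        exact hz.2 ⟨hz.1, fun hb => hzb (ball_subset_closedBall hb)⟩)
    (Eventually.of_forall fun z _ => rfl) hsep
  unfold genergy at hcmp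
  have e1 : (∫⁻ z in ball x1 R \ L, ENNReal.ofReal (‖grad u z‖ ^ 2))
      = ∫⁻ z in ball x1 R \ K, ENNReal.ofReal (‖grad u z‖ ^ 2) := by
    refine setLIntegral_congr ?_
    have h1 : (ball x1 R \ L : Set ℂ) =ᵐ[volume] ball x1 R :=
      diff_null_ae_eq_self (measure_mono_null diff_subset hK0)
    have h2 : (ball x1 R \ K : Set ℂ) =ᵐ[volume] ball x1 R := diff_null_ae_eq_self hK0
    exact h1.trans h2.symm
  have e2 : μH[1] (K ∩ ball x1 R) = μH[1] (L ∩ ball x1 R) + μH[1] (K ∩ ball x0 (r / 2)) := by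
    rw [← measure_diff_add_inter (K ∩ ball x1 R) (isOpen_ball (x := x0) (ε := r / 2)).measurableSet]
    congr 1
    · congr 1
      rw [hL]; ext z; simp only [mem_diff, mem_inter_iff]; tauto
    · congr 1
      ext z
      simp only [mem_inter_iff]
      exact ⟨fun hz => ⟨hz.1.1, hz.2⟩, fun hz => ⟨⟨hz.1, hsub hz.2⟩, hz.2⟩⟩
  have hfin := h.gm.finite x1 R
  unfold genergy at hfin
  have hred := h.red x0 hx (r / 2) (by linarith only [hr])
  rw [e1, e2] at hcmp
  rw [e2] at hfin
  set a := ∫⁻ z in ball x1 R \ K, ENNReal.ofReal (‖grad u z‖ ^ 2)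
  set l := μH[1] (L ∩ ball x1 R)
  set m := μH[1] (K ∩ ball x0 (r / 2))
  have ha : a + l ≠ ⊤ := by
    have : a + l ≤ a + (l + m) := by
      rw [← add_assoc]; exact le_self_add
    exact (lt_of_le_of_lt this hfin).ne
  have hlt : a + l < a + l + m := ENNReal.lt_add_right ha hred.ne'
  rw [add_assoc] at hlt
  exact absurd hcmp (not_le.2 hlt)

/-- products of a locally Lipschitz function with a smooth cut-off -/
theorem crem_mul_test (hK : IsClosed K) (hK0 : volume K = 0) {x0 : ℂ} {r M : ℝ} {f : ℂ → ℝ}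
    (hf : LocLip Kᶜ f) (hM : ∀ z ∈ ball x0 r, z ∉ K → |f z| ≤ M)
    (hi : IntegrableOn (fun z => ‖grad f z‖ ^ 2) (ball x0 r))
    {T : ℂ → ℝ} (hT : ContDiff ℝ ∞ T) (hTs : ∃ ρ < r, ∀ z ∉ ball x0 ρ, T z = 0) :
    LocLip Kᶜ (fun z => f z * T z) ∧ (∃ ρ < r, ∀ z ∉ ball x0 ρ, f z * T z = 0) ∧
      Integrable (fun z => ‖grad (fun z => f z * T z) z‖ ^ 2) ∧
      (∀ z, DifferentiableAt ℝ f z →
        grad (fun z => f z * T z) z = (T z : ℂ) * grad f z + (f z : ℂ) * grad T z) := by
  obtain ⟨ρ, hρ, hT0⟩ := hTs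
  have hdT : ∀ z, DifferentiableAt ℝ T z := fun z => (hT.differentiable (by simp)) z
  have hgr : ∀ z, DifferentiableAt ℝ f z →
      grad (fun z => f z * T z) z = (T z : ℂ) * grad f z + (f z : ℂ) * grad T z :=
    fun z hz => rm_grad_mul_eq hz (hdT z)
  refine ⟨hf.mul (LocLip.of_contDiff hT hK.isOpen_compl),
    ⟨ρ, hρ, fun z hz => by rw [hT0 z hz, mul_zero]⟩, ?_, hgr⟩
  have hTc : HasCompactSupport T := HasCompactSupport.intro (isCompact_closedBall x0 ρ)
    (fun z hz => hT0 z (fun hh => hz (ball_subset_closedBall hh)))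
  obtain ⟨B1, hB1⟩ := hTc.exists_bound_of_continuous hT.continuous
  have hgTc : Continuous (grad T) := continuous_grad hT
  have hgTs : HasCompactSupport (grad T) := HasCompactSupport.intro hTc
    (fun z hz => grad_eq_zero_of_notMem hz)
  obtain ⟨B2, hB2⟩ := hgTs.exists_bound_of_continuous hgTc
  have hI2 : IntegrableOn (fun z => 2 * (B1 ^ 2 * ‖grad f z‖ ^ 2) + 2 * (M ^ 2 * B2 ^ 2))
      (ball x0 r) := by
    refine Integrable.add ((hi.const_mul _).const_mul _) ?_
    exact integrableOn_const (measure_ball_lt_top.ne)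
  have hzero : ∀ z ∉ closedBall x0 ρ, grad (fun z => f z * T z) z = 0 := by
    intro z hz
    have : (fun z => f z * T z) =ᶠ[𝓝 z] fun _ => 0 := by
      filter_upwards [isClosed_closedBall.isOpen_compl.mem_nhds hz] with w hw
      rw [hT0 w fun hb => hw (ball_subset_closedBall hb), mul_zero]
    rw [grad_congr this, grad_const]
  have h4 : IntegrableOn (fun z => ‖grad (fun z => f z * T z) z‖ ^ 2) (ball x0 r) := by
    refine Integrable.mono' hI2 ((measurable_grad _).norm.pow_const 2).aestronglyMeasurable ?_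
    rw [ae_restrict_iff' measurableSet_ball]
    filter_upwards [rm_ae_notMem hK0, hf.ae_diff hK.isOpen_compl] with z hz hd hzb
    rw [Real.norm_of_nonneg (by positivity), hgr z (hd hz)]
    have n1 : ‖(T z : ℂ) * grad f z + (f z : ℂ) * grad T z‖ ≤ B1 * ‖grad f z‖ + M * B2 := by
      refine (norm_add_le _ _).trans ?_
      rw [norm_mul, norm_mul, Complex.norm_real, Complex.norm_real]
      have hM0 : 0 ≤ M := (abs_nonneg _).trans (hM z hzb hz)
      refine add_le_add (mul_le_mul_of_nonneg_right (hB1 z) (norm_nonneg _)) ?_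
      exact mul_le_mul (hM z hzb hz) (hB2 z) (norm_nonneg _) hM0
    have n2 : ‖(T z : ℂ) * grad f z + (f z : ℂ) * grad T z‖ ^ 2
        ≤ (B1 * ‖grad f z‖ + M * B2) ^ 2 := pow_le_pow_left₀ (norm_nonneg _) n1 2
    linarith only [sq_nonneg (B1 * ‖grad f z‖ - M * B2), n2]
  refine (integrableOn_iff_integrable_of_support_subset ?_).1 h4
  intro z hz
  by_contra hh
  apply hz
  have : z ∉ closedBall x0 ρ := fun hb => hh (closedBall_subset_ball hρ hb)
  simp [hzero z this]

/-- the test functions `f φ / g` show that the gradient of `f` is its weak gradient across `K` -/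
theorem crem_weak (hK : IsClosed K) (hK0 : volume K = 0) {x0 : ℂ} {r M : ℝ}
    {g : ℂ → ℂ} (hg : DifferentiableOn ℂ g (ball x0 r)) {r2 : ℝ} (hr2r : r2 ≤ r)
    (hg1 : ∀ z ∈ ball x0 r2, g z ≠ 0) {f : ℂ → ℝ} (hf : LocLip Kᶜ f)
    (hM : ∀ z ∈ ball x0 r, z ∉ K → |f z| ≤ M)
    (hi : IntegrableOn (fun z => ‖grad f z‖ ^ 2) (ball x0 r))
    (hN : ∀ ψ : ℂ → ℝ, LocLip Kᶜ ψ → (∃ ρ < r, ∀ z ∉ ball x0 ρ, ψ z = 0) →
      Integrable (fun z => ‖grad ψ z‖ ^ 2) → ∫ z, g z * grad ψ z = 0) :
    IsWeakGrad (ball x0 r2) f (grad f) := by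
  refine isWeakGrad_of_test fun φ h1 h2 h3 v => ?_
  -- φ vanishes off a smaller disk
  obtain ⟨ρ, hρ, hφ0⟩ : ∃ ρ < r2, ∀ z ∉ ball x0 ρ, φ z = 0 := by
    obtain ⟨ρ, hρ, hs⟩ := exists_lt_subset_ball (isClosed_tsupport φ) h3
    exact ⟨ρ, hρ, fun z hz => image_eq_zero_of_notMem_tsupport fun hh => hz (hs hh)⟩
  -- the function `Θ = φ / g`
  set Θ : ℂ → ℂ := fun z => (φ z : ℂ) / g z with hΘ
  have hΘs : ∀ z ∉ ball x0 ρ, Θ z = 0 := by
    intro z hz
    simp only [hΘ, hφ0 z hz, Complex.ofReal_zero, zero_div]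
  have hΘc : ContDiff ℝ ∞ Θ := by
    rw [contDiff_iff_contDiffAt]
    intro z
    by_cases hz : z ∈ ball x0 r2
    · have hga : AnalyticAt ℂ g z :=
        (hg.mono (ball_subset_ball hr2r)).analyticAt (isOpen_ball.mem_nhds hz)
      have hga' : ContDiffAt ℝ ∞ g z := hga.restrictScalars.contDiffAt
      have hφ' : ContDiffAt ℝ ∞ (fun z => (φ z : ℂ)) z :=
        Complex.ofRealCLM.contDiff.contDiffAt.comp z h1.contDiffAt
      simp only [hΘ, div_eq_mul_inv]
      exact hφ'.mul (hga'.inv (hg1 z hz))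
    · have hz' : z ∉ closedBall x0 ρ := fun hh => hz (closedBall_subset_ball hρ hh)
      have : Θ =ᶠ[𝓝 z] fun _ => 0 := by
        filter_upwards [isClosed_closedBall.isOpen_compl.mem_nhds hz'] with w hw
        exact hΘs w fun hb => hw (ball_subset_closedBall hb)
      exact contDiffAt_const.congr_of_eventuallyEq this
  set T1 : ℂ → ℝ := fun z => (Θ z).re with hT1
  set T2 : ℂ → ℝ := fun z => (Θ z).im with hT2
  have cT1 : ContDiff ℝ ∞ T1 := Complex.reCLM.contDiff.comp hΘc
  have cT2 : ContDiff ℝ ∞ T2 := Complex.imCLM.contDiff.comp hΘc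
  have sT1 : ∃ ρ < r, ∀ z ∉ ball x0 ρ, T1 z = 0 :=
    ⟨ρ, hρ.trans_le hr2r, fun z hz => by simp only [hT1, hΘs z hz, Complex.zero_re]⟩
  have sT2 : ∃ ρ < r, ∀ z ∉ ball x0 ρ, T2 z = 0 :=
    ⟨ρ, hρ.trans_le hr2r, fun z hz => by simp only [hT2, hΘs z hz, Complex.zero_im]⟩
  obtain ⟨a1, a2, a3, a4⟩ := crem_mul_test hK hK0 hf hM hi cT1 sT1
  obtain ⟨b1, b2, b3, b4⟩ := crem_mul_test hK hK0 hf hM hi cT2 sT2
  have a5 : AEStronglyMeasurable (fun z => grad (fun z => f z * T1 z) z) volume :=
    (measurable_grad _).aestronglyMeasurable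
  have b5 : AEStronglyMeasurable (fun z => grad (fun z => f z * T2 z) z) volume :=
    (measurable_grad _).aestronglyMeasurable
  have N1 := hN _ a1 a2 a3
  have N2 := hN _ b1 b2 b3
  -- pointwise identity
  have hpt : ∀ z, DifferentiableAt ℝ f z → g z * grad (fun z => f z * T1 z) z
      + Complex.I * (g z * grad (fun z => f z * T2 z) z)
        = (φ z : ℂ) * grad f z + (f z : ℂ) * grad φ z := by
    intro z hz
    rw [a4 z hz, b4 z hz]
    by_cases hzb : z ∈ ball x0 r2
    · have hgz : g z ≠ 0 := hg1 z hzb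
      have hgd : HasDerivAt g (deriv g z) z :=
        ((hg.mono (ball_subset_ball hr2r)).differentiableAt (isOpen_ball.mem_nhds hzb)).hasDerivAt
      have hgR : HasFDerivAt g ((ContinuousLinearMap.toSpanSingleton ℂ
          (deriv g z)).restrictScalars ℝ) z := hgd.hasFDerivAt.restrictScalars ℝ
      have hΘd : DifferentiableAt ℝ Θ z := (hΘc.differentiable (by simp)) z
      have hφd : DifferentiableAt ℝ φ z := (h1.differentiable (by simp)) z
      have hprod : (fun w => (φ w : ℂ)) =ᶠ[𝓝 z] fun w => g w * Θ w := by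
        filter_upwards [isOpen_ball.mem_nhds hzb] with w hw
        have hgw : g w ≠ 0 := hg1 w hw
        simp only [hΘ]
        field_simp
      have hfd : ∀ e : ℂ, ((fderiv ℝ φ z e : ℝ) : ℂ) =
          g z * fderiv ℝ Θ z e + deriv g z * e * Θ z := by
        intro e
        have l1 : fderiv ℝ (fun w => (φ w : ℂ)) z e = ((fderiv ℝ φ z e : ℝ) : ℂ) := by
          have : HasFDerivAt (fun w => (φ w : ℂ)) (Complex.ofRealCLM.comp (fderiv ℝ φ z)) z :=
            Complex.ofRealCLM.hasFDerivAt.comp z hφd.hasFDerivAt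
          rw [this.fderiv]; rfl
        rw [← l1, hprod.fderiv_eq]
        have l2 := hgR.mul hΘd.hasFDerivAt
        have l3 : fderiv ℝ (fun w => g w * Θ w) z = _ := l2.fderiv
        rw [l3]
        simp
        ring
      have hT1d : ∀ e : ℂ, fderiv ℝ T1 z e = (fderiv ℝ Θ z e).re := by
        intro e
        have : HasFDerivAt T1 (Complex.reCLM.comp (fderiv ℝ Θ z)) z :=
          Complex.reCLM.hasFDerivAt.comp z hΘd.hasFDerivAt
        rw [this.fderiv]; rfl
      have hT2d : ∀ e : ℂ, fderiv ℝ T2 z e = (fderiv ℝ Θ z e).im := by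
        intro e
        have : HasFDerivAt T2 (Complex.imCLM.comp (fderiv ℝ Θ z)) z :=
          Complex.imCLM.hasFDerivAt.comp z hΘd.hasFDerivAt
        rw [this.fderiv]; rfl
      have hgT : grad T1 z + Complex.I * grad T2 z =
          fderiv ℝ Θ z 1 + Complex.I * fderiv ℝ Θ z Complex.I := by
        unfold grad
        rw [hT1d, hT1d, hT2d, hT2d]
        apply Complex.ext <;> simp <;> ring
      have hgφ : grad φ z = ((fderiv ℝ φ z 1 : ℝ) : ℂ) +
          Complex.I * ((fderiv ℝ φ z Complex.I : ℝ) : ℂ) := by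
        unfold grad
        apply Complex.ext <;> simp
      have hΘz : (T1 z : ℂ) + Complex.I * (T2 z : ℂ) = Θ z := by
        simp only [hT1, hT2]
        rw [mul_comm]
        exact Complex.re_add_im _
      have hgΘ : g z * Θ z = (φ z : ℂ) := by
        simp only [hΘ]; field_simp
      calc g z * ((T1 z : ℂ) * grad f z + (f z : ℂ) * grad T1 z)
            + Complex.I * (g z * ((T2 z : ℂ) * grad f z + (f z : ℂ) * grad T2 z))
          = g z * ((T1 z : ℂ) + Complex.I * (T2 z : ℂ)) * grad f z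
            + (f z : ℂ) * (g z * (grad T1 z + Complex.I * grad T2 z)) := by ring
        _ = (φ z : ℂ) * grad f z + (f z : ℂ) * grad φ z := by
            rw [hΘz, hgΘ, hgT, hgφ, hfd, hfd]
            have hI : Complex.I * Complex.I = -1 := Complex.I_mul_I
            linear_combination (-(f z : ℂ) * deriv g z * Θ z) * hI
    · have hz' : z ∉ closedBall x0 ρ := fun hh => hzb (closedBall_subset_ball hρ hh)
      have z0 : ∀ {F : ℂ → ℝ}, (∀ w ∉ ball x0 ρ, F w = 0) → F z = 0 ∧ grad F z = 0 := by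
        intro F hF
        refine ⟨hF z fun hb => hz' (ball_subset_closedBall hb), ?_⟩
        have : F =ᶠ[𝓝 z] fun _ => 0 := by
          filter_upwards [isClosed_closedBall.isOpen_compl.mem_nhds hz'] with w hw
          exact hF w fun hb => hw (ball_subset_closedBall hb)
        rw [grad_congr this, grad_const]
      obtain ⟨p1, p2⟩ := z0 (F := T1) (fun w hw => by simp only [hT1, hΘs w hw, Complex.zero_re])
      obtain ⟨q1, q2⟩ := z0 (F := T2) (fun w hw => by simp only [hT2, hΘs w hw, Complex.zero_im])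
      obtain ⟨s1, s2⟩ := z0 (F := φ) hφ0
      rw [p1, p2, q1, q2, s1, s2]
      simp
  have hgcont : ContinuousOn g (ball x0 r) := hg.continuousOn
  have hz0 : ∀ {T : ℂ → ℝ}, (∀ w ∉ ball x0 ρ, T w = 0) → ∀ z ∉ closedBall x0 ρ,
      grad (fun z => f z * T z) z = 0 := by
    intro T hT z hz
    have : (fun z => f z * T z) =ᶠ[𝓝 z] fun _ => 0 := by
      filter_upwards [isClosed_closedBall.isOpen_compl.mem_nhds hz] with w hw
      rw [hT w fun hb => hw (ball_subset_closedBall hb), mul_zero]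
    rw [grad_congr this, grad_const]
  have hρr : ρ < r := hρ.trans_le hr2r
  have I1 : Integrable fun z => g z * grad (fun z => f z * T1 z) z :=
    rm_integrable_mul_holo hρr hgcont a5 a3
      (hz0 (T := T1) (fun w hw => by simp only [hT1, hΘs w hw, Complex.zero_re]))
  have I2 : Integrable fun z => g z * grad (fun z => f z * T2 z) z :=
    rm_integrable_mul_holo hρr hgcont b5 b3
      (hz0 (T := T2) (fun w hw => by simp only [hT2, hΘs w hw, Complex.zero_im]))
  have hae : (fun z => g z * grad (fun z => f z * T1 z) z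
      + Complex.I * (g z * grad (fun z => f z * T2 z) z))
        =ᵐ[volume] fun z => (φ z : ℂ) * grad f z + (f z : ℂ) * grad φ z := by
    filter_upwards [rm_ae_notMem hK0, hf.ae_diff hK.isOpen_compl] with z hz hd
    exact hpt z (hd hz)
  have J : Integrable fun z => (φ z : ℂ) * grad f z + (f z : ℂ) * grad φ z :=
    (I1.add (I2.const_mul Complex.I)).congr hae
  have J0 : ∫ z, ((φ z : ℂ) * grad f z + (f z : ℂ) * grad φ z) = 0 := by
    rw [← integral_congr_ae hae, integral_add I1 (I2.const_mul Complex.I), N1,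
      integral_const_mul, N2]
    simp
  have J1 : ∫ z, inner ℝ v ((φ z : ℂ) * grad f z + (f z : ℂ) * grad φ z) = 0 := by
    have := integral_inner (𝕜 := ℝ) J v
    rw [this, J0, inner_zero_right]
  have hptw : ∀ z, inner ℝ v ((φ z : ℂ) * grad f z + (f z : ℂ) * grad φ z)
      = inner ℝ (grad f z) v * φ z + f z * fderiv ℝ φ z v := by
    intro z
    rw [← inner_grad φ z v, inner_eq, inner_eq, inner_eq]
    simp
    ring
  have K1 : Integrable fun z => inner ℝ (grad f z) v * φ z := by
    have m0 : MemLp (grad f) 2 (volume.restrict (ball x0 r)) :=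
      (memLp_two_iff_integrable_sq_norm (measurable_grad f).aestronglyMeasurable).2 hi
    have m1 : MemLp (fun z => (inner ℝ (grad f z) v : ℝ)) 2 (volume.restrict (ball x0 r)) :=
      m0.inner_const v
    haveI : IsFiniteMeasure (volume.restrict (ball x0 r)) := ⟨by
      rw [Measure.restrict_apply_univ]; exact measure_ball_lt_top⟩
    have m2 : IntegrableOn (fun z => (inner ℝ (grad f z) v : ℝ)) (ball x0 r) :=
      m1.integrable (by norm_num)
    obtain ⟨B, hB⟩ := h2.exists_bound_of_continuous h1.continuous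
    have m3 : IntegrableOn (fun z => inner ℝ (grad f z) v * φ z) (ball x0 r) :=
      Integrable.mul_bdd (c := B) m2 h1.continuous.aestronglyMeasurable
        (Eventually.of_forall hB)
    refine (integrableOn_iff_integrable_of_support_subset ?_).1 m3
    intro z hz
    by_contra hh
    exact hz (by simp [hφ0 z fun hb => hh (ball_subset_ball hρr.le hb)])
  have K2 : Integrable fun z => f z * fderiv ℝ φ z v := by
    have e : (fun z => f z * fderiv ℝ φ z v)
        = fun z => inner ℝ v ((φ z : ℂ) * grad f z + (f z : ℂ) * grad φ z)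
          - inner ℝ (grad f z) v * φ z := by
      funext z; rw [hptw z]; ring
    rw [e]
    exact (J.const_inner v).sub K1
  simp only [hptw] at J1
  rw [integral_add K1 K2] at J1
  linarith only [J1]

/-- a function which is locally constant off a closed null set, with zero weak gradient in a disk,
is constant in the disk -/
theorem crem_const {x0 : ℂ} {r : ℝ} {f : ℂ → ℝ} (hf : LocallyIntegrable f)
    (hloc : ∀ z ∉ K, ∃ s > 0, ∀ y ∈ ball z s, f y = f z)
    (hw : IsWeakGrad (ball x0 r) f (fun _ => 0)) {z1 z2 : ℂ} (hz1 : z1 ∈ ball x0 r)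
    (hz2 : z2 ∈ ball x0 r) (hk1 : z1 ∉ K) (hk2 : z2 ∉ K) : f z1 = f z2 := by
  obtain ⟨s1, hs1, hf1⟩ := hloc z1 hk1
  obtain ⟨s2, hs2, hf2⟩ := hloc z2 hk2
  rw [mem_ball] at hz1 hz2
  set t : ℝ := min (min s1 s2) (min ((r - dist z1 x0) / 2) ((r - dist z2 x0) / 2)) with ht
  have ht0 : 0 < t := lt_min (lt_min hs1 hs2)
    (lt_min (by linarith only [hz1]) (by linarith only [hz2]))
  have ht1 : t ≤ s1 := (min_le_left _ _).trans (min_le_left _ _)
  have ht2 : t ≤ s2 := (min_le_left _ _).trans (min_le_right _ _)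
  have ht3 : t ≤ (r - dist z1 x0) / 2 := (min_le_right _ _).trans (min_le_left _ _)
  have ht4 : t ≤ (r - dist z2 x0) / 2 := (min_le_right _ _).trans (min_le_right _ _)
  let ρ : ContDiffBump (0 : ℂ) := ⟨t / 2, t, by linarith only [ht0], by linarith only [ht0]⟩
  have hρ : ρ.rOut = t := rfl
  have hval : ∀ z : ℂ, (∀ y ∈ ball z t, f y = f z) → moll ρ f z = f z := by
    intro z hz
    exact ρ.normed_convolution_eq_right (μ := volume) (g := f) (x₀ := z) hz
  have hd : ∀ z ∈ ball x0 (r - t), fderiv ℝ (moll ρ f) z = 0 := by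
    intro z hz
    have hsub : closedBall z ρ.rOut ⊆ ball x0 r := by
      intro y hy
      rw [mem_closedBall, hρ] at hy
      rw [mem_ball] at hz ⊢
      have := dist_triangle y z x0
      linarith only [this, hy, hz]
    refine ContinuousLinearMap.ext fun v => ?_
    rw [hw.fderiv_moll hf ρ hsub v, moll_def]
    simp
  have h1 : z1 ∈ ball x0 (r - t) := by rw [mem_ball]; linarith only [ht3, hz1]
  have h2 : z2 ∈ ball x0 (r - t) := by rw [mem_ball]; linarith only [ht4, hz2]
  have key := isOpen_ball.is_const_of_fderiv_eq_zero (𝕜 := ℝ) (f := moll ρ f)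
    (convex_ball x0 (r - t)).isPreconnected
    (((contDiff_moll ρ hf).differentiable (by simp)).differentiableOn) (fun z hz => hd z hz) h1 h2
  rw [hval z1 fun y hy => hf1 y (ball_subset_ball ht1 hy),
    hval z2 fun y hy => hf2 y (ball_subset_ball ht2 hy)] at key
  exact key

theorem CMin.removable (h : CMin u K) {x0 : ℂ} (hx : x0 ∈ K) {r : ℝ} (hr : 0 < r)
    {g : ℂ → ℂ} (hg : DifferentiableOn ℂ g (ball x0 r)) (hg0 : g x0 ≠ 0)
    (hb : ∃ M, ∀ z ∈ ball x0 r, z ∉ K → |u z| ≤ M)
    (hN : ∀ ψ : ℂ → ℝ, LocLip Kᶜ ψ → (∃ ρ < r, ∀ z ∉ ball x0 ρ, ψ z = 0) →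
      Integrable (fun z => ‖grad ψ z‖ ^ 2) → ∫ z, g z * grad ψ z = 0) : False := by
  have hK : IsClosed K := h.closed
  have hK0 : volume K = 0 := h.volume_zero
  -- a smaller disk where `g ≠ 0`
  have hx0 : x0 ∈ ball x0 r := mem_ball_self hr
  have hgc : ContinuousAt g x0 :=
    (hg.differentiableAt (isOpen_ball.mem_nhds hx0)).continuousAt
  obtain ⟨r1, hr1, hr1s⟩ := Metric.mem_nhds_iff.1
    (Filter.inter_mem (hgc.eventually_ne hg0) (isOpen_ball.mem_nhds hx0))
  obtain ⟨M, hM⟩ := hb
  set r2 : ℝ := min r1 r with hr2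
  have hr2p : 0 < r2 := lt_min hr1 hr
  have hr21 : r2 ≤ r1 := min_le_left _ _
  have hr2r : r2 ≤ r := min_le_right _ _
  have hg1 : ∀ z ∈ ball x0 r2, g z ≠ 0 := fun z hz => (hr1s (ball_subset_ball hr21 hz)).1
  have hu := crem_weak hK hK0 hg hr2r hg1 h.locLip hM (h.integrableOn' x0 r) hN
  -- the complement of `K` in the disk lies in one component
  have hcomp : ∀ p : ℂ, (connectedComponentIn Kᶜ p ∩ ball x0 r2).Nonempty →
      ∀ z ∈ ball x0 r2, z ∉ K → z ∈ connectedComponentIn Kᶜ p := by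
    classical
    rintro p ⟨y, hyD, hyb⟩ z hz hzK
    set D := connectedComponentIn Kᶜ p with hD
    have hDo : IsOpen D := hK.isOpen_compl.connectedComponentIn
    have hRo : IsOpen (Kᶜ \ D) := sepb_rest_open hK p
    set f : ℂ → ℝ := D.indicator fun _ => 1 with hf
    have hfm : Measurable f := measurable_const.indicator hDo.measurableSet
    have hfb : ∀ z, |f z| ≤ 1 := by
      intro z
      by_cases hz : z ∈ D
      · rw [hf, indicator_of_mem hz, abs_one]
      · rw [hf, indicator_of_notMem hz, abs_zero]; exact zero_le_one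
    have hloc : ∀ z ∉ K, ∃ s > 0, ∀ y ∈ ball z s, f y = f z := by
      intro z hz
      by_cases hzD : z ∈ D
      · obtain ⟨s, hs, hsD⟩ := Metric.isOpen_iff.1 hDo z hzD
        exact ⟨s, hs, fun y hy => by rw [hf, indicator_of_mem (hsD hy), indicator_of_mem hzD]⟩
      · obtain ⟨s, hs, hsD⟩ := Metric.isOpen_iff.1 hRo z ⟨hz, hzD⟩
        exact ⟨s, hs, fun y hy => by
          rw [hf, indicator_of_notMem (hsD hy).2, indicator_of_notMem hzD]⟩
    have hfL : LocLip Kᶜ f := by
      intro z hz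
      obtain ⟨s, hs, hsf⟩ := hloc z hz
      obtain ⟨t, ht, htK⟩ := Metric.isOpen_iff.1 hK.isOpen_compl z hz
      refine ⟨0, min s t, lt_min hs ht, (ball_subset_ball (min_le_right _ _)).trans htK, ?_⟩
      intro a ha b hb
      rw [hsf a (ball_subset_ball (min_le_left _ _) ha),
        hsf b (ball_subset_ball (min_le_left _ _) hb), edist_self]
      exact zero_le
    have hgr : ∀ z ∉ K, grad f z = 0 := by
      intro z hz
      obtain ⟨s, hs, hsf⟩ := hloc z hz
      have : f =ᶠ[𝓝 z] fun _ => f z := by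
        filter_upwards [ball_mem_nhds z hs] with y hy using hsf y hy
      rw [grad_congr this, grad_const]
    have hgae : ∀ᵐ z : ℂ, grad f z = 0 := (rm_ae_notMem hK0).mono fun z hz => hgr z hz
    have hi : IntegrableOn (fun z => ‖grad f z‖ ^ 2) (ball x0 r) := by
      refine (integrable_zero ℂ ℝ _).congr (ae_restrict_of_ae ?_)
      filter_upwards [hgae] with z hz
      rw [hz]; simp
    have hweak := crem_weak hK hK0 hg hr2r hg1 hfL (M := 1) (fun z _ _ => hfb z) hi hN
    have hweak0 : IsWeakGrad (ball x0 r2) f (fun _ => 0) := by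
      refine isWeakGrad_of_test fun φ h1 h2 h3 v => ?_
      rw [hweak.test h1 h2 h3 v]
      congr 1
      refine integral_congr_ae ?_
      filter_upwards [hgae] with z hz
      rw [hz]
    have hfi : LocallyIntegrable f := by
      have h1 : LocallyIntegrable (fun _ : ℂ => (1 : ℝ)) := locallyIntegrable_const _
      refine h1.mono hfm.aestronglyMeasurable (Eventually.of_forall fun z => ?_)
      rw [Real.norm_eq_abs, norm_one]
      exact hfb z
    have hyK : y ∉ K := fun hh => connectedComponentIn_subset _ _ hyD hh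
    have key := crem_const hfi hloc hweak0 hyb hz hyK hzK
    by_contra hzD
    rw [hf, indicator_of_mem hyD, indicator_of_notMem hzD] at key
    exact one_ne_zero key
  refine h.not_removable hx hr2p ⟨M, fun z hz => hM z (ball_subset_ball hr2r hz)⟩ hu
    (x1 := x0) (R := r2) le_rfl ?_
  have hsub : ball x0 (r2 / 2) ⊆ ball x0 r2 := ball_subset_ball (by linarith only [hr2p])
  refine SepOut.of_single hK (y := x0) (r := r2 / 2) le_rfl hsub ?_
  rintro p q hp hq hpK hqK ⟨y, hyp, hyb⟩ ⟨z, hzq, hzb⟩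
  have hzK : z ∉ K := fun hh => connectedComponentIn_subset _ _ hzq hh
  have h1 : z ∈ connectedComponentIn Kᶜ p := hcomp p ⟨y, hyp, hsub hyb⟩ z (hsub hzb) hzK
  rw [connectedComponentIn_eq h1, ← connectedComponentIn_eq hzq]
  exact mem_connectedComponentIn hqK

end Vale.Agent.P128.GM
end

section

/-! D-06 (GM/D/CBdd.lean) : local boundedness -/

open MeasureTheory Set Metric Filter InnerProductSpace
open scoped ENNReal NNReal ContDiff Topology Real

namespace Vale.Agent.P128.GM

open Vale.Agent.P128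

/-- The maximum principle when no component of the complement is bounded. -/
theorem cbdd_of {u : ℂ → ℝ} {K : Set ℂ} (hK : IsClosed K) (harm : HarmonicOnNhd u Kᶜ)
    (hn : NoBdd K) (hvol : volume K = 0)
    (hfin : ∀ᵐ s : ℝ, 0 < s → (K ∩ sphere 0 s).Finite)
    (hint : ∀ R : ℝ, IntegrableOn (fun z => ‖grad u z‖ ^ 2) (ball 0 R))
    (hel : ∀ ψ : ℂ → ℝ, LocLip Kᶜ ψ → (∃ R : ℝ, ∀ z, z ∉ K → R ≤ ‖z‖ → ψ z = 0) →
      Integrable (fun z => ‖grad ψ z‖ ^ 2) → ∫ z, inner ℝ (grad u z) (grad ψ z) = 0)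
    (R : ℝ) : ∃ M : ℝ, ∀ z ∈ ball (0 : ℂ) R, z ∉ K → |u z| ≤ M := by
  have hKo : IsOpen Kᶜ := hK.isOpen_compl
  have hC2 : ContDiffOn ℝ 2 u Kᶜ := harm.contDiffOn
  have hlip : LocLip Kᶜ u := LocLip.of_contDiffOn hKo (hC2.of_le (by norm_num))
  have hdiff : ∀ z ∈ Kᶜ, DifferentiableAt ℝ u z := fun z hz =>
    (harm z hz).1.differentiableAt (by norm_num)
  have hgc : ContinuousOn (grad u) Kᶜ := by
    have h1 : ContinuousOn (fderiv ℝ u) Kᶜ := hC2.continuousOn_fderiv_of_isOpen hKo (by norm_num)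
    have h2 : ContinuousOn (fun z => fderiv ℝ u z 1) Kᶜ := h1.clm_apply continuousOn_const
    have h3 : ContinuousOn (fun z => fderiv ℝ u z Complex.I) Kᶜ := h1.clm_apply continuousOn_const
    have : grad u = fun z => (fderiv ℝ u z 1 : ℂ) + (fderiv ℝ u z Complex.I : ℂ) * Complex.I := by
      funext z
      apply Complex.ext <;> simp [grad]
    rw [this]
    exact (Complex.continuous_ofReal.comp_continuousOn h2).add
      ((Complex.continuous_ofReal.comp_continuousOn h3).mul continuousOn_const)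
  -- a good radius
  set R' : ℝ := max R 1 with hR'
  have hR'1 : 1 ≤ R' := le_max_right _ _
  obtain ⟨ρ, hρR, hρfin, hρint⟩ : ∃ ρ : ℝ, R' < ρ ∧ (K ∩ sphere 0 ρ).Finite ∧
      IntegrableOn (fun θ => ‖grad u (circleMap 0 ρ θ)‖) ang := by
    set F : ℂ → ℝ := (ball (0 : ℂ) (R' + 1)).indicator (fun z => ‖grad u z‖ ^ 2) with hF
    have hFm : Measurable F := ((measurable_grad u).norm.pow_const 2).indicator measurableSet_ball
    have hFi : Integrable F := (hint (R' + 1)).integrable_indicator measurableSet_ball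
    have h1 := (integrable_polar 0 hFm hFi).prod_right_ae
    rw [ae_restrict_iff' measurableSet_Ioi] at h1
    have h2 : ∀ᵐ s : ℝ, s ∈ Ioo R' (R' + 1) → (K ∩ sphere 0 s).Finite ∧
        IntegrableOn (fun θ => ‖grad u (circleMap 0 s θ)‖) ang := by
      filter_upwards [h1, hfin] with s hs1 hs2 hs
      have hs0 : 0 < s := by linarith [hs.1]
      refine ⟨hs2 hs0, ?_⟩
      have h3 := hs1 hs0
      have h4 : Integrable (fun θ => ‖grad u (circleMap 0 s θ)‖ ^ 2) (volume.restrict ang) := by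
        have h5 := h3.const_mul s⁻¹
        refine h5.congr (Eventually.of_forall fun θ => ?_)
        have h6 : circleMap 0 s θ ∈ ball (0 : ℂ) (R' + 1) := by
          rw [mem_ball_zero_iff, norm_circleMap_zero, abs_of_pos hs0]
          exact hs.2
        simp only [hF, indicator_of_mem h6]
        field_simp
      have hfinm : IsFiniteMeasure (volume.restrict ang) := by
        refine ⟨?_⟩
        rw [Measure.restrict_apply_univ]
        exact measure_Ioo_lt_top
      refine Integrable.mono' (h4.add (integrable_const (1 : ℝ)))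
        (((measurable_grad u).comp (measurable_circleMap 0 s)).norm.aestronglyMeasurable)
        (Eventually.of_forall fun θ => ?_)
      rw [Real.norm_eq_abs, abs_of_nonneg (norm_nonneg _)]
      simp only [Pi.add_apply]
      linarith only [norm_nonneg (grad u (circleMap 0 s θ)), sq_nonneg (‖grad u (circleMap 0 s θ)‖ - 1)]
    have h3 : ∃ s ∈ Ioo R' (R' + 1), (K ∩ sphere 0 s).Finite ∧
        IntegrableOn (fun θ => ‖grad u (circleMap 0 s θ)‖) ang := by
      by_contra hcon
      push Not at hcon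
      have h4 : volume (Ioo R' (R' + 1)) = 0 := by
        rw [measure_eq_zero_iff_ae_notMem]
        filter_upwards [h2] with s hs hsI
        exact hcon s hsI (hs hsI).1 (hs hsI).2
      rw [Real.volume_Ioo] at h4
      norm_num at h4
    obtain ⟨s, hs, h4, h5⟩ := h3
    exact ⟨s, hs.1, h4, h5⟩
  have hρ0 : 0 < ρ := by linarith
  obtain ⟨m, hm, hM⟩ := bdd_circle hdiff hgc hρ0 hρfin hρint
  -- the test
  set ψ := bpsi u m ρ with hψ
  have hψL : LocLip Kᶜ ψ := bpsi_locLip hlip hM
  have hsph : ∀ᵐ z : ℂ, z ∉ K ∧ ‖z‖ ≠ ρ := by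
    have h1 : ∀ᵐ z : ℂ, z ∉ K := measure_eq_zero_iff_ae_notMem.1 hvol
    have h2 : ∀ᵐ z : ℂ, z ∉ sphere (0 : ℂ) ρ :=
      measure_eq_zero_iff_ae_notMem.1 (Measure.addHaar_sphere volume 0 ρ)
    filter_upwards [h1, h2] with z hz1 hz2
    exact ⟨hz1, fun h => hz2 (by rwa [mem_sphere_zero_iff_norm])⟩
  have hpt : ∀ᵐ z : ℂ, ‖grad ψ z‖ ^ 2 ≤ inner ℝ (grad u z) (grad ψ z) ∧
      ‖grad ψ z‖ ≤ (ball (0 : ℂ) ρ).indicator (fun z => ‖grad u z‖) z := by
    filter_upwards [hsph] with z hz
    rcases lt_or_gt_of_ne hz.2 with h | h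
    · rw [indicator_of_mem (mem_ball_zero_iff.2 h), hψ, grad_congr (bpsi_inside h)]
      have h1 := grad_firm m (hdiff z hz.1)
      exact ⟨h1, norm_le_of_firm h1⟩
    · have h1 : grad ψ z = 0 := by
        rw [hψ, grad_congr (bpsi_outside h), grad_const]
      rw [h1, norm_zero, inner_zero_right]
      exact ⟨by norm_num, indicator_nonneg (fun _ _ => norm_nonneg _) _⟩
  have hind : Integrable ((ball (0 : ℂ) ρ).indicator (fun z => ‖grad u z‖ ^ 2)) :=
    (hint ρ).integrable_indicator measurableSet_ball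
  have hψi : Integrable (fun z => ‖grad ψ z‖ ^ 2) := by
    refine hind.mono' ((measurable_grad ψ).norm.pow_const 2).aestronglyMeasurable ?_
    filter_upwards [hpt] with z hz
    rw [Real.norm_eq_abs, abs_of_nonneg (sq_nonneg _)]
    have h1 := pow_le_pow_left₀ (norm_nonneg _) hz.2 2
    by_cases hzb : z ∈ ball (0 : ℂ) ρ
    · rw [indicator_of_mem hzb] at h1 ⊢
      exact h1
    · rw [indicator_of_notMem hzb] at h1 ⊢
      simpa using h1
  have hint0 := hel ψ hψL ⟨ρ, fun z _ hz => by rw [hψ]; unfold bpsi; rw [if_neg (not_lt.2 hz)]⟩ hψi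
  have hhi : Integrable (fun z => (inner ℝ (grad u z) (grad ψ z) : ℝ)) := by
    refine hind.mono' ((measurable_grad u).inner (measurable_grad ψ)).aestronglyMeasurable ?_
    filter_upwards [hpt] with z hz
    refine (abs_real_inner_le_norm _ _).trans ?_
    by_cases hzb : z ∈ ball (0 : ℂ) ρ
    · rw [indicator_of_mem hzb] at hz ⊢
      linarith only [mul_nonneg (sub_nonneg.2 hz.2) (sub_nonneg.2 (norm_nonneg (grad u z)))]
    · rw [indicator_of_notMem hzb] at hz ⊢
      have : ‖grad ψ z‖ = 0 := le_antisymm hz.2 (norm_nonneg _)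
      rw [this, mul_zero]
  have hzero : ∀ᵐ z : ℂ, grad ψ z = 0 := by
    have h1 := (integral_eq_zero_iff_of_nonneg_ae (f := fun z =>
      (inner ℝ (grad u z) (grad ψ z) : ℝ)) (by
        filter_upwards [hpt] with z hz
        exact (sq_nonneg _).trans hz.1) hhi).1 hint0
    filter_upwards [h1, hpt] with z hz1 hz2
    have h2 : (inner ℝ (grad u z) (grad ψ z) : ℝ) = 0 := hz1
    rw [h2] at hz2
    have h3 : ‖grad ψ z‖ ^ 2 = 0 := le_antisymm hz2.1 (sq_nonneg _)
    simpa using h3
  -- the set where `|u| > m`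
  set W : Set ℂ := {z | ‖z‖ < ρ} ∩ (Kᶜ ∩ {z | m < |u z|}) with hW
  have huc : ContinuousOn u Kᶜ := hlip.continuousOn
  have hWo : IsOpen W :=
    (isOpen_lt continuous_norm continuous_const).inter
      (huc.abs.isOpen_inter_preimage hKo isOpen_Ioi)
  by_cases hne : W.Nonempty
  · obtain ⟨z₀, hz₀⟩ := hne
    have hWK : W ⊆ Kᶜ := fun z hz => hz.2.1
    have hWg : ∀ z ∈ W, grad ψ z = grad u z := by
      intro z hz
      have hzm : m < |u z| := hz.2.2
      rw [hψ, grad_congr (bpsi_inside hz.1)]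
      have hcz : ContinuousAt u z := huc.continuousAt (hKo.mem_nhds hz.2.1)
      rcases lt_abs.1 hzm with h | h
      · have h1 : ∀ᶠ w in 𝓝 z, m < u w := hcz.eventually_const_lt h
        have h2 : (fun w => bddc m (u w)) =ᶠ[𝓝 z] fun w => u w - m := by
          filter_upwards [h1] with w hw using bddc_pos hm hw
        rw [grad_congr h2, grad_sub (hdiff z hz.2.1) (differentiableAt_const m), grad_const,
          sub_zero]
      · have h1 : ∀ᶠ w in 𝓝 z, u w < -m := hcz.eventually_lt_const (by linarith)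
        have h2 : (fun w => bddc m (u w)) =ᶠ[𝓝 z] fun w => u w + m := by
          filter_upwards [h1] with w hw using bddc_neg hm hw
        rw [grad_congr h2, grad_add (hdiff z hz.2.1) (differentiableAt_const m), grad_const,
          add_zero]
    have hg0 : EqOn (grad u) (fun _ => 0) W := by
      refine Measure.eqOn_open_of_ae_eq (μ := volume) ?_ hWo (hgc.mono hWK) continuousOn_const
      rw [EventuallyEq, ae_restrict_iff' hWo.measurableSet]
      filter_upwards [hzero] with z hz hzW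
      rw [← hWg z hzW, hz]
    obtain ⟨r, hr, hball⟩ := Metric.isOpen_iff.1 hWo z₀ hz₀
    have hf0 : (ball z₀ r).EqOn (fderiv ℝ u) 0 := by
      intro z hz
      have h1 := hg0 (hball hz)
      have h2 : ‖fderiv ℝ u z‖ = 0 := by
        rw [← norm_grad, h1, norm_zero]
      simpa using h2
    have hcst : ∀ z ∈ ball z₀ r, u z = u z₀ := fun z hz =>
      isOpen_ball.is_const_of_fderiv_eq_zero (convex_ball z₀ r).isPreconnected
        (fun w hw => (hdiff w (hWK (hball hw))).differentiableWithinAt) hf0 hz (mem_ball_self hr)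
    exfalso
    have hana : AnalyticOnNhd ℝ u Kᶜ := fun z hz => HarmonicAt.analyticAt (harm z hz)
    have hΩK : connectedComponentIn Kᶜ z₀ ⊆ Kᶜ := connectedComponentIn_subset _ _
    have hΩz : z₀ ∈ connectedComponentIn Kᶜ z₀ := mem_connectedComponentIn (hWK hz₀)
    have hΩc : IsPreconnected (connectedComponentIn Kᶜ z₀) := isPreconnected_connectedComponentIn
    have hall := (hana.mono hΩK).eqOn_of_preconnected_of_eventuallyEq
      (analyticOnNhd_const (v := u z₀)) hΩc hΩz (by
        filter_upwards [ball_mem_nhds z₀ hr] with z hz using hcst z hz)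
    have hunb : ∃ p ∈ connectedComponentIn Kᶜ z₀, ρ < ‖p‖ := by
      by_contra hcon
      push Not at hcon
      exact hn z₀ (hWK hz₀) ((isBounded_iff_forall_norm_le).2 ⟨ρ, hcon⟩)
    obtain ⟨p, hp, hpρ⟩ := hunb
    obtain ⟨s, hs, hsρ⟩ := hΩc.intermediate_value hΩz hp continuous_norm.continuousOn
      ⟨hz₀.1.le, hpρ.le⟩
    have h1 := hM s (by rw [mem_sphere_zero_iff_norm]; exact hsρ) (hΩK hs)
    rw [hall hs] at h1
    exact absurd hz₀.2.2 (not_lt.2 h1)
  · refine ⟨m, fun z hz hzK => ?_⟩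
    by_contra hcon
    push Not at hcon
    refine hne ⟨z, ?_, hzK, hcon⟩
    rw [mem_ball_zero_iff] at hz
    have : R ≤ R' := le_max_left _ _
    exact lt_trans (lt_of_lt_of_le hz this) hρR

variable {u : ℂ → ℝ} {G : ℂ → ℂ} {K L A W : Set ℂ} {η w : ℂ → ℝ} {δ : ℝ}

theorem CMin.bdd (h : CMin u K) (hn : NoBdd K) (R : ℝ) :
    ∃ M : ℝ, ∀ z ∈ ball (0 : ℂ) R, z ∉ K → |u z| ≤ M :=
  cbdd_of h.closed h.harm hn h.vol_zero h.ae_finite h.integrableOn
    (fun _ hψ hs hi => h.el hψ hs hi) R

end Vale.Agent.P128.GM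
end

section

/-! D-04b (GM/D/ComplPre.lean) : the complement of a compact piece is connected -/

open MeasureTheory Set Metric Filter InnerProductSpace
open scoped ENNReal NNReal ContDiff Topology Real

namespace Vale.Agent.P128.GM

open Vale.Agent.P128

variable {u : ℂ → ℝ} {G : ℂ → ℂ} {K L A W : Set ℂ} {η w : ℂ → ℝ} {δ : ℝ}

lemma d04b_ext {R : ℝ} (hR : 0 < R) : IsPreconnected {z : ℂ | R ≤ ‖z‖} := by
  have h1 : IsPreconnected (sphere (0 : ℂ) 1) :=
    isPreconnected_sphere (by rw [Complex.rank_real_complex]; norm_num) 0 1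
  have h2 : IsPreconnected (Ici R ×ˢ sphere (0 : ℂ) 1) := isPreconnected_Ici.prod h1
  have h3 := h2.image (fun p : ℝ × ℂ => p.1 • p.2) (by fun_prop)
  have h4 : (fun p : ℝ × ℂ => p.1 • p.2) '' (Ici R ×ˢ sphere (0 : ℂ) 1) =
      {z : ℂ | R ≤ ‖z‖} := by
    ext z
    constructor
    · rintro ⟨⟨r, y⟩, ⟨hr, hy⟩, rfl⟩
      have hr' : R ≤ r := hr
      have hy' : ‖y‖ = 1 := by simpa using hy
      change R ≤ ‖r • y‖
      rw [norm_smul, hy', mul_one, Real.norm_eq_abs]
      exact hr'.trans (le_abs_self r)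
    · intro hz
      have hz' : R ≤ ‖z‖ := hz
      have hz0 : ‖z‖ ≠ 0 := by linarith
      refine ⟨(‖z‖, ‖z‖⁻¹ • z), ⟨hz', ?_⟩, ?_⟩
      · simp [inv_mul_cancel₀ hz0]
      · simp only [smul_smul, mul_inv_cancel₀ hz0, one_smul]
  rwa [h4] at h3

/-- the complement of a compact piece is connected -/
theorem compl_preconn_of_noBdd (hK : IsClosed K) (hi : interior K = ∅) (hn : NoBdd K)
    (hA : IsCompact A) (hAK : A ⊆ K) : IsPreconnected Aᶜ := by
  obtain ⟨R0, hR0⟩ := hA.isBounded.subset_ball (0 : ℂ)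
  obtain ⟨R, hR, hRA⟩ : ∃ R > 0, A ⊆ ball (0 : ℂ) R :=
    ⟨max R0 1, by positivity, hR0.trans (ball_subset_ball (le_max_left _ _))⟩
  have hEA : {z : ℂ | R ≤ ‖z‖} ⊆ Aᶜ := by
    intro z hz hzA
    have h1 := hRA hzA
    rw [mem_ball_zero_iff] at h1
    exact absurd hz (not_le.2 h1)
  have hx0 : (R : ℂ) ∈ {z : ℂ | R ≤ ‖z‖} := by
    change R ≤ ‖(R : ℂ)‖
    rw [Complex.norm_real, Real.norm_eq_abs]
    exact le_abs_self R
  refine isPreconnected_of_forall (R : ℂ) fun z hz => ?_
  have hV : IsOpen (connectedComponentIn Aᶜ z) :=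
    hA.isClosed.isOpen_compl.connectedComponentIn
  have hzV : z ∈ connectedComponentIn Aᶜ z := mem_connectedComponentIn hz
  obtain ⟨p, hpV, hpK⟩ : ∃ p ∈ connectedComponentIn Aᶜ z, p ∉ K := by
    by_contra hcon
    push Not at hcon
    have h1 : connectedComponentIn Aᶜ z ⊆ interior K := interior_maximal hcon hV
    rw [hi] at h1
    exact h1 hzV
  have hsub : connectedComponentIn Kᶜ p ⊆ connectedComponentIn Aᶜ z := by
    rw [connectedComponentIn_eq hpV]
    exact connectedComponentIn_mono p (compl_subset_compl.2 hAK)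
  obtain ⟨y, hyV, hyR⟩ : ∃ y ∈ connectedComponentIn Aᶜ z, R ≤ ‖y‖ := by
    by_contra hcon
    push Not at hcon
    refine hn p hpK (isBounded_ball (x := (0 : ℂ)) (r := R) |>.subset fun y hy => ?_)
    rw [mem_ball_zero_iff]
    exact hcon y (hsub hy)
  refine ⟨connectedComponentIn Aᶜ z ∪ {z : ℂ | R ≤ ‖z‖}, ?_, Or.inr hx0, Or.inl hzV, ?_⟩
  · exact union_subset (connectedComponentIn_subset _ _) hEA
  · exact isPreconnected_connectedComponentIn.union y hyV hyR (d04b_ext hR)

end Vale.Agent.P128.GM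
end

section

/-! locally a diameter everywhere -/

open MeasureTheory Set Metric Filter
open scoped ENNReal NNReal Topology

namespace Vale.Agent.P128.GM

open Vale.Agent.P128

variable {K : Set ℂ}

private theorem netLine_sq {c : ℝ} {e e' : ℂ} (he : ‖e‖ = 1) (he' : ‖e'‖ = 1)
    (hc : e' = c * e) : |c| = 1 ∧ (c : ℂ) * c = 1 := by
  have h1 : |c| = 1 := by
    have h2 : ‖e'‖ = |c| * ‖e‖ := by rw [hc, norm_mul, Complex.norm_real, Real.norm_eq_abs]
    rw [he, he', mul_one] at h2
    exact h2.symm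
  refine ⟨h1, ?_⟩
  have h2 : c * c = 1 := by
    have := abs_mul_abs_self c
    rw [h1] at this
    linarith
  exact_mod_cast h2

private theorem netLine_dist {x e : ℂ} (he : ‖e‖ = 1) (t t' : ℝ) :
    dist (x + t' * e) (x + t * e) = |t' - t| := by
  rw [dist_eq_norm]
  have h : x + t' * e - (x + t * e) = ((t' - t : ℝ) : ℂ) * e := by
    push_cast
    ring
  rw [h, norm_mul, Complex.norm_real, Real.norm_eq_abs, he, mul_one]

private theorem netLine_ioo {x e e' : ℂ} {t s c : ℝ} (he : ‖e‖ = 1) (he' : ‖e'‖ = 1)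
    (hc : e' = c * e)
    (hK : K ∩ ball (x + t * e) s = {z | ∃ τ : ℝ, |τ| < s ∧ z = (x + t * e) + τ * e'})
    {t' : ℝ} (ht' : |t' - t| < s) :
    x + t' * e ∈ K ∧ ∃ ρ > 0, K ∩ ball (x + t' * e) ρ ⊆ {z | ∃ τ : ℝ, z = x + τ * e} := by
  obtain ⟨h1, h2⟩ := netLine_sq he he' hc
  constructor
  · have h3 : x + t' * e ∈ K ∩ ball (x + t * e) s := by
      rw [hK]
      refine ⟨(t' - t) * c, ?_, ?_⟩
      · rw [abs_mul, h1, mul_one]
        exact ht'
      · rw [hc]
        push_cast
        linear_combination (-(t' - t) * e) * h2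
    exact h3.1
  · refine ⟨s - |t' - t|, by linarith, ?_⟩
    intro z hz
    have h3 : z ∈ K ∩ ball (x + t * e) s := by
      refine ⟨hz.1, ?_⟩
      have h4 := hz.2
      rw [mem_ball] at h4 ⊢
      have h5 := netLine_dist (x := x) he t t'
      have h6 := dist_triangle z (x + t' * e) (x + t * e)
      linarith
    rw [hK] at h3
    obtain ⟨τ, -, h4⟩ := h3
    refine ⟨t + τ * c, ?_⟩
    rw [h4, hc]
    push_cast
    ring

/-- the line through a point of `K` -/
private theorem netLine_through (hcl : IsClosed K) (hd : ∀ x ∈ K, ∃ s > 0, IsDiam K x s)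
    {x : ℂ} (hx : x ∈ K) :
    ∃ e : ℂ, ‖e‖ = 1 ∧ ∀ t : ℝ, x + t * e ∈ K ∧
      ∃ ρ > 0, K ∩ ball (x + t * e) ρ ⊆ {z | ∃ τ : ℝ, z = x + τ * e} := by
  obtain ⟨s0, hs0, e, he, hK0⟩ := hd x hx
  refine ⟨e, he, ?_⟩
  let T : Set ℝ := {t | x + t * e ∈ K ∧
    ∃ ρ > 0, K ∩ ball (x + t * e) ρ ⊆ {z | ∃ τ : ℝ, z = x + τ * e}}
  have hcont : Continuous fun t : ℝ => x + t * e := by fun_prop
  have h0 : (0 : ℝ) ∈ T := by
    have h1 : K ∩ ball (x + (0 : ℝ) * e) s0 =
        {z | ∃ τ : ℝ, |τ| < s0 ∧ z = (x + (0 : ℝ) * e) + τ * e} := by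
      simpa using hK0
    have := netLine_ioo (c := 1) (t' := 0) he he (by simp) h1 (by simpa using hs0)
    exact this
  have hopen : IsOpen T := by
    rw [Metric.isOpen_iff]
    rintro t ⟨ht, ρ, hρ, hsub⟩
    obtain ⟨s, hs, e', he', hK'⟩ := hd _ ht
    -- the direction
    let τ : ℝ := min s ρ / 2
    have hm : 0 < min s ρ := lt_min hs hρ
    have hτ : 0 < τ := by positivity
    have hτs : τ < s := by
      have := min_le_left s ρ
      show min s ρ / 2 < s
      linarith
    have hτρ : τ < ρ := by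
      have := min_le_right s ρ
      show min s ρ / 2 < ρ
      linarith
    have h1 : (x + t * e) + τ * e' ∈ K ∩ ball (x + t * e) s := by
      rw [hK']
      exact ⟨τ, by rwa [abs_of_pos hτ], rfl⟩
    have h2 : (x + t * e) + τ * e' ∈ K ∩ ball (x + t * e) ρ := by
      refine ⟨h1.1, ?_⟩
      rw [mem_ball, dist_eq_norm]
      have : x + t * e + τ * e' - (x + t * e) = (τ : ℂ) * e' := by ring
      rw [this, norm_mul, Complex.norm_real, he', Real.norm_eq_abs, abs_of_pos hτ, mul_one]
      exact hτρ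
    obtain ⟨u, hu⟩ := hsub h2
    have hc : e' = (((u - t) / τ : ℝ) : ℂ) * e := by
      have h3 : (τ : ℂ) ≠ 0 := by exact_mod_cast hτ.ne'
      have h4 : (τ : ℂ) * e' = ((u : ℂ) - t) * e := by linear_combination hu
      push_cast
      field_simp
      linear_combination h4
    refine ⟨s, hs, fun t' ht' => ?_⟩
    rw [mem_ball, Real.dist_eq] at ht'
    exact netLine_ioo he he' hc hK' ht'
  have hclosed : IsClosed T := by
    refine isClosed_of_closure_subset fun t ht => ?_
    have htK : x + t * e ∈ K := by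
      have h1 : T ⊆ (fun t : ℝ => x + t * e) ⁻¹' K := fun t ht => ht.1
      exact (closure_minimal h1 (hcl.preimage hcont)) ht
    obtain ⟨s, hs, e', he', hK'⟩ := hd _ htK
    obtain ⟨t', ht', htt⟩ := Metric.mem_closure_iff.1 ht s hs
    by_cases heq : t' = t
    · rw [← heq]
      exact ht'
    have h1 : x + t' * e ∈ K ∩ ball (x + t * e) s := by
      refine ⟨ht'.1, ?_⟩
      rw [mem_ball, netLine_dist he, ← Real.dist_eq, dist_comm]
      exact htt
    rw [hK'] at h1
    obtain ⟨τ, -, h2⟩ := h1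
    have h3 : ((t' : ℂ) - t) * e = τ * e' := by linear_combination h2
    have hτ : τ ≠ 0 := by
      rintro rfl
      have h4 : ((t' - t : ℝ) : ℂ) * e = 0 := by
        push_cast
        rw [h3]
        simp
      rcases mul_eq_zero.1 h4 with h5 | h5
      · apply heq
        have : t' - t = 0 := by exact_mod_cast h5
        linarith
      · rw [h5, norm_zero] at he
        exact zero_ne_one he
    have hc : e' = (((t' - t) / τ : ℝ) : ℂ) * e := by
      have h4 : (τ : ℂ) ≠ 0 := by exact_mod_cast hτ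
      push_cast
      field_simp
      linear_combination -h3
    exact netLine_ioo he he' hc hK' (by simpa using hs)
  have hT : T = univ := IsClopen.eq_univ ⟨hclosed, hopen⟩ ⟨0, h0⟩
  intro t
  have : t ∈ T := by
    rw [hT]
    trivial
  exact this

private theorem netLine_real {e w : ℂ} (he : ‖e‖ = 1) (h : (w * (starRingEnd ℂ) e).im = 0) :
    w = (((w * (starRingEnd ℂ) e).re : ℝ) : ℂ) * e := by
  have h1 : ((w * (starRingEnd ℂ) e).re : ℂ) = w * (starRingEnd ℂ) e := by
    apply Complex.ext <;> simp only [Complex.ofReal_re, Complex.ofReal_im]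
    exact h.symm
  have h2 : (starRingEnd ℂ) e * e = 1 := by
    rw [mul_comm, Complex.mul_conj, Complex.normSq_eq_norm_sq, he]
    simp
  rw [h1, mul_assoc, h2, mul_one]

theorem line_of_diam (hcl : IsClosed K) (hne : K.Nonempty)
    (hfin : ∀ (x : ℂ) (s : ℝ), μH[1] (K ∩ ball x s) < ⊤)
    (hd : ∀ x ∈ K, ∃ s > 0, IsDiam K x s)
    (hlen : ∀ x ∈ K, ∀ s > 0, lh K x s ≤ 3 * s) : IsLine K := by
  obtain ⟨x, hx⟩ := hne
  obtain ⟨e, he, hxe⟩ := netLine_through hcl hd hx
  have hsub : {z | ∃ t : ℝ, z = x + t * e} ⊆ K := by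
    rintro z ⟨t, rfl⟩
    exact (hxe t).1
  refine ⟨x, e, he, ?_⟩
  by_contra hne
  have hex : ∃ y ∈ K, ∀ t : ℝ, y ≠ x + t * e := by
    by_contra hno
    push Not at hno
    exact hne (Subset.antisymm (fun z hz => hno z hz) hsub)
  obtain ⟨y, hy, hyx⟩ := hex
  obtain ⟨e₂, he₂, hye⟩ := netLine_through hcl hd hy
  -- the lines are disjoint
  have hpar : ∀ c : ℝ, e₂ = c * e → ∀ t u : ℝ, x + t * e ≠ y + u * e₂ := by
    intro c hc t u h
    apply hyx (t - u * c)
    rw [hc] at h
    push_cast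
    linear_combination -h
  have hdisj : ∀ t u : ℝ, x + t * e ≠ y + u * e₂ := by
    intro t u h
    obtain ⟨ρ, hρ, h1⟩ := (hxe t).2
    have h2 : y + ((u + ρ / 2 : ℝ) : ℂ) * e₂ ∈ K ∩ ball (x + t * e) ρ := by
      refine ⟨(hye _).1, ?_⟩
      rw [mem_ball, h, netLine_dist he₂, add_sub_cancel_left, abs_of_pos (by positivity)]
      linarith
    obtain ⟨v, hv⟩ := h1 h2
    have h3 : e₂ = (((v - t) / (ρ / 2) : ℝ) : ℂ) * e := by
      have h4 : (ρ : ℂ) ≠ 0 := by exact_mod_cast hρ.ne'
      have h5 : (ρ : ℂ) / 2 * e₂ = (v - t) * e := by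
        push_cast at hv
        linear_combination hv + h
      push_cast
      field_simp
      linear_combination 2 * h5
    exact hpar _ h3 t u h
  -- the second line is parallel to the first one
  have hc : (e₂ * (starRingEnd ℂ) e).im = 0 := by
    by_contra hc
    let u : ℝ := -((y - x) * (starRingEnd ℂ) e).im / (e₂ * (starRingEnd ℂ) e).im
    have h1 : (((y - x) + u * e₂) * (starRingEnd ℂ) e).im = 0 := by
      have h2 : ((y - x) + u * e₂) * (starRingEnd ℂ) e =
          (y - x) * (starRingEnd ℂ) e + (u : ℂ) * (e₂ * (starRingEnd ℂ) e) := by ring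
      rw [h2, Complex.add_im, Complex.im_ofReal_mul, div_mul_cancel₀ _ hc]
      ring
    have h2 := netLine_real he h1
    apply hdisj (((y - x) + u * e₂) * (starRingEnd ℂ) e).re u
    linear_combination -h2
  have hc' := netLine_real he hc
  obtain ⟨-, hcc⟩ := netLine_sq he he₂ hc'
  set c : ℝ := (e₂ * (starRingEnd ℂ) e).re with hcdef
  have hye' : ∀ t : ℝ, y + t * e ∈ K := by
    intro t
    have h1 := (hye (t * c)).1
    have h2 : y + ((t * c : ℝ) : ℂ) * e₂ = y + t * e := by
      rw [hc']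
      push_cast
      linear_combination (t : ℂ) * e * hcc
    rwa [h2] at h1
  -- coordinates of the point `y`
  let a : ℝ := ((y - x) * (starRingEnd ℂ) e).re
  let b : ℝ := ((y - x) * (starRingEnd ℂ) e).im
  have hconj : (starRingEnd ℂ) e * e = 1 := by
    rw [mul_comm, Complex.mul_conj, Complex.normSq_eq_norm_sq, he]
    simp
  have hyab : y = x + (a + b * Complex.I) * e := by
    have h1 : (a : ℂ) + b * Complex.I = (y - x) * (starRingEnd ℂ) e := Complex.re_add_im _
    rw [h1, mul_assoc, hconj]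
    ring
  have hb : b ≠ 0 := by
    intro hb
    apply hyx a
    conv_lhs => rw [hyab, hb]
    simp
  have he0 : e ≠ 0 := by
    rintro rfl
    simp at he
  have hinj : ∀ w w' : ℂ, x + w * e = x + w' * e → w = w' := fun w w' h =>
    mul_right_cancel₀ he0 (add_left_cancel h)
  have hsph : ∀ (w : ℂ) (r : ℝ), ‖w‖ = r → x + w * e ∈ sphere x r := by
    intro w r h
    rw [mem_sphere, dist_eq_norm, add_sub_cancel_left, norm_mul, he, mul_one, h]
  have hp1 : ∀ r : ℝ, 0 < r → x + (r : ℂ) * e ∈ K ∩ sphere x r := fun r hr =>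
    ⟨(hxe r).1, hsph _ _ (by rw [Complex.norm_real, Real.norm_eq_abs, abs_of_pos hr])⟩
  have hp2 : ∀ r : ℝ, 0 < r → x + (-(r : ℂ)) * e ∈ K ∩ sphere x r := fun r hr =>
    ⟨by simpa using (hxe (-r)).1, hsph _ _
      (by rw [norm_neg, Complex.norm_real, Real.norm_eq_abs, abs_of_pos hr])⟩
  have hp3 : ∀ r s : ℝ, 0 < r → s * s + b * b = r * r →
      x + ((s : ℂ) + b * Complex.I) * e ∈ K ∩ sphere x r := by
    intro r s hr hs
    constructor
    · have h1 := hye' (s - a)
      have h2 : y + ((s - a : ℝ) : ℂ) * e = x + ((s : ℂ) + b * Complex.I) * e := by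
        conv_lhs => rw [hyab]
        push_cast
        ring
      rwa [h2] at h1
    · apply hsph
      have h1 : ‖(s : ℂ) + b * Complex.I‖ ^ 2 = r ^ 2 := by
        rw [Complex.sq_norm, Complex.normSq_apply]
        simp
        linarith
      exact (sq_eq_sq₀ (norm_nonneg _) hr.le).1 h1
  let d : ℝ := |b|
  have hd0 : 0 < d := abs_pos.2 hb
  have hcard2 : ∀ r : ℝ, 0 < r → (2 : ℕ∞) ≤ (K ∩ sphere x r).encard := by
    intro r hr
    have hne : x + (r : ℂ) * e ≠ x + (-(r : ℂ)) * e := by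
      intro h
      have h1 := hinj _ _ h
      have h2 : (r : ℂ) = 0 := by linear_combination h1 / 2
      exact hr.ne' (by exact_mod_cast h2)
    calc (2 : ℕ∞) = ({x + (r : ℂ) * e, x + (-(r : ℂ)) * e} : Set ℂ).encard :=
          (Set.encard_pair hne).symm
      _ ≤ _ := Set.encard_le_encard (by
          rintro z (rfl | rfl)
          · exact hp1 r hr
          · exact hp2 r hr)
  have hcard4 : ∀ r : ℝ, d < r → (4 : ℕ∞) ≤ (K ∩ sphere x r).encard := by
    intro r hr
    have hr0 : 0 < r := hd0.trans hr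
    have hpos : 0 < r * r - b * b := by
      have h1 : b * b = d * d := (abs_mul_abs_self b).symm
      linarith only [mul_pos (sub_pos.2 hr) (sub_pos.2 hr), mul_pos (sub_pos.2 hd0) (sub_pos.2 hr), h1]
    let s : ℝ := Real.sqrt (r * r - b * b)
    have hs0 : 0 < s := Real.sqrt_pos.2 hpos
    have hss : s * s = r * r - b * b := Real.mul_self_sqrt hpos.le
    let w1 : ℂ := r
    let w2 : ℂ := -r
    let w3 : ℂ := s + b * Complex.I
    let w4 : ℂ := (-s : ℝ) + b * Complex.I
    have h12 : w1 ≠ w2 := fun h => by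
      have := congrArg Complex.re h
      simp [w1, w2] at this
      linarith
    have h13 : w1 ≠ w3 := fun h => by
      have := congrArg Complex.im h
      simp [w1, w3] at this
      exact hb this.symm
    have h14 : w1 ≠ w4 := fun h => by
      have := congrArg Complex.im h
      simp [w1, w4] at this
      exact hb this.symm
    have h23 : w2 ≠ w3 := fun h => by
      have := congrArg Complex.im h
      simp [w2, w3] at this
      exact hb this.symm
    have h24 : w2 ≠ w4 := fun h => by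
      have := congrArg Complex.im h
      simp [w2, w4] at this
      exact hb this.symm
    have h34 : w3 ≠ w4 := fun h => by
      have := congrArg Complex.re h
      simp [w3, w4] at this
      linarith
    have hF : ({w1, w2, w3, w4} : Finset ℂ).card = 4 := by
      rw [Finset.card_insert_of_notMem (by simp [h12, h13, h14]),
        Finset.card_insert_of_notMem (by simp [h23, h24]),
        Finset.card_insert_of_notMem (by simp [h34]), Finset.card_singleton]
    have hG : (({w1, w2, w3, w4} : Finset ℂ).image fun w => x + w * e).card = 4 := by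
      rw [Finset.card_image_of_injective _ (fun w w' h => hinj w w' h), hF]
    calc (4 : ℕ∞) = (((({w1, w2, w3, w4} : Finset ℂ).image fun w => x + w * e) : Finset ℂ) :
          Set ℂ).encard := by
          rw [Set.encard_coe_eq_coe_finsetCard, hG]
          rfl
      _ ≤ _ := Set.encard_le_encard (by
          intro z hz
          rw [Finset.mem_coe, Finset.mem_image] at hz
          obtain ⟨w, hw, rfl⟩ := hz
          simp only [Finset.mem_insert, Finset.mem_singleton] at hw
          rcases hw with rfl | rfl | rfl | rfl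
          · exact hp1 r hr0
          · exact hp2 r hr0
          · exact hp3 r s hr0 (by linarith)
          · exact hp3 r (-s) hr0 (by linarith))
  have h1 := lh_sub_ge hcl hfin (x := x) (a := 0) (b := d) (m := 2) le_rfl hd0.le
    (Eventually.of_forall fun r hr _ => by exact_mod_cast hcard2 r hr)
  have h2 := lh_sub_ge hcl hfin (x := x) (a := d) (b := 3 * d) (m := 4) hd0.le (by linarith)
    (Eventually.of_forall fun r hr _ => by exact_mod_cast hcard4 r hr)
  have h3 := hlen x hx (3 * d) (by positivity)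
  have h4 : 0 ≤ lh K x 0 := ENNReal.toReal_nonneg
  push_cast at h1 h2
  linarith

end Vale.Agent.P128.GM
end
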