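import Vale.Agent.P128.MathlibUsed
import Vale.Agent.P128.Bdl.B2
import Vale.Agent.P128.Bdl.B1

set_option linter.all false

section

open MeasureTheory Set Metric Filter
open scoped ENNReal NNReal Topology Real ContDiff

namespace Vale.Agent.P128

/-- Local data around a disk: square integrable Borel representatives on the whole plane. -/
structure Loc (x : ℂ) (R : ℝ) (Ω K : Set ℂ) (u : ℂ → ℝ) (G : ℂ → ℂ) : Prop where
  um : Measurable u
  Gm : Measurable G
  u2 : MemLp u 2 volume
  G2 : MemLp G 2 volume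
  weak : IsWeakGrad (Ω \ K) u G
  relClosed : Ω ∩ closure K ⊆ K
  sub : closedBall x R ⊆ Ω

theorem Nice.memLp_u {Ω : Set ℂ} {g u : ℂ → ℝ} {G : ℂ → ℂ} {K : Set ℂ} {M : ℝ}
    (h : Nice Ω g u G K M) : MemLp u 2 volume := by
  have h1 := h.min.1.memLp
  rw [← memLp_indicator_iff_restrict h.isOpen.measurableSet] at h1
  have : Ω.indicator u = u := by
    funext z
    by_cases hz : z ∈ Ω
    · rw [indicator_of_mem hz]
    · rw [indicator_of_notMem hz, h.u0 z hz]
  rwa [this] at h1

theorem Nice.memLp_G {Ω : Set ℂ} {g u : ℂ → ℝ} {G : ℂ → ℂ} {K : Set ℂ} {M : ℝ}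
    (h : Nice Ω g u G K M) : MemLp G 2 volume := by
  have h1 := h.min.1.grad_memLp
  rw [← memLp_indicator_iff_restrict (h.min.1.isOpen_diff h.isOpen).measurableSet] at h1
  have : (Ω \ K).indicator G = G := by
    funext z
    by_cases hz : z ∈ Ω \ K
    · rw [indicator_of_mem hz]
    · rw [indicator_of_notMem hz, h.G0 z hz]
  rwa [this] at h1

theorem Nice.loc {Ω : Set ℂ} {g u : ℂ → ℝ} {G : ℂ → ℂ} {K : Set ℂ} {M : ℝ}
    (h : Nice Ω g u G K M) {x : ℂ} {R : ℝ} (hR : closedBall x R ⊆ Ω) :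
    Loc x R Ω K u G where
  um := h.um
  Gm := h.Gm
  u2 := h.memLp_u
  G2 := h.memLp_G
  weak := h.min.1.weak
  relClosed := h.min.1.relClosed
  sub := hR

theorem Loc.liu {x : ℂ} {R : ℝ} {Ω K : Set ℂ} {u : ℂ → ℝ} {G : ℂ → ℂ} (h : Loc x R Ω K u G) :
    LocallyIntegrable u := h.u2.locallyIntegrable (by norm_num)

theorem Loc.liG {x : ℂ} {R : ℝ} {Ω K : Set ℂ} {u : ℂ → ℝ} {G : ℂ → ℂ} (h : Loc x R Ω K u G) :
    LocallyIntegrable G := h.G2.locallyIntegrable (by norm_num)

theorem fderiv_eq_re_im (L : ℂ →L[ℝ] ℝ) (v : ℂ) : L v = v.re * L 1 + v.im * L Complex.I := by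
  conv_lhs => rw [show v = v.re • (1 : ℂ) + v.im • Complex.I by simp [Complex.re_add_im]]
  rw [map_add, map_smul, map_smul]
  simp only [smul_eq_mul]

/-- The weak gradient relation tested with the rotation field around `x`. -/
theorem IsWeakGrad.rot {U : Set ℂ} {u : ℂ → ℝ} {G : ℂ → ℂ}
    (hu : LocallyIntegrable u) (hG : LocallyIntegrable G) (h : IsWeakGrad U u G)
    {φ : ℂ → ℝ} (h1 : ContDiff ℝ ∞ φ) (h2 : HasCompactSupport φ) (h3 : tsupport φ ⊆ U)
    (x : ℂ) :
    ∫ z, u z * fderiv ℝ φ z ((z - x) * Complex.I) =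
      - ∫ z, inner ℝ (G z) ((z - x) * Complex.I) * φ z := by
  have hre : ContDiff ℝ ∞ (fun z : ℂ => (z - x).re) :=
    Complex.reCLM.contDiff.comp (contDiff_id.sub contDiff_const)
  have him : ContDiff ℝ ∞ (fun z : ℂ => -(z - x).im) :=
    (Complex.imCLM.contDiff.comp (contDiff_id.sub contDiff_const)).neg
  have dre : ∀ z : ℂ, HasFDerivAt (fun z : ℂ => (z - x).re) Complex.reCLM z := fun z => by
    exact (Complex.reCLM.hasFDerivAt (x := z - x)).comp z ((hasFDerivAt_id z).sub_const x)
  have dim : ∀ z : ℂ, HasFDerivAt (fun z : ℂ => -(z - x).im) (-Complex.imCLM) z := fun z => by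
    exact ((Complex.imCLM.hasFDerivAt (x := z - x)).comp z
      ((hasFDerivAt_id z).sub_const x)).neg
  have hd := fun z => (h1.differentiable (by simp) z)
  have e1 : ∀ z, fderiv ℝ (fun z => -(z - x).im * φ z) z 1 = -(z - x).im * fderiv ℝ φ z 1 := by
    intro z
    rw [fderiv_fun_mul (dim z).differentiableAt (hd z), (dim z).fderiv]
    simp only [Complex.sub_im, neg_sub, smul_neg, add_apply, smul_apply, smul_eq_mul, neg_apply, Complex.imCLM_apply, Complex.one_im, mul_zero, neg_zero, add_zero]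
  have e2 : ∀ z, fderiv ℝ (fun z => (z - x).re * φ z) z Complex.I =
      (z - x).re * fderiv ℝ φ z Complex.I := by
    intro z
    rw [fderiv_fun_mul (dre z).differentiableAt (hd z), (dre z).fderiv]
    simp only [Complex.sub_re, add_apply, smul_apply, smul_eq_mul, Complex.reCLM_apply, Complex.I_re, mul_zero, add_zero]
  have k1 := h.test (him.mul h1) h2.mul_left ((tsupport_mul_subset_right).trans h3) 1
  have k2 := h.test (hre.mul h1) h2.mul_left ((tsupport_mul_subset_right).trans h3) Complex.I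
  simp only [e1, e2] at k1 k2
  have hc : ∀ v, Continuous fun z => fderiv ℝ φ z v := fun v =>
    (h1.continuous_fderiv (by simp)).clm_apply continuous_const
  have i1 : Integrable fun z => u z * (-(z - x).im * fderiv ℝ φ z 1) :=
    integrable_mul_cc hu (him.continuous.mul (hc 1)) ((h2.fderiv_apply ℝ 1).mul_left)
  have i2 : Integrable fun z => u z * ((z - x).re * fderiv ℝ φ z Complex.I) :=
    integrable_mul_cc hu (hre.continuous.mul (hc Complex.I))
      ((h2.fderiv_apply ℝ Complex.I).mul_left)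
  have i3 : Integrable fun z => inner ℝ (G z) 1 * (-(z - x).im * φ z) :=
    integrable_mul_cc (locallyIntegrable_inner hG 1) (him.continuous.mul h1.continuous)
      h2.mul_left
  have i4 : Integrable fun z => inner ℝ (G z) Complex.I * ((z - x).re * φ z) :=
    integrable_mul_cc (locallyIntegrable_inner hG Complex.I)
      (hre.continuous.mul h1.continuous) h2.mul_left
  have e3 : ∫ z, u z * fderiv ℝ φ z ((z - x) * Complex.I) =
      (∫ z, u z * (-(z - x).im * fderiv ℝ φ z 1)) +
        ∫ z, u z * ((z - x).re * fderiv ℝ φ z Complex.I) := by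
    rw [← integral_add i1 i2]
    refine integral_congr_ae (Eventually.of_forall fun z => ?_)
    simp only
    rw [fderiv_eq_re_im]
    simp only [Complex.mul_re, Complex.mul_im, Complex.I_re, Complex.I_im]
    ring
  have e4 : ∫ z, inner ℝ (G z) ((z - x) * Complex.I) * φ z =
      (∫ z, inner ℝ (G z) 1 * (-(z - x).im * φ z)) +
        ∫ z, inner ℝ (G z) Complex.I * ((z - x).re * φ z) := by
    rw [← integral_add i3 i4]
    refine integral_congr_ae (Eventually.of_forall fun z => ?_)
    simp only [inner_eq, Complex.mul_re, Complex.mul_im, Complex.I_re, Complex.I_im,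
      Complex.one_re, Complex.one_im]
    ring
  rw [e3, e4, k1, k2]
  ring

/-- Polar coordinates for products with radially concentrated test functions. -/
theorem integral_polar_ker (x : ℂ) {F H : ℂ → ℝ} {Ψ : ℝ × ℝ → ℝ} {s R : ℝ} {n : ℕ}
    (hs : 0 < s) (hFm : Measurable F) (hF : LocallyIntegrable F) (hH : Continuous H)
    (hHc : HasCompactSupport H) (hn : s + 1 / (n + 1) < R)
    (hHr : ∀ r > 0, ∀ θ ∈ ang, H (circleMap x r θ) = ker n s r * Ψ (r, θ)) :
    ∫ z, F z * H z = ∫ r, ker n s r * circInt x ((ball x R).indicator F) Ψ r := by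
  have hpol := integral_polar x (F := fun z => F z * H z) (hFm.mul hH.measurable)
    (integrable_mul_cc hF hH hHc)
  rw [hpol]
  have : ∫ r, ker n s r * circInt x ((ball x R).indicator F) Ψ r =
      ∫ r in Ioi (0 : ℝ), ker n s r * circInt x ((ball x R).indicator F) Ψ r := by
    refine (setIntegral_eq_integral_of_forall_compl_eq_zero fun r hr => ?_).symm
    rw [mem_Ioi, not_lt] at hr
    rw [ker_of_lt (by linarith only [hs, hr]), zero_mul]
  rw [this]
  refine setIntegral_congr_fun measurableSet_Ioi fun r hr => ?_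
  have hr' : (0 : ℝ) < r := hr
  rw [circInt_of_pos hr']
  by_cases hrR : r < R
  · have h2 : ∫ θ in ang, F (circleMap x r θ) * H (circleMap x r θ) =
        ker n s r * ∫ θ in ang, (ball x R).indicator F (circleMap x r θ) * Ψ (r, θ) := by
      rw [← integral_const_mul]
      refine setIntegral_congr_fun measurableSet_Ioo fun θ hθ => ?_
      have hmem : circleMap x r θ ∈ ball x R := by
        rw [mem_ball, dist_cm x hr']; exact hrR
      rw [hHr r hr' θ hθ, indicator_of_mem hmem]
      ring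
    rw [h2]; ring
  · have h3 : ker n s r = 0 := ker_of_gt (by linarith only [hn, hrR])
    rw [h3, zero_mul]
    have h2 : ∫ θ in ang, F (circleMap x r θ) * H (circleMap x r θ) = 0 := by
      rw [setIntegral_congr_fun (g := fun _ => 0) measurableSet_Ioo]
      · simp only [integral_zero]
      intro θ hθ
      beta_reduce
      rw [hHr r hr' θ hθ, h3]; ring
    rw [h2, mul_zero]

theorem exists_tube {x : ℂ} {s : ℝ} {K W : Set ℂ} (hW : IsCompact W)
    (hd : ∀ w ∈ W, x + s • w ∉ closure K) :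
    ∃ d > 0, ∀ ρ : ℝ, |ρ - s| < d → ∀ w ∈ W, x + ρ • w ∉ closure K := by
  have hm : Continuous fun p : ℝ × ℂ => x + p.1 • p.2 := by (clear * -; fun_prop)
  have hopen : IsOpen ((fun p : ℝ × ℂ => x + p.1 • p.2) ⁻¹' (closure K)ᶜ) :=
    isClosed_closure.isOpen_compl.preimage hm
  obtain ⟨U, V, hU, hV, hsU, hWV, hUV⟩ := generalized_tube_lemma (isCompact_singleton (x := s))
    hW hopen (by
      rintro ⟨a, b⟩ ⟨ha, hb⟩
      rw [mem_singleton_iff] at ha
      simp only at ha
      subst ha
      exact hd b hb)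
  obtain ⟨d, hd0, hdU⟩ := Metric.isOpen_iff.mp hU s (hsU rfl)
  refine ⟨d, hd0, fun ρ hρ w hw => ?_⟩
  exact hUV (mk_mem_prod (hdU (by rwa [mem_ball, Real.dist_eq])) (hWV hw))

/-- Weak derivative along the unit circle off the set `Θ`. -/
def CircWeak (Θ : Set ℂ) (f h : ℝ → ℝ) : Prop :=
  ∀ Φ : ℂ → ℝ, ContDiff ℝ ∞ Φ → Disjoint (tsupport Φ) Θ →
    ∫ θ in ang, f θ * fderiv ℝ Φ (circleMap 0 1 θ) (circleMap 0 1 θ * Complex.I) =
      - ∫ θ in ang, h θ * Φ (circleMap 0 1 θ)

theorem integrable_ball_of_memLp {F : ℂ → ℝ} (hF : MemLp F 2 volume) (x : ℂ) (R : ℝ) :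
    Integrable ((ball x R).indicator F) := by
  rw [integrable_indicator_iff measurableSet_ball]
  have : MemLp F 2 (volume.restrict (ball x R)) := hF.restrict _
  have hfin : IsFiniteMeasure (volume.restrict (ball x R)) :=
    ⟨by rw [Measure.restrict_apply_univ]; exact measure_ball_lt_top⟩
  exact this.integrable (by norm_num)

theorem fderiv_rot (x : ℂ) {φ Φ : ℂ → ℝ} {η : ℝ → ℝ} (hφ : ContDiff ℝ ∞ φ)
    (hΦ : ContDiff ℝ ∞ Φ) (he : ∀ z, φ z = η ‖z - x‖ * Φ (dirn x z)) {r : ℝ} (hr : 0 < r)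
    (θ : ℝ) :
    fderiv ℝ φ (circleMap x r θ) ((circleMap x r θ - x) * Complex.I) =
      η r * fderiv ℝ Φ (circleMap 0 1 θ) (circleMap 0 1 θ * Complex.I) := by
  have h1 : HasDerivAt (fun t => φ (circleMap x r t))
      (fderiv ℝ φ (circleMap x r θ) (circleMap 0 r θ * Complex.I)) θ :=
    ((hφ.differentiable (by simp)) _).hasFDerivAt.comp_hasDerivAt θ (hasDerivAt_circleMap x r θ)
  have h2 : HasDerivAt (fun t => η r * Φ (circleMap 0 1 t))
      (η r * fderiv ℝ Φ (circleMap 0 1 θ) (circleMap 0 1 θ * Complex.I)) θ :=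
    (((hΦ.differentiable (by simp)) _).hasFDerivAt.comp_hasDerivAt θ
      (hasDerivAt_circleMap 0 1 θ)).const_mul _
  have h3 : (fun t => φ (circleMap x r t)) = fun t => η r * Φ (circleMap 0 1 t) := by
    funext t
    rw [he, norm_circleMap_sub x hr, dirn_circleMap x hr]
  rw [h3] at h1
  rw [circleMap_sub_center]
  exact h1.unique h2

theorem continuous_rotDeriv {Φ : ℂ → ℝ} (hΦ : ContDiff ℝ ∞ Φ) :
    Continuous fun θ : ℝ =>
      fderiv ℝ Φ (circleMap 0 1 θ) (circleMap 0 1 θ * Complex.I) := by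
  have h := hΦ.continuous_fderiv (by simp)
  have hc := continuous_circleMap 0 1
  exact (h.comp hc).clm_apply (hc.mul continuous_const)

/-- Almost every circle: the tangential part of `G` is the weak derivative of the slice. -/
theorem Loc.ae_circWeak {x : ℂ} {R : ℝ} {Ω K : Set ℂ} {u : ℂ → ℝ} {G : ℂ → ℂ}
    (h : Loc x R Ω K u G) :
    ∀ᵐ s : ℝ, 0 < s → s < R →
      CircWeak {w | ‖w‖ = 1 ∧ x + s • w ∈ K} (fun θ => u (circleMap x s θ))
        (fun θ => s * inner ℝ (G (circleMap x s θ)) (circleMap 0 1 θ * Complex.I)) := by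
  have hGre : MemLp (fun z => (G z).re) 2 volume := h.G2.re
  have hGim : MemLp (fun z => (G z).im) 2 volume := h.G2.im
  have mre : Measurable fun z => (G z).re := Complex.measurable_re.comp h.Gm
  have mim : Measurable fun z => (G z).im := Complex.measurable_im.comp h.Gm
  have z0 : ∀ F : ℂ → ℝ, ∀ z, R ≤ dist z x → (ball x R).indicator F z = 0 := fun F z hz =>
    indicator_of_notMem (by rw [mem_ball]; exact not_lt.mpr hz) _
  have iu := integrable_ball_of_memLp h.u2 x R
  have ire := integrable_ball_of_memLp hGre x R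
  have iim := integrable_ball_of_memLp hGim x R
  have mu' := h.um.indicator (measurableSet_ball (x := x) (ε := R))
  have mre' := mre.indicator (measurableSet_ball (x := x) (ε := R))
  have mim' := mim.indicator (measurableSet_ball (x := x) (ε := R))
  filter_upwards [ae_lebPt_circInt x mu' iu (z0 u), ae_lebPt_circInt x mre' ire (z0 _),
    ae_lebPt_circInt x mim' iim (z0 _), ae_integrable_circle x mre' ire,
    ae_integrable_circle x mim' iim] with s hsu hsre hsim hire hiim hs0 hsR Φ hΦ hdisj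
  have hsu := hsu hs0
  have hsre := hsre hs0
  have hsim := hsim hs0
  have hire := hire hs0
  have hiim := hiim hs0
  -- the tube
  set W : Set ℂ := tsupport Φ ∩ sphere 0 1 with hWdef
  have hW : IsCompact W := (isCompact_sphere 0 1).inter_left (isClosed_tsupport Φ)
  have hWd : ∀ w ∈ W, x + s • w ∉ closure K := by
    rintro w ⟨hw1, hw2⟩ hcl
    have hw3 : ‖w‖ = 1 := by simpa only [mem_sphere_iff_norm, sub_zero] using hw2
    have hΩ : x + s • w ∈ Ω := h.sub (by
      rw [mem_closedBall, dist_eq_norm, add_sub_cancel_left, norm_smul, hw3, mul_one,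
        Real.norm_eq_abs, abs_of_pos hs0]
      exact hsR.le)
    exact disjoint_left.mp hdisj hw1 ⟨hw3, h.relClosed ⟨hΩ, hcl⟩⟩
  obtain ⟨d, hd0, hd⟩ := exists_tube hW hWd
  -- weights
  let Ψu : ℝ × ℝ → ℝ := fun p =>
    fderiv ℝ Φ (circleMap 0 1 p.2) (circleMap 0 1 p.2 * Complex.I)
  let Ψ1 : ℝ × ℝ → ℝ := fun p => (p.1 * (circleMap 0 1 p.2 * Complex.I).re) *
    Φ (circleMap 0 1 p.2)
  let Ψ2 : ℝ × ℝ → ℝ := fun p => (p.1 * (circleMap 0 1 p.2 * Complex.I).im) *
    Φ (circleMap 0 1 p.2)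
  have hcm : Continuous fun p : ℝ × ℝ => circleMap 0 1 p.2 :=
    (continuous_circleMap 0 1).comp continuous_snd
  have cu : Continuous Ψu := (continuous_rotDeriv hΦ).comp continuous_snd
  have c1 : Continuous Ψ1 := (continuous_fst.mul
    (Complex.continuous_re.comp (hcm.mul continuous_const))).mul (hΦ.continuous.comp hcm)
  have c2 : Continuous Ψ2 := (continuous_fst.mul
    (Complex.continuous_im.comp (hcm.mul continuous_const))).mul (hΦ.continuous.comp hcm)
  have Lu := (hsu Ψu cu).tendsto_ker (integrable_circInt x mu' iu (z0 _) cu)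
  have L1 := (hsre Ψ1 c1).tendsto_ker (integrable_circInt x mre' ire (z0 _) c1)
  have L2 := (hsim Ψ2 c2).tendsto_ker (integrable_circInt x mim' iim (z0 _) c2)
  have L12 := (L1.add L2).neg
  have hev : ∀ᶠ n : ℕ in atTop, 1 / ((n : ℝ) + 1) < min d (R - s) :=
    (tendsto_one_div_add_atTop_nhds_zero_nat).eventually
      (gt_mem_nhds (lt_min hd0 (by linarith)))
  have key : ∀ᶠ n : ℕ in atTop,
      ∫ r, ker n s r * circInt x ((ball x R).indicator u) Ψu r =
      -((∫ r, ker n s r * circInt x ((ball x R).indicator fun z => (G z).re) Ψ1 r) +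
        ∫ r, ker n s r * circInt x ((ball x R).indicator fun z => (G z).im) Ψ2 r) := by
    filter_upwards [hev] with n hn
    have hn1 : 1 / ((n : ℝ) + 1) < d := lt_of_lt_of_le hn (min_le_left _ _)
    have hn2 : s + 1 / ((n : ℝ) + 1) < R := by
      have := lt_of_lt_of_le hn (min_le_right _ _); linarith only [this]
    let φ : ℂ → ℝ := fun z => ker n s ‖z - x‖ * Φ (dirn x z)
    have hφ : ContDiff ℝ ∞ φ :=
      contDiff_rad_mul (contDiff_ker n s) hs0 (fun r hr => ker_of_lt hr) hΦ
    -- support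
    set Kn : Set ℂ := (fun p : ℝ × ℂ => x + p.1 • p.2) ''
      (Icc s (s + 1 / ((n : ℝ) + 1)) ×ˢ W) with hKn
    have hKnc : IsCompact Kn :=
      (isCompact_Icc.prod hW).image (by fun_prop)
    have hsupp : Function.support φ ⊆ Kn := by
      intro z hz
      rw [Function.mem_support] at hz
      have hz1 : ker n s ‖z - x‖ ≠ 0 := left_ne_zero_of_mul hz
      have hz2 : Φ (dirn x z) ≠ 0 := right_ne_zero_of_mul hz
      have hr1 : s ≤ ‖z - x‖ := by
        by_contra hlt; exact hz1 (ker_of_lt (not_le.mp hlt))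
      have hr2 : ‖z - x‖ ≤ s + 1 / ((n : ℝ) + 1) := by
        by_contra hlt; exact hz1 (ker_of_gt (not_le.mp hlt))
      have hne : ‖z - x‖ ≠ 0 := by linarith only [hs0, hr1]
      refine ⟨(‖z - x‖, dirn x z), ⟨⟨hr1, hr2⟩, subset_tsupport _ hz2, ?_⟩, ?_⟩
      · rw [mem_sphere_zero_iff_norm, dirn, norm_smul, norm_inv, norm_norm,
          inv_mul_cancel₀ hne]
      · simp only [dirn]
        rw [smul_smul, mul_inv_cancel₀ hne, one_smul]; ring
    have hts : tsupport φ ⊆ Kn := closure_minimal hsupp hKnc.isClosed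
    have hφc : HasCompactSupport φ := hKnc.of_isClosed_subset (isClosed_tsupport φ) hts
    have hφU : tsupport φ ⊆ Ω \ K := by
      intro z hz
      obtain ⟨⟨ρ, w⟩, ⟨hρ, hw⟩, rfl⟩ := hts hz
      simp only at hρ hw ⊢
      have hw3 : ‖w‖ = 1 := by simpa only [mem_sphere_iff_norm, sub_zero] using hw.2
      have hρ0 : 0 < ρ := lt_of_lt_of_le hs0 hρ.1
      refine ⟨h.sub ?_, fun hK => ?_⟩
      · rw [mem_closedBall, dist_eq_norm, add_sub_cancel_left, norm_smul, hw3, mul_one,
          Real.norm_eq_abs, abs_of_pos hρ0]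
        linarith only [hn2, hρ.2]
      · refine hd ρ ?_ w hw (subset_closure hK)
        rw [abs_of_nonneg (by linarith only [hρ.1])]
        linarith only [hn1, hρ.2]
    have hrot := h.weak.rot h.liu h.liG hφ hφc hφU x
    -- left side
    have hcH : Continuous fun z => fderiv ℝ φ z ((z - x) * Complex.I) :=
      (hφ.continuous_fderiv (by simp)).clm_apply (by fun_prop)
    have hcsH : HasCompactSupport fun z => fderiv ℝ φ z ((z - x) * Complex.I) := by
      refine HasCompactSupport.intro hφc fun z hz => ?_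
      have : fderiv ℝ φ z = 0 := by
        by_contra hne
        exact hz (support_fderiv_subset ℝ (f := φ) hne)
      simp [this]
    have E1 := integral_polar_ker x (F := u) (Ψ := Ψu) hs0 h.um h.liu hcH hcsH hn2
      (fun r hr θ _ => fderiv_rot x hφ hΦ (fun z => rfl) hr θ)
    -- right side
    have hcφ : ∀ L : ℂ → ℝ, Continuous L →
        Continuous (fun z => L ((z - x) * Complex.I) * φ z) ∧
        HasCompactSupport (fun z => L ((z - x) * Complex.I) * φ z) := fun L hL =>
      ⟨(hL.comp (by fun_prop)).mul hφ.continuous, hφc.mul_left⟩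
    have lire : LocallyIntegrable fun z => (G z).re := hGre.locallyIntegrable (by norm_num)
    have liim : LocallyIntegrable fun z => (G z).im := hGim.locallyIntegrable (by norm_num)
    have E2 := integral_polar_ker x (F := fun z => (G z).re) (Ψ := Ψ1) hs0 mre lire
      (hcφ Complex.re Complex.continuous_re).1 (hcφ Complex.re Complex.continuous_re).2 hn2
      (fun r hr θ _ => by
        simp only [φ, Ψ1]
        rw [norm_circleMap_sub x hr, dirn_circleMap x hr, circleMap_eq, add_sub_cancel_left,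
          Complex.real_smul, mul_assoc (r : ℂ), Complex.re_ofReal_mul]
        ring)
    have E3 := integral_polar_ker x (F := fun z => (G z).im) (Ψ := Ψ2) hs0 mim liim
      (hcφ Complex.im Complex.continuous_im).1 (hcφ Complex.im Complex.continuous_im).2 hn2
      (fun r hr θ _ => by
        simp only [φ, Ψ2]
        rw [norm_circleMap_sub x hr, dirn_circleMap x hr, circleMap_eq, add_sub_cancel_left,
          Complex.real_smul, mul_assoc (r : ℂ), Complex.im_ofReal_mul]
        ring)
    rw [← E1, ← E2, ← E3, hrot]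
    congr 1
    rw [← integral_add]
    · refine integral_congr_ae (Eventually.of_forall fun z => ?_)
      simp only [inner_eq]
      ring
    · exact integrable_mul_cc lire (hcφ Complex.re Complex.continuous_re).1
        (hcφ Complex.re Complex.continuous_re).2
    · exact integrable_mul_cc liim (hcφ Complex.im Complex.continuous_im).1
        (hcφ Complex.im Complex.continuous_im).2
  have hlim := tendsto_nhds_unique (Lu.congr' key) L12
  rw [circInt_of_pos hs0, circInt_of_pos hs0, circInt_of_pos hs0] at hlim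
  have hin : ∀ θ : ℝ, circleMap x s θ ∈ ball x R := fun θ => by
    rw [mem_ball, dist_cm x hs0]; exact hsR
  simp only [indicator_of_mem (hin _)] at hlim hire hiim
  have hbd : ∀ (Ψ : ℝ × ℝ → ℝ) (F : ℝ → ℝ), Continuous Ψ → IntegrableOn F ang →
      IntegrableOn (fun θ => F θ * Ψ (s, θ)) ang := by
    intro Ψ F h1 h2
    obtain ⟨C, hC⟩ := (isCompact_Icc (a := -π) (b := π)).exists_bound_of_continuousOn
      (f := fun θ => Ψ (s, θ)) (h1.comp (by fun_prop)).continuousOn
    refine Integrable.mul_bdd (c := C) h2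
      (h1.comp (by fun_prop : Continuous fun θ : ℝ => (s, θ))).aestronglyMeasurable ?_
    refine (ae_restrict_mem measurableSet_Ioo).mono fun θ hθ => ?_
    exact hC θ ⟨hθ.1.le, hθ.2.le⟩
  have h6 : (∫ θ in ang, (G (circleMap x s θ)).re * Ψ1 (s, θ)) +
      (∫ θ in ang, (G (circleMap x s θ)).im * Ψ2 (s, θ)) =
      ∫ θ in ang, s * inner ℝ (G (circleMap x s θ)) (circleMap 0 1 θ * Complex.I) *
        Φ (circleMap 0 1 θ) := by
    rw [← integral_add (hbd Ψ1 _ c1 hire) (hbd Ψ2 _ c2 hiim)]
    refine integral_congr_ae (Eventually.of_forall fun θ => ?_)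
    simp only [Ψ1, Ψ2, inner_eq]
    ring
  rw [← mul_add, h6, ← mul_neg] at hlim
  exact mul_left_cancel₀ hs0.ne' hlim

end Vale.Agent.P128
end

section

open MeasureTheory Set Metric Filter
open scoped ENNReal NNReal Topology Real ContDiff

namespace Vale.Agent.P128

theorem contDiff_rcut_rho (n : ℕ) {s : ℝ} (hs : 0 < s) (x : ℂ) :
    ContDiff ℝ ∞ (fun z => rcut n s ‖z - x‖) :=
  contDiff_rad (contDiff_rcut n s) hs fun _ hr => cut_of_le hr.le

theorem fderiv_rcut_rho (n : ℕ) {s : ℝ} (hs : 0 < s) (x z v : ℂ) :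
    fderiv ℝ (fun z => rcut n s ‖z - x‖) z v =
      ker n s ‖z - x‖ * inner ℝ (dirn x z) v := by
  by_cases hz : z = x
  · have h1 : (fun z => rcut n s ‖z - x‖) =ᶠ[𝓝 z] fun _ => 0 := by
      filter_upwards [ball_mem_nhds z hs] with y hy
      rw [mem_ball, hz, dist_eq_norm] at hy
      exact cut_of_le hy.le
    rw [h1.fderiv_eq]
    have : dirn x z = 0 := by rw [hz]; simp [dirn]
    rw [this]
    simp
  · rw [fderiv_rad (contDiff_rcut n s) hz, (hasDerivAt_rcut n s _).deriv]

theorem tendsto_rcut {s r : ℝ} :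
    Tendsto (fun n : ℕ => rcut n s r) atTop (𝓝 ((Ioi s).indicator (fun _ => (1 : ℝ)) r)) := by
  by_cases hr : s < r
  · rw [indicator_of_mem (show r ∈ Ioi s from hr)]
    refine tendsto_const_nhds.congr' ?_
    filter_upwards [(tendsto_one_div_add_atTop_nhds_zero_nat (𝕜 := ℝ)).eventually
      (gt_mem_nhds (show (0 : ℝ) < r - s by linarith))] with n hn
    exact (cut_of_ge (by linarith)).symm
  · rw [indicator_of_notMem (show r ∉ Ioi s from hr)]
    refine tendsto_const_nhds.congr' (Eventually.of_forall fun n => ?_)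
    exact (cut_of_le (not_lt.mp hr)).symm

/-- Almost every circle: integration by parts outside the disk. -/
theorem Loc.ae_outer {x : ℂ} {R : ℝ} {Ω K : Set ℂ} {u : ℂ → ℝ} {G : ℂ → ℂ}
    (h : Loc x R Ω K u G) :
    ∀ᵐ s : ℝ, 0 < s → s < R → ∀ φ : ℂ → ℝ, ContDiff ℝ ∞ φ → HasCompactSupport φ →
      tsupport φ ⊆ Ω → Disjoint (tsupport φ) (K \ ball x s) → ∀ v : ℂ,
      ∫ z in (closedBall x s)ᶜ, (u z * fderiv ℝ φ z v + inner ℝ (G z) v * φ z) =
        - (s * ∫ θ in ang, u (circleMap x s θ) *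
          (φ (circleMap x s θ) * inner ℝ (circleMap 0 1 θ) v)) := by
  have z0 : ∀ F : ℂ → ℝ, ∀ z, R ≤ dist z x → (ball x R).indicator F z = 0 := fun F z hz =>
    indicator_of_notMem (by rw [mem_ball]; exact not_lt.mpr hz) _
  have iu := integrable_ball_of_memLp h.u2 x R
  have mu' := h.um.indicator (measurableSet_ball (x := x) (ε := R))
  filter_upwards [ae_lebPt_circInt x mu' iu (z0 u)] with s hsu hs0 hsR φ hφ hφc hφΩ hφK v
  have hsu := hsu hs0
  let Ψ : ℝ × ℝ → ℝ := fun p => φ (circleMap x p.1 p.2) * inner ℝ (circleMap 0 1 p.2) v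
  have hcm : Continuous fun p : ℝ × ℝ => circleMap 0 1 p.2 :=
    (continuous_circleMap 0 1).comp continuous_snd
  have cΨ : Continuous Ψ :=
    (hφ.continuous.comp (continuous_circleMap_uncurry x)).mul (hcm.inner continuous_const)
  have Lu := ((hsu Ψ cΨ).tendsto_ker (integrable_circInt x mu' iu (z0 _) cΨ)).neg
  have hcφ : Continuous fun z => fderiv ℝ φ z v :=
    (hφ.continuous_fderiv (by simp)).clm_apply continuous_const
  have i1 := integrable_mul_cc h.liu hcφ (hφc.fderiv_apply ℝ v)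
  have i2 := integrable_mul_cc (locallyIntegrable_inner h.liG v) hφ.continuous hφc
  have hDint : Integrable fun z => u z * fderiv ℝ φ z v + inner ℝ (G z) v * φ z := i1.add i2
  have hev : ∀ᶠ n : ℕ in atTop, 1 / ((n : ℝ) + 1) < R - s :=
    (tendsto_one_div_add_atTop_nhds_zero_nat).eventually
      (gt_mem_nhds (by linarith))
  have key : ∀ᶠ n : ℕ in atTop,
      -(∫ r, ker n s r * circInt x ((ball x R).indicator u) Ψ r) =
      ∫ z, rcut n s ‖z - x‖ * (u z * fderiv ℝ φ z v + inner ℝ (G z) v * φ z) := by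
    filter_upwards [hev] with n hn
    have hn2 : s + 1 / ((n : ℝ) + 1) < R := by linarith
    have hc1 := contDiff_rcut_rho n hs0 x
    have hψ : ContDiff ℝ ∞ (fun z => rcut n s ‖z - x‖ * φ z) := hc1.mul hφ
    have hψc : HasCompactSupport (fun z => rcut n s ‖z - x‖ * φ z) := hφc.mul_left
    have hcl : IsClosed {z : ℂ | s ≤ ‖z - x‖} := isClosed_le continuous_const (by fun_prop)
    have hψU : tsupport (fun z => rcut n s ‖z - x‖ * φ z) ⊆ Ω \ K := by
      intro z hz
      have h1 : z ∈ tsupport φ := tsupport_mul_subset_right hz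
      have h2 : z ∈ tsupport (fun z => rcut n s ‖z - x‖) := tsupport_mul_subset_left hz
      have h3 : tsupport (fun z => rcut n s ‖z - x‖) ⊆ {z : ℂ | s ≤ ‖z - x‖} := by
        refine closure_minimal (fun y hy => ?_) hcl
        rw [Function.mem_support] at hy
        rw [mem_ofPred_eq]
        by_contra hlt
        exact hy (cut_of_le (not_le.mp hlt).le)
      have h4 := h3 h2
      refine ⟨hφΩ h1, fun hK => disjoint_left.mp hφK h1 ⟨hK, ?_⟩⟩
      rw [mem_ball, dist_eq_norm, not_lt]
      exact h4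
    have ht := h.weak.test hψ hψc hψU v
    have hfd : ∀ z, fderiv ℝ (fun z => rcut n s ‖z - x‖ * φ z) z v =
        rcut n s ‖z - x‖ * fderiv ℝ φ z v +
          φ z * fderiv ℝ (fun z => rcut n s ‖z - x‖) z v := by
      intro z
      rw [fderiv_fun_mul (hc1.differentiable (by simp) z) (hφ.differentiable (by simp) z)]
      simp
    have hcH : Continuous fun z => φ z * fderiv ℝ (fun z => rcut n s ‖z - x‖) z v :=
      hφ.continuous.mul ((hc1.continuous_fderiv (by simp)).clm_apply continuous_const)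
    have hcsH : HasCompactSupport fun z =>
        φ z * fderiv ℝ (fun z => rcut n s ‖z - x‖) z v := hφc.mul_right
    have E1 := integral_polar_ker x (F := u) (Ψ := Ψ) hs0 h.um h.liu hcH hcsH hn2
      (fun r hr θ _ => by
        simp only [Ψ]
        rw [fderiv_rcut_rho n hs0, norm_circleMap_sub x hr, dirn_circleMap x hr]
        ring)
    rw [← E1]
    simp only [hfd, mul_add] at ht
    have j1 : Integrable fun z => u z * (rcut n s ‖z - x‖ * fderiv ℝ φ z v) :=
      integrable_mul_cc h.liu (hc1.continuous.mul hcφ) ((hφc.fderiv_apply ℝ v).mul_left)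
    have j2 : Integrable fun z => u z * (φ z * fderiv ℝ (fun z => rcut n s ‖z - x‖) z v) :=
      integrable_mul_cc h.liu hcH hcsH
    have j3 : Integrable fun z => inner ℝ (G z) v * (rcut n s ‖z - x‖ * φ z) :=
      integrable_mul_cc (locallyIntegrable_inner h.liG v) hψ.continuous hψc
    rw [integral_add j1 j2] at ht
    have e3 : ∫ z, rcut n s ‖z - x‖ * (u z * fderiv ℝ φ z v + inner ℝ (G z) v * φ z) =
        (∫ z, u z * (rcut n s ‖z - x‖ * fderiv ℝ φ z v)) +
          ∫ z, inner ℝ (G z) v * (rcut n s ‖z - x‖ * φ z) := by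
      rw [← integral_add j1 j3]
      refine integral_congr_ae (Eventually.of_forall fun z => ?_)
      simp only; ring
    rw [e3]
    linarith
  have hdct : Tendsto (fun n : ℕ => ∫ z, rcut n s ‖z - x‖ *
      (u z * fderiv ℝ φ z v + inner ℝ (G z) v * φ z)) atTop
      (𝓝 (∫ z, (Ioi s).indicator (fun _ => (1 : ℝ)) ‖z - x‖ *
        (u z * fderiv ℝ φ z v + inner ℝ (G z) v * φ z))) := by
    refine tendsto_integral_of_dominated_convergence
      (fun z => |u z * fderiv ℝ φ z v + inner ℝ (G z) v * φ z|) (fun n => ?_)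
      hDint.abs (fun n => Eventually.of_forall fun z => ?_)
      (Eventually.of_forall fun z => tendsto_rcut.mul_const _)
    · exact (contDiff_rcut_rho n hs0 x).continuous.aestronglyMeasurable.mul hDint.1
    · rw [Real.norm_eq_abs, abs_mul, abs_of_nonneg (rcut_nonneg n s _)]
      exact mul_le_of_le_one_left (abs_nonneg _) (cut_le_one n s _)
  have hlim := tendsto_nhds_unique (Lu.congr' key) hdct
  have hR2 : ∫ z, (Ioi s).indicator (fun _ => (1 : ℝ)) ‖z - x‖ *
      (u z * fderiv ℝ φ z v + inner ℝ (G z) v * φ z) =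
      ∫ z in (closedBall x s)ᶜ, (u z * fderiv ℝ φ z v + inner ℝ (G z) v * φ z) := by
    rw [← integral_indicator measurableSet_closedBall.compl]
    refine integral_congr_ae (Eventually.of_forall fun z => ?_)
    simp only
    by_cases hz : s < ‖z - x‖
    · rw [indicator_of_mem (show ‖z - x‖ ∈ Ioi s from hz), indicator_of_mem, one_mul]
      rw [mem_compl_iff, mem_closedBall, dist_eq_norm, not_le]; exact hz
    · rw [indicator_of_notMem (show ‖z - x‖ ∉ Ioi s from hz), indicator_of_notMem, zero_mul]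
      rw [mem_compl_iff, mem_closedBall, dist_eq_norm, not_not]; exact not_lt.mp hz
  rw [hR2] at hlim
  rw [← hlim, circInt_of_pos hs0]
  congr 2
  refine integral_congr_ae (Eventually.of_forall fun θ => ?_)
  simp only [Ψ]
  rw [indicator_of_mem]
  rw [mem_ball, dist_cm x hs0]; exact hsR

end Vale.Agent.P128
end

section

open MeasureTheory Set Metric Filter
open scoped ENNReal NNReal Topology Real ContDiff

namespace Vale.Agent.P128

theorem vol_sphere_zero (x : ℂ) {s : ℝ} (hs : s ≠ 0) : volume (sphere x s) = 0 :=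
  Measure.addHaar_sphere_of_ne_zero volume x hs

theorem compl_ball_ae (x : ℂ) {s : ℝ} (hs : s ≠ 0) :
    ((ball x s)ᶜ : Set ℂ) =ᵐ[volume] ((closedBall x s)ᶜ : Set ℂ) := by
  have h : (ball x s : Set ℂ) =ᵐ[volume] closedBall x s := by
    rw [← ball_union_sphere]
    have := union_ae_eq_left_of_ae_eq_empty (s := ball x s)
      (ae_eq_empty.mpr (vol_sphere_zero x hs))
    exact this.symm
  exact h.compl

theorem MemLp.of_ball_piecewise {E : Type*} [NormedAddCommGroup E] {x : ℂ} {s : ℝ}
    {f g : ℂ → E} [∀ z, Decidable (z ∈ ball x s)]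
    (hf : MemLp f 2 (volume.restrict (ball x s))) (hg : MemLp g 2 (volume : Measure ℂ)) :
    MemLp ((ball x s).piecewise f g) 2 (volume : Measure ℂ) :=
  MemLp.piecewise measurableSet_ball hf (hg.restrict _)

open scoped Classical in
/-- Comparison with a function glued along almost every circle. -/
theorem Nice.glue_compare {Ω K : Set ℂ} {g u : ℂ → ℝ} {G : ℂ → ℂ} {M : ℝ}
    (N : Nice Ω g u G K M) {x : ℂ} {R : ℝ} (hR : closedBall x R ⊆ Ω) :
    ∀ᵐ s : ℝ, 0 < s → s < R → ∀ (Wi : ℂ → ℝ) (Gi : ℂ → ℂ) (Li : Set ℂ),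
      MemLp Wi 2 (volume.restrict (ball x s)) → MemLp Gi 2 (volume.restrict (ball x s)) →
      IsClosed Li → Li ⊆ closedBall x s →
      (∀ φ : ℂ → ℝ, ContDiff ℝ ∞ φ → HasCompactSupport φ → tsupport φ ⊆ Ω →
        Disjoint (tsupport φ) Li → Disjoint (tsupport φ) (K \ ball x s) → ∀ v : ℂ,
        ∫ z in ball x s, (Wi z * fderiv ℝ φ z v + inner ℝ (Gi z) v * φ z) =
          s * ∫ θ in ang, u (circleMap x s θ) *
            (φ (circleMap x s θ) * inner ℝ (circleMap 0 1 θ) v)) →
      (∫⁻ z in ball x s, ENNReal.ofReal (‖G z‖ ^ 2)) + μH[1] (K ∩ ball x s) +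
          ∫⁻ z in ball x s, ENNReal.ofReal ((u z - g z) ^ 2) ≤
        (∫⁻ z in ball x s, ENNReal.ofReal (‖Gi z‖ ^ 2)) + μH[1] Li +
          ∫⁻ z in ball x s, ENNReal.ofReal ((Wi z - g z) ^ 2) := by
  filter_upwards [(N.loc hR).ae_outer] with s hs hs0 hsR Wi Gi Li hW hG hLc hLs hin
  have hout := hs hs0 hsR
  rcases eq_or_ne (μH[1] Li) ⊤ with hLtop | hLtop
  · rw [hLtop]; simp only [norm_nonneg, ENNReal.ofReal_pow, ofReal_norm, add_top, top_add, le_top]
  set B : Set ℂ := ball x s with hB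
  have hBm : MeasurableSet B := measurableSet_ball
  have hu := N.memLp_u
  have hGG := N.memLp_G
  have hKm : MeasurableSet K := N.min.1.measurableSet N.isOpen
  set w : ℂ → ℝ := B.piecewise Wi u with hw
  set H : ℂ → ℂ := B.piecewise Gi G with hH
  have hw2 : MemLp w 2 volume := MemLp.of_ball_piecewise hW hu
  have hH2 : MemLp H 2 volume := MemLp.of_ball_piecewise hG hGG
  have liw : LocallyIntegrable w := hw2.locallyIntegrable (by norm_num)
  have liH : LocallyIntegrable H := hH2.locallyIntegrable (by norm_num)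
  set L : Set ℂ := (K \ B) ∪ Li with hL
  -- weak gradient
  have hweak : IsWeakGrad (Ω \ L) w H := by
    refine isWeakGrad_of_test fun φ h1 h2 h3 v => ?_
    have hφΩ : tsupport φ ⊆ Ω := h3.trans sdiff_subset
    have hd1 : Disjoint (tsupport φ) (K \ B) := by
      rw [disjoint_left]
      exact fun z hz hz' => (h3 hz).2 (Or.inl hz')
    have hd2 : Disjoint (tsupport φ) Li := by
      rw [disjoint_left]
      exact fun z hz hz' => (h3 hz).2 (Or.inr hz')
    have e1 := hin φ h1 h2 hφΩ hd2 hd1 v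
    have e2 := hout φ h1 h2 hφΩ hd1 v
    have hcφ : Continuous fun z => fderiv ℝ φ z v :=
      (h1.continuous_fderiv (by simp)).clm_apply continuous_const
    have i1 := integrable_mul_cc liw hcφ (h2.fderiv_apply ℝ v)
    have i2 := integrable_mul_cc (locallyIntegrable_inner liH v) h1.continuous h2
    have hD : Integrable fun z => w z * fderiv ℝ φ z v + inner ℝ (H z) v * φ z := i1.add i2
    have hsplit := integral_add_compl hBm hD
    have e3 : ∫ z in B, (w z * fderiv ℝ φ z v + inner ℝ (H z) v * φ z) =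
        ∫ z in B, (Wi z * fderiv ℝ φ z v + inner ℝ (Gi z) v * φ z) := by
      refine setIntegral_congr_fun hBm fun z hz => ?_
      simp only [hw, hH, piecewise_eq_of_mem _ _ _ hz]
    have e4 : ∫ z in Bᶜ, (w z * fderiv ℝ φ z v + inner ℝ (H z) v * φ z) =
        ∫ z in (closedBall x s)ᶜ, (u z * fderiv ℝ φ z v + inner ℝ (G z) v * φ z) := by
      rw [setIntegral_congr_set (compl_ball_ae x hs0.ne')]
      refine setIntegral_congr_fun measurableSet_closedBall.compl fun z hz => ?_
      have hz' : z ∉ B := fun h => hz (ball_subset_closedBall h)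
      simp only [hw, hH, piecewise_eq_of_notMem _ _ _ hz']
    rw [e3, e4, e1, e2, integral_add i1 i2] at hsplit
    linarith only [hsplit]
  have hLsub : L ⊆ Ω := by
    rintro z (hz | hz)
    · exact N.min.1.subset hz.1
    · exact hR (closedBall_subset_closedBall hsR.le (hLs hz))
  have hfin : μH[1] L < ⊤ := by
    refine lt_of_le_of_lt (measure_union_le _ _) (ENNReal.add_lt_top.mpr ⟨?_, hLtop.lt_top⟩)
    exact lt_of_le_of_lt (measure_mono sdiff_subset) N.min.1.finite
  have hrel : Ω ∩ closure L ⊆ L := by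
    rintro z ⟨hzΩ, hz⟩
    rw [hL, closure_union, hLc.closure_eq] at hz
    rcases hz with hz | hz
    · left
      have h1 : z ∈ closure K := closure_mono sdiff_subset hz
      have h2 : z ∈ Bᶜ := by
        have : closure (K \ B) ⊆ Bᶜ :=
          closure_minimal (fun y hy => hy.2) isOpen_ball.isClosed_compl
        exact this hz
      exact ⟨N.min.1.relClosed ⟨hzΩ, h1⟩, h2⟩
    · exact Or.inr hz
  have hadm : Admissible Ω w H L :=
    { subset := hLsub
      relClosed := hrel
      finite := hfin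
      memLp := hw2.restrict _
      grad_memLp := hH2.restrict _
      weak := hweak }
  set V : Set ℂ := ball x R with hV
  have hVm : MeasurableSet V := measurableSet_ball
  have hBV : B ⊆ V := ball_subset_ball hsR.le
  have hclV : closure V ⊆ closedBall x R := closure_ball_subset_closedBall
  have hcomp := N.min.2 V isOpen_ball
    ((isCompact_closedBall x R).of_isClosed_subset isClosed_closure hclV)
    (hclV.trans hR) w H L hadm ⟨closedBall x s, isCompact_closedBall x s,
      closedBall_subset_ball hsR, ?_, ?_⟩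
  · -- energies
    have f1 : ∫⁻ z in V \ K, ENNReal.ofReal (‖G z‖ ^ 2) =
        (∫⁻ z in B, ENNReal.ofReal (‖G z‖ ^ 2)) + ∫⁻ z in V \ B, ENNReal.ofReal (‖G z‖ ^ 2) := by
      have h0 : ∫⁻ z in V \ K, ENNReal.ofReal (‖G z‖ ^ 2) =
          ∫⁻ z in V, ENNReal.ofReal (‖G z‖ ^ 2) := by
        rw [← lintegral_indicator (hVm.diff hKm), ← lintegral_indicator hVm]
        refine lintegral_congr fun z => ?_
        by_cases hzV : z ∈ V
        · by_cases hzK : z ∈ K
          · rw [indicator_of_notMem (fun h => h.2 hzK), indicator_of_mem hzV,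
              N.G0 z (fun h => h.2 hzK)]
            simp
          · rw [indicator_of_mem (show z ∈ V \ K from ⟨hzV, hzK⟩), indicator_of_mem hzV]
        · rw [indicator_of_notMem (fun h => hzV h.1), indicator_of_notMem hzV]
      rw [h0, ← lintegral_inter_add_sdiff _ V hBm, inter_eq_self_of_subset_right hBV]
    have f2 : μH[1] (K ∩ V) = μH[1] (K ∩ B) + μH[1] ((K ∩ V) \ B) := by
      rw [← measure_inter_add_sdiff (K ∩ V) hBm]
      congr 2
      rw [inter_assoc, inter_eq_self_of_subset_right hBV]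
    have f3 : ∫⁻ z in V, ENNReal.ofReal ((u z - g z) ^ 2) =
        (∫⁻ z in B, ENNReal.ofReal ((u z - g z) ^ 2)) +
          ∫⁻ z in V \ B, ENNReal.ofReal ((u z - g z) ^ 2) := by
      rw [← lintegral_inter_add_sdiff _ V hBm, inter_eq_self_of_subset_right hBV]
    have g1 : ∫⁻ z in V \ L, ENNReal.ofReal (‖H z‖ ^ 2) ≤
        (∫⁻ z in B, ENNReal.ofReal (‖Gi z‖ ^ 2)) +
          ∫⁻ z in V \ B, ENNReal.ofReal (‖G z‖ ^ 2) := by
      refine (lintegral_mono_set sdiff_subset).trans (le_of_eq ?_)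
      rw [← lintegral_inter_add_sdiff _ V hBm, inter_eq_self_of_subset_right hBV]
      congr 1
      · refine setLIntegral_congr_fun hBm fun z hz => ?_
        simp only [hH, piecewise_eq_of_mem _ _ _ hz]
      · refine setLIntegral_congr_fun (hVm.diff hBm) fun z hz => ?_
        simp only [hH, piecewise_eq_of_notMem _ _ _ hz.2]
    have g2 : μH[1] (L ∩ V) ≤ μH[1] Li + μH[1] ((K ∩ V) \ B) := by
      refine (measure_mono ?_).trans (measure_union_le _ _)
      rintro z ⟨hz | hz, hzV⟩
      · exact Or.inr ⟨⟨hz.1, hzV⟩, hz.2⟩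
      · exact Or.inl hz
    have g3 : ∫⁻ z in V, ENNReal.ofReal ((w z - g z) ^ 2) =
        (∫⁻ z in B, ENNReal.ofReal ((Wi z - g z) ^ 2)) +
          ∫⁻ z in V \ B, ENNReal.ofReal ((u z - g z) ^ 2) := by
      rw [← lintegral_inter_add_sdiff _ V hBm, inter_eq_self_of_subset_right hBV]
      congr 1
      · refine setLIntegral_congr_fun hBm fun z hz => ?_
        simp only [hw, piecewise_eq_of_mem _ _ _ hz]
      · refine setLIntegral_congr_fun (hVm.diff hBm) fun z hz => ?_
        simp only [hw, piecewise_eq_of_notMem _ _ _ hz.2]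
    set A1 := ∫⁻ z in V \ B, ENNReal.ofReal (‖G z‖ ^ 2) with hA1
    set A2 := μH[1] ((K ∩ V) \ B) with hA2
    set A3 := ∫⁻ z in V \ B, ENNReal.ofReal ((u z - g z) ^ 2) with hA3
    have t1 : A1 ≠ ⊤ := by
      have h1 := (hGG.restrict (V \ B)).integrable_norm_pow (by norm_num : (2 : ℕ) ≠ 0)
      have h2 := h1.2
      rw [hA1]
      refine ne_of_lt (lt_of_le_of_lt (lintegral_mono fun z => ?_) h2)
      rw [← Real.enorm_of_nonneg (by (clear * -; positivity))]
    have t2 : A2 ≠ ⊤ := by
      refine ne_of_lt (lt_of_le_of_lt (measure_mono ?_) N.min.1.finite)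
      exact fun z hz => hz.1.1
    have t3 : A3 ≠ ⊤ := by
      have hgV : MemLp g 2 (volume.restrict (V \ B)) := by
        have : IsFiniteMeasure (volume.restrict (V \ B)) :=
          ⟨by
            rw [Measure.restrict_apply_univ]
            exact lt_of_le_of_lt (measure_mono sdiff_subset) measure_ball_lt_top⟩
        exact MemLp.of_bound N.gm.aestronglyMeasurable M
          (Eventually.of_forall fun z => by simpa only [Real.norm_eq_abs] using N.gb z)
      have h1 := ((hu.restrict (V \ B)).sub hgV).integrable_sq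
      have h2 := h1.2
      rw [hA3]
      refine ne_of_lt (lt_of_le_of_lt (lintegral_mono fun z => ?_) h2)
      rw [← Real.enorm_of_nonneg (by (clear * -; positivity))]
      rfl
    have hfinal : (∫⁻ z in B, ENNReal.ofReal (‖G z‖ ^ 2)) + μH[1] (K ∩ B) +
          (∫⁻ z in B, ENNReal.ofReal ((u z - g z) ^ 2)) + (A1 + A2 + A3) ≤
        (∫⁻ z in B, ENNReal.ofReal (‖Gi z‖ ^ 2)) + μH[1] Li +
          (∫⁻ z in B, ENNReal.ofReal ((Wi z - g z) ^ 2)) + (A1 + A2 + A3) := by
      unfold energy at hcomp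
      rw [f1, f2, f3, g3] at hcomp
      calc _ = (∫⁻ z in B, ENNReal.ofReal (‖G z‖ ^ 2)) + A1 + (μH[1] (K ∩ B) + A2) +
            ((∫⁻ z in B, ENNReal.ofReal ((u z - g z) ^ 2)) + A3) := by ring
        _ ≤ _ := hcomp
        _ ≤ ((∫⁻ z in B, ENNReal.ofReal (‖Gi z‖ ^ 2)) + A1) + (μH[1] Li + A2) +
            ((∫⁻ z in B, ENNReal.ofReal ((Wi z - g z) ^ 2)) + A3) := by (clear * - g1 g2; gcongr)
        _ = _ := by ring
    exact (ENNReal.add_le_add_iff_right (by simp [t1, t2, t3])).mp hfinal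
  · -- symmetric difference
    intro z hz
    rw [mem_symmDiff] at hz
    rcases hz with ⟨hz | hz, hz'⟩ | ⟨hz, hz'⟩
    · exact absurd hz.1 hz'
    · exact hLs hz
    · by_contra hcon
      exact hz' (Or.inl ⟨hz, fun h => hcon (ball_subset_closedBall h)⟩)
  · refine Eventually.of_forall fun z hz => ?_
    have hz' : z ∉ B := fun h => hz (ball_subset_closedBall h)
    simp only [hw, piecewise_eq_of_notMem _ _ _ hz']

end Vale.Agent.P128
end

section

open MeasureTheory Set Metric Filter
open scoped ENNReal NNReal Topology Real ContDiff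

namespace Vale.Agent.P128

/-- The angle of `z` seen from `x`. -/
noncomputable def angl (x z : ℂ) : ℝ := Complex.arg (z - x)

theorem measurable_angl (x : ℂ) : Measurable (angl x) :=
  Complex.measurable_arg.comp (measurable_id.sub_const x)

theorem angl_circleMap (x : ℂ) {r : ℝ} (hr : 0 < r) {θ : ℝ} (hθ : θ ∈ ang) :
    angl x (circleMap x r θ) = θ := by
  unfold angl
  rw [circleMap_sub_center, circleMap_zero, Complex.exp_mul_I]
  exact Complex.arg_mul_cos_add_sin_mul_I hr ⟨hθ.1, hθ.2.le⟩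

theorem measurable_dirn (x : ℂ) : Measurable (dirn x) := by
  unfold dirn; (clear * -; fun_prop)

/-- Radial extension of a function of the angle. -/
noncomputable def extU (x : ℂ) (ζ f : ℝ → ℝ) (z : ℂ) : ℝ := ζ ‖z - x‖ * f (angl x z)

/-- Gradient of the radial extension. -/
noncomputable def extG (x : ℂ) (ζ ζ' f h : ℝ → ℝ) (z : ℂ) : ℂ :=
  (ζ' ‖z - x‖ * f (angl x z)) • dirn x z +
    (ζ ‖z - x‖ / ‖z - x‖ * h (angl x z)) • (dirn x z * Complex.I)

theorem measurable_extU (x : ℂ) {ζ f : ℝ → ℝ} (hζ : Measurable ζ) (hf : Measurable f) :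
    Measurable (extU x ζ f) := by
  unfold extU
  exact (hζ.comp (by fun_prop)).mul (hf.comp (measurable_angl x))

theorem measurable_extG (x : ℂ) {ζ ζ' f h : ℝ → ℝ} (hζ : Measurable ζ) (hζ' : Measurable ζ')
    (hf : Measurable f) (hh : Measurable h) :
    Measurable (extG x ζ ζ' f h) := by
  unfold extG
  have h1 : Measurable fun z : ℂ => ‖z - x‖ := by fun_prop
  have h2 := measurable_dirn x
  exact (((hζ'.comp h1).mul (hf.comp (measurable_angl x))).smul h2).add
    ((((hζ.comp h1).div h1).mul (hh.comp (measurable_angl x))).smul (h2.mul_const _))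

theorem extU_circleMap (x : ℂ) {ζ f : ℝ → ℝ} {r : ℝ} (hr : 0 < r) {θ : ℝ} (hθ : θ ∈ ang) :
    extU x ζ f (circleMap x r θ) = ζ r * f θ := by
  unfold extU
  rw [norm_circleMap_sub x hr, angl_circleMap x hr hθ]

theorem extG_circleMap (x : ℂ) {ζ ζ' f h : ℝ → ℝ} {r : ℝ} (hr : 0 < r) {θ : ℝ} (hθ : θ ∈ ang) :
    extG x ζ ζ' f h (circleMap x r θ) = (ζ' r * f θ) • circleMap 0 1 θ +
      (ζ r / r * h θ) • (circleMap 0 1 θ * Complex.I) := by
  unfold extG
  rw [norm_circleMap_sub x hr, angl_circleMap x hr hθ, dirn_circleMap x hr]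

theorem norm_extG_sq (e : ℂ) (he : ‖e‖ = 1) (a b : ℝ) :
    ‖a • e + b • (e * Complex.I)‖ ^ 2 = a ^ 2 + b ^ 2 := by
  have h1 : a • e + b • (e * Complex.I) = e * (a + b * Complex.I) := by
    simp only [Complex.real_smul]; ring
  rw [h1, norm_mul, he, one_mul, ← Complex.normSq_eq_norm_sq, Complex.normSq_add_mul_I]

theorem decomp_unit {e : ℂ} (he : ‖e‖ = 1) (v : ℂ) :
    v = (inner ℝ e v : ℝ) • e + (inner ℝ (e * Complex.I) v : ℝ) • (e * Complex.I) := by
  have h1 : e.re * e.re + e.im * e.im = 1 := by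
    have := Complex.normSq_eq_norm_sq e
    rw [he, Complex.normSq_apply] at this
    simpa only [one_pow] using this
  apply Complex.ext
  · simp only [inner_eq, Complex.real_smul, Complex.add_re, Complex.ofReal_re,
      Complex.ofReal_im, Complex.mul_re, Complex.mul_im, Complex.I_re, Complex.I_im]
    linear_combination (-v.re) * h1
  · simp only [inner_eq, Complex.real_smul, Complex.add_im, Complex.ofReal_re,
      Complex.ofReal_im, Complex.mul_re, Complex.mul_im, Complex.I_re, Complex.I_im]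
    linear_combination (-v.im) * h1

theorem integrable_mul_cont {f : ℝ → ℝ} (hf : IntegrableOn f ang) {g : ℝ → ℝ}
    (hg : Continuous g) : IntegrableOn (fun θ => f θ * g θ) ang := by
  obtain ⟨C, hC⟩ := (isCompact_Icc (a := -π) (b := π)).exists_bound_of_continuousOn
    (f := g) hg.continuousOn
  refine Integrable.mul_bdd (c := C) hf hg.aestronglyMeasurable ?_
  refine (ae_restrict_mem measurableSet_Ioo).mono fun θ hθ => ?_
  exact hC θ ⟨hθ.1.le, hθ.2.le⟩

/-- The slice relation tested with a test function of the plane restricted to a circle. -/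
theorem CircWeak.slice {Θ : Set ℂ} {f h : ℝ → ℝ} (hw : CircWeak Θ f h)
    (fi : IntegrableOn f ang) {φ : ℂ → ℝ} (hφ : ContDiff ℝ ∞ φ)
    {x : ℂ} {r : ℝ} (hd : ∀ w ∈ Θ, x + r • w ∉ tsupport φ) (v : ℂ) :
    ∫ θ in ang, f θ * (inner ℝ (circleMap 0 1 θ * Complex.I) v *
        fderiv ℝ φ (circleMap x r θ) (r • (circleMap 0 1 θ * Complex.I))) =
      (∫ θ in ang, f θ * (inner ℝ (circleMap 0 1 θ) v * φ (circleMap x r θ))) -
        ∫ θ in ang, h θ * (inner ℝ (circleMap 0 1 θ * Complex.I) v * φ (circleMap x r θ)) := by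
  let Φ : ℂ → ℝ := fun w => inner ℝ (w * Complex.I) v * φ (x + r • w)
  have hL : ContDiff ℝ ∞ (fun w : ℂ => (inner ℝ (w * Complex.I) v : ℝ)) :=
    (contDiff_id.mul contDiff_const).inner ℝ contDiff_const
  have hM : ContDiff ℝ ∞ (fun w : ℂ => φ (x + r • w)) :=
    hφ.comp (contDiff_const.add (contDiff_id.const_smul r))
  have hΦ : ContDiff ℝ ∞ Φ := hL.mul hM
  have hdisj : Disjoint (tsupport Φ) Θ := by
    rw [disjoint_left]
    intro w hw1 hw2
    have h1 : w ∈ tsupport (fun w : ℂ => φ (x + r • w)) := tsupport_mul_subset_right hw1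
    have hc : Continuous fun w : ℂ => x + r • w := by (clear * -; fun_prop)
    have h2 : tsupport (fun w : ℂ => φ (x + r • w)) ⊆ (fun w : ℂ => x + r • w) ⁻¹' tsupport φ := by
      refine closure_minimal (fun y hy => ?_) ((isClosed_tsupport φ).preimage hc)
      exact subset_tsupport φ hy
    exact hd w hw2 (h2 h1)
  have key := hw Φ hΦ hdisj
  have hfd : ∀ w, fderiv ℝ Φ w (w * Complex.I) =
      inner ℝ (w * Complex.I) v * fderiv ℝ φ (x + r • w) (r • (w * Complex.I)) -
        inner ℝ w v * φ (x + r • w) := by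
    intro w
    have d1 : HasFDerivAt (fun w : ℂ => (inner ℝ (w * Complex.I) v : ℝ))
        (fderiv ℝ (fun w : ℂ => (inner ℝ (w * Complex.I) v : ℝ)) w) w :=
      (hL.differentiable (by simp) w).hasFDerivAt
    have d1v : fderiv ℝ (fun w : ℂ => (inner ℝ (w * Complex.I) v : ℝ)) w (w * Complex.I) =
        inner ℝ (w * Complex.I * Complex.I) v := by
      have h1 : HasDerivAt (fun t : ℝ => (inner ℝ ((w + t • (w * Complex.I)) * Complex.I) v : ℝ))
          (inner ℝ (w * Complex.I * Complex.I) v) 0 := by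
        have h2 : (fun t : ℝ => (inner ℝ ((w + t • (w * Complex.I)) * Complex.I) v : ℝ)) =
            fun t => inner ℝ (w * Complex.I) v + t * inner ℝ (w * Complex.I * Complex.I) v := by
          funext t
          rw [add_mul, inner_add_left, smul_mul_assoc, real_inner_smul_left]
        rw [h2]
        simpa only [Complex.inner, map_mul, Complex.conj_I, mul_neg, Complex.neg_re, Complex.mul_re, Complex.conj_re,     Complex.I_re, mul_zero, Complex.conj_im, Complex.I_im, mul_one, sub_neg_eq_add, zero_add, Complex.mul_im, add_zero,     neg_sub, neg_mul, neg_neg, zero_sub, hasDerivAt_const_add_iff, id_eq, one_mul] using     ((hasDerivAt_id (0 : ℝ)).mul_const (inner ℝ (w * Complex.I * Complex.I) v : ℝ)).const_add       (inner ℝ (w * Complex.I) v : ℝ)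
      have h3 : HasDerivAt (fun t : ℝ => w + t • (w * Complex.I)) (w * Complex.I) 0 := by
        simpa using ((hasDerivAt_id (0 : ℝ)).smul_const (w * Complex.I)).const_add w
      have h4 : HasFDerivAt (fun w : ℂ => (inner ℝ (w * Complex.I) v : ℝ))
        (fderiv ℝ (fun w : ℂ => (inner ℝ (w * Complex.I) v : ℝ)) w)
        ((fun t : ℝ => w + t • (w * Complex.I)) 0) := by simpa only [Complex.inner, map_mul, Complex.conj_I, mul_neg, Complex.neg_re, Complex.mul_re, Complex.conj_re,     Complex.I_re, mul_zero, Complex.conj_im, Complex.I_im, mul_one, sub_neg_eq_add, zero_add, Complex.mul_im, add_zero,     neg_sub, zero_smul] using d1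
      have h5 : HasDerivAt (fun t : ℝ => (inner ℝ ((w + t • (w * Complex.I)) * Complex.I) v : ℝ))
          (fderiv ℝ (fun w : ℂ => (inner ℝ (w * Complex.I) v : ℝ)) w (w * Complex.I)) 0 :=
        HasFDerivAt.comp_hasDerivAt (l := fun w : ℂ => (inner ℝ (w * Complex.I) v : ℝ))
          (f := fun t : ℝ => w + t • (w * Complex.I)) (0 : ℝ) h4 h3
      exact h5.unique h1
    have d2 : HasFDerivAt (fun w : ℂ => φ (x + r • w))
        ((fderiv ℝ φ (x + r • w)).comp (r • ContinuousLinearMap.id ℝ ℂ)) w := by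
      have h1 : HasFDerivAt (fun w : ℂ => x + r • w) (r • ContinuousLinearMap.id ℝ ℂ) w :=
        ((hasFDerivAt_id w).const_smul r).const_add x
      exact (hφ.differentiable (by simp) (x + r • w)).hasFDerivAt.comp w h1
    have d3 : HasFDerivAt Φ _ w := d1.mul d2
    rw [d3.fderiv]
    simp only [add_apply, smul_apply, ContinuousLinearMap.comp_apply, smul_eq_mul, d1v]
    rw [mul_assoc w, Complex.I_mul_I]
    simp only [ContinuousLinearMap.id_apply, mul_neg, mul_one, inner_neg_left]
    ring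
  have hcc : Continuous fun θ : ℝ => circleMap x r θ := continuous_circleMap x r
  have hc0 : Continuous fun θ : ℝ => circleMap 0 1 θ := continuous_circleMap 0 1
  have e1 : ∀ θ : ℝ, x + r • circleMap 0 1 θ = circleMap x r θ := fun θ =>
    (circleMap_eq x r θ).symm
  have c1 : Continuous fun θ : ℝ => inner ℝ (circleMap 0 1 θ * Complex.I) v *
      fderiv ℝ φ (circleMap x r θ) (r • (circleMap 0 1 θ * Complex.I)) :=
    ((hc0.mul continuous_const).inner continuous_const).mul
      (((hφ.continuous_fderiv (by simp)).comp hcc).clm_apply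
        ((hc0.mul continuous_const).const_smul r))
  have c2 : Continuous fun θ : ℝ => inner ℝ (circleMap 0 1 θ) v * φ (circleMap x r θ) :=
    (hc0.inner continuous_const).mul (hφ.continuous.comp hcc)
  simp only [hfd, e1, Φ] at key
  have i1 := integrable_mul_cont fi c1
  have i2 := integrable_mul_cont fi c2
  have e2 : ∫ θ in ang, f θ * (inner ℝ (circleMap 0 1 θ * Complex.I) v *
        fderiv ℝ φ (circleMap x r θ) (r • (circleMap 0 1 θ * Complex.I)) -
          inner ℝ (circleMap 0 1 θ) v * φ (circleMap x r θ)) =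
      (∫ θ in ang, f θ * (inner ℝ (circleMap 0 1 θ * Complex.I) v *
        fderiv ℝ φ (circleMap x r θ) (r • (circleMap 0 1 θ * Complex.I)))) -
      ∫ θ in ang, f θ * (inner ℝ (circleMap 0 1 θ) v * φ (circleMap x r θ)) := by
    rw [← integral_sub i1 i2]
    refine integral_congr_ae (Eventually.of_forall fun θ => ?_)
    simp only; ring
  rw [e2] at key
  linarith only [key]

/-- The open annulus around `x` with radii `a` and `s`. -/
def annu (x : ℂ) (a s : ℝ) : Set ℂ := {z | dist z x ∈ Ioo a s}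

theorem measurableSet_annu (x : ℂ) (a s : ℝ) : MeasurableSet (annu x a s) :=
  (measurable_id.dist measurable_const) measurableSet_Ioo

theorem mem_annu_circleMap (x : ℂ) {a s r : ℝ} (hr : 0 < r) (θ : ℝ) :
    circleMap x r θ ∈ annu x a s ↔ r ∈ Ioo a s := by
  change dist (circleMap x r θ) x ∈ Ioo a s ↔ _
  rw [dist_cm x hr]

theorem integral_annu (x : ℂ) {F : ℂ → ℝ} {a s : ℝ} (ha : 0 ≤ a) (hFm : Measurable F)
    (hF : IntegrableOn F (annu x a s)) :
    ∫ z in annu x a s, F z = ∫ r in Ioo a s, r * ∫ θ in ang, F (circleMap x r θ) := by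
  have hm := measurableSet_annu x a s
  rw [← integral_indicator hm, integral_polar x (hFm.indicator hm)
    ((integrable_indicator_iff hm).mpr hF)]
  have h1 : ∫ r in Ioo a s, r * ∫ θ in ang, F (circleMap x r θ) =
      ∫ r in Ioi 0, (Ioo a s).indicator (fun r => r * ∫ θ in ang, F (circleMap x r θ)) r := by
    rw [setIntegral_indicator measurableSet_Ioo, inter_eq_self_of_subset_right]
    exact fun r hr => lt_of_le_of_lt ha hr.1
  rw [h1]
  refine setIntegral_congr_fun measurableSet_Ioi fun r hr => ?_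
  have hr' : (0 : ℝ) < r := hr
  by_cases hrs : r ∈ Ioo a s
  · rw [indicator_of_mem hrs]
    congr 1
    refine integral_congr_ae (Eventually.of_forall fun θ => ?_)
    exact indicator_of_mem ((mem_annu_circleMap x hr' θ).mpr hrs) _
  · rw [indicator_of_notMem hrs]
    have : ∫ θ in ang, (annu x a s).indicator F (circleMap x r θ) = 0 := by
      rw [integral_congr_ae (g := fun _ => 0)]
      · simp only [integral_zero]
      · exact Eventually.of_forall fun θ =>
          indicator_of_notMem (fun h => hrs ((mem_annu_circleMap x hr' θ).mp h)) _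
    rw [this, mul_zero]

theorem integral_add3 {μ : Measure ℝ} {A B C : ℝ → ℝ} (hA : Integrable A μ)
    (hB : Integrable B μ) (hC : Integrable C μ) :
    ∫ t, (A t + B t + C t) ∂μ = ∫ t, A t ∂μ + ∫ t, B t ∂μ + ∫ t, C t ∂μ := by
  have h1 : Integrable (fun t => A t + B t) μ := hA.add hB
  rw [integral_add h1 hC, integral_add hA hB]

/-- Integration by parts for a radial extension on an annulus. -/
theorem annulus_ibp {x : ℂ} {a s : ℝ} (ha : 0 ≤ a) (has : a < s) {ζ ζ' : ℝ → ℝ}
    (hζ : ∀ r, HasDerivAt ζ (ζ' r) r) (hζ' : Continuous ζ') {f h : ℝ → ℝ}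
    (fm : Measurable f) (hm : Measurable h)
    (fi : IntegrableOn f ang) (hi : IntegrableOn h ang) {Θ : Set ℂ} (hw : CircWeak Θ f h)
    {φ : ℂ → ℝ} (hφ : ContDiff ℝ ∞ φ)
    (hd : ∀ r ∈ Ioo a s, ∀ w ∈ Θ, x + r • w ∉ tsupport φ) (v : ℂ)
    (hD : IntegrableOn (fun z => extU x ζ f z * fderiv ℝ φ z v +
      inner ℝ (extG x ζ ζ' f h z) v * φ z) (annu x a s)) :
    ∫ z in annu x a s, (extU x ζ f z * fderiv ℝ φ z v +
      inner ℝ (extG x ζ ζ' f h z) v * φ z) =
      s * ζ s * (∫ θ in ang, f θ * (φ (circleMap x s θ) * inner ℝ (circleMap 0 1 θ) v)) -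
      a * ζ a * (∫ θ in ang, f θ * (φ (circleMap x a θ) * inner ℝ (circleMap 0 1 θ) v)) := by
  have hζc : Continuous ζ := continuous_iff_continuousAt.mpr fun r => (hζ r).continuousAt
  have hcf : Continuous fun z => fderiv ℝ φ z v :=
    (hφ.continuous_fderiv (by simp)).clm_apply continuous_const
  have hDm : Measurable (fun z => extU x ζ f z * fderiv ℝ φ z v +
      inner ℝ (extG x ζ ζ' f h z) v * φ z) :=
    ((measurable_extU x hζc.measurable fm).mul hcf.measurable).add
      (((measurable_extG x hζc.measurable hζ'.measurable fm hm).inner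
        measurable_const).mul hφ.continuous.measurable)
  rw [integral_annu x ha hDm hD]
  -- radial derivative
  let P : ℝ × ℝ → ℝ := fun p => inner ℝ (circleMap 0 1 p.2) v *
    ((ζ p.1 + p.1 * ζ' p.1) * φ (circleMap x p.1 p.2) +
      p.1 * ζ p.1 * fderiv ℝ φ (circleMap x p.1 p.2) (circleMap 0 1 p.2))
  let Q : ℝ → ℝ → ℝ := fun r θ => inner ℝ (circleMap 0 1 θ) v *
    (r * ζ r * φ (circleMap x r θ))
  have hc0 : Continuous fun θ : ℝ => circleMap 0 1 θ := continuous_circleMap 0 1
  have hcm : Continuous fun p : ℝ × ℝ => circleMap 0 1 p.2 := hc0.comp continuous_snd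
  have hcu := continuous_circleMap_uncurry x
  have hfd := hφ.continuous_fderiv (by simp)
  have hcP : Continuous P := by
    refine (hcm.inner continuous_const).mul (Continuous.add ?_ ?_)
    · exact (((hζc.comp continuous_fst).add (continuous_fst.mul (hζ'.comp continuous_fst))).mul
        (hφ.continuous.comp hcu))
    · exact (continuous_fst.mul (hζc.comp continuous_fst)).mul
        ((hfd.comp hcu).clm_apply hcm)
  have hQP : ∀ r θ, HasDerivAt (fun r => Q r θ) (P (r, θ)) r := by
    intro r θ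
    have h1 : HasDerivAt (fun r : ℝ => circleMap x r θ) (circleMap 0 1 θ) r := by
      have : (fun r : ℝ => circleMap x r θ) = fun r : ℝ => x + r • circleMap 0 1 θ := by
        funext r; exact circleMap_eq x r θ
      rw [this]
      simpa using ((hasDerivAt_id r).smul_const (circleMap 0 1 θ)).const_add x
    have h2 : HasDerivAt (fun r => φ (circleMap x r θ))
        (fderiv ℝ φ (circleMap x r θ) (circleMap 0 1 θ)) r :=
      (hφ.differentiable (by simp) _).hasFDerivAt.comp_hasDerivAt r h1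
    have h3 := (((hasDerivAt_id r).mul (hζ r)).mul h2).const_mul
      (inner ℝ (circleMap 0 1 θ) v : ℝ)
    refine h3.congr_deriv ?_
    simp only [P, id_eq]
    simp only [Complex.inner, Complex.mul_re, Complex.conj_re, Complex.conj_im, mul_neg, sub_neg_eq_add, one_mul, Pi.mul_apply, id_eq]
  have step2 : ∀ r ∈ Ioo a s, r * ∫ θ in ang, (extU x ζ f (circleMap x r θ) *
      fderiv ℝ φ (circleMap x r θ) v +
      inner ℝ (extG x ζ ζ' f h (circleMap x r θ)) v * φ (circleMap x r θ)) =
      ∫ θ in ang, f θ * P (r, θ) := by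
    intro r hr
    have hr0 : 0 < r := lt_of_le_of_lt ha hr.1
    have hsl := hw.slice fi hφ (hd r hr) v
    have hcr : Continuous fun θ : ℝ => circleMap x r θ := continuous_circleMap x r
    have c1 : Continuous fun θ : ℝ => inner ℝ (circleMap 0 1 θ * Complex.I) v *
        fderiv ℝ φ (circleMap x r θ) (r • (circleMap 0 1 θ * Complex.I)) :=
      ((hc0.mul continuous_const).inner continuous_const).mul
        ((hfd.comp hcr).clm_apply ((hc0.mul continuous_const).const_smul r))
    have c2 : Continuous fun θ : ℝ => inner ℝ (circleMap 0 1 θ) v * φ (circleMap x r θ) :=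
      (hc0.inner continuous_const).mul (hφ.continuous.comp hcr)
    have c3 : Continuous fun θ : ℝ => inner ℝ (circleMap 0 1 θ * Complex.I) v *
        φ (circleMap x r θ) :=
      ((hc0.mul continuous_const).inner continuous_const).mul (hφ.continuous.comp hcr)
    have c4 : Continuous fun θ : ℝ => inner ℝ (circleMap 0 1 θ) v *
        (r * ζ r * fderiv ℝ φ (circleMap x r θ) (circleMap 0 1 θ) +
          r * ζ' r * φ (circleMap x r θ)) :=
      (hc0.inner continuous_const).mul
        ((continuous_const.mul ((hfd.comp hcr).clm_apply hc0)).add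
          (continuous_const.mul (hφ.continuous.comp hcr)))
    have i1 := (integrable_mul_cont fi c1).const_mul (ζ r)
    have i2 := (integrable_mul_cont fi c2).const_mul (ζ r)
    have i3 := (integrable_mul_cont hi c3).const_mul (ζ r)
    have i4 := integrable_mul_cont fi c4
    have e1 : r * ∫ θ in ang, (extU x ζ f (circleMap x r θ) *
        fderiv ℝ φ (circleMap x r θ) v +
        inner ℝ (extG x ζ ζ' f h (circleMap x r θ)) v * φ (circleMap x r θ)) =
        ∫ θ in ang, ((f θ * (inner ℝ (circleMap 0 1 θ) v *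
        (r * ζ r * fderiv ℝ φ (circleMap x r θ) (circleMap 0 1 θ) +
          r * ζ' r * φ (circleMap x r θ))) +
          ζ r * (f θ * (inner ℝ (circleMap 0 1 θ * Complex.I) v *
        fderiv ℝ φ (circleMap x r θ) (r • (circleMap 0 1 θ * Complex.I))))) +
          ζ r * (h θ * (inner ℝ (circleMap 0 1 θ * Complex.I) v *
        φ (circleMap x r θ)))) := by
      rw [← integral_const_mul]
      refine setIntegral_congr_fun measurableSet_Ioo fun θ hθ => ?_
      rw [extU_circleMap x hr0 hθ, extG_circleMap x hr0 hθ, inner_add_left,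
        real_inner_smul_left, real_inner_smul_left]
      have hv : fderiv ℝ φ (circleMap x r θ) v =
          inner ℝ (circleMap 0 1 θ) v * fderiv ℝ φ (circleMap x r θ) (circleMap 0 1 θ) +
          inner ℝ (circleMap 0 1 θ * Complex.I) v *
            fderiv ℝ φ (circleMap x r θ) (circleMap 0 1 θ * Complex.I) := by
        conv_lhs => rw [decomp_unit (norm_unit θ) v]
        rw [map_add, map_smul, map_smul, smul_eq_mul, smul_eq_mul]
      rw [hv, map_smul, smul_eq_mul]
      field_simp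
      ring
    have e2 : ∫ θ in ang, f θ * P (r, θ) =
        (∫ θ in ang, f θ * (inner ℝ (circleMap 0 1 θ) v *
        (r * ζ r * fderiv ℝ φ (circleMap x r θ) (circleMap 0 1 θ) +
          r * ζ' r * φ (circleMap x r θ)))) +
        ζ r * ∫ θ in ang, f θ * (inner ℝ (circleMap 0 1 θ) v * φ (circleMap x r θ)) := by
      rw [← integral_const_mul, ← integral_add i4 i2]
      refine integral_congr_ae (Eventually.of_forall fun θ => ?_)
      simp only [P]; ring
    rw [e1, integral_add3 i4 i1 i3, e2, integral_const_mul, integral_const_mul, hsl]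
    ring
  rw [setIntegral_congr_fun measurableSet_Ioo step2]
  -- Fubini
  have hint : Integrable (fun p : ℝ × ℝ => f p.2 * P p)
      ((volume.restrict (Ioo a s)).prod (volume.restrict ang)) := by
    have h1 : Integrable (fun p : ℝ × ℝ => (1 : ℝ) * f p.2)
        ((volume.restrict (Ioo a s)).prod (volume.restrict ang)) :=
      Integrable.mul_prod (f := fun _ : ℝ => (1 : ℝ)) (integrableOn_const (by simp only [Real.volume_Ioo, ne_eq, ENNReal.ofReal_ne_top, not_false_eq_true])) fi
    simp only [one_mul] at h1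
    obtain ⟨C, hC⟩ := (isCompact_Icc.prod isCompact_Icc :
      IsCompact (Icc a s ×ˢ Icc (-π) π)).exists_bound_of_continuousOn hcP.continuousOn
    refine Integrable.mul_bdd (c := C) h1 hcP.aestronglyMeasurable ?_
    rw [Measure.prod_restrict]
    refine (ae_restrict_mem (measurableSet_Ioo.prod measurableSet_Ioo)).mono fun p hp => ?_
    exact hC p ⟨Ioo_subset_Icc_self hp.1, Ioo_subset_Icc_self hp.2⟩
  rw [integral_integral_swap hint]
  have step3 : ∀ θ, ∫ r in Ioo a s, f θ * P (r, θ) = f θ * (Q s θ - Q a θ) := by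
    intro θ
    rw [integral_const_mul]
    congr 1
    rw [← integral_Ioc_eq_integral_Ioo, ← intervalIntegral.integral_of_le has.le]
    refine intervalIntegral.integral_eq_sub_of_hasDerivAt (fun r _ => hQP r θ) ?_
    exact (hcP.comp (by fun_prop : Continuous fun r : ℝ => (r, θ))).intervalIntegrable _ _
  simp only [step3, mul_sub]
  have cQ : ∀ r, Continuous fun θ => Q r θ := fun r =>
    (hc0.inner continuous_const).mul
      (continuous_const.mul (hφ.continuous.comp (continuous_circleMap x r)))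
  rw [integral_sub (integrable_mul_cont fi (cQ s)) (integrable_mul_cont fi (cQ a)),
    ← integral_const_mul, ← integral_const_mul]
  congr 1
  · refine integral_congr_ae (Eventually.of_forall fun θ => ?_)
    simp only [Q]; ring
  · refine integral_congr_ae (Eventually.of_forall fun θ => ?_)
    simp only [Q]; ring

end Vale.Agent.P128
end

section

open MeasureTheory Set Metric Filter
open scoped ENNReal NNReal Topology Real ContDiff

namespace Vale.Agent.P128

theorem ae_memLp_circle (x : ℂ) {F : ℂ → ℝ} (hFm : Measurable F) (hF : MemLp F 2 volume) :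
    ∀ᵐ s : ℝ, 0 < s → MemLp (fun θ => F (circleMap x s θ)) 2 (volume.restrict ang) := by
  filter_upwards [ae_integrable_circle x (hFm.pow_const 2) hF.integrable_sq] with s hs hs0
  exact (memLp_two_iff_integrable_sq (f := fun θ => F (circleMap x s θ))
    (hFm.comp (measurable_circleMap x s)).aestronglyMeasurable).mpr (hs hs0)

theorem lintegral_annu (x : ℂ) {F : ℂ → ℝ≥0∞} (hF : Measurable F) {a s : ℝ} (ha : 0 ≤ a) :
    ∫⁻ z in annu x a s, F z =
      ∫⁻ r in Ioo a s, ENNReal.ofReal r * ∫⁻ θ in ang, F (circleMap x r θ) :=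
  lintegral_polar_set x hF measurableSet_Ioo fun _ hr => lt_of_le_of_lt ha hr.1

theorem lintegral_id_Ioo {a s : ℝ} (ha : 0 ≤ a) (has : a ≤ s) :
    ∫⁻ r in Ioo a s, ENNReal.ofReal r = ENNReal.ofReal ((s ^ 2 - a ^ 2) / 2) := by
  rw [← ofReal_integral_eq_lintegral_ofReal]
  · rw [← integral_Ioc_eq_integral_Ioo, ← intervalIntegral.integral_of_le has, integral_id]
  · exact (continuous_id.integrableOn_Icc).mono_set Ioo_subset_Icc_self
  · refine (ae_restrict_mem measurableSet_Ioo).mono fun r hr => ?_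
    exact le_of_lt (lt_of_le_of_lt ha hr.1)

theorem lintegral_extG (x : ℂ) {a s : ℝ} (ha : 0 ≤ a) {ζ ζ' f h : ℝ → ℝ} (hζ : Measurable ζ)
    (hζ' : Measurable ζ') (fm : Measurable f) (hm : Measurable h) :
    ∫⁻ z in annu x a s, ENNReal.ofReal (‖extG x ζ ζ' f h z‖ ^ 2) =
      (∫⁻ r in Ioo a s, ENNReal.ofReal (r * ζ' r ^ 2)) *
          (∫⁻ θ in ang, ENNReal.ofReal (f θ ^ 2)) +
        (∫⁻ r in Ioo a s, ENNReal.ofReal (ζ r ^ 2 / r)) *
          (∫⁻ θ in ang, ENNReal.ofReal (h θ ^ 2)) := by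
  have hGm := measurable_extG x hζ hζ' fm hm
  rw [lintegral_annu x (hGm.norm.pow_const 2).ennreal_ofReal ha,
    ← lintegral_mul_const _ (by fun_prop), ← lintegral_mul_const _ (by fun_prop),
    ← lintegral_add_left (by fun_prop)]
  refine setLIntegral_congr_fun measurableSet_Ioo fun r hr => ?_
  have hr0 : 0 < r := lt_of_le_of_lt ha hr.1
  have e1 : ∫⁻ θ in ang, ENNReal.ofReal (‖extG x ζ ζ' f h (circleMap x r θ)‖ ^ 2) =
      ENNReal.ofReal (ζ' r ^ 2) * (∫⁻ θ in ang, ENNReal.ofReal (f θ ^ 2)) +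
      ENNReal.ofReal ((ζ r / r) ^ 2) * (∫⁻ θ in ang, ENNReal.ofReal (h θ ^ 2)) := by
    rw [← lintegral_const_mul _ (by fun_prop), ← lintegral_const_mul _ (by fun_prop),
      ← lintegral_add_left (by fun_prop)]
    refine setLIntegral_congr_fun measurableSet_Ioo fun θ hθ => ?_
    rw [extG_circleMap x hr0 hθ, norm_extG_sq _ (norm_unit θ), mul_pow, mul_pow,
      ENNReal.ofReal_add (by (clear * -; positivity)) (by (clear * -; positivity)), ENNReal.ofReal_mul (by (clear * -; positivity)),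
      ENNReal.ofReal_mul (by (clear * -; positivity))]
  rw [e1, mul_add, ← mul_assoc, ← mul_assoc, ← ENNReal.ofReal_mul hr0.le,
    ← ENNReal.ofReal_mul hr0.le]
  congr 3
  (clear * - hr0; field_simp)

theorem lintegral_extU (x : ℂ) {a s : ℝ} (ha : 0 ≤ a) {ζ f : ℝ → ℝ} (hζ : Measurable ζ)
    (fm : Measurable f) :
    ∫⁻ z in annu x a s, ENNReal.ofReal (extU x ζ f z ^ 2) =
      (∫⁻ r in Ioo a s, ENNReal.ofReal (r * ζ r ^ 2)) *
          (∫⁻ θ in ang, ENNReal.ofReal (f θ ^ 2)) := by
  have hUm := measurable_extU x hζ fm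
  rw [lintegral_annu x (hUm.pow_const 2).ennreal_ofReal ha,
    ← lintegral_mul_const _ (by fun_prop)]
  refine setLIntegral_congr_fun measurableSet_Ioo fun r hr => ?_
  have hr0 : 0 < r := lt_of_le_of_lt ha hr.1
  have e1 : ∫⁻ θ in ang, ENNReal.ofReal (extU x ζ f (circleMap x r θ) ^ 2) =
      ENNReal.ofReal (ζ r ^ 2) * ∫⁻ θ in ang, ENNReal.ofReal (f θ ^ 2) := by
    rw [← lintegral_const_mul _ (by fun_prop)]
    refine setLIntegral_congr_fun measurableSet_Ioo fun θ hθ => ?_
    rw [extU_circleMap x hr0 hθ, mul_pow, ENNReal.ofReal_mul (by (clear * -; positivity))]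
  rw [e1, ENNReal.ofReal_mul hr0.le, mul_assoc]

theorem lintegral_sq_lt_top {f : ℝ → ℝ} (hf : MemLp f 2 (volume.restrict ang)) :
    ∫⁻ θ in ang, ENNReal.ofReal (f θ ^ 2) < ⊤ := by
  have h1 : ∫⁻ θ in ang, ‖f θ ^ 2‖ₑ < ⊤ := hf.integrable_sq.2
  have h2 : ∫⁻ θ in ang, ENNReal.ofReal (f θ ^ 2) = ∫⁻ θ in ang, ‖f θ ^ 2‖ₑ :=
    lintegral_congr fun θ => (Real.enorm_of_nonneg (sq_nonneg (f θ))).symm
  rw [h2]
  exact h1

theorem memLp_of_lintegral_sq {E : Type*} [NormedAddCommGroup E] {μ : Measure ℂ} {F : ℂ → E}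
    (hm : AEStronglyMeasurable F μ) (h : ∫⁻ z, ENNReal.ofReal (‖F z‖ ^ 2) ∂μ < ⊤) :
    MemLp F 2 μ := by
  rw [memLp_two_iff_integrable_sq_norm hm]
  refine ⟨(hm.norm.pow 2), ?_⟩
  refine lt_of_le_of_lt (lintegral_mono fun z => ?_) h
  rw [← Real.enorm_of_nonneg (by (clear * -; positivity))]

theorem memLp_extG (x : ℂ) {a s : ℝ} (ha : 0 ≤ a) {ζ ζ' f h : ℝ → ℝ} (hζ : Measurable ζ)
    (hζ' : Measurable ζ') (fm : Measurable f) (hm : Measurable h)
    (hf : MemLp f 2 (volume.restrict ang)) (hh : MemLp h 2 (volume.restrict ang))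
    (h1 : ∫⁻ r in Ioo a s, ENNReal.ofReal (r * ζ' r ^ 2) < ⊤)
    (h2 : ∫⁻ r in Ioo a s, ENNReal.ofReal (ζ r ^ 2 / r) < ⊤) :
    MemLp (extG x ζ ζ' f h) 2 (volume.restrict (annu x a s)) := by
  refine memLp_of_lintegral_sq
    (measurable_extG x hζ hζ' fm hm).aestronglyMeasurable ?_
  rw [lintegral_extG x ha hζ hζ' fm hm]
  exact ENNReal.add_lt_top.mpr ⟨ENNReal.mul_lt_top h1 (lintegral_sq_lt_top hf),
    ENNReal.mul_lt_top h2 (lintegral_sq_lt_top hh)⟩

theorem memLp_extU (x : ℂ) {a s : ℝ} (ha : 0 ≤ a) {ζ f : ℝ → ℝ} (hζ : Measurable ζ)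
    (fm : Measurable f) (hf : MemLp f 2 (volume.restrict ang))
    (h1 : ∫⁻ r in Ioo a s, ENNReal.ofReal (r * ζ r ^ 2) < ⊤) :
    MemLp (extU x ζ f) 2 (volume.restrict (annu x a s)) := by
  refine memLp_of_lintegral_sq (measurable_extU x hζ fm).aestronglyMeasurable ?_
  simp only [Real.norm_eq_abs, sq_abs]
  rw [lintegral_extU x ha hζ fm]
  exact ENNReal.mul_lt_top h1 (lintegral_sq_lt_top hf)

theorem annu_zero_ae (x : ℂ) {s : ℝ} :
    (annu x 0 s : Set ℂ) =ᵐ[volume] ball x s := by
  have h1 : annu x 0 s = ball x s \ {x} := by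
    ext z
    constructor
    · rintro ⟨h1, h2⟩
      refine ⟨h2, fun h => ?_⟩
      rw [mem_singleton_iff] at h
      rw [h, dist_self] at h1
      exact lt_irrefl _ h1
    · rintro ⟨h1, h2⟩
      exact ⟨dist_pos.mpr h2, h1⟩
  rw [h1]
  exact sdiff_null_ae_eq_self (measure_singleton x)

/-- Mean square of an interpolation between the values on the circle and angular constants. -/
theorem lintegral_interp (x : ℂ) {a s : ℝ} (ha : 0 ≤ a) (has : a ≤ s) {ζ c f : ℝ → ℝ}
    (hζ : Measurable ζ) (cm : Measurable c) (fm : Measurable f)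
    (h01 : ∀ r ∈ Ioo a s, 0 ≤ ζ r ∧ ζ r ≤ 1)
    (hcf : ∫⁻ θ in ang, ENNReal.ofReal (c θ ^ 2) ≤ ∫⁻ θ in ang, ENNReal.ofReal (f θ ^ 2)) :
    ∫⁻ z in annu x a s, ENNReal.ofReal
        ((extU x (fun _ => 1) c z + extU x ζ (fun θ => f θ - c θ) z) ^ 2) ≤
      ENNReal.ofReal ((s ^ 2 - a ^ 2) / 2) * ∫⁻ θ in ang, ENNReal.ofReal (f θ ^ 2) := by
  have m1 := measurable_extU x (measurable_const (a := (1 : ℝ))) cm
  have m2 : Measurable (extU x ζ (fun θ => f θ - c θ)) := measurable_extU x hζ (fm.sub cm)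
  have m3 : Measurable fun z => ENNReal.ofReal
      ((extU x (fun _ => 1) c z + extU x ζ (fun θ => f θ - c θ) z) ^ 2) :=
    ((m1.add m2).pow_const 2).ennreal_ofReal
  rw [lintegral_annu x m3 ha, ← lintegral_id_Ioo ha has,
    ← lintegral_mul_const _ (by fun_prop)]
  refine setLIntegral_mono (by fun_prop) fun r hr => ?_
  have hr0 : 0 < r := lt_of_le_of_lt ha hr.1
  obtain ⟨hz0, hz1⟩ := h01 r hr
  refine mul_le_mul_right ?_ _
  have e1 : ∫⁻ θ in ang, ENNReal.ofReal ((extU x (fun _ => 1) c (circleMap x r θ) +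
      extU x ζ (fun θ => f θ - c θ) (circleMap x r θ)) ^ 2) ≤
      ∫⁻ θ in ang, (ENNReal.ofReal (1 - ζ r) * ENNReal.ofReal (c θ ^ 2) +
        ENNReal.ofReal (ζ r) * ENNReal.ofReal (f θ ^ 2)) := by
    refine setLIntegral_mono (by fun_prop) fun θ hθ => ?_
    rw [extU_circleMap x hr0 hθ, extU_circleMap x hr0 hθ, ← ENNReal.ofReal_mul (by (clear * - hz1; linarith)),
      ← ENNReal.ofReal_mul hz0, ← ENNReal.ofReal_add (mul_nonneg (by linarith only [hz1]) (sq_nonneg _)) (by (clear * - hz0; positivity))]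
    refine ENNReal.ofReal_le_ofReal ?_
    nlinarith only [mul_nonneg (mul_nonneg hz0 (by linarith : 0 ≤ 1 - ζ r)) (sq_nonneg (f θ - c θ))]
  refine e1.trans ?_
  rw [lintegral_add_left (by fun_prop), lintegral_const_mul _ (by fun_prop),
    lintegral_const_mul _ (by fun_prop)]
  calc ENNReal.ofReal (1 - ζ r) * (∫⁻ θ in ang, ENNReal.ofReal (c θ ^ 2)) +
        ENNReal.ofReal (ζ r) * (∫⁻ θ in ang, ENNReal.ofReal (f θ ^ 2))
      ≤ ENNReal.ofReal (1 - ζ r) * (∫⁻ θ in ang, ENNReal.ofReal (f θ ^ 2)) +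
        ENNReal.ofReal (ζ r) * (∫⁻ θ in ang, ENNReal.ofReal (f θ ^ 2)) := by gcongr
    _ = ∫⁻ θ in ang, ENNReal.ofReal (f θ ^ 2) := by
        rw [← add_mul, ← ENNReal.ofReal_add (by linarith only [hz1]) hz0]
        simp only [sub_add_cancel, ENNReal.ofReal_one, one_mul]

/-- Fidelity of a competitor in terms of the trace. -/
theorem fidelity_bound (x : ℂ) {s M : ℝ} (hs : 0 < s) {W g : ℂ → ℝ} {f : ℝ → ℝ}
    (Wm : AEMeasurable W (volume.restrict (ball x s))) (gm : Measurable g) (fm : Measurable f)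
    (gb : ∀ z, |g z| ≤ M)
    (hW : ∫⁻ z in ball x s, ENNReal.ofReal (W z ^ 2) ≤
      ENNReal.ofReal (51 / 100 * s ^ 2) * ∫⁻ θ in ang, ENNReal.ofReal (f θ ^ 2)) :
    ∫⁻ z in ball x s, ENNReal.ofReal ((W z - g z) ^ 2) ≤
      ENNReal.ofReal (2 / 3 * s ^ 2) *
        (∫⁻ θ in ang, ENNReal.ofReal ((f θ - g (circleMap x s θ)) ^ 2)) +
      ENNReal.ofReal (18 * π * M ^ 2 * s ^ 2) := by
  have hg2 : ∀ z, g z ^ 2 ≤ M ^ 2 := fun z => by
    have := gb z
    have h0 := abs_nonneg (g z)
    rw [← sq_abs]; (clear * - this; gcongr)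
  have gc : Measurable fun θ : ℝ => g (circleMap x s θ) := gm.comp (measurable_circleMap x s)
  have s1 : ∫⁻ z in ball x s, ENNReal.ofReal ((W z - g z) ^ 2) ≤
      ENNReal.ofReal (8 / 7) * (∫⁻ z in ball x s, ENNReal.ofReal (W z ^ 2)) +
        ENNReal.ofReal (8 * M ^ 2 * (π * s ^ 2)) := by
    have hvol : volume (ball x s) = ENNReal.ofReal (π * s ^ 2) := by
      rw [Complex.volume_ball, mul_comm, ENNReal.ofReal_mul Real.pi_pos.le,
        ENNReal.ofReal_pow hs.le]
      congr 1
      rw [ENNReal.ofReal, ENNReal.coe_inj]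
      exact NNReal.eq (by simp only [NNReal.coe_real_pi, Real.coe_toNNReal', Real.pi_pos.le, sup_of_le_left])
    calc ∫⁻ z in ball x s, ENNReal.ofReal ((W z - g z) ^ 2)
        ≤ ∫⁻ z in ball x s, (ENNReal.ofReal (8 / 7) * ENNReal.ofReal (W z ^ 2) +
            ENNReal.ofReal (8 * M ^ 2)) := by
          refine lintegral_mono fun z => ?_
          beta_reduce
          rw [← ENNReal.ofReal_mul (by norm_num), ← ENNReal.ofReal_add (by (clear * -; positivity))
            (by (clear * -; positivity))]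
          refine ENNReal.ofReal_le_ofReal ?_
          linarith only [sq_nonneg (W z + 7 * g z), hg2 z]
      _ = _ := by
          rw [lintegral_add_right _ measurable_const,
            lintegral_const_mul'' _ (Wm.pow_const 2).ennreal_ofReal, setLIntegral_const, hvol,
            ← ENNReal.ofReal_mul (by (clear * -; positivity))]
  have s2 : ∫⁻ θ in ang, ENNReal.ofReal (f θ ^ 2) ≤
      ENNReal.ofReal (8 / 7) *
        (∫⁻ θ in ang, ENNReal.ofReal ((f θ - g (circleMap x s θ)) ^ 2)) +
        ENNReal.ofReal (8 * M ^ 2 * (2 * π)) := by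
    calc ∫⁻ θ in ang, ENNReal.ofReal (f θ ^ 2)
        ≤ ∫⁻ θ in ang, (ENNReal.ofReal (8 / 7) *
            ENNReal.ofReal ((f θ - g (circleMap x s θ)) ^ 2) + ENNReal.ofReal (8 * M ^ 2)) := by
          refine lintegral_mono fun θ => ?_
          beta_reduce
          rw [← ENNReal.ofReal_mul (by norm_num), ← ENNReal.ofReal_add (by (clear * -; positivity))
            (by (clear * -; positivity))]
          refine ENNReal.ofReal_le_ofReal ?_
          linarith only [sq_nonneg ((f θ - g (circleMap x s θ)) - 7 * g (circleMap x s θ)), hg2 (circleMap x s θ)]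
      _ = _ := by
          rw [lintegral_add_right _ measurable_const,
            lintegral_const_mul _ (by fun_prop), setLIntegral_const, Real.volume_Ioo,
            ← ENNReal.ofReal_mul (by (clear * -; positivity))]
          congr 3
          ring
  set I1 := ∫⁻ θ in ang, ENNReal.ofReal ((f θ - g (circleMap x s θ)) ^ 2)
  calc ∫⁻ z in ball x s, ENNReal.ofReal ((W z - g z) ^ 2)
      ≤ ENNReal.ofReal (8 / 7) * (ENNReal.ofReal (51 / 100 * s ^ 2) *
          (ENNReal.ofReal (8 / 7) * I1 + ENNReal.ofReal (8 * M ^ 2 * (2 * π)))) +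
        ENNReal.ofReal (8 * M ^ 2 * (π * s ^ 2)) := by
        refine s1.trans ?_
        gcongr
        exact hW.trans (by gcongr)
    _ = ENNReal.ofReal (8 / 7 * (51 / 100 * s ^ 2) * (8 / 7)) * I1 +
        ENNReal.ofReal (8 / 7 * (51 / 100 * s ^ 2) * (8 * M ^ 2 * (2 * π)) +
          8 * M ^ 2 * (π * s ^ 2)) := by
        rw [ENNReal.ofReal_add (by (clear * - hs; positivity)) (by (clear * - hs; positivity)),
          ENNReal.ofReal_mul (q := 8 * M ^ 2 * (2 * π)) (by positivity),
          ENNReal.ofReal_mul (p := 8 / 7 * (51 / 100 * s ^ 2)) (q := 8 / 7) (by positivity),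
          ENNReal.ofReal_mul (p := 8 / 7) (q := 51 / 100 * s ^ 2) (by norm_num)]
        ring
    _ ≤ ENNReal.ofReal (2 / 3 * s ^ 2) * I1 + ENNReal.ofReal (18 * π * M ^ 2 * s ^ 2) := by
        have hs2 : 0 ≤ s ^ 2 := sq_nonneg s
        have hp : 0 ≤ π * M ^ 2 * s ^ 2 := by (clear * - hs; positivity)
        gcongr ENNReal.ofReal ?_ * I1 + ENNReal.ofReal ?_
        · linarith
        · linarith only [hp]

/-- Integrability of the weak formulation density. -/
theorem integrableOn_density {A : Set ℂ} (hA : volume A ≠ ⊤) {U : ℂ → ℝ} {V : ℂ → ℂ}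
    (hU : MemLp U 2 (volume.restrict A)) (hV : MemLp V 2 (volume.restrict A))
    {φ : ℂ → ℝ} (hφ : ContDiff ℝ ∞ φ) (hφc : HasCompactSupport φ) (v : ℂ) :
    IntegrableOn (fun z => U z * fderiv ℝ φ z v + inner ℝ (V z) v * φ z) A := by
  have : IsFiniteMeasure (volume.restrict A) :=
    ⟨by rw [Measure.restrict_apply_univ]; exact hA.lt_top⟩
  have hcφ : Continuous fun z => fderiv ℝ φ z v :=
    (hφ.continuous_fderiv (by simp)).clm_apply continuous_const
  obtain ⟨C1, hC1⟩ := (hφc.fderiv_apply ℝ v).exists_bound_of_continuous hcφ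
  obtain ⟨C2, hC2⟩ := hφc.exists_bound_of_continuous hφ.continuous
  have iU : Integrable U (volume.restrict A) := hU.integrable (by norm_num)
  have iV : Integrable V (volume.restrict A) := hV.integrable (by norm_num)
  have iVv : Integrable (fun z => (inner ℝ (V z) v : ℝ)) (volume.restrict A) :=
    iV.inner_const v
  exact (iU.mul_bdd (c := C1) hcφ.aestronglyMeasurable (Eventually.of_forall hC1)).add
    (iVv.mul_bdd (c := C2) hφ.continuous.aestronglyMeasurable (Eventually.of_forall hC2))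

theorem volume_annu_ne_top (x : ℂ) (a s : ℝ) : volume (annu x a s) ≠ ⊤ := by
  refine ne_of_lt (lt_of_le_of_lt (measure_mono (t := ball x s) fun z hz => hz.2)
    measure_ball_lt_top)

end Vale.Agent.P128
end

section

open MeasureTheory Set Metric Filter
open scoped ENNReal NNReal Topology Real ContDiff

namespace Vale.Agent.P128

theorem hasDerivAt_comp_circle {Φ : ℂ → ℝ} (hΦ : ContDiff ℝ ∞ Φ) (θ : ℝ) :
    HasDerivAt (fun θ : ℝ => Φ (circleMap 0 1 θ))
      (fderiv ℝ Φ (circleMap 0 1 θ) (circleMap 0 1 θ * Complex.I)) θ :=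
  ((hΦ.differentiable (by simp)) _).hasFDerivAt.comp_hasDerivAt θ (hasDerivAt_circleMap 0 1 θ)

theorem circWeak_const (Θ : Set ℂ) (c : ℝ) : CircWeak Θ (fun _ => c) (fun _ => 0) := by
  intro Φ hΦ _
  simp only [zero_mul, integral_zero, neg_zero]
  rw [integral_const_mul]
  have h1 : ∫ θ in ang, fderiv ℝ Φ (circleMap 0 1 θ) (circleMap 0 1 θ * Complex.I) = 0 := by
    rw [← integral_Ioc_eq_integral_Ioo,
      ← intervalIntegral.integral_of_le (by linarith only [Real.pi_pos])]
    rw [intervalIntegral.integral_eq_sub_of_hasDerivAt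
      (fun θ _ => hasDerivAt_comp_circle hΦ θ)
      ((continuous_rotDeriv hΦ).intervalIntegrable _ _)]
    have : circleMap 0 1 π = circleMap 0 1 (-π) := by
      simp only [circleMap, Complex.ofReal_one, Complex.exp_pi_mul_I, mul_neg, mul_one, zero_add, Complex.ofReal_neg, neg_mul, Complex.exp_neg, inv_neg, inv_one]
    rw [this, sub_self]
  rw [h1, mul_zero]

theorem CircWeak.sub {Θ : Set ℂ} {f₁ f₂ h₁ h₂ : ℝ → ℝ} (w₁ : CircWeak Θ f₁ h₁)
    (w₂ : CircWeak Θ f₂ h₂) (i₁ : IntegrableOn f₁ ang) (i₂ : IntegrableOn f₂ ang)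
    (j₁ : IntegrableOn h₁ ang) (j₂ : IntegrableOn h₂ ang) :
    CircWeak Θ (fun θ => f₁ θ - f₂ θ) (fun θ => h₁ θ - h₂ θ) := by
  intro Φ hΦ hd
  have k1 := w₁ Φ hΦ hd
  have k2 := w₂ Φ hΦ hd
  have c1 := continuous_rotDeriv hΦ
  have c2 : Continuous fun θ : ℝ => Φ (circleMap 0 1 θ) :=
    hΦ.continuous.comp (continuous_circleMap 0 1)
  simp only [sub_mul]
  rw [integral_sub (integrable_mul_cont i₁ c1) (integrable_mul_cont i₂ c1),
    integral_sub (integrable_mul_cont j₁ c2) (integrable_mul_cont j₂ c2), k1, k2]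
  ring

theorem circle_pow_re (n : ℕ) (θ : ℝ) : ((circleMap 0 1 θ) ^ n).re = Real.cos (n * θ) := by
  rw [circleMap_zero, Complex.ofReal_one, one_mul, ← Complex.exp_nat_mul]
  rw [show (n : ℂ) * (θ * Complex.I) = ((n * θ : ℝ) : ℂ) * Complex.I by push_cast; ring]
  rw [Complex.exp_ofReal_mul_I_re]

theorem circle_pow_im (n : ℕ) (θ : ℝ) : ((circleMap 0 1 θ) ^ n).im = Real.sin (n * θ) := by
  rw [circleMap_zero, Complex.ofReal_one, one_mul, ← Complex.exp_nat_mul]
  rw [show (n : ℂ) * (θ * Complex.I) = ((n * θ : ℝ) : ℂ) * Complex.I by push_cast; ring]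
  rw [Complex.exp_ofReal_mul_I_im]

theorem CircWeak.wirtinger {f h : ℝ → ℝ} (hw : CircWeak ∅ f h)
    (hf : MemLp f 2 (volume.restrict ang)) (hh : MemLp h 2 (volume.restrict ang)) :
    ∫ t in ang, (f t - (2 * π)⁻¹ * ∫ t in ang, f t) ^ 2 ≤ ∫ t in ang, h t ^ 2 := by
  refine circle_wirtinger hf hh (fun n => ?_) (fun n => ?_)
  · have hΦ : ContDiff ℝ ∞ (fun w : ℂ => (w ^ n).re) :=
      Complex.reCLM.contDiff.comp (contDiff_id.pow n)
    have key := hw _ hΦ (by simp)
    have e1 : ∀ θ : ℝ, fderiv ℝ (fun w : ℂ => (w ^ n).re) (circleMap 0 1 θ)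
        (circleMap 0 1 θ * Complex.I) = -(n * Real.sin (n * θ)) := by
      intro θ
      have h1 := hasDerivAt_comp_circle hΦ θ
      simp only [circle_pow_re] at h1
      have h2 : HasDerivAt (fun θ : ℝ => Real.cos (n * θ)) (-Real.sin (n * θ) * n) θ := by
        simpa using ((hasDerivAt_id θ).const_mul (n : ℝ)).cos
      rw [h1.unique h2]; ring
    simp only [e1, circle_pow_re] at key
    have e2 : ∫ θ in ang, f θ * -(n * Real.sin (n * θ)) =
        -(n * ∫ θ in ang, f θ * Real.sin (n * θ)) := by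
      rw [← integral_const_mul, ← integral_neg]
      exact integral_congr_ae (Eventually.of_forall fun θ => by ring)
    rw [e2] at key
    linarith
  · have hΦ : ContDiff ℝ ∞ (fun w : ℂ => (w ^ n).im) :=
      Complex.imCLM.contDiff.comp (contDiff_id.pow n)
    have key := hw _ hΦ (by simp)
    have e1 : ∀ θ : ℝ, fderiv ℝ (fun w : ℂ => (w ^ n).im) (circleMap 0 1 θ)
        (circleMap 0 1 θ * Complex.I) = n * Real.cos (n * θ) := by
      intro θ
      have h1 := hasDerivAt_comp_circle hΦ θ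
      simp only [circle_pow_im] at h1
      have h2 : HasDerivAt (fun θ : ℝ => Real.sin (n * θ)) (Real.cos (n * θ) * n) θ := by
        simpa only [id_eq, mul_one] using ((hasDerivAt_id θ).const_mul (n : ℝ)).sin
      rw [h1.unique h2]; ring
    simp only [e1, circle_pow_im] at key
    have e2 : ∫ θ in ang, f θ * (n * Real.cos (n * θ)) =
        n * ∫ θ in ang, f θ * Real.cos (n * θ) := by
      rw [← integral_const_mul]
      exact integral_congr_ae (Eventually.of_forall fun θ => by ring)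
    rw [e2] at key
    linarith only [key]

/-- Real and extended square integrals. -/
theorem lintegral_sq_eq {f : ℝ → ℝ} (hf : MemLp f 2 (volume.restrict ang)) :
    ∫⁻ θ in ang, ENNReal.ofReal (f θ ^ 2) = ENNReal.ofReal (∫ θ in ang, f θ ^ 2) := by
  rw [ofReal_integral_eq_lintegral_ofReal hf.integrable_sq
    (Eventually.of_forall fun θ => sq_nonneg _)]

theorem integral_sub_mean_sq {f : ℝ → ℝ} (hf : MemLp f 2 (volume.restrict ang)) :
    ∫ θ in ang, (f θ - (2 * π)⁻¹ * ∫ t in ang, f t) ^ 2 =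
      (∫ θ in ang, f θ ^ 2) - ∫ _ in ang, ((2 * π)⁻¹ * ∫ t in ang, f t) ^ 2 := by
  have hπ := Real.pi_pos
  have hfin : IsFiniteMeasure (volume.restrict ang) := ⟨by simp only [MeasurableSet.univ, Measure.restrict_apply, univ_inter, Real.volume_Ioo, sub_neg_eq_add, ENNReal.ofReal_lt_top]⟩
  have hfi : Integrable f (volume.restrict ang) := hf.integrable (by norm_num)
  set c := (2 * π)⁻¹ * ∫ t in ang, f t with hc
  have e1 : ∀ θ, (f θ - c) ^ 2 = f θ ^ 2 - (2 * c * f θ - c ^ 2) := fun θ => by ring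
  have j1 : Integrable (fun θ => 2 * c * f θ - c ^ 2) (volume.restrict ang) :=
    (hfi.const_mul _).sub (integrable_const _)
  simp only [e1]
  rw [integral_sub hf.integrable_sq j1,
    integral_sub (hfi.const_mul _) (integrable_const _), integral_const_mul]
  have e2 : ∫ t in ang, f t = 2 * π * c := by rw [hc]; (clear * -; field_simp)
  rw [e2]
  simp only [integral_const, measureReal_def, Measure.restrict_apply_univ, Real.volume_Ioo, smul_eq_mul]
  rw [ENNReal.toReal_ofReal (by linarith only [hπ])]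
  ring

theorem extG_zero (x : ℂ) (c : ℝ → ℝ) :
    extG x (fun _ => 1) (fun _ => 0) c (fun _ => 0) = fun _ => 0 := by
  funext z
  simp [extG]

/-- Almost every circle: square integrable slices. -/
theorem Loc.ae_slices {x : ℂ} {R : ℝ} {Ω K : Set ℂ} {u : ℂ → ℝ} {G : ℂ → ℂ}
    (h : Loc x R Ω K u G) :
    ∀ᵐ s : ℝ, 0 < s → MemLp (fun θ => u (circleMap x s θ)) 2 (volume.restrict ang) ∧
      MemLp (fun θ => s * inner ℝ (G (circleMap x s θ)) (circleMap 0 1 θ * Complex.I)) 2
        (volume.restrict ang) := by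
  have hn : MemLp (fun z => ‖G z‖) 2 volume := h.G2.norm
  filter_upwards [ae_memLp_circle x h.um h.u2, ae_memLp_circle x h.Gm.norm hn] with s h1 h2 hs
  refine ⟨h1 hs, ?_⟩
  have hm : Measurable fun θ : ℝ =>
      s * inner ℝ (G (circleMap x s θ)) (circleMap 0 1 θ * Complex.I) :=
    measurable_const.mul ((h.Gm.comp (measurable_circleMap x s)).inner
      ((measurable_circleMap 0 1).mul_const _))
  refine (h2 hs).of_le_mul (c := s) hm.aestronglyMeasurable (Eventually.of_forall fun θ => ?_)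
  rw [norm_mul, Real.norm_of_nonneg hs.le, norm_norm]
  gcongr
  refine (norm_inner_le_norm _ _).trans ?_
  rw [norm_mul, norm_unit]
  simp

/-- Competitor in a disk whose boundary circle misses the discontinuity set. -/
theorem Nice.comp_free {Ω K : Set ℂ} {g u : ℂ → ℝ} {G : ℂ → ℂ} {M : ℝ}
    (N : Nice Ω g u G K M) {x : ℂ} {R : ℝ} (hR : closedBall x R ⊆ Ω) :
    ∀ᵐ s : ℝ, 0 < s → s < R → Disjoint (sphere x s) K →
      (∫⁻ z in ball x s, ENNReal.ofReal (‖G z‖ ^ 2)) + μH[1] (K ∩ ball x s) +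
          ∫⁻ z in ball x s, ENNReal.ofReal ((u z - g z) ^ 2) ≤
        ENNReal.ofReal (s ^ 2) * (∫⁻ θ in ang, ENNReal.ofReal
          ((inner ℝ (G (circleMap x s θ)) (circleMap 0 1 θ * Complex.I) : ℝ) ^ 2)) +
        ENNReal.ofReal (2 / 3 * s ^ 2) * (∫⁻ θ in ang, ENNReal.ofReal
          ((u (circleMap x s θ) - g (circleMap x s θ)) ^ 2)) +
        ENNReal.ofReal (18 * π * M ^ 2 * s ^ 2) := by
  filter_upwards [N.glue_compare hR, (N.loc hR).ae_circWeak, (N.loc hR).ae_slices]
    with s hcmp hcw hsl hs0 hsR hfree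
  have hcmp := hcmp hs0 hsR
  have hcw := hcw hs0 hsR
  obtain ⟨hf, hh⟩ := hsl hs0
  set f : ℝ → ℝ := fun θ => u (circleMap x s θ) with hfdef
  set h : ℝ → ℝ := fun θ => s * inner ℝ (G (circleMap x s θ)) (circleMap 0 1 θ * Complex.I)
    with hhdef
  have fm : Measurable f := N.um.comp (measurable_circleMap x s)
  have hm : Measurable h := measurable_const.mul ((N.Gm.comp (measurable_circleMap x s)).inner
      ((measurable_circleMap 0 1).mul_const _))
  have hΘ : {w : ℂ | ‖w‖ = 1 ∧ x + s • w ∈ K} = ∅ := by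
    rw [eq_empty_iff_forall_notMem]
    rintro w ⟨hw1, hw2⟩
    refine disjoint_left.mp hfree ?_ hw2
    rw [mem_sphere, dist_eq_norm, add_sub_cancel_left, norm_smul, hw1, mul_one,
      Real.norm_eq_abs, abs_of_pos hs0]
  rw [hΘ] at hcw
  have hfin : IsFiniteMeasure (volume.restrict ang) := ⟨by simp only [MeasurableSet.univ, Measure.restrict_apply, univ_inter, Real.volume_Ioo, sub_neg_eq_add, ENNReal.ofReal_lt_top]⟩
  have hfi : IntegrableOn f ang := hf.integrable (by norm_num)
  have hhi : IntegrableOn h ang := hh.integrable (by norm_num)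
  set c : ℝ := (2 * π)⁻¹ * ∫ t in ang, f t with hc
  set k : ℝ → ℝ := fun θ => f θ - c with hk
  have km : Measurable k := fm.sub_const c
  have hkL : MemLp k 2 (volume.restrict ang) := hf.sub (memLp_const c)
  have hki : IntegrableOn k ang := hkL.integrable (by norm_num)
  have hkw : CircWeak ∅ k h := by
    have := hcw.sub (circWeak_const ∅ c) hfi (integrable_const c) hhi (integrable_const 0)
    simpa using this
  have hwirt : ∫ t in ang, k t ^ 2 ≤ ∫ t in ang, h t ^ 2 := hcw.wirtinger hf hh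
  have hmean := integral_sub_mean_sq hf
  rw [← hc] at hmean
  have hc2 : ∫⁻ θ in ang, ENNReal.ofReal ((fun _ => c) θ ^ 2) ≤
      ∫⁻ θ in ang, ENNReal.ofReal (f θ ^ 2) := by
    rw [lintegral_sq_eq hf, lintegral_sq_eq (f := fun _ => c) (memLp_const c)]
    refine ENNReal.ofReal_le_ofReal ?_
    have : 0 ≤ ∫ θ in ang, (f θ - c) ^ 2 := integral_nonneg fun θ => sq_nonneg _
    linarith only [hmean, this]
  -- the competitor
  let ζ : ℝ → ℝ := fun r => r / s
  let ζ' : ℝ → ℝ := fun _ => 1 / s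
  have hζ : ∀ r, HasDerivAt ζ (ζ' r) r := fun r => (hasDerivAt_id r).div_const s
  have hζc : Continuous ζ := continuous_id.div_const s
  have hζ'c : Continuous ζ' := continuous_const
  let Wi : ℂ → ℝ := fun z => extU x (fun _ => 1) (fun _ => c) z + extU x ζ k z
  let Gi : ℂ → ℂ := extG x ζ ζ' k h
  have hAe := annu_zero_ae x (s := s)
  have hres : volume.restrict (ball x s) = volume.restrict (annu x 0 s) :=
    (Measure.restrict_congr_set hAe).symm
  have b1 : ∫⁻ r in Ioo 0 s, ENNReal.ofReal (r * ζ' r ^ 2) = ENNReal.ofReal (1 / 2) := by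
    have : ∀ r, ENNReal.ofReal (r * ζ' r ^ 2) = ENNReal.ofReal (1 / s ^ 2) * ENNReal.ofReal r := by
      intro r
      rw [← ENNReal.ofReal_mul (by positivity)]
      congr 1
      simp only [ζ']
      (clear * - hs0; field_simp)
    simp only [this]
    rw [lintegral_const_mul _ (by fun_prop), lintegral_id_Ioo le_rfl hs0.le,
      ← ENNReal.ofReal_mul (by positivity)]
    congr 1
    field_simp
    ring
  have b2 : ∫⁻ r in Ioo 0 s, ENNReal.ofReal (ζ r ^ 2 / r) = ENNReal.ofReal (1 / 2) := by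
    rw [← b1]
    refine setLIntegral_congr_fun measurableSet_Ioo fun r hr => ?_
    have hr0 : r ≠ 0 := hr.1.ne'
    simp only [ζ, ζ']
    congr 1
    field_simp
  have b3 : ∫⁻ r in Ioo 0 s, ENNReal.ofReal (r * ζ r ^ 2) < ⊤ := by
    refine lt_of_le_of_lt (setLIntegral_mono measurable_const
      (g := fun _ => ENNReal.ofReal s) fun r hr => ?_) ?_
    · refine ENNReal.ofReal_le_ofReal ?_
      have h1 : ζ r ≤ 1 := (div_le_one hs0).mpr hr.2.le
      have h2 : 0 ≤ ζ r := div_nonneg hr.1.le hs0.le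
      have h3 : ζ r ^ 2 ≤ 1 := pow_le_one₀ h2 h1
      linarith only [mul_nonneg (le_of_lt (sub_pos.2 hs0)) (sub_nonneg.2 h3), mul_nonneg (sq_nonneg (ζ r : ℝ)) (le_of_lt (sub_pos.2 hr.2))]
    · rw [setLIntegral_const]
      exact ENNReal.mul_lt_top ENNReal.ofReal_lt_top (by simp only [Real.volume_Ioo, sub_zero, ENNReal.ofReal_lt_top])
  have b4 : ∫⁻ r in Ioo 0 s, ENNReal.ofReal (r * (fun _ : ℝ => (1 : ℝ)) r ^ 2) < ⊤ := by
    simp only [one_pow, mul_one]
    rw [lintegral_id_Ioo le_rfl hs0.le]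
    exact ENNReal.ofReal_lt_top
  have mU1 : MemLp (extU x (fun _ => 1) (fun _ => c)) 2 (volume.restrict (annu x 0 s)) :=
    memLp_extU x le_rfl measurable_const measurable_const (memLp_const c) b4
  have mU2 : MemLp (extU x ζ k) 2 (volume.restrict (annu x 0 s)) :=
    memLp_extU x le_rfl hζc.measurable km hkL b3
  have mG : MemLp Gi 2 (volume.restrict (annu x 0 s)) :=
    memLp_extG x le_rfl hζc.measurable hζ'c.measurable km hm hkL hh
      (by rw [b1]; exact ENNReal.ofReal_lt_top) (by rw [b2]; exact ENNReal.ofReal_lt_top)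
  have mW : MemLp Wi 2 (volume.restrict (ball x s)) := by
    rw [hres]; exact mU1.add mU2
  have mGi : MemLp Gi 2 (volume.restrict (ball x s)) := by
    rw [hres]; exact mG
  have hmain := hcmp Wi Gi ∅ mW mGi isClosed_empty (empty_subset _) ?_
  · refine hmain.trans ?_
    have hE : ∫⁻ z in ball x s, ENNReal.ofReal (‖Gi z‖ ^ 2) ≤
        ENNReal.ofReal (s ^ 2) * (∫⁻ θ in ang, ENNReal.ofReal
          ((inner ℝ (G (circleMap x s θ)) (circleMap 0 1 θ * Complex.I) : ℝ) ^ 2)) := by
      rw [hres, lintegral_extG x le_rfl hζc.measurable hζ'c.measurable km hm, b1, b2,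
        lintegral_sq_eq hkL, lintegral_sq_eq hh, ← ENNReal.ofReal_mul (by norm_num),
        ← ENNReal.ofReal_mul (by norm_num), ← ENNReal.ofReal_add
          (mul_nonneg (by norm_num) (integral_nonneg fun θ => sq_nonneg _))
          (mul_nonneg (by norm_num) (integral_nonneg fun θ => sq_nonneg _))]
      have h1 : ENNReal.ofReal (s ^ 2) * (∫⁻ θ in ang, ENNReal.ofReal
          ((inner ℝ (G (circleMap x s θ)) (circleMap 0 1 θ * Complex.I) : ℝ) ^ 2)) =
          ENNReal.ofReal (∫ θ in ang, h θ ^ 2) := by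
        rw [← lintegral_sq_eq hh, ← lintegral_const_mul']
        · refine lintegral_congr fun θ => ?_
          rw [← ENNReal.ofReal_mul (by positivity), hhdef]
          beta_reduce
          rw [mul_pow]
        · exact ENNReal.ofReal_ne_top
      rw [h1]
      refine ENNReal.ofReal_le_ofReal ?_
      linarith only [hwirt]
    have hWm : AEMeasurable Wi (volume.restrict (ball x s)) := mW.1.aemeasurable
    have hWb : ∫⁻ z in ball x s, ENNReal.ofReal (Wi z ^ 2) ≤
        ENNReal.ofReal (51 / 100 * s ^ 2) * ∫⁻ θ in ang, ENNReal.ofReal (f θ ^ 2) := by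
      rw [hres]
      refine (lintegral_interp x le_rfl hs0.le hζc.measurable measurable_const fm
        (fun r hr => ⟨div_nonneg hr.1.le hs0.le, (div_le_one hs0).mpr hr.2.le⟩) hc2).trans ?_
      gcongr
      nlinarith only []
    have hU := fidelity_bound x hs0 hWm N.gm fm N.gb hWb
    rw [measure_empty, add_zero, add_assoc]
    exact add_le_add hE hU
  · intro φ h1 h2 h3 _ _ v
    have hfinA := volume_annu_ne_top x 0 s
    have z1 : MemLp (fun _ : ℂ => (0 : ℂ)) 2 (volume.restrict (annu x 0 s)) := MemLp.zero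
    have D1 : IntegrableOn (fun z => extU x (fun _ => 1) (fun _ => c) z * fderiv ℝ φ z v +
        inner ℝ (extG x (fun _ => 1) (fun _ => 0) (fun _ => c) (fun _ => 0) z) v * φ z)
        (annu x 0 s) := by
      rw [extG_zero]
      exact integrableOn_density hfinA mU1 z1 h1 h2 v
    have D2 : IntegrableOn (fun z => extU x ζ k z * fderiv ℝ φ z v +
        inner ℝ (extG x ζ ζ' k h z) v * φ z) (annu x 0 s) :=
      integrableOn_density hfinA mU2 mG h1 h2 v
    have I1 := annulus_ibp (x := x) (a := 0) (s := s) (ζ := fun _ => 1) (ζ' := fun _ => 0)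
      (f := fun _ => c) (h := fun _ => 0) le_rfl hs0
      (fun r => hasDerivAt_const r 1) continuous_const measurable_const measurable_const
      (integrable_const c) (integrable_const 0) (circWeak_const ∅ c) h1
      (fun r _ w hw => absurd hw (notMem_empty w)) v D1
    have I2 := annulus_ibp (x := x) (a := 0) (s := s) le_rfl hs0 hζ hζ'c km hm hki hhi hkw h1
      (fun r _ w hw => absurd hw (notMem_empty w)) v D2
    have e0 : ∫ z in ball x s, (Wi z * fderiv ℝ φ z v + inner ℝ (Gi z) v * φ z) =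
        (∫ z in annu x 0 s, (extU x (fun _ => 1) (fun _ => c) z * fderiv ℝ φ z v +
        inner ℝ (extG x (fun _ => 1) (fun _ => 0) (fun _ => c) (fun _ => 0) z) v * φ z)) +
        ∫ z in annu x 0 s, (extU x ζ k z * fderiv ℝ φ z v +
          inner ℝ (extG x ζ ζ' k h z) v * φ z) := by
      rw [← integral_add D1 D2, hres]
      refine integral_congr_ae (Eventually.of_forall fun z => ?_)
      simp only [extG_zero, Wi, Gi, inner_zero_left]
      ring
    rw [e0, I1, I2]
    have hζs : ζ s = 1 := div_self hs0.ne'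
    have ct : Continuous fun θ : ℝ => φ (circleMap x s θ) * inner ℝ (circleMap 0 1 θ) v :=
      (h1.continuous.comp (continuous_circleMap x s)).mul
        ((continuous_circleMap 0 1).inner continuous_const)
    rw [hζs]
    simp only [zero_mul, sub_zero, mul_one]
    rw [← mul_add, ← integral_add (integrable_mul_cont (integrable_const c) ct)
      (integrable_mul_cont hki ct)]
    congr 1
    refine integral_congr_ae (Eventually.of_forall fun θ => ?_)
    simp only [hk, hfdef]
    ring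

end Vale.Agent.P128
end

section

open MeasureTheory Set Metric Filter
open scoped ENNReal NNReal Topology Real ContDiff

namespace Vale.Agent.P128

/-- The branch of the angle seen from `p`, with values in `(0, 2π]`. -/
noncomputable def brn (p w : ℂ) : ℝ := π + Complex.arg (-w / p)

theorem brn_uc {p : ℂ} (hp : p ≠ 0) {r : ℝ} (hr : 0 < r) {t : ℝ} (ht : t ∈ Ioc 0 (2 * π)) :
    brn p (r • (p * uc t)) = t := by
  unfold brn
  have h1 : -(r • (p * uc t)) / p = (r : ℂ) * uc (t - π) := by
    have h2 : uc (t - π) = - uc t := by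
      unfold uc
      rw [show ((t - π : ℝ) : ℂ) * Complex.I = t * Complex.I - π * Complex.I by push_cast; ring,
        Complex.exp_sub, Complex.exp_pi_mul_I]
      ring
    rw [h2, Complex.real_smul]
    field_simp
  rw [h1]
  unfold uc
  rw [Complex.exp_mul_I, Complex.arg_mul_cos_add_sin_mul_I hr
    (by constructor <;> linarith only [ht.1, ht.2])]
  ring

theorem contDiffAt_brn {p w : ℂ} (h : -w / p ∈ Complex.slitPlane) :
    ContDiffAt ℝ ∞ (brn p) w := by
  unfold brn
  have h1 : ContDiffAt ℝ ∞ Complex.log (-w / p) :=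
    (Complex.contDiffAt_log (n := ∞) h).restrict_scalars ℝ
  have h2 : ContDiffAt ℝ ∞ (fun w : ℂ => -w / p) w :=
    (contDiff_neg.div_const p).contDiffAt
  have h2' : ContDiffAt ℝ ∞ (fun w : ℂ => Complex.log (-w / p)) w :=
    ContDiffAt.comp (g := Complex.log) (f := fun w : ℂ => -w / p) w h1 h2
  have h3 : ContDiffAt ℝ ∞ (fun w : ℂ => (Complex.log (-w / p)).im) w :=
    Complex.imCLM.contDiff.contDiffAt.comp w h2'
  have h4 : ContDiffAt ℝ ∞ (fun w : ℂ => Complex.arg (-w / p)) w := by
    simpa only [Complex.log_im] using h3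
  exact contDiffAt_const.add h4

/-- Near the cut the branch is close to `0` or to `2π`. -/
theorem brn_near_cut {p w : ℂ} (hp : p ≠ 0) (hw : w ≠ 0) (h : -w / p ∉ Complex.slitPlane)
    {ε : ℝ} (hε : 0 < ε) (hεπ : ε < π) :
    ∀ᶠ w' in 𝓝 w, brn p w' ∉ Icc ε (2 * π - ε) := by
  have hz0 : -w / p ≠ 0 := div_ne_zero (neg_ne_zero.mpr hw) hp
  have harg : Complex.arg (-w / p) = π := by
    rw [Complex.mem_slitPlane_iff_arg] at h
    by_contra hc
    exact h ⟨hc, hz0⟩
  have hcos : Real.cos (Complex.arg (-w / p)) = (-w / p).re / ‖-w / p‖ := Complex.cos_arg hz0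
  rw [harg, Real.cos_pi] at hcos
  have hcont : ContinuousAt (fun w' : ℂ => (-w' / p).re / ‖-w' / p‖) w := by
    refine ContinuousAt.div ?_ ?_ (norm_ne_zero_iff.mpr hz0)
    · exact (Complex.continuous_re.comp (by fun_prop)).continuousAt
    · exact (continuous_norm.comp (by fun_prop)).continuousAt
  have hlt : (-w / p).re / ‖-w / p‖ < Real.cos (π - ε) := by
    rw [← hcos, ← Real.cos_pi]
    exact Real.cos_lt_cos_of_nonneg_of_le_pi (by linarith only [hεπ]) le_rfl (by linarith only [hε])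
  have hev := hcont.eventually_lt_const hlt
  have hne : ∀ᶠ w' in 𝓝 w, w' ≠ 0 := isOpen_ne.mem_nhds hw
  filter_upwards [hev, hne] with w' h1 h2 h3
  have hz1 : -w' / p ≠ 0 := div_ne_zero (neg_ne_zero.mpr h2) hp
  rw [← Complex.cos_arg hz1, ← Real.cos_abs (Complex.arg (-w' / p))] at h1
  have h4 : π - ε < |Complex.arg (-w' / p)| := by
    by_contra hc
    push Not at hc
    have := Real.cos_le_cos_of_nonneg_of_le_pi (abs_nonneg _) (by linarith only [hε] : π - ε ≤ π) hc
    linarith only [h1, this]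
  unfold brn at h3
  have h5 : |Complex.arg (-w' / p)| ≤ π - ε := by
    rw [abs_le]; constructor <;> linarith only [h3.1, h3.2]
  linarith only [h4, h5]

theorem exists_margin {φ : ℝ → ℝ} (hc : HasCompactSupport φ) {γ : ℝ}
    (hγπ : γ ≤ 2 * π) (hs : tsupport φ ⊆ Ioo 0 γ) :
    ∃ ε, 0 < ε ∧ ε < π ∧ tsupport φ ⊆ Icc ε (2 * π - ε) := by
  have hπ := Real.pi_pos
  rcases (tsupport φ).eq_empty_or_nonempty with he | hne
  · exact ⟨π / 2, by positivity, by linarith, by rw [he]; exact empty_subset _⟩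
  · obtain ⟨a, ha, ha'⟩ := hc.isCompact.exists_isLeast hne
    obtain ⟨b, hb, hb'⟩ := hc.isCompact.exists_isGreatest hne
    have h1 := hs ha
    have h2 := hs hb
    refine ⟨min (min a (γ - b)) (π / 2), ?_, ?_, fun t ht => ⟨?_, ?_⟩⟩
    · have h3 : 0 < a := h1.1
      have h4 : 0 < γ - b := by linarith only [h2.2]
      positivity
    · exact lt_of_le_of_lt (min_le_right _ _) (by linarith only [hπ])
    · exact ((min_le_left _ _).trans (min_le_left _ _)).trans (ha' ht)
    · have h3 : min (min a (γ - b)) (π / 2) ≤ γ - b :=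
        (min_le_left _ _).trans (min_le_right _ _)
      linarith only [hγπ, h3, hb' ht]

/-- Test functions supported on an arc of the circle. -/
theorem exists_arc_test {p : ℂ} (hp : ‖p‖ = 1) {γ : ℝ} (hγπ : γ ≤ 2 * π)
    {φ : ℝ → ℝ} (hφ : ContDiff ℝ ∞ φ) (hc : HasCompactSupport φ) (hs : tsupport φ ⊆ Ioo 0 γ) :
    ∃ Φ : ℂ → ℝ, ContDiff ℝ ∞ Φ ∧ (∀ t ∈ Ioc 0 (2 * π), Φ (p * uc t) = φ t) ∧
      ∀ w, ‖w‖ = 1 → (∀ t ∈ Ioo 0 γ, w ≠ p * uc t) → w ∉ tsupport Φ := by
  have hπ := Real.pi_pos
  have hp0 : p ≠ 0 := by rw [← norm_ne_zero_iff, hp]; exact one_ne_zero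
  obtain ⟨ε, hε, hεπ, hsε⟩ := exists_margin hc hγπ hs
  let χ : ℝ → ℝ := fun r => Real.smoothTransition (2 * r - 1)
  have hχ : ContDiff ℝ ∞ χ := Real.smoothTransition.contDiff.comp (by fun_prop)
  let Φ : ℂ → ℝ := fun w => χ ‖w‖ * φ (brn p w)
  have hcut : ∀ w, w ≠ 0 → -w / p ∉ Complex.slitPlane → Φ =ᶠ[𝓝 w] fun _ => 0 := by
    intro w hw hws
    filter_upwards [brn_near_cut hp0 hw hws hε hεπ] with w' hw'
    have : φ (brn p w') = 0 := image_eq_zero_of_notMem_tsupport fun h => hw' (hsε h)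
    simp only [Φ, this, mul_zero]
  refine ⟨Φ, ?_, ?_, ?_⟩
  · rw [contDiff_iff_contDiffAt]
    intro w
    by_cases hw : w = 0
    · have : Φ =ᶠ[𝓝 w] fun _ => 0 := by
        filter_upwards [ball_mem_nhds w (show (0 : ℝ) < 1 / 2 by (clear * -; norm_num))] with w' hw'
        rw [mem_ball, hw, dist_zero_right] at hw'
        have : χ ‖w'‖ = 0 := Real.smoothTransition.zero_of_nonpos (by (clear * - hw'; linarith))
        simp only [Φ, this, zero_mul]
      exact contDiffAt_const.congr_of_eventuallyEq this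
    · by_cases hws : -w / p ∈ Complex.slitPlane
      · exact (hχ.contDiffAt.comp w (contDiffAt_norm ℝ hw)).mul
          (hφ.contDiffAt.comp w (contDiffAt_brn hws))
      · exact contDiffAt_const.congr_of_eventuallyEq (hcut w hw hws)
  · intro t ht
    have h1 := brn_uc hp0 one_pos ht
    rw [one_smul] at h1
    have h2 : ‖p * uc t‖ = 1 := by rw [norm_mul, hp, norm_uc, mul_one]
    have h3 : χ 1 = 1 := Real.smoothTransition.one_of_one_le (by norm_num)
    simp only [Φ]
    rw [h1, h2, h3, one_mul]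
  · intro w hw hwt
    have hw0 : w ≠ 0 := by rw [← norm_ne_zero_iff, hw]; exact one_ne_zero
    rw [notMem_tsupport_iff_eventuallyEq]
    by_cases hws : -w / p ∈ Complex.slitPlane
    · -- the branch is continuous at `w`, with value outside the support
      have hq : ‖w / p‖ = 1 := by rw [norm_div, hw, hp, div_one]
      have hcont : ContinuousAt (brn p) w := (contDiffAt_brn hws).continuousAt
      have hval : brn p w ∉ tsupport φ := by
        intro hmem
        have h1 := hs hmem
        refine hwt (brn p w) h1 ?_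
        have h2 : ‖-w / p‖ = 1 := by rw [neg_div, norm_neg, hq]
        have h3 := uc_arg h2
        unfold brn
        rw [uc_add, h3]
        have h4 : uc π = -1 := by unfold uc; exact Complex.exp_pi_mul_I
        rw [h4]
        field_simp
      have hopen : (tsupport φ)ᶜ ∈ 𝓝 (brn p w) := (isClosed_tsupport φ).isOpen_compl.mem_nhds hval
      filter_upwards [hcont.preimage_mem_nhds hopen] with w' hw'
      have : φ (brn p w') = 0 := image_eq_zero_of_notMem_tsupport hw'
      simp only [Φ, this, mul_zero, Pi.zero_apply]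
    · exact hcut w hw0 hws

end Vale.Agent.P128
end

section

open MeasureTheory Set Metric Filter
open scoped ENNReal NNReal Topology Real ContDiff

namespace Vale.Agent.P128

theorem mem_arcAfter_iff {Θ : Set ℂ} (hΘ : Θ.Finite) {p : ℂ} (hp : p ∈ Θ) (hp1 : ‖p‖ = 1)
    {t : ℝ} (ht : t ∈ Ioc 0 (2 * π)) : p * uc t ∈ arcAfter Θ p ↔ t < gap Θ p := by
  have hp0 : p ≠ 0 := by rw [← norm_ne_zero_iff, hp1]; exact one_ne_zero
  obtain ⟨g1, g2, g3, g4⟩ := gap_spec hΘ hp hp1
  constructor
  · rintro ⟨t', ht', he⟩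
    have : t = t' := uc_inj (mul_left_cancel₀ hp0 he) (by
      rw [abs_lt]; constructor <;> linarith [ht.1, ht.2, ht'.1, ht'.2])
    rw [this]; exact ht'.2
  · intro h
    exact ⟨t, ⟨ht.1, h⟩, rfl⟩

/-- Angles of the points of the arc after `p`. -/
def arcAng (Θ : Set ℂ) (p : ℂ) : Set ℝ := {θ | uc θ ∈ arcAfter Θ p}

theorem isOpen_arcAng {Θ : Set ℂ} {p : ℂ} (hp1 : ‖p‖ = 1) : IsOpen (arcAng Θ p) := by
  have : arcAng Θ p = ⋃ n : ℤ, Ioo (p.arg + n * (2 * π)) (p.arg + gap Θ p + n * (2 * π)) := by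
    ext θ
    rw [mem_iUnion]
    constructor
    · rintro ⟨t, ht, he⟩
      rw [← uc_arg hp1, ← uc_add] at he
      unfold uc at he
      rw [Complex.exp_eq_exp_iff_exists_int] at he
      obtain ⟨n, hn⟩ := he
      refine ⟨n, ?_⟩
      have h1 : (θ : ℂ) = (p.arg + t : ℝ) + n * (2 * π) := by
        have hI := Complex.I_ne_zero
        have : (θ : ℂ) * Complex.I = ((p.arg + t : ℝ) + n * (2 * π)) * Complex.I := by
          rw [hn]; ring
        exact mul_right_cancel₀ hI this
      have h2 : θ = p.arg + t + n * (2 * π) := by exact_mod_cast h1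
      constructor <;> linarith [ht.1, ht.2]
    · rintro ⟨n, hn1, hn2⟩
      refine ⟨θ - p.arg - n * (2 * π), ⟨by linarith, by linarith⟩, ?_⟩
      have h5 : p * uc (θ - p.arg - n * (2 * π)) = uc (p.arg + (θ - p.arg - n * (2 * π))) := by
        rw [uc_add, uc_arg hp1]
      rw [h5]
      unfold uc
      rw [Complex.exp_eq_exp_iff_exists_int]
      exact ⟨n, by push_cast; ring⟩
  rw [this]
  exact isOpen_iUnion fun n => isOpen_Ioo

theorem arcAng_periodic (Θ : Set ℂ) (p : ℂ) {E : Type*} [Zero E] {F : ℝ → E}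
    (hF : Function.Periodic F (2 * π)) :
    Function.Periodic ((arcAng Θ p).indicator F) (2 * π) := by
  intro t
  have h : uc (t + 2 * π) = uc t := by rw [uc_add, uc_two_pi, mul_one]
  by_cases ht : t ∈ arcAng Θ p
  · have ht' : t + 2 * π ∈ arcAng Θ p := by
      change uc (t + 2 * π) ∈ arcAfter Θ p
      rw [h]; exact ht
    rw [indicator_of_mem ht, indicator_of_mem ht', hF]
  · have ht' : t + 2 * π ∉ arcAng Θ p := by
      intro hc
      change uc (t + 2 * π) ∈ arcAfter Θ p at hc
      rw [h] at hc; exact ht hc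
    rw [indicator_of_notMem ht, indicator_of_notMem ht']

/-- The integral over one arc. -/
theorem integral_arc {Θ : Set ℂ} (hΘ : Θ.Finite) {p : ℂ} (hp : p ∈ Θ) (hp1 : ‖p‖ = 1)
    {F : ℝ → ℝ} (hF : Function.Periodic F (2 * π)) :
    ∫ θ in ang ∩ arcAng Θ p, F θ = ∫ t in Ioo 0 (gap Θ p), F (p.arg + t) := by
  have hm : MeasurableSet (arcAng Θ p) := (isOpen_arcAng hp1).measurableSet
  obtain ⟨g1, g2, g3, g4⟩ := gap_spec hΘ hp hp1
  rw [← setIntegral_indicator hm, integral_ang_shift (arcAng_periodic Θ p hF) p.arg]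
  have h1 : ∀ t ∈ Ioo 0 (2 * π), (arcAng Θ p).indicator F (p.arg + t) =
      (Ioo 0 (gap Θ p)).indicator (fun t => F (p.arg + t)) t := by
    intro t ht
    have ht' : t ∈ Ioc 0 (2 * π) := ⟨ht.1, ht.2.le⟩
    have hiff := mem_arcAfter_iff hΘ hp hp1 ht'
    have hu : uc (p.arg + t) = p * uc t := by rw [uc_add, uc_arg hp1]
    by_cases h : t < gap Θ p
    · rw [indicator_of_mem (show t ∈ Ioo 0 (gap Θ p) from ⟨ht.1, h⟩), indicator_of_mem]
      change uc (p.arg + t) ∈ arcAfter Θ p
      rw [hu]; exact hiff.mpr h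
    · rw [indicator_of_notMem (show t ∉ Ioo 0 (gap Θ p) from fun hc => h hc.2),
        indicator_of_notMem]
      change uc (p.arg + t) ∉ arcAfter Θ p
      rw [hu]; exact fun hc => h (hiff.mp hc)
  rw [setIntegral_congr_fun measurableSet_Ioo h1, setIntegral_indicator measurableSet_Ioo,
    inter_eq_self_of_subset_right (Ioo_subset_Ioo_right g2)]

theorem integrableOn_arc {Θ : Set ℂ} (hΘ : Θ.Finite) {p : ℂ} (hp : p ∈ Θ) (hp1 : ‖p‖ = 1)
    {F : ℝ → ℝ} (hF : Function.Periodic F (2 * π)) (hi : IntegrableOn F ang) :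
    IntegrableOn (fun t => F (p.arg + t)) (Ioo 0 (gap Θ p)) :=
  (integrable_ang_shift hF hi p.arg).mono_set
    (Ioo_subset_Ioo_right (gap_spec hΘ hp hp1).2.1)

/-- Decomposition of the integral over the circle into arcs. -/
theorem integral_eq_sum_arcs {T : Finset ℂ} (hne : T.Nonempty) (h1 : ∀ w ∈ T, ‖w‖ = 1)
    {F : ℝ → ℝ} (hF : Function.Periodic F (2 * π)) (hi : IntegrableOn F ang) :
    ∫ θ in ang, F θ = ∑ p ∈ T, ∫ t in Ioo 0 (gap (T : Set ℂ) p), F (p.arg + t) := by
  have hΘ : (T : Set ℂ).Finite := T.finite_toSet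
  have hne' : (T : Set ℂ).Nonempty := hne
  have hdis : Set.Pairwise (T : Set ℂ) (Function.onFun Disjoint
      fun p => ang ∩ arcAng (T : Set ℂ) p) := by
    intro p hp p' hp' hpp
    rw [Function.onFun, disjoint_left]
    intro θ hθ hθ'
    exact hpp (arcAfter_disjoint hΘ h1 hp hp' hθ.2 hθ'.2)
  have hsum := integral_biUnion_finset (μ := (volume : Measure ℝ)) (f := F) T
    (s := fun p => ang ∩ arcAng (T : Set ℂ) p)
    (fun p hp => measurableSet_Ioo.inter (isOpen_arcAng (h1 p hp)).measurableSet) hdis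
    (fun p _ => hi.mono_set inter_subset_left)
  have hae : (⋃ p ∈ T, ang ∩ arcAng (T : Set ℂ) p : Set ℝ) =ᵐ[volume] ang := by
    have hfin : {t | t ∈ Ioc (-π) (-π + 2 * π) ∧ (1 : ℂ) * uc t ∈ (T : Set ℂ)}.Finite :=
      finite_angles hΘ norm_one _
    have hsub : (⋃ p ∈ T, ang ∩ arcAng (T : Set ℂ) p : Set ℝ) ⊆ ang := by
      intro θ hθ
      simp only [mem_iUnion] at hθ
      obtain ⟨p, hp, h⟩ := hθ
      exact h.1
    refine (hsub.eventuallyLE).antisymm ?_
    rw [ae_le_set]
    refine measure_mono_null ?_ (hfin.measure_zero volume)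
    rintro θ ⟨hθ, hθ'⟩
    refine ⟨⟨hθ.1, by linarith [hθ.2]⟩, ?_⟩
    rw [one_mul]
    by_contra hc
    obtain ⟨p, hp, hpe⟩ := exists_arcAfter hΘ hne' h1 (norm_uc θ) hc
    exact hθ' (mem_iUnion₂.mpr ⟨p, hp, hθ, hpe⟩)
  rw [← setIntegral_congr_set hae, hsum]
  exact Finset.sum_congr rfl fun p hp => integral_arc hΘ hp (h1 p hp) hF

/-- The gaps sum up to the full angle. -/
theorem sum_gap {T : Finset ℂ} (hne : T.Nonempty) (h1 : ∀ w ∈ T, ‖w‖ = 1) :
    ∑ p ∈ T, gap (T : Set ℂ) p = 2 * π := by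
  have hπ := Real.pi_pos
  have := integral_eq_sum_arcs hne h1 (F := fun _ => (1 : ℝ)) (fun _ => rfl)
    (integrableOn_const (by simp))
  simp only [setIntegral_const, measureReal_def, Real.volume_Ioo, smul_eq_mul, mul_one] at this
  rw [ENNReal.toReal_ofReal (by linarith)] at this
  have h2 : ∀ p ∈ T, (ENNReal.ofReal (gap (T : Set ℂ) p - 0)).toReal = gap (T : Set ℂ) p := by
    intro p hp
    rw [sub_zero, ENNReal.toReal_ofReal (gap_spec T.finite_toSet hp (h1 p hp)).1.le]
  rw [Finset.sum_congr rfl h2] at this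
  linarith

/-- Mean of `f` over the arc after `p`. -/
noncomputable def arcMean (Θ : Set ℂ) (f : ℝ → ℝ) (p : ℂ) : ℝ :=
  (gap Θ p)⁻¹ * ∫ t in Ioo 0 (gap Θ p), f (p.arg + t)

/-- The function equal on every arc to the mean of `f`. -/
noncomputable def arcFun (T : Finset ℂ) (f : ℝ → ℝ) (θ : ℝ) : ℝ :=
  ∑ p ∈ T, (arcAng (T : Set ℂ) p).indicator (fun _ => arcMean (T : Set ℂ) f p) θ

theorem arcFun_periodic (T : Finset ℂ) (f : ℝ → ℝ) :
    Function.Periodic (arcFun T f) (2 * π) := by
  intro θ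
  unfold arcFun
  refine Finset.sum_congr rfl fun p _ => ?_
  exact arcAng_periodic (T : Set ℂ) p (F := fun _ => arcMean (T : Set ℂ) f p) (fun _ => rfl) θ

theorem measurable_arcFun {T : Finset ℂ} (h1 : ∀ w ∈ T, ‖w‖ = 1) (f : ℝ → ℝ) :
    Measurable (arcFun T f) := by
  unfold arcFun
  refine Finset.measurable_sum _ fun p hp => ?_
  exact measurable_const.indicator (isOpen_arcAng (h1 p hp)).measurableSet

theorem arcFun_eq {T : Finset ℂ} (h1 : ∀ w ∈ T, ‖w‖ = 1) (f : ℝ → ℝ) {p : ℂ} (hp : p ∈ T)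
    {θ : ℝ} (hθ : θ ∈ arcAng (T : Set ℂ) p) : arcFun T f θ = arcMean (T : Set ℂ) f p := by
  unfold arcFun
  rw [Finset.sum_eq_single_of_mem p hp]
  · rw [indicator_of_mem hθ]
  · intro q hq hqp
    refine indicator_of_notMem (fun hc => hqp ?_) _
    exact arcAfter_disjoint T.finite_toSet h1 hq hp hc hθ

theorem mem_arcAng_add {T : Finset ℂ} (h1 : ∀ w ∈ T, ‖w‖ = 1) {p : ℂ} (hp : p ∈ T) {t : ℝ}
    (ht : t ∈ Ioo 0 (gap (T : Set ℂ) p)) : p.arg + t ∈ arcAng (T : Set ℂ) p := by
  change uc (p.arg + t) ∈ arcAfter (T : Set ℂ) p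
  rw [uc_add, uc_arg (h1 p hp)]
  exact ⟨t, ht, rfl⟩

theorem memLp_arcFun {T : Finset ℂ} (h1 : ∀ w ∈ T, ‖w‖ = 1) (f : ℝ → ℝ) :
    MemLp (arcFun T f) 2 (volume.restrict ang) := by
  have hfin : IsFiniteMeasure (volume.restrict ang) := ⟨by simp⟩
  unfold arcFun
  refine memLp_finsetSum T fun p hp => ?_
  exact (memLp_const (arcMean (T : Set ℂ) f p)).indicator (isOpen_arcAng (h1 p hp)).measurableSet

end Vale.Agent.P128
end

section

open MeasureTheory Set Metric Filter
open scoped ENNReal NNReal Topology Real ContDiff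

namespace Vale.Agent.P128

theorem rotDeriv_eq {Φ : ℂ → ℝ} (hΦ : ContDiff ℝ ∞ Φ) (θ : ℝ) :
    HasDerivAt (fun θ : ℝ => Φ (uc θ))
      (fderiv ℝ Φ (circleMap 0 1 θ) (circleMap 0 1 θ * Complex.I)) θ := by
  have := hasDerivAt_comp_circle hΦ θ
  simpa only [uc_eq] using this

/-- The weak derivative on an arc. -/
theorem CircWeak.arc {T : Finset ℂ} (h1 : ∀ w ∈ T, ‖w‖ = 1) {f h : ℝ → ℝ}
    (hw : CircWeak (T : Set ℂ) f h) (pf : Function.Periodic f (2 * π))
    (ph : Function.Periodic h (2 * π)) {p : ℂ} (hp : p ∈ T) {φ : ℝ → ℝ}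
    (hφ : ContDiff ℝ ∞ φ) (hc : HasCompactSupport φ)
    (hs : tsupport φ ⊆ Ioo 0 (gap (T : Set ℂ) p)) :
    ∫ t in Ioo 0 (gap (T : Set ℂ) p), f (p.arg + t) * deriv φ t =
      - ∫ t in Ioo 0 (gap (T : Set ℂ) p), h (p.arg + t) * φ t := by
  obtain ⟨g1, g2, g3, g4⟩ := gap_spec T.finite_toSet hp (h1 p hp)
  obtain ⟨Φ, hΦ, hval, hsup⟩ := exists_arc_test (h1 p hp) g2 hφ hc hs
  have hdis : Disjoint (tsupport Φ) (T : Set ℂ) := by
    rw [disjoint_right]
    intro w hw
    refine hsup w (h1 w hw) fun t ht he => ?_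
    exact g4 t ht.1 ht.2 (by rw [← he]; exact hw)
  have key := hw Φ hΦ hdis
  have hval' : ∀ t ∈ Ioo 0 (2 * π), Φ (uc (p.arg + t)) = φ t := by
    intro t ht
    rw [uc_add, uc_arg (h1 p hp)]
    exact hval t ⟨ht.1, ht.2.le⟩
  have hder : ∀ t ∈ Ioo 0 (2 * π), fderiv ℝ Φ (circleMap 0 1 (p.arg + t))
      (circleMap 0 1 (p.arg + t) * Complex.I) = deriv φ t := by
    intro t ht
    have h2 := rotDeriv_eq hΦ (p.arg + t)
    have h3 : HasDerivAt (fun t => Φ (uc (p.arg + t)))
        (fderiv ℝ Φ (circleMap 0 1 (p.arg + t)) (circleMap 0 1 (p.arg + t) * Complex.I)) t := by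
      simpa using h2.comp_const_add p.arg t
    have h4 : HasDerivAt (fun t => Φ (uc (p.arg + t))) (deriv φ t) t := by
      refine ((hφ.differentiable (by simp)) t).hasDerivAt.congr_of_eventuallyEq ?_
      filter_upwards [isOpen_Ioo.mem_nhds ht] with t' ht'
      exact hval' t' ht'
    exact h3.unique h4
  have pD : Function.Periodic (fun θ : ℝ =>
      f θ * fderiv ℝ Φ (circleMap 0 1 θ) (circleMap 0 1 θ * Complex.I)) (2 * π) := by
    intro θ
    simp only
    rw [pf θ, uc_eq, uc_eq, uc_add, uc_two_pi, mul_one]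
  have pH : Function.Periodic (fun θ : ℝ => h θ * Φ (circleMap 0 1 θ)) (2 * π) := by
    intro θ
    simp only
    rw [ph θ, uc_eq, uc_eq, uc_add, uc_two_pi, mul_one]
  rw [integral_ang_shift pD p.arg, integral_ang_shift pH p.arg] at key
  have e1 : ∫ t in Ioo 0 (2 * π), f (p.arg + t) * fderiv ℝ Φ (circleMap 0 1 (p.arg + t))
      (circleMap 0 1 (p.arg + t) * Complex.I) =
      ∫ t in Ioo 0 (gap (T : Set ℂ) p), f (p.arg + t) * deriv φ t := by
    rw [setIntegral_congr_fun (g := fun t => f (p.arg + t) * deriv φ t) measurableSet_Ioo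
      (fun t ht => by simp only [hder t ht])]
    refine setIntegral_eq_of_subset_of_forall_sdiff_eq_zero measurableSet_Ioo
      (Ioo_subset_Ioo_right g2) fun t ht => ?_
    have : t ∉ tsupport φ := fun hc => ht.2 (hs hc)
    have h5 : deriv φ t = 0 := by
      by_contra hne
      exact this (support_deriv_subset hne)
    rw [h5, mul_zero]
  have e2 : ∫ t in Ioo 0 (2 * π), h (p.arg + t) * Φ (circleMap 0 1 (p.arg + t)) =
      ∫ t in Ioo 0 (gap (T : Set ℂ) p), h (p.arg + t) * φ t := by
    rw [setIntegral_congr_fun (g := fun t => h (p.arg + t) * φ t) measurableSet_Ioo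
      (fun t ht => by simp only [uc_eq, hval' t ht])]
    refine setIntegral_eq_of_subset_of_forall_sdiff_eq_zero measurableSet_Ioo
      (Ioo_subset_Ioo_right g2) fun t ht => ?_
    have : t ∉ tsupport φ := fun hc => ht.2 (hs hc)
    rw [image_eq_zero_of_notMem_tsupport this, mul_zero]
  rw [e1, e2] at key
  exact key

theorem memLp_arc {Θ : Set ℂ} (hΘ : Θ.Finite) {p : ℂ} (hp : p ∈ Θ) (hp1 : ‖p‖ = 1)
    {f : ℝ → ℝ} (pf : Function.Periodic f (2 * π)) (fm : Measurable f)
    (hf : MemLp f 2 (volume.restrict ang)) :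
    MemLp (fun t => f (p.arg + t)) 2 (volume.restrict (Ioo 0 (gap Θ p))) := by
  have p2 : Function.Periodic (fun t => f t ^ 2) (2 * π) := fun t => by simp only [pf t]
  have h2 := integrableOn_arc hΘ hp hp1 p2 hf.integrable_sq
  exact (memLp_two_iff_integrable_sq (f := fun t => f (p.arg + t))
    (fm.comp (measurable_const_add p.arg)).aestronglyMeasurable).mpr h2

/-- Poincare inequality on an arc. -/
theorem CircWeak.poincare {T : Finset ℂ} (h1 : ∀ w ∈ T, ‖w‖ = 1) {f h : ℝ → ℝ}
    (hw : CircWeak (T : Set ℂ) f h) (pf : Function.Periodic f (2 * π))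
    (ph : Function.Periodic h (2 * π)) (fm : Measurable f) (hm : Measurable h)
    (hf : MemLp f 2 (volume.restrict ang)) (hh : MemLp h 2 (volume.restrict ang))
    {p : ℂ} (hp : p ∈ T) :
    ∫ t in Ioo 0 (gap (T : Set ℂ) p), (f (p.arg + t) - arcMean (T : Set ℂ) f p) ^ 2 ≤
      (gap (T : Set ℂ) p / π) ^ 2 * ∫ t in Ioo 0 (gap (T : Set ℂ) p), h (p.arg + t) ^ 2 := by
  obtain ⟨g1, g2, g3, g4⟩ := gap_spec T.finite_toSet hp (h1 p hp)
  have := arc_poincare g1 (memLp_arc T.finite_toSet hp (h1 p hp) pf fm hf)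
    (memLp_arc T.finite_toSet hp (h1 p hp) ph hm hh)
    (fun φ a b c => hw.arc h1 pf ph hp a b c)
  unfold arcMean
  simpa only [sub_zero] using this

theorem arc_mean_sq {T : Finset ℂ} (h1 : ∀ w ∈ T, ‖w‖ = 1) {f : ℝ → ℝ}
    (pf : Function.Periodic f (2 * π)) (fm : Measurable f)
    (hf : MemLp f 2 (volume.restrict ang)) {p : ℂ} (hp : p ∈ T) :
    gap (T : Set ℂ) p * arcMean (T : Set ℂ) f p ^ 2 ≤
      ∫ t in Ioo 0 (gap (T : Set ℂ) p), f (p.arg + t) ^ 2 := by
  obtain ⟨g1, g2, g3, g4⟩ := gap_spec T.finite_toSet hp (h1 p hp)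
  have hL := memLp_arc T.finite_toSet hp (h1 p hp) pf fm hf
  have hfin : IsFiniteMeasure (volume.restrict (Ioo 0 (gap (T : Set ℂ) p))) := ⟨by simp⟩
  have hi : Integrable (fun t => f (p.arg + t)) (volume.restrict (Ioo 0 (gap (T : Set ℂ) p))) :=
    hL.integrable (by norm_num)
  set c := arcMean (T : Set ℂ) f p with hc
  have h0 : 0 ≤ ∫ t in Ioo 0 (gap (T : Set ℂ) p), (f (p.arg + t) - c) ^ 2 :=
    integral_nonneg fun t => sq_nonneg _
  have e1 : ∀ t, (f (p.arg + t) - c) ^ 2 = f (p.arg + t) ^ 2 - (2 * c * f (p.arg + t) - c ^ 2) :=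
    fun t => by ring
  have j1 : Integrable (fun t => 2 * c * f (p.arg + t) - c ^ 2)
      (volume.restrict (Ioo 0 (gap (T : Set ℂ) p))) := (hi.const_mul _).sub (integrable_const _)
  simp only [e1] at h0
  rw [integral_sub hL.integrable_sq j1, integral_sub (hi.const_mul _) (integrable_const _),
    integral_const_mul, setIntegral_const, measureReal_def, Real.volume_Ioo, sub_zero,
    ENNReal.toReal_ofReal g1.le, smul_eq_mul] at h0
  have e2 : ∫ t in Ioo 0 (gap (T : Set ℂ) p), f (p.arg + t) = gap (T : Set ℂ) p * c := by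
    rw [hc, arcMean]; field_simp
  rw [e2] at h0
  linarith only [h0]

theorem integral_sub_arcFun_sq_le {T : Finset ℂ} (hne : T.Nonempty) (h1 : ∀ w ∈ T, ‖w‖ = 1)
    {f h : ℝ → ℝ}
    (hw : CircWeak (T : Set ℂ) f h) (pf : Function.Periodic f (2 * π))
    (ph : Function.Periodic h (2 * π)) (fm : Measurable f) (hm : Measurable h)
    (hf : MemLp f 2 (volume.restrict ang)) (hh : MemLp h 2 (volume.restrict ang))
    {a₀ : ℝ} (hgap : ∀ p ∈ T, gap (T : Set ℂ) p ≤ a₀) :
    ∫ θ in ang, (f θ - arcFun T f θ) ^ 2 ≤ (a₀ / π) ^ 2 * ∫ θ in ang, h θ ^ 2 := by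
  have hπ := Real.pi_pos
  have pD : Function.Periodic (fun θ => (f θ - arcFun T f θ) ^ 2) (2 * π) := fun θ => by
    simp only [pf θ, arcFun_periodic T f θ]
  have pH : Function.Periodic (fun θ => h θ ^ 2) (2 * π) := fun θ => by simp only [ph θ]
  have iD : IntegrableOn (fun θ => (f θ - arcFun T f θ) ^ 2) ang :=
    (hf.sub (memLp_arcFun h1 f)).integrable_sq
  rw [integral_eq_sum_arcs hne h1 pD iD, integral_eq_sum_arcs hne h1 pH hh.integrable_sq,
    Finset.mul_sum]
  refine Finset.sum_le_sum fun p hp => ?_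
  obtain ⟨g1, g2, g3, g4⟩ := gap_spec T.finite_toSet hp (h1 p hp)
  have e1 : ∫ t in Ioo 0 (gap (T : Set ℂ) p), (f (p.arg + t) - arcFun T f (p.arg + t)) ^ 2 =
      ∫ t in Ioo 0 (gap (T : Set ℂ) p), (f (p.arg + t) - arcMean (T : Set ℂ) f p) ^ 2 := by
    refine setIntegral_congr_fun measurableSet_Ioo fun t ht => ?_
    rw [arcFun_eq h1 f hp (mem_arcAng_add h1 hp ht)]
  rw [e1]
  refine (hw.poincare h1 pf ph fm hm hf hh hp).trans ?_
  have h2 : 0 ≤ ∫ t in Ioo 0 (gap (T : Set ℂ) p), h (p.arg + t) ^ 2 :=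
    integral_nonneg fun t => sq_nonneg _
  have h3 := hgap p hp
  gcongr

theorem integral_arcFun_sq_le {T : Finset ℂ} (hne : T.Nonempty) (h1 : ∀ w ∈ T, ‖w‖ = 1)
    {f : ℝ → ℝ} (pf : Function.Periodic f (2 * π)) (fm : Measurable f)
    (hf : MemLp f 2 (volume.restrict ang)) :
    ∫ θ in ang, arcFun T f θ ^ 2 ≤ ∫ θ in ang, f θ ^ 2 := by
  have pC : Function.Periodic (fun θ => arcFun T f θ ^ 2) (2 * π) := fun θ => by
    simp only [arcFun_periodic T f θ]
  have p2 : Function.Periodic (fun θ => f θ ^ 2) (2 * π) := fun θ => by simp only [pf θ]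
  rw [integral_eq_sum_arcs hne h1 pC (memLp_arcFun h1 f).integrable_sq,
    integral_eq_sum_arcs hne h1 p2 hf.integrable_sq]
  refine Finset.sum_le_sum fun p hp => ?_
  obtain ⟨g1, g2, g3, g4⟩ := gap_spec T.finite_toSet hp (h1 p hp)
  have e1 : ∫ t in Ioo 0 (gap (T : Set ℂ) p), arcFun T f (p.arg + t) ^ 2 =
      ∫ t in Ioo 0 (gap (T : Set ℂ) p), arcMean (T : Set ℂ) f p ^ 2 := by
    refine setIntegral_congr_fun measurableSet_Ioo fun t ht => ?_
    rw [arcFun_eq h1 f hp (mem_arcAng_add h1 hp ht)]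
  rw [e1, setIntegral_const, measureReal_def, Real.volume_Ioo, sub_zero,
    ENNReal.toReal_ofReal g1.le, smul_eq_mul]
  exact arc_mean_sq h1 pf fm hf hp

theorem sum_arc_mean_sq_le {T : Finset ℂ} (hne : T.Nonempty) (h1 : ∀ w ∈ T, ‖w‖ = 1)
    {f : ℝ → ℝ} (pf : Function.Periodic f (2 * π)) (fm : Measurable f)
    (hf : MemLp f 2 (volume.restrict ang)) :
    ∑ p ∈ T, gap (T : Set ℂ) p * arcMean (T : Set ℂ) f p ^ 2 ≤ ∫ θ in ang, f θ ^ 2 := by
  have p2 : Function.Periodic (fun θ => f θ ^ 2) (2 * π) := fun θ => by simp only [pf θ]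
  rw [integral_eq_sum_arcs hne h1 p2 hf.integrable_sq]
  exact Finset.sum_le_sum fun p hp => arc_mean_sq h1 pf fm hf hp

/-- The function of arc means has zero derivative off `T`. -/
theorem circWeak_arcFun {T : Finset ℂ} (hne : T.Nonempty) (h1 : ∀ w ∈ T, ‖w‖ = 1)
    (f : ℝ → ℝ) : CircWeak (T : Set ℂ) (arcFun T f) (fun _ => 0) := by
  intro Φ hΦ hd
  simp only [zero_mul, integral_zero, neg_zero]
  have hcD := continuous_rotDeriv hΦ
  have pD : Function.Periodic (fun θ : ℝ =>
      arcFun T f θ * fderiv ℝ Φ (circleMap 0 1 θ) (circleMap 0 1 θ * Complex.I)) (2 * π) := by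
    intro θ
    simp only
    rw [arcFun_periodic T f θ, uc_eq, uc_eq, uc_add, uc_two_pi, mul_one]
  have hfin : IsFiniteMeasure (volume.restrict ang) := ⟨by simp⟩
  have iC : IntegrableOn (arcFun T f) ang := (memLp_arcFun h1 f).integrable (by norm_num)
  rw [integral_eq_sum_arcs hne h1 pD (integrable_mul_cont iC hcD)]
  refine Finset.sum_eq_zero fun p hp => ?_
  obtain ⟨g1, g2, g3, g4⟩ := gap_spec T.finite_toSet hp (h1 p hp)
  have e1 : ∫ t in Ioo 0 (gap (T : Set ℂ) p), arcFun T f (p.arg + t) *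
      fderiv ℝ Φ (circleMap 0 1 (p.arg + t)) (circleMap 0 1 (p.arg + t) * Complex.I) =
      ∫ t in Ioo 0 (gap (T : Set ℂ) p), arcMean (T : Set ℂ) f p *
      fderiv ℝ Φ (circleMap 0 1 (p.arg + t)) (circleMap 0 1 (p.arg + t) * Complex.I) := by
    refine setIntegral_congr_fun measurableSet_Ioo fun t ht => ?_
    rw [arcFun_eq h1 f hp (mem_arcAng_add h1 hp ht)]
  rw [e1, integral_const_mul, ← integral_Ioc_eq_integral_Ioo,
    ← intervalIntegral.integral_of_le g1.le]
  have h2 : ∀ t : ℝ, HasDerivAt (fun t => Φ (uc (p.arg + t)))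
      (fderiv ℝ Φ (circleMap 0 1 (p.arg + t)) (circleMap 0 1 (p.arg + t) * Complex.I)) t := by
    intro t
    simpa using (rotDeriv_eq hΦ (p.arg + t)).comp_const_add p.arg t
  rw [intervalIntegral.integral_eq_sub_of_hasDerivAt (fun t _ => h2 t)
    ((hcD.comp (continuous_const.add continuous_id)).intervalIntegrable _ _)]
  have z : ∀ w ∈ T, Φ w = 0 := fun w hw =>
    image_eq_zero_of_notMem_tsupport fun hc => disjoint_left.mp hd hc hw
  rw [uc_add, uc_arg (h1 p hp), add_zero, uc_arg (h1 p hp), z p hp, z _ g3]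
  ring

end Vale.Agent.P128
end

section

open MeasureTheory Set Metric Filter
open scoped ENNReal NNReal Topology Real ContDiff

namespace Vale.Agent.P128

/-- Derivative of the power profile. -/
noncomputable def pw' (κ s r : ℝ) : ℝ := κ / s * (r / s) ^ (κ - 1)

end Vale.Agent.P128
end

section

open MeasureTheory Set Metric Filter
open scoped ENNReal NNReal Topology Real ContDiff

namespace Vale.Agent.P128

end Vale.Agent.P128
end
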