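import Vale.Agent.P128.MathlibUsed
import Vale.Agent.P128.Bdl.B1
import Vale.Agent.P128.Bdl.B2
import Vale.Agent.P128.Bdl.B3
import Vale.Agent.P128.Bdl.K_GM_Defs

set_option linter.all false

section

open MeasureTheory Set Metric Function Filter
open scoped ENNReal ContDiff Topology Real

namespace Vale.Agent.P128

theorem memLp_mul_cc {f : ℂ → ℝ} (hf : MemLp f 2 (volume : Measure ℂ)) {η : ℂ → ℝ}
    (h1 : Continuous η) (h2 : HasCompactSupport η) :
    MemLp (fun z => η z * f z) 2 (volume : Measure ℂ) := by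
  obtain ⟨C, hC⟩ := h1.bounded_above_of_compact_support h2
  refine hf.of_le_mul (c := C) (h1.aestronglyMeasurable.mul hf.1)
    (Eventually.of_forall fun z => ?_)
  rw [norm_mul]
  gcongr
  exact hC z

theorem memLp_smul_cc {G : ℂ → ℂ} (hG : MemLp G 2 (volume : Measure ℂ)) {η : ℂ → ℝ}
    (h1 : Continuous η) (h2 : HasCompactSupport η) :
    MemLp (fun z => η z • G z) 2 (volume : Measure ℂ) := by
  obtain ⟨C, hC⟩ := h1.bounded_above_of_compact_support h2
  refine hG.of_le_mul (c := C) (h1.aestronglyMeasurable.smul hG.1)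
    (Eventually.of_forall fun z => ?_)
  rw [norm_smul]
  gcongr
  exact hC z

theorem memLp_smul_cc' {f : ℂ → ℝ} (hf : MemLp f 2 (volume : Measure ℂ)) {P : ℂ → ℂ}
    (h1 : Continuous P) (h2 : HasCompactSupport P) :
    MemLp (fun z => f z • P z) 2 (volume : Measure ℂ) := by
  obtain ⟨C, hC⟩ := h1.bounded_above_of_compact_support h2
  refine hf.of_le_mul (c := C) (hf.1.smul h1.aestronglyMeasurable)
    (Eventually.of_forall fun z => ?_)
  rw [norm_smul, mul_comm]
  gcongr
  exact hC z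

theorem hasCompactSupport_grad {η : ℂ → ℝ} (h : HasCompactSupport η) :
    HasCompactSupport (grad η) := by
  refine HasCompactSupport.intro h.isCompact fun z hz => grad_eq_zero_of_notMem hz

/-- Euler-Lagrange identity with a smooth cut-off. -/
theorem Nice.euler_lagrange {Ω K : Set ℂ} {g u : ℂ → ℝ} {G : ℂ → ℂ} {M : ℝ}
    (N : Nice Ω g u G K M) {x : ℂ} {R : ℝ} (hR : closedBall x R ⊆ Ω)
    {η : ℂ → ℝ} (h1 : ContDiff ℝ ∞ η) {C : Set ℂ} (hC : IsCompact C) (hCR : C ⊆ ball x R)
    (h2 : tsupport η ⊆ C) (c : ℝ) :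
    (∫ z, (inner ℝ (G z) (η z • G z + (u z - c) • grad η z) : ℝ)) +
      ∫ z, (u z - g z) * (η z * (u z - c)) = 0 := by
  have hcs : HasCompactSupport η := hC.of_isClosed_subset (isClosed_tsupport η) h2
  have hu := N.u_memLp
  have hG := N.G_memLp
  have hw : IsWeakGrad (Ω \ K) (fun z => η z * (u z - c))
      (fun z => η z • G z + (u z - c) • grad η z) := by
    have a1 : LocallyIntegrable u (volume : Measure ℂ) := hu.locallyIntegrable (by norm_num)
    have a2 : LocallyIntegrable G (volume : Measure ℂ) := hG.locallyIntegrable (by norm_num)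
    have a3 : LocallyIntegrable (fun _ : ℂ => -c) (volume : Measure ℂ) :=
      continuous_const.locallyIntegrable
    have a4 : LocallyIntegrable (fun _ : ℂ => (0 : ℂ)) (volume : Measure ℂ) :=
      continuous_const.locallyIntegrable
    have b := IsWeakGrad.add a1 a3 a2 a4 N.min.1.weak (isWeakGrad_const (Ω \ K) (-c))
    have b2 := IsWeakGrad.smooth_mul (a1.add a3) (a2.add a4) b h1
    simpa [sub_eq_add_neg] using b2
  refine N.first_variation hR (C := C) ?_ ?_ hw hC hCR ?_ ?_
  · have : (fun z => η z * (u z - c)) = fun z => η z * u z + (-c) * η z := by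
      funext z; ring
    rw [this]
    exact (memLp_mul_cc hu h1.continuous hcs).add
      ((h1.continuous.memLp_of_hasCompactSupport hcs).const_mul _)
  · have : (fun z => η z • G z + (u z - c) • grad η z) =
        fun z => (η z • G z + u z • grad η z) + (-c) • grad η z := by
      funext z
      rw [sub_smul, neg_smul]
      abel
    rw [this]
    have h3 : MemLp (fun z => (-c) • grad η z) 2 (volume : Measure ℂ) :=
      ((continuous_grad h1).memLp_of_hasCompactSupport (hasCompactSupport_grad hcs)).const_smul (-c)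
    exact ((memLp_smul_cc hG h1.continuous hcs).add
      (memLp_smul_cc' hu (continuous_grad h1) (hasCompactSupport_grad hcs))).add h3
  · intro z hz
    rw [image_eq_zero_of_notMem_tsupport fun h => hz (h2 h), zero_mul]
  · intro z hz
    rw [image_eq_zero_of_notMem_tsupport fun h => hz (h2 h),
      grad_eq_zero_of_notMem fun h => hz (h2 h)]
    simp

theorem dist_circleMap_center (x : ℂ) {s : ℝ} (hs : 0 ≤ s) (θ : ℝ) :
    dist (circleMap x s θ) x = s := by
  rw [dist_eq_norm, circleMap_sub_center, norm_circleMap_zero, abs_of_nonneg hs]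

/-- The flux identity: for almost every radius one may test the equation with the
characteristic function of the disk. -/
theorem Nice.flux {Ω K : Set ℂ} {g u : ℂ → ℝ} {G : ℂ → ℂ} {M : ℝ}
    (N : Nice Ω g u G K M) {x : ℂ} {R : ℝ} (hR0 : 0 < R) (hR : closedBall x R ⊆ Ω) (c : ℝ) :
    ∀ᵐ s ∂(volume : Measure ℝ), s ∈ Ioo 0 R →
      ∫ z in ball x s, (‖G z‖ ^ 2 + (u z - g z) * (u z - c)) =
      s * ∫ θ in ang, (u (circleMap x s θ) - c) *
        inner ℝ (G (circleMap x s θ)) (Complex.exp (θ * Complex.I)) := by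
  have hG := N.G_memLp
  have hu := N.u_memLp
  have hug : MemLp (fun z => u z - g z) 2 (volume.restrict (ball x R)) :=
    (hu.restrict _).sub (N.g_memLp measure_ball_lt_top.ne)
  have huc : MemLp (fun z => u z - c) 2 (volume.restrict (ball x R)) :=
    (hu.restrict _).sub (by
      have : IsFiniteMeasure (volume.restrict (ball x R)) :=
        ⟨by simpa using measure_ball_lt_top (μ := (volume : Measure ℂ)) (x := x) (r := R)⟩
      exact memLp_const c)
  have hnu : Measurable (nu x) := measurable_nu x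
  set F1 : ℂ → ℝ := (ball x R).indicator fun z => ‖G z‖ ^ 2 + (u z - g z) * (u z - c) with hF1
  set F2 : ℂ → ℝ := (ball x R).indicator fun z => (u z - c) * inner ℝ (G z) (nu x z) with hF2
  have m1 : Measurable F1 := by
    refine Measurable.indicator ?_ measurableSet_ball
    exact (N.Gm.norm.pow_const 2).add ((N.um.sub N.gm).mul (N.um.sub_const c))
  have m2 : Measurable F2 := by
    refine Measurable.indicator ?_ measurableSet_ball
    exact (N.um.sub_const c).mul (N.Gm.inner hnu)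
  have i1 : Integrable F1 := by
    rw [hF1, integrable_indicator_iff measurableSet_ball]
    exact ((hG.restrict _).norm.integrable_sq).add (hug.integrable_mul huc)
  have i2 : Integrable F2 := by
    rw [hF2, integrable_indicator_iff measurableSet_ball]
    have : MemLp (fun z => (inner ℝ (G z) (nu x z) : ℝ)) 2 (volume.restrict (ball x R)) := by
      refine (hG.restrict (ball x R)).of_le_mul (c := 1)
        (N.Gm.inner hnu).aestronglyMeasurable (Eventually.of_forall fun z => ?_)
      calc ‖(inner ℝ (G z) (nu x z) : ℝ)‖ ≤ ‖G z‖ * ‖nu x z‖ := norm_inner_le_norm _ _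
        _ ≤ ‖G z‖ * 1 := by gcongr; exact norm_nu_le x z
        _ = 1 * ‖G z‖ := by ring
    exact huc.integrable_mul this
  set B : ℝ → ℝ := fun s => s * ∫ θ in ang, F2 (circleMap x s θ) with hB
  set D : ℝ → ℝ := fun s => ∫ z in ball x s, F1 z with hD
  have iB : Integrable B (volume.restrict (Ioi 0)) := by
    have h := (integrable_polar x m2 i2).integral_prod_left
    refine h.congr (Eventually.of_forall fun s => ?_)
    simp only [hB, integral_const_mul]
  -- Fubini for `D`
  have hset : MeasurableSet {p : ℝ × ℂ | ‖p.2 - x‖ < p.1} :=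
    measurableSet_lt (by fun_prop) measurable_fst
  have iprod : ∀ ψ : ℝ → ℝ, Continuous ψ → Integrable ψ →
      Integrable (fun p : ℝ × ℂ => ({p : ℝ × ℂ | ‖p.2 - x‖ < p.1}.indicator
        (fun p => ψ p.1 * F1 p.2)) p) (volume.prod volume) := fun ψ _ hi =>
    (hi.mul_prod i1).indicator hset
  have hDind : ∀ t, D t = ∫ z, (ball x t).indicator F1 z := fun t =>
    (integral_indicator measurableSet_ball).symm
  have hsec : ∀ (ψ : ℝ → ℝ) (t : ℝ), (∫ z, ({p : ℝ × ℂ | ‖p.2 - x‖ < p.1}.indicator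
        (fun p => ψ p.1 * F1 p.2)) (t, z)) = ψ t * D t := by
    intro ψ t
    rw [hDind, ← integral_const_mul]
    refine integral_congr_ae (Eventually.of_forall fun z => ?_)
    by_cases hz : ‖z - x‖ < t
    · have h1 : (t, z) ∈ {p : ℝ × ℂ | ‖p.2 - x‖ < p.1} := hz
      have h2 : z ∈ ball x t := by simpa [dist_eq_norm] using hz
      simp only [indicator_of_mem h1, indicator_of_mem h2]
    · have h1 : (t, z) ∉ {p : ℝ × ℂ | ‖p.2 - x‖ < p.1} := hz
      have h2 : z ∉ ball x t := by simpa [dist_eq_norm] using hz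
      simp only [indicator_of_notMem h1, indicator_of_notMem h2, mul_zero]
  have locD : LocallyIntegrableOn D (Ioo 0 R) := by
    -- `D` is measurable and bounded
    have hmeas : AEStronglyMeasurable D (volume : Measure ℝ) := by
      have hm : StronglyMeasurable (uncurry fun (t : ℝ) (z : ℂ) =>
          ({p : ℝ × ℂ | ‖p.2 - x‖ < p.1}.indicator (fun p => F1 p.2)) (t, z)) :=
        ((m1.comp measurable_snd).indicator hset).stronglyMeasurable
      have := (hm.integral_prod_right (ν := (volume : Measure ℂ))).aestronglyMeasurable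
        (μ := (volume : Measure ℝ))
      refine this.congr (Eventually.of_forall fun t => ?_)
      have := hsec (fun _ => 1) t
      simpa using this
    have hbd : ∀ t, ‖D t‖ ≤ ∫ z, ‖F1 z‖ := fun t =>
      (norm_integral_le_integral_norm _).trans
        (setIntegral_le_integral i1.norm (Eventually.of_forall fun _ => norm_nonneg _))
    have : IntegrableOn D (Ioo 0 R) := by
      have : IsFiniteMeasure (volume.restrict (Ioo (0 : ℝ) R)) := ⟨by simp⟩
      exact Integrable.of_bound hmeas.restrict _ (Eventually.of_forall hbd)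
    exact this.locallyIntegrableOn
  have locB : LocallyIntegrableOn B (Ioo 0 R) :=
    (IntegrableOn.mono_set iB Ioo_subset_Ioi_self).locallyIntegrableOn
  have key : ∀ᵐ s ∂(volume : Measure ℝ), s ∈ Ioo 0 R → B s - D s = 0 := by
    refine isOpen_Ioo.ae_eq_zero_of_integral_contDiff_smul_eq_zero (locB.sub locD) ?_
    intro ψ h1 h2 h3
    obtain ⟨h, a, b, k, ha, hb, hsm, hder, hk, hb0, hform⟩ := exists_primitive h1 h2 hR0 h3
    have hψint : Integrable ψ := h1.continuous.integrable_of_hasCompactSupport h2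
    set η : ℂ → ℝ := fun z => h ‖z - x‖ with hη
    have hηs : ContDiff ℝ ∞ η := contDiff_radial hsm ha hk x
    have hCR : closedBall x b ⊆ ball x R := closedBall_subset_ball hb
    have hsupp : tsupport η ⊆ closedBall x b := by
      refine closure_minimal (fun z hz => ?_) isClosed_closedBall
      by_contra hcon
      rw [mem_closedBall, dist_eq_norm, not_le] at hcon
      exact hz (hb0 _ hcon)
    have EL := N.euler_lagrange hR hηs (isCompact_closedBall x b) hCR hsupp c
    have hψ0 : ∀ s, s ∉ Ioo 0 R → ψ s = 0 := fun s hs =>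
      image_eq_zero_of_notMem_tsupport fun hh => hs (h3 hh)
    have hcη : Continuous η := hηs.continuous
    have hηb : ∃ Cη, ∀ z, ‖η z‖ ≤ Cη := hcη.bounded_above_of_compact_support
      ((isCompact_closedBall x b).of_isClosed_subset (isClosed_tsupport η) hsupp)
    obtain ⟨Cη, hCη⟩ := hηb
    obtain ⟨Cψ, hCψ⟩ := h1.continuous.bounded_above_of_compact_support h2
    have q1 : Integrable (fun z => η z * F1 z) :=
      i1.bdd_mul hcη.aestronglyMeasurable (Eventually.of_forall hCη)
    have q2 : Integrable (fun z => ψ ‖z - x‖ * F2 z) :=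
      i2.bdd_mul (h1.continuous.comp (continuous_id.sub continuous_const).norm).aestronglyMeasurable
        (Eventually.of_forall fun z => hCψ _)
    -- pointwise identity
    have hpt : ∀ z, (inner ℝ (G z) (η z • G z + (u z - c) • grad η z) : ℝ)
        + (u z - g z) * (η z * (u z - c)) = η z * F1 z + ψ ‖z - x‖ * F2 z := by
      intro z
      by_cases hz : z ∈ ball x R
      · simp only [hF1, hF2, indicator_of_mem hz]
        have hgrad : (inner ℝ (G z) (grad η z) : ℝ) = ψ ‖z - x‖ * inner ℝ (G z) (nu x z) := by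
          rw [real_inner_comm, inner_grad]
          by_cases hzx : z = x
          · have e1 : fderiv ℝ η z = 0 := by
              have : η =ᶠ[𝓝 z] fun _ => k := by
                have : ball x a ∈ 𝓝 z := by rw [hzx]; exact ball_mem_nhds x ha
                filter_upwards [this] with y hy
                exact hk _ (by simpa [dist_eq_norm] using hy)
              rw [this.fderiv_eq]
              simp
            rw [e1, hzx, hψ0 ‖x - x‖ (by simp)]
            simp
          · rw [hη, fderiv_radial hzx (hder _), real_inner_comm]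
        rw [inner_add_right, inner_smul_right, inner_smul_right, hgrad,
          real_inner_self_eq_norm_sq]
        ring
      · have hzC : z ∉ tsupport η := fun hh => hz (hCR (hsupp hh))
        simp only [hF1, hF2, indicator_of_notMem hz]
        rw [image_eq_zero_of_notMem_tsupport hzC, grad_eq_zero_of_notMem hzC]
        simp
    have p1 : Integrable (fun z => (inner ℝ (G z) (η z • G z + (u z - c) • grad η z) : ℝ)) := by
      have e : (fun z => (inner ℝ (G z) (η z • G z + (u z - c) • grad η z) : ℝ)) =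
          fun z => η z * (‖G z‖ ^ 2) + ψ ‖z - x‖ * F2 z := by
        funext z
        have := hpt z
        by_cases hz : z ∈ ball x R
        · simp only [hF1, indicator_of_mem hz] at this
          linarith
        · have hzC : z ∉ tsupport η := fun hh => hz (hCR (hsupp hh))
          simp only [hF2, indicator_of_notMem hz]
          rw [image_eq_zero_of_notMem_tsupport hzC, grad_eq_zero_of_notMem hzC]
          simp
      rw [e]
      exact ((hG.norm.integrable_sq).bdd_mul hcη.aestronglyMeasurable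
        (Eventually.of_forall hCη)).add q2
    have p2 : Integrable (fun z => (u z - g z) * (η z * (u z - c))) := by
      have e : (fun z => (u z - g z) * (η z * (u z - c))) =
          fun z => (η z * F1 z + ψ ‖z - x‖ * F2 z) -
            (inner ℝ (G z) (η z • G z + (u z - c) • grad η z) : ℝ) := by
        funext z; rw [← hpt z]; ring
      rw [e]
      exact (q1.add q2).sub p1
    have hsum : (∫ z, η z * F1 z) + ∫ z, ψ ‖z - x‖ * F2 z = 0 := by
      rw [← integral_add q1 q2, ← EL, ← integral_add p1 p2]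
      exact integral_congr_ae (Eventually.of_forall fun z => (hpt z).symm)
    -- polar coordinates for the second
    have hpol : ∫ z, ψ ‖z - x‖ * F2 z = ∫ s in Ioi (0 : ℝ), ψ s * B s := by
      have hmeas : Measurable fun z => ψ ‖z - x‖ * F2 z :=
        (h1.continuous.measurable.comp (measurable_id.sub_const x).norm).mul m2
      rw [integral_polar x hmeas q2]
      refine setIntegral_congr_fun measurableSet_Ioi fun s hs => ?_
      have hs' : (0 : ℝ) < s := hs
      have : ∀ θ, ‖circleMap x s θ - x‖ = s := fun θ => by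
        rw [← dist_eq_norm]; exact dist_circleMap_center x hs'.le θ
      simp only [this, hB, integral_const_mul]
      ring
    -- Fubini for the first
    have hfub : ∫ z, η z * F1 z = - ∫ t, ψ t * D t := by
      have hsw := integral_integral_swap (f := fun (t : ℝ) (z : ℂ) =>
        ({p : ℝ × ℂ | ‖p.2 - x‖ < p.1}.indicator (fun p => ψ p.1 * F1 p.2)) (t, z))
        (μ := (volume : Measure ℝ)) (ν := (volume : Measure ℂ))
        (iprod ψ h1.continuous hψint)
      simp only [hsec] at hsw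
      rw [hsw, ← integral_neg]
      refine integral_congr_ae (Eventually.of_forall fun z => ?_)
      have e1 : (∫ t, ({p : ℝ × ℂ | ‖p.2 - x‖ < p.1}.indicator (fun p => ψ p.1 * F1 p.2)) (t, z))
          = (∫ t in Ioi ‖z - x‖, ψ t) * F1 z := by
        rw [← integral_mul_const, ← integral_indicator measurableSet_Ioi]
        refine integral_congr_ae (Eventually.of_forall fun t => ?_)
        by_cases ht : ‖z - x‖ < t
        · have h1 : (t, z) ∈ {p : ℝ × ℂ | ‖p.2 - x‖ < p.1} := ht
          have h2 : t ∈ Ioi ‖z - x‖ := ht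
          simp only [indicator_of_mem h1, indicator_of_mem h2]
        · have h1 : (t, z) ∉ {p : ℝ × ℂ | ‖p.2 - x‖ < p.1} := ht
          have h2 : t ∉ Ioi ‖z - x‖ := ht
          simp only [indicator_of_notMem h1, indicator_of_notMem h2]
      simp only [e1]
      rw [hη]
      simp only [hform _ (norm_nonneg (z - x))]
      ring
    rw [hpol, hfub] at hsum
    have r1 : (∫ s in Ioi (0 : ℝ), ψ s * B s) = ∫ s, ψ s * B s := by
      refine setIntegral_eq_integral_of_forall_compl_eq_zero fun s hs => ?_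
      rw [hψ0 s fun hh => hs hh.1, zero_mul]
    rw [r1] at hsum
    have s1 : Integrable (fun s => ψ s * B s) := by
      have : IntegrableOn (fun s => ψ s * B s) (Ioi 0) :=
        iB.bdd_mul h1.continuous.aestronglyMeasurable (Eventually.of_forall hCψ)
      refine (integrableOn_iff_integrable_of_support_subset ?_).mp this
      intro s hs
      by_contra hcon
      exact hs (by simp [hψ0 s fun hh => hcon hh.1])
    have s2 : Integrable (fun s => ψ s * D s) := by
      have := (iprod ψ h1.continuous hψint).integral_prod_left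
      refine this.congr (Eventually.of_forall fun t => ?_)
      exact hsec ψ t
    simp only [smul_eq_mul, mul_sub]
    rw [integral_sub s1 s2]
    linarith
  filter_upwards [key] with s hs hsR
  have h0 := hs hsR
  have hBs : B s = s * ∫ θ in ang, (u (circleMap x s θ) - c) *
        inner ℝ (G (circleMap x s θ)) (Complex.exp (θ * Complex.I)) := by
    simp only [hB]
    congr 1
    refine integral_congr_ae (Eventually.of_forall fun θ => ?_)
    have hmem : circleMap x s θ ∈ ball x R := by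
      rw [mem_ball, dist_circleMap_center x hsR.1.le]; exact hsR.2
    simp only [hF2, indicator_of_mem hmem, nu_circleMap x hsR.1]
  have hDs : D s = ∫ z in ball x s, (‖G z‖ ^ 2 + (u z - g z) * (u z - c)) := by
    refine setIntegral_congr_fun measurableSet_ball fun z hz => ?_
    have hmem : z ∈ ball x R := ball_subset_ball hsR.2.le hz
    simp only [hF1, indicator_of_mem hmem]
  rw [← hDs, ← hBs]
  linarith

end Vale.Agent.P128
end

section

/-! Definitions for Q1 itself: regularity of the singular set of a reduced minimizer. -/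

open MeasureTheory Set Metric Filter
open scoped ENNReal NNReal ContDiff Topology Real

namespace Vale.Agent.P128.Q

open Vale.Agent.P128
open Vale.Agent.P128.GM (LocLip genergy IsGlobalMin W12loc)

/-- Dirichlet energy of `u` in the disk -/
noncomputable def dir (u : ℂ → ℝ) (x : ℂ) (s : ℝ) : ℝ := ∫ z in ball x s, ‖grad u z‖ ^ 2

/-- length of `K` in the open disk -/
noncomputable def len (K : Set ℂ) (x : ℂ) (s : ℝ) : ℝ := (μH[1] (K ∩ ball x s)).toReal

/-- Local setting: a reduced minimizer with a `C¹` representative, bounded by `M ≥ 1` in the disk of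
radius `2 R₀` about `x₀`. -/
structure MS (Ω : Set ℂ) (g u : ℂ → ℝ) (K : Set ℂ) (M : ℝ) (x₀ : ℂ) (R₀ : ℝ) : Prop where
  nice : Nice Ω g u ((Ω \ K).indicator (grad u)) K M
  red : IsReduced Ω K
  smooth : ContDiffOn ℝ 1 u (Ω \ K)
  one_le : 1 ≤ M
  pos : 0 < R₀
  sub : closedBall x₀ (2 * R₀) ⊆ Ω
  bdd : ∀ z ∈ ball x₀ (2 * R₀), |u z| ≤ M

/-- Almost minimizers in the disk of radius `R` about `0`, with error `κ`; `c₁` is a universal
constant of the gradient estimate. -/
structure AMin (c₁ R κ : ℝ) (v : ℂ → ℝ) (K : Set ℂ) : Prop where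
  κ0 : 0 ≤ κ
  closed : ∀ z ∈ closure K, ‖z‖ < R → z ∈ K
  smooth : ContDiffOn ℝ 1 v (ball 0 R \ K)
  bdd : ∃ m, ∀ z ∈ ball (0 : ℂ) R, |v z| ≤ m
  int : IntegrableOn (fun z => ‖grad v z‖ ^ 2) (ball 0 R)
  fin : μH[1] (K ∩ ball 0 R) < ⊤
  low : ∀ x ∈ K, ∀ s > 0, ‖x‖ + s < R → s / 2 ≤ dir v x s + len K x s
  min : ∀ (x : ℂ) (s : ℝ), 0 < s → ‖x‖ + s < R → ∀ (w : ℂ → ℝ) (L : Set ℂ),
    (∀ z ∈ closure L, ‖z‖ < R → z ∈ L) → LocLip (ball 0 R \ L) w →
    IntegrableOn (fun z => ‖grad w z‖ ^ 2) (ball x s) → μH[1] (L ∩ ball x s) < ⊤ →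
    (∃ C : Set ℂ, IsCompact C ∧ C ⊆ ball x s ∧ (∀ z, z ∉ C → (z ∈ L ↔ z ∈ K)) ∧
      ∀ z, z ∉ C → z ∉ K → w z = v z) →
    dir v x s + len K x s ≤ dir w x s + len L x s + κ * s ^ 2
  reg : ∀ (z : ℂ) (d : ℝ), 0 < d → ‖z‖ + 2 * d < R → ball z (2 * d) ∩ K = ∅ →
    ∀ a ∈ ball z d, ∀ b ∈ ball z d,
      ‖grad v a‖ ≤ c₁ * (√(dir v z (2 * d)) / d + κ * d) ∧
      ‖grad v a - grad v b‖ ≤ c₁ * (√(dir v z (2 * d)) / d ^ 2 * ‖a - b‖ + κ * d)

/-- blow-up of the function -/
noncomputable def blow (u : ℂ → ℝ) (x : ℂ) (r : ℝ) : ℂ → ℝ := fun z => (√r)⁻¹ * u (x + r * z)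

/-- blow-up of the set -/
def blowSet (K : Set ℂ) (x : ℂ) (r : ℝ) : Set ℂ := {z | x + r * z ∈ K}

/-- `n` half-lines from `p` with equal angles, one of them in the direction `e` -/
def Rays (n : ℕ) (p e : ℂ) : Set ℂ :=
  {z | ∃ k : ℕ, ∃ t : ℝ, 0 ≤ t ∧ z = p + t * (e * Complex.exp (2 * π * Complex.I / n) ^ k)}

end Vale.Agent.P128.Q
end

section

/-! Density of an integrable function at almost every point of a set of finite length. -/

open MeasureTheory Set Metric Filter
open scoped ENNReal NNReal ContDiff Topology Real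

namespace Vale.Agent.P128.Q

theorem ediam_closedBall_le' {X : Type*} [PseudoMetricSpace X] {y : X} {r a : ℝ}
    (ha : 2 * r ≤ a) : ediam (closedBall y r) ≤ ENNReal.ofReal a := by
  refine ediam_le fun p hp q hq => ?_
  rw [edist_dist]
  apply ENNReal.ofReal_le_ofReal
  have h1 : dist p y ≤ r := hp
  have h2 : dist q y ≤ r := hq
  have h3 := dist_triangle_right p q y
  linarith

private theorem cov_bound (f : ℂ → ℝ) (hf : ∀ z, 0 ≤ f z) {W : Set ℂ}
    (hi : IntegrableOn f W) {U A : Set ℂ} (hU : IsOpen U) (hUW : U ⊆ W) {t : ℝ} (ht : 0 < t)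
    (hAU : A ⊆ U)
    (hA : ∀ y ∈ A, ∃ᶠ r in 𝓝[>] (0 : ℝ), t * r < ∫ z in ball y r, f z) :
    μH[1] A ≤ ENNReal.ofReal (10 / t) * ∫⁻ z in U, ENNReal.ofReal (f z) := by
  classical
  have key : ∀ n : ℕ, ∃ u : Set (ℂ × ℝ), u.Countable ∧
      (∀ p ∈ u, 0 < p.2 ∧ p.2 < 1 / ((n : ℝ) + 1) ∧ closedBall p.1 p.2 ⊆ U ∧
        t * p.2 < ∫ z in ball p.1 p.2, f z) ∧
      (u.PairwiseDisjoint fun p => closedBall p.1 p.2) ∧
      A ⊆ ⋃ p ∈ u, closedBall p.1 (5 * p.2) := by
    intro n
    have hn : (0 : ℝ) < 1 / ((n : ℝ) + 1) := by positivity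
    set T : Set (ℂ × ℝ) := {p | p.1 ∈ A ∧ 0 < p.2 ∧ p.2 < 1 / ((n : ℝ) + 1) ∧
      closedBall p.1 p.2 ⊆ U ∧ t * p.2 < ∫ z in ball p.1 p.2, f z} with hT
    obtain ⟨u, huT, hud, hucov⟩ :=
      Vitali.exists_disjoint_subfamily_covering_enlargement_closedBall T (fun p => p.1)
        (fun p => p.2) (1 / ((n : ℝ) + 1)) (fun p hp => hp.2.2.1.le) 5 (by norm_num)
    refine ⟨u, ?_, fun p hp => (huT hp).2, hud, ?_⟩
    · refine hud.countable_of_nonempty_interior fun p hp => ?_
      refine ⟨p.1, ?_⟩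
      exact ball_subset_interior_closedBall (mem_ball_self (huT hp).2.1)
    · intro y hy
      obtain ⟨ρ, hρ, hρU⟩ := Metric.isOpen_iff.1 hU y (hAU hy)
      have h1 : ∀ᶠ r in 𝓝[>] (0 : ℝ), 0 < r ∧ r < 1 / ((n : ℝ) + 1) ∧ r < ρ := by
        filter_upwards [self_mem_nhdsWithin,
          mem_nhdsWithin_of_mem_nhds (Iio_mem_nhds hn),
          mem_nhdsWithin_of_mem_nhds (Iio_mem_nhds hρ)] with r h1 h2 h3
        exact ⟨h1, h2, h3⟩
      obtain ⟨r, hr, hr1, hr2, hr3⟩ := ((hA y hy).and_eventually h1).exists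
      have hyT : ((y, r) : ℂ × ℝ) ∈ T :=
        ⟨hy, hr1, hr2, (closedBall_subset_ball hr3).trans hρU, hr⟩
      obtain ⟨p, hp, hps⟩ := hucov _ hyT
      refine mem_biUnion hp (hps ?_)
      exact mem_closedBall_self hr1.le
  choose u huc hup hud hucov using key
  have : ∀ n, Countable (u n) := fun n => (huc n).to_subtype
  have hlim : Tendsto (fun n : ℕ => ENNReal.ofReal (10 * (1 / ((n : ℝ) + 1)))) atTop (𝓝 0) := by
    have : Tendsto (fun n : ℕ => 10 * (1 / ((n : ℝ) + 1))) atTop (𝓝 (10 * 0)) :=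
      tendsto_one_div_add_atTop_nhds_zero_nat.const_mul 10
    simpa using ENNReal.tendsto_ofReal this
  have hdiam : ∀ n, ∀ p : u n, ediam (closedBall p.1.1 (5 * p.1.2)) ≤
      ENNReal.ofReal (10 * p.1.2) := by
    intro n p
    have h0 := (hup n p.1 p.2).1
    exact ediam_closedBall_le' (by linarith)
  refine (Measure.hausdorffMeasure_le_liminf_tsum (ι := fun n => u n) 1 A
    (fun n : ℕ => ENNReal.ofReal (10 * (1 / ((n : ℝ) + 1)))) hlim
    (fun n p => closedBall p.1.1 (5 * p.1.2)) ?_ ?_).trans ?_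
  · refine Eventually.of_forall fun n p => (hdiam n p).trans ?_
    apply ENNReal.ofReal_le_ofReal
    have := (hup n p.1 p.2).2.1
    linarith only [this]
  · refine Eventually.of_forall fun n => ?_
    rw [iUnion_subtype]
    exact hucov n
  · refine liminf_le_of_frequently_le' (Frequently.of_forall fun n => ?_)
    calc ∑' p : u n, ediam (closedBall p.1.1 (5 * p.1.2)) ^ (1 : ℝ)
        ≤ ∑' p : u n, ENNReal.ofReal (10 / t) *
          (∫⁻ z in closedBall p.1.1 p.1.2, ENNReal.ofReal (f z)) := by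
          refine ENNReal.tsum_le_tsum fun p => ?_
          obtain ⟨h0, h1, h2, h3⟩ := hup n p.1 p.2
          rw [ENNReal.rpow_one]
          have h4 : ENNReal.ofReal (t * p.1.2) ≤
              ∫⁻ z in closedBall p.1.1 p.1.2, ENNReal.ofReal (f z) := by
            calc ENNReal.ofReal (t * p.1.2) ≤ ENNReal.ofReal (∫ z in ball p.1.1 p.1.2, f z) :=
                  ENNReal.ofReal_le_ofReal h3.le
              _ = ∫⁻ z in ball p.1.1 p.1.2, ENNReal.ofReal (f z) := by
                  refine ofReal_integral_eq_lintegral_ofReal ?_ (Eventually.of_forall hf)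
                  exact hi.mono_set ((ball_subset_closedBall.trans h2).trans hUW)
              _ ≤ _ := lintegral_mono_set ball_subset_closedBall
          calc _ ≤ ENNReal.ofReal (10 * p.1.2) := hdiam n p
            _ = ENNReal.ofReal (10 / t) * ENNReal.ofReal (t * p.1.2) := by
                rw [← ENNReal.ofReal_mul (by positivity)]
                congr 1
                field_simp
            _ ≤ _ := by gcongr
      _ = ENNReal.ofReal (10 / t) * ∑' p : u n,
          (∫⁻ z in closedBall p.1.1 p.1.2, ENNReal.ofReal (f z)) := ENNReal.tsum_mul_left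
      _ = ENNReal.ofReal (10 / t) *
          (∫⁻ z in ⋃ p ∈ u n, closedBall p.1 p.2, ENNReal.ofReal (f z)) := by
          congr 1
          rw [lintegral_biUnion (huc n) (fun p _ => measurableSet_closedBall) (hud n)]
      _ ≤ _ := by
          gcongr
          exact iUnion₂_subset fun p hp => (hup n p hp).2.2.1

set_option linter.unusedVariables false in
/-- C6: at almost every point of a closed set of locally finite length and area zero, the density
of a locally integrable function tends to zero. -/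
theorem ae_dens_zero {f : ℂ → ℝ} (hf : ∀ z, 0 ≤ f z)
    (hi : ∀ x r, IntegrableOn f (ball x r)) {K : Set ℂ} (hK : IsClosed K)
    (hv : volume K = 0) (hl : ∀ x r, μH[1] (K ∩ ball x r) < ⊤) :
    μH[1] {x ∈ K | ¬ Tendsto (fun r => (∫ z in ball x r, f z) / r) (𝓝[>] 0) (𝓝 0)} = 0 := by
  classical
  set A : ℕ → ℕ → Set ℂ := fun n m => {y | y ∈ K ∩ ball 0 (m : ℝ) ∧
    ∃ᶠ r in 𝓝[>] (0 : ℝ), (1 / ((n : ℝ) + 1)) * r < ∫ z in ball y r, f z} with hAdef
  have hsub : {x ∈ K | ¬ Tendsto (fun r => (∫ z in ball x r, f z) / r) (𝓝[>] 0) (𝓝 0)} ⊆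
      ⋃ n, ⋃ m, A n m := by
    rintro y ⟨hy, hnt⟩
    obtain ⟨m, hm⟩ := exists_nat_gt ‖y‖
    by_contra hcon
    apply hnt
    rw [Metric.tendsto_nhds]
    intro η hη
    obtain ⟨n, hn⟩ := exists_nat_one_div_lt hη
    have h1 : ¬ ∃ᶠ r in 𝓝[>] (0 : ℝ), (1 / ((n : ℝ) + 1)) * r < ∫ z in ball y r, f z := by
      intro h
      apply hcon
      refine mem_iUnion₂.2 ⟨n, m, ⟨hy, ?_⟩, h⟩
      simpa using hm
    rw [not_frequently] at h1
    filter_upwards [h1, self_mem_nhdsWithin] with r hr hr0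
    have hr0' : (0 : ℝ) < r := hr0
    have h0 : 0 ≤ ∫ z in ball y r, f z := setIntegral_nonneg measurableSet_ball fun z _ => hf z
    rw [Real.dist_eq, sub_zero, abs_of_nonneg (by (clear * - h0 hr0'; positivity))]
    refine lt_of_le_of_lt ?_ hn
    rw [div_le_iff₀ hr0']
    exact not_lt.1 hr
  refine measure_mono_null hsub ?_
  refine (measure_iUnion_null_iff).2 fun n => (measure_iUnion_null_iff).2 fun m => ?_
  set W : Set ℂ := ball 0 ((m : ℝ) + 1) with hW
  set μ : Measure ℂ := (volume.restrict W).withDensity fun z => ENNReal.ofReal (f z) with hμ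
  have : IsFiniteMeasure μ := by
    refine isFiniteMeasure_withDensity_ofReal ?_
    exact (hi 0 _).2
  have hn0 : μ K = 0 := by
    refine withDensity_absolutelyContinuous _ _ ?_
    exact le_antisymm ((Measure.restrict_apply_le _ _).trans hv.le) (zero_le)
  have hfin : ∀ η : ℝ≥0∞, 0 < η → μH[1] (A n m) ≤ ENNReal.ofReal (10 / (1 / ((n : ℝ) + 1))) * η := by
    intro η hη
    obtain ⟨U, hKU, hU, hμU⟩ := Set.exists_isOpen_lt_of_lt K η (μ := μ) (by rwa [hn0])
    have h1 := cov_bound f hf (hi 0 ((m : ℝ) + 1)) (U := U ∩ ball 0 ((m : ℝ) + 1)) (A := A n m)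
      (hU.inter isOpen_ball) inter_subset_right (t := 1 / ((n : ℝ) + 1)) (by positivity)
      (fun y hy => ⟨hKU hy.1.1, ball_subset_ball (by linarith) hy.1.2⟩) (fun y hy => hy.2)
    refine h1.trans ?_
    gcongr
    refine le_trans (le_of_eq ?_) hμU.le
    rw [hμ, withDensity_apply _ hU.measurableSet, Measure.restrict_restrict hU.measurableSet]
  by_contra hne
  have hc : ENNReal.ofReal (10 / (1 / ((n : ℝ) + 1))) ≠ 0 := by
    simp only [ne_eq, ENNReal.ofReal_eq_zero, not_le]
    positivity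
  have h2 : ∀ η : ℝ≥0, 0 < η → μH[1] (A n m) ≤ 0 + η := by
    intro η hη
    rw [zero_add]
    have h3 := hfin ((η : ℝ≥0∞) / ENNReal.ofReal (10 / (1 / ((n : ℝ) + 1))))
      (ENNReal.div_pos (by simpa using hη.ne') ENNReal.ofReal_ne_top)
    rwa [ENNReal.mul_div_cancel hc ENNReal.ofReal_ne_top] at h3
  exact hne (le_antisymm (ENNReal.le_of_forall_pos_le_add fun η hη _ => h2 η hη) (zero_le))

end Vale.Agent.P128.Q
end

section

/-! Finite families of disjoint disks carrying most of the length of a set; compact sets carrying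
most of an integral. -/

open MeasureTheory Set Metric Filter
open scoped ENNReal NNReal ContDiff Topology Real

namespace Vale.Agent.P128.Q

/-- Finitely many disjoint closed balls centred at good points of `S`, the sum of the diameters of
which exceeds a given number smaller than the length of `S`. -/
theorem exists_balls {S G O : Set ℂ} (hS : MeasurableSet S) (hfin : μH[1] S < ⊤) (hO : IsOpen O)
    (hGS : G ⊆ S) (hSO : S ⊆ O) (hnull : μH[1] (S \ G) = 0) {ρ : ℂ → ℝ} (hρ : ∀ y ∈ G, 0 < ρ y)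
    {a : ℝ≥0∞} (ha : a < μH[1] S) :
    ∃ (F : Finset ℂ) (r : ℂ → ℝ), (∀ y ∈ F, y ∈ G ∧ 0 < r y ∧ r y < ρ y ∧
        closedBall y (r y) ⊆ O) ∧
      ((F : Set ℂ).PairwiseDisjoint fun y => closedBall y (r y)) ∧
      a < ∑ y ∈ F, ENNReal.ofReal (2 * r y) := by
  classical
  -- the scale
  have h1 : Tendsto (fun r => OuterMeasure.mkMetric'.pre (fun s : Set ℂ => ediam s ^ (1 : ℝ)) r S)
      (𝓝[>] 0) (𝓝 (μH[1] S)) := by
    have := OuterMeasure.mkMetric'.tendsto_pre (fun s : Set ℂ => ediam s ^ (1 : ℝ)) S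
    convert this using 2
    rw [Measure.hausdorffMeasure, ← OuterMeasure.coe_mkMetric]
    rfl
  have hlepre : ∀ δ : ℝ≥0∞, 0 < δ → ∀ T : Set ℂ,
      OuterMeasure.mkMetric'.pre (fun s : Set ℂ => ediam s ^ (1 : ℝ)) δ T ≤ μH[1] T := by
    intro δ hδ T
    have h2 : μH[1] T = OuterMeasure.mkMetric' (fun s : Set ℂ => ediam s ^ (1 : ℝ)) T := by
      rw [Measure.hausdorffMeasure, ← OuterMeasure.coe_mkMetric]
      rfl
    rw [h2]
    have h3 : OuterMeasure.mkMetric'.pre (fun s : Set ℂ => ediam s ^ (1 : ℝ)) δ ≤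
        OuterMeasure.mkMetric' (fun s : Set ℂ => ediam s ^ (1 : ℝ)) :=
      le_iSup₂_of_le (f := fun r (_ : 0 < r) =>
        OuterMeasure.mkMetric'.pre (fun s : Set ℂ => ediam s ^ (1 : ℝ)) r) δ hδ le_rfl
    exact h3 T
  obtain ⟨δ, hδ, hδ0, hδt⟩ : ∃ δ : ℝ≥0∞,
      a < OuterMeasure.mkMetric'.pre (fun s : Set ℂ => ediam s ^ (1 : ℝ)) δ S ∧ 0 < δ ∧ δ < ⊤ := by
    have h5 : ∀ᶠ δ : ℝ≥0∞ in 𝓝[>] 0, 0 < δ := self_mem_nhdsWithin
    have h6 : ∀ᶠ δ : ℝ≥0∞ in 𝓝[>] 0, δ < ⊤ :=
      mem_nhdsWithin_of_mem_nhds (Iio_mem_nhds ENNReal.zero_lt_top)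
    exact ((h1.eventually (lt_mem_nhds ha)).and (h5.and h6)).exists
  have hδr : 0 < δ.toReal := ENNReal.toReal_pos hδ0.ne' hδt.ne
  -- radii
  have hex : ∀ y, ∃ η : ℝ, y ∈ G → 0 < η ∧ closedBall y η ⊆ O := by
    intro y
    by_cases hy : y ∈ G
    · obtain ⟨η, hη, hηO⟩ := Metric.isOpen_iff.1 hO y (hSO (hGS hy))
      exact ⟨η / 2, fun _ => ⟨by positivity, (closedBall_subset_ball (by linarith)).trans hηO⟩⟩
    · exact ⟨0, fun h => absurd h hy⟩
  choose η hη using hex
  have : IsFiniteMeasure ((μH[1] : Measure ℂ).restrict S) := ⟨by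
    rw [Measure.restrict_apply_univ]; exact hfin⟩
  obtain ⟨t, r, htc, htG, hr, hcov, hdisj⟩ :=
    Besicovitch.exists_disjoint_closedBall_covering_ae ((μH[1] : Measure ℂ).restrict S)
      (fun _ => univ) G (fun y _ δ hδ => ⟨δ / 2, mem_univ _, by constructor <;> linarith⟩)
      (fun y => min (δ.toReal / 2) (min (η y) (ρ y)))
      (fun y hy => lt_min (by positivity) (lt_min (hη y hy).1 (hρ y hy)))
  have hrpos : ∀ y ∈ t, 0 < r y := fun y hy => (hr y hy).2.1
  have hr1 : ∀ y ∈ t, r y < δ.toReal / 2 := fun y hy => ((hr y hy).2.2).trans_le (min_le_left _ _)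
  have hr2 : ∀ y ∈ t, r y < η y := fun y hy =>
    ((hr y hy).2.2).trans_le ((min_le_right _ _).trans (min_le_left _ _))
  have hr3 : ∀ y ∈ t, r y < ρ y := fun y hy =>
    ((hr y hy).2.2).trans_le ((min_le_right _ _).trans (min_le_right _ _))
  set N : Set ℂ := (G \ ⋃ y ∈ t, closedBall y (r y)) ∪ (S \ G) with hN
  have hN0 : μH[1] N = 0 := by
    refine measure_union_null ?_ hnull
    rw [Measure.restrict_apply' hS] at hcov
    rwa [inter_eq_self_of_subset_left (sdiff_subset.trans hGS)] at hcov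
  have hSsub : S ⊆ N ∪ ⋃ y ∈ t, closedBall y (r y) := by
    intro z hz
    by_cases hzG : z ∈ G
    · by_cases hzu : z ∈ ⋃ y ∈ t, closedBall y (r y)
      · exact Or.inr hzu
      · exact Or.inl (Or.inl ⟨hzG, hzu⟩)
    · exact Or.inl (Or.inr ⟨hz, hzG⟩)
  have hle : OuterMeasure.mkMetric'.pre (fun s : Set ℂ => ediam s ^ (1 : ℝ)) δ S ≤
      ∑' y : t, ENNReal.ofReal (2 * r y) := by
    set P := OuterMeasure.mkMetric'.pre (fun s : Set ℂ => ediam s ^ (1 : ℝ)) δ with hP
    have : Countable t := htc.to_subtype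
    calc P S ≤ P (N ∪ ⋃ y ∈ t, closedBall y (r y)) := measure_mono hSsub
      _ ≤ P N + P (⋃ y ∈ t, closedBall y (r y)) := measure_union_le _ _
      _ = P (⋃ y ∈ t, closedBall y (r y)) := by
          have : P N = 0 := le_antisymm ((hlepre δ hδ0 N).trans hN0.le) (zero_le)
          rw [this, zero_add]
      _ ≤ ∑' y : t, P (closedBall (y : ℂ) (r y)) := measure_biUnion_le _ htc _
      _ ≤ _ := by
          refine ENNReal.tsum_le_tsum fun y => ?_
          have hd : ediam (closedBall (y : ℂ) (r y)) ≤ ENNReal.ofReal (2 * r y) :=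
            ediam_closedBall_le' le_rfl
          have hd2 : ediam (closedBall (y : ℂ) (r y)) ≤ δ := by
            refine hd.trans ?_
            rw [← ENNReal.ofReal_toReal hδt.ne]
            apply ENNReal.ofReal_le_ofReal
            have := hr1 y y.2
            linarith
          calc P (closedBall (y : ℂ) (r y)) ≤ ediam (closedBall (y : ℂ) (r y)) ^ (1 : ℝ) :=
                OuterMeasure.mkMetric'.pre_le hd2
            _ ≤ _ := by rw [ENNReal.rpow_one]; exact hd
  have hlt := hδ.trans_le hle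
  rw [ENNReal.tsum_eq_iSup_sum] at hlt
  obtain ⟨F, hF⟩ := lt_iSup_iff.1 hlt
  refine ⟨F.map (Function.Embedding.subtype _), r, ?_, ?_, ?_⟩
  · intro y hy
    rw [Finset.mem_map] at hy
    obtain ⟨z, -, rfl⟩ := hy
    exact ⟨htG z.2, hrpos z z.2, hr3 z z.2,
      (closedBall_subset_closedBall (hr2 z z.2).le).trans (hη z (htG z.2)).2⟩
  · refine hdisj.subset ?_
    intro y hy
    simp only [Finset.coe_map, mem_image] at hy
    obtain ⟨z, -, rfl⟩ := hy
    exact z.2
  · rw [Finset.sum_map]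
    exact hF

end Vale.Agent.P128.Q
end

section

set_option linter.all false

open MeasureTheory Set Metric Filter ComplexConjugate
open scoped ENNReal NNReal Topology Real ContDiff

namespace Vale.Agent.P128.Q1

open Vale.Agent.P128

/-- monotonicity from the integral identity -/
theorem lineOde_mono {E q : ℝ → ℝ} {ρ : ℝ} (hq0 : ∀ t, 0 < t → t ≤ ρ → 0 ≤ q t)
    (hq : ∀ s t, 0 < s → s ≤ t → t ≤ ρ → IntervalIntegrable q volume s t ∧
      ∫ r in s..t, q r = E t - E s) {s t : ℝ} (hs : 0 < s) (hst : s ≤ t) (ht : t ≤ ρ) :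
    E s ≤ E t := by
  have h1 := (hq s t hs hst ht).2
  have h2 : 0 ≤ ∫ r in s..t, q r := intervalIntegral.integral_nonneg hst fun r hr =>
    hq0 r (hs.trans_le hr.1) (hr.2.trans ht)
  linarith only [h1, h2]

theorem lineOde_pow : (2 : ℝ) ^ (3 / 2 : ℝ) ≤ 3 := by
  have h : (2 : ℝ) ^ (3 / 2 : ℝ) = 2 * √2 := by
    rw [show (3 / 2 : ℝ) = 1 + 1 / 2 by norm_num, Real.rpow_add (by norm_num), Real.rpow_one,
      Real.sqrt_eq_rpow]
  rw [h]
  have h2 : √2 ≤ 3 / 2 := by
    rw [Real.sqrt_le_left (by norm_num)]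
    norm_num
  linarith only [h2]

/-- one dyadic step -/
theorem lineOde_step {E q : ℝ → ℝ} {ρ κ A η : ℝ} {B : Set ℝ} (hκ0 : 0 < κ)
    (hκ : κ ≤ 51 / 100) (hA : 0 ≤ A) (hη : η ≤ 1 / 100)
    (hE0 : ∀ t, 0 < t → t ≤ ρ → 0 ≤ E t)
    (hq0 : ∀ t, 0 < t → t ≤ ρ → 0 ≤ q t)
    (hq : ∀ s t, 0 < s → s ≤ t → t ≤ ρ → IntervalIntegrable q volume s t ∧
      ∫ r in s..t, q r = E t - E s)
    (hB : ∀ r, 0 < r → r ≤ ρ → volume (B ∩ Ioo 0 r) ≤ ENNReal.ofReal (η * r))
    (h : ∀ᵐ t : ℝ, t ∈ Ioo 0 ρ → t ∉ B → E t ≤ κ * (t * q t) + A * t ^ 2)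
    {r : ℝ} (hr : 0 < r) (hrρ : r ≤ ρ) (hbig : 50 * A * r ^ 2 < E (r / 2)) :
    E (r / 2) ≤ (1 / 2 : ℝ) ^ (3 / 2 : ℝ) * E r := by
  have hr2 : 0 < r / 2 := by linarith only [hr]
  have hab : r / 2 < r := by linarith only [hr]
  set Z : Set ℝ := toMeasurable volume (B ∩ Ioo 0 r) with hZ
  have hZm : MeasurableSet Z := measurableSet_toMeasurable _ _
  have hZv : volume Z ≤ ENNReal.ofReal (η * r) := by
    rw [hZ, measure_toMeasurable]
    exact hB r hr hrρ
  have hZf : volume Z ≠ ⊤ := ne_top_of_le_ne_top ENNReal.ofReal_ne_top hZv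
  have hpos : ∀ s ∈ Icc (r / 2) r, 0 < E s := by
    intro s hs
    have h1 := lineOde_mono hq0 hq hr2 hs.1 (hs.2.trans hrρ)
    have h2 : 0 ≤ 50 * A * r ^ 2 := by positivity
    linarith only [h1, h2, hbig]
  set γ : ℝ → ℝ := fun t => 48 / 25 * (t⁻¹ - 2 / r * Z.indicator (fun _ => (1 : ℝ)) t) with hγ
  have hi1 : IntervalIntegrable (fun t : ℝ => t⁻¹) volume (r / 2) r := by
    refine ContinuousOn.intervalIntegrable ?_
    rw [uIcc_of_le hab.le]
    exact continuousOn_inv₀.mono fun s hs => (lt_of_lt_of_le hr2 hs.1).ne'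
  have hi2 : Integrable (Z.indicator (fun _ => (1 : ℝ))) volume :=
    (integrable_indicator_iff hZm).2 (integrableOn_const hZf)
  have hγi : IntervalIntegrable γ volume (r / 2) r :=
    (hi1.sub (hi2.intervalIntegrable.const_mul (2 / r))).const_mul (48 / 25)
  have hZr : volume.real Z ≤ r / 100 := by
    refine ENNReal.toReal_le_of_le_ofReal (by positivity) (hZv.trans ?_)
    refine ENNReal.ofReal_le_ofReal ?_
    have := mul_le_mul_of_nonneg_right hη hr.le
    linarith only [this]
  have hI : ∫ t in (r / 2)..r, Z.indicator (fun _ => (1 : ℝ)) t ≤ r / 100 := by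
    rw [intervalIntegral.integral_of_le hab.le]
    refine (setIntegral_le_integral hi2 (Eventually.of_forall fun t =>
      indicator_nonneg (fun _ _ => zero_le_one) t)).trans ?_
    rw [integral_indicator_const _ hZm]
    simpa using hZr
  have hlow : 3 / 2 * Real.log 2 ≤ ∫ t in (r / 2)..r, γ t := by
    have e : ∫ t in (r / 2)..r, γ t = 48 / 25 * (Real.log 2 -
        2 / r * ∫ t in (r / 2)..r, Z.indicator (fun _ => (1 : ℝ)) t) := by
      rw [hγ, intervalIntegral.integral_const_mul, intervalIntegral.integral_sub hi1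
        (hi2.intervalIntegrable.const_mul (2 / r)), intervalIntegral.integral_const_mul,
        integral_inv_of_pos hr2 hr]
      congr 3
      field_simp
    rw [e]
    have h1 : 2 / r * ∫ t in (r / 2)..r, Z.indicator (fun _ => (1 : ℝ)) t ≤ 1 / 50 := by
      calc _ ≤ 2 / r * (r / 100) := mul_le_mul_of_nonneg_left hI (by positivity)
        _ = 1 / 50 := by
          field_simp
          norm_num
    have h2 := Real.log_two_gt_d9
    linarith only [h2, h1]
  have hlg := log_growth (V := E) (q := q) (γ := γ) hab hpos (hq (r / 2) r hr2 hab.le hrρ).1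
    (fun s hs => hq0 s (hr2.trans_le hs.1) (hs.2.trans hrρ))
    (fun s t hs hst ht => (hq s t (hr2.trans_le hs) hst (ht.trans hrρ)).2.le) hγi ?_
  · have hr1 : 0 < E r := hpos r ⟨hab.le, le_rfl⟩
    have hr0 : 0 < E (r / 2) := hpos (r / 2) ⟨le_rfl, hab.le⟩
    have h1 : Real.log (E (r / 2)) ≤ Real.log ((1 / 2 : ℝ) ^ (3 / 2 : ℝ) * E r) := by
      rw [Real.log_mul (by positivity) hr1.ne', Real.log_rpow (by norm_num), one_div,
        Real.log_inv]
      linarith only [hlow, hlg]
    exact (Real.log_le_log_iff hr0 (by positivity)).1 h1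
  · filter_upwards [h] with t ht htI
    have ht0 : 0 < t := hr2.trans htI.1
    have hE : 0 < E t := hpos t (Ioo_subset_Icc_self htI)
    have hqt : 0 ≤ q t := hq0 t ht0 (htI.2.le.trans hrρ)
    by_cases hZt : t ∈ Z
    · have h1 : t⁻¹ ≤ 2 / r := by
        rw [inv_eq_one_div, div_le_div_iff₀ ht0 hr]
        linarith only [htI.1]
      have h2 : 0 ≤ q t / E t := div_nonneg hqt hE.le
      simp only [hγ, indicator_of_mem hZt]
      linarith only [h2, h1]
    · have htB : t ∉ B := fun hb => hZt (subset_toMeasurable _ _ ⟨hb, ht0, htI.2⟩)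
      have h1 := ht ⟨ht0, htI.2.trans_le hrρ⟩ htB
      have h2 : 50 * A * t ^ 2 ≤ E t := by
        have h3 := lineOde_mono hq0 hq hr2 htI.1.le (htI.2.le.trans hrρ)
        have h4 : t ^ 2 ≤ r ^ 2 := pow_le_pow_left₀ ht0.le htI.2.le 2
        have h5 : 50 * A * t ^ 2 ≤ 50 * A * r ^ 2 := by gcongr
        linarith only [h3, h5, hbig]
      have h3 : κ * (t * q t) ≤ 51 / 100 * (t * q t) :=
        mul_le_mul_of_nonneg_right hκ (mul_nonneg ht0.le hqt)
      simp only [hγ, indicator_of_notMem hZt, mul_zero, sub_zero]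
      rw [inv_eq_one_div, ← mul_div_assoc, mul_one, div_le_div_iff₀ ht0 hE]
      linarith only [h1, h2, h3, hE]

theorem decay_ode {E q : ℝ → ℝ} {ρ κ A η : ℝ} {B : Set ℝ} (hρ : 0 < ρ) (hκ0 : 0 < κ)
    (hκ : κ ≤ 51 / 100) (hA : 0 ≤ A) (hη : η ≤ 1 / 100)
    (hE0 : ∀ t, 0 < t → t ≤ ρ → 0 ≤ E t)
    (hq0 : ∀ t, 0 < t → t ≤ ρ → 0 ≤ q t)
    (hq : ∀ s t, 0 < s → s ≤ t → t ≤ ρ → IntervalIntegrable q volume s t ∧
      ∫ r in s..t, q r = E t - E s)
    (hB : ∀ r, 0 < r → r ≤ ρ → volume (B ∩ Ioo 0 r) ≤ ENNReal.ofReal (η * r))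
    (h : ∀ᵐ t : ℝ, t ∈ Ioo 0 ρ → t ∉ B → E t ≤ κ * (t * q t) + A * t ^ 2) :
    ∀ r, 0 < r → r ≤ ρ → E r ≤ 3 * (r / ρ) ^ (3 / 2 : ℝ) * (E ρ + 150 * A * ρ ^ 2) := by
  have hC : 0 ≤ E ρ + 150 * A * ρ ^ 2 := by
    have h1 := hE0 ρ hρ le_rfl
    have h2 : 0 ≤ 150 * A * ρ ^ 2 := by positivity
    linarith only [h1, h2]
  -- dyadic points
  have key : ∀ k : ℕ, E ((1 / 2 : ℝ) ^ k * ρ) ≤
      ((1 / 2 : ℝ) ^ k) ^ (3 / 2 : ℝ) * (E ρ + 150 * A * ρ ^ 2) := by
    intro k
    induction k with
    | zero =>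
      have h2 : 0 ≤ 150 * A * ρ ^ 2 := by positivity
      simp only [pow_zero, one_mul, Real.one_rpow]
      linarith only [h2]
    | succ k ih =>
      set s : ℝ := (1 / 2 : ℝ) ^ k with hs
      have hs0 : 0 < s := by positivity
      have hs1 : s ≤ 1 := pow_le_one₀ (by norm_num) (by norm_num)
      have hsr : 0 < s * ρ := mul_pos hs0 hρ
      have hsρ : s * ρ ≤ ρ := mul_le_of_le_one_left hρ.le hs1
      have he : (1 / 2 : ℝ) ^ (k + 1) = 1 / 2 * s := by rw [pow_succ]; ring
      have he2 : (1 / 2 : ℝ) ^ (k + 1) * ρ = s * ρ / 2 := by rw [he]; ring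
      rw [he2, he, Real.mul_rpow (by norm_num) hs0.le]
      by_cases hbig : 50 * A * (s * ρ) ^ 2 < E (s * ρ / 2)
      · have h1 := lineOde_step hκ0 hκ hA hη hE0 hq0 hq hB h hsr hsρ hbig
        have h2 : 0 ≤ (1 / 2 : ℝ) ^ (3 / 2 : ℝ) := by positivity
        have h3 := mul_le_mul_of_nonneg_left ih h2
        linarith only [h1, h3]
      · rw [not_lt] at hbig
        have h1 : s ^ 2 ≤ s ^ (3 / 2 : ℝ) := by
          have := Real.rpow_le_rpow_of_exponent_ge hs0 hs1 (show (3 / 2 : ℝ) ≤ 2 by norm_num)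
          rwa [Real.rpow_two] at this
        have h2 : 1 / 3 ≤ (1 / 2 : ℝ) ^ (3 / 2 : ℝ) := by
          rw [Real.div_rpow (by norm_num) (by norm_num), Real.one_rpow]
          exact one_div_le_one_div_of_le (by positivity) lineOde_pow
        have h3 : 0 ≤ 50 * A * ρ ^ 2 := by positivity
        have h4 : 0 ≤ s ^ (3 / 2 : ℝ) := by positivity
        calc E (s * ρ / 2) ≤ 50 * A * (s * ρ) ^ 2 := hbig
          _ = s ^ 2 * (50 * A * ρ ^ 2) := by ring
          _ ≤ s ^ (3 / 2 : ℝ) * (50 * A * ρ ^ 2) := mul_le_mul_of_nonneg_right h1 h3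
          _ = (1 / 3) * s ^ (3 / 2 : ℝ) * (150 * A * ρ ^ 2) := by ring
          _ ≤ (1 / 2 : ℝ) ^ (3 / 2 : ℝ) * s ^ (3 / 2 : ℝ) * (150 * A * ρ ^ 2) := by
              have h5 : 0 ≤ 150 * A * ρ ^ 2 := by positivity
              gcongr
          _ ≤ (1 / 2 : ℝ) ^ (3 / 2 : ℝ) * s ^ (3 / 2 : ℝ) * (E ρ + 150 * A * ρ ^ 2) := by
              have h6 := hE0 ρ hρ le_rfl
              gcongr
              linarith only [h6]
  intro r hr hrρ
  obtain ⟨k, hk1, hk2⟩ := exists_nat_pow_near_of_lt_one (div_pos hr hρ)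
    ((div_le_one hρ).2 hrρ) (show (0 : ℝ) < 1 / 2 by norm_num) (by norm_num)
  have hle : r ≤ (1 / 2 : ℝ) ^ k * ρ := by
    rwa [div_le_iff₀ hρ] at hk2
  have hkρ : (1 / 2 : ℝ) ^ k * ρ ≤ ρ :=
    mul_le_of_le_one_left hρ.le (pow_le_one₀ (by norm_num) (by norm_num))
  have h1 := lineOde_mono hq0 hq hr hle hkρ
  have h2 := key k
  have h3 : ((1 / 2 : ℝ) ^ k) ^ (3 / 2 : ℝ) ≤ 3 * (r / ρ) ^ (3 / 2 : ℝ) := by
    have h4 : (1 / 2 : ℝ) ^ k ≤ 2 * (r / ρ) := by
      rw [pow_succ] at hk1
      linarith only [hk1]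
    calc ((1 / 2 : ℝ) ^ k) ^ (3 / 2 : ℝ) ≤ (2 * (r / ρ)) ^ (3 / 2 : ℝ) :=
          Real.rpow_le_rpow (by positivity) h4 (by norm_num)
      _ = 2 ^ (3 / 2 : ℝ) * (r / ρ) ^ (3 / 2 : ℝ) :=
          Real.mul_rpow (by norm_num) (div_pos hr hρ).le
      _ ≤ 3 * (r / ρ) ^ (3 / 2 : ℝ) := by
          refine mul_le_mul_of_nonneg_right lineOde_pow ?_
          have := div_pos hr hρ
          positivity
  exact (h1.trans h2).trans (mul_le_mul_of_nonneg_right h3 hC)

end Vale.Agent.P128.Q1
end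

section

/-! P128, Q1: sets close to cones at a point, with tangents at the other points. -/

open Set Metric Filter ComplexConjugate
open scoped Topology Real

namespace Vale.Agent.P128.Q1

open Vale.Agent.P128

/-- In the disk of radius `r` about `x`, the set `K` and the `m` rays from `x` in the directions
`θ + 2 π k / m` are within `δ r` of each other. -/
def NearRays (K : Set ℂ) (x : ℂ) (m : ℕ) (θ r δ : ℝ) : Prop :=
  (∀ y ∈ K, dist y x ≤ r → ∃ k : ℤ, ∃ ρ : ℝ, 0 ≤ ρ ∧
    dist y (x + ρ * uc (θ + 2 * π * k / m)) ≤ δ * r) ∧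
  ∀ k : ℤ, ∀ ρ : ℝ, 0 ≤ ρ → ρ ≤ r → ∃ y ∈ K, dist y (x + ρ * uc (θ + 2 * π * k / m)) ≤ δ * r

/-- The set `K` is close to `m` rays at `x` at all small scales, and has tangents elsewhere. -/
structure Cone (K : Set ℂ) (x : ℂ) (m : ℕ) (R c A : ℝ) : Prop where
  hm : m = 1 ∨ m = 2 ∨ m = 3
  mem : x ∈ K
  comp : IsCompact (K ∩ closedBall x R)
  R0 : 0 < R
  c0 : 0 < c
  c1 : c ≤ 1
  A1 : 1 ≤ A
  rays : ∀ δ > 0, ∃ r₂ > 0, ∀ r, 0 < r → r ≤ r₂ → ∃ θ : ℝ, NearRays K x m θ r δ
  tan : ∀ y ∈ K, y ≠ x → dist y x ≤ R → ∃ e, Tan K A y (c * dist y x) e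

variable {K : Set ℂ} {x : ℂ} {m : ℕ} {R c A : ℝ}

/-- Triangle inequality for the sines of the angles between lines. -/
theorem im_triangle {a b d : ℂ} (ha : ‖a‖ = 1) (hb : ‖b‖ = 1) (hd : ‖d‖ = 1) :
    |(conj a * d).im| ≤ |(conj a * b).im| + |(conj b * d).im| := by
  have hbb := conj_mul_self_of_norm hb
  have e1 : conj a * d = (conj a * b) * (conj b * d) := by
    linear_combination (-(conj a * d)) * hbb
  rw [e1, Complex.mul_im]
  have h1 : |(conj a * b).re| ≤ 1 := by
    refine (Complex.abs_re_le_norm _).trans ?_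
    rw [norm_mul, Complex.norm_conj, ha, hb, mul_one]
  have h2 : |(conj b * d).re| ≤ 1 := by
    refine (Complex.abs_re_le_norm _).trans ?_
    rw [norm_mul, Complex.norm_conj, hb, hd, mul_one]
  refine (abs_add_le _ _).trans ?_
  rw [abs_mul, abs_mul]
  have h3 : |(conj a * b).re| * |(conj b * d).im| ≤ 1 * |(conj b * d).im| :=
    mul_le_mul_of_nonneg_right h1 (abs_nonneg _)
  have h4 : |(conj a * b).im| * |(conj b * d).re| ≤ |(conj a * b).im| * 1 :=
    mul_le_mul_of_nonneg_left h2 (abs_nonneg _)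
  linarith

/-- Two rays of the family are equal or make an obtuse angle. -/
theorem ray_cases (hm : m = 1 ∨ m = 2 ∨ m = 3) (θ : ℝ) (j k : ℤ) :
    uc (θ + 2 * π * j / m) = uc (θ + 2 * π * k / m) ∨
      (conj (uc (θ + 2 * π * j / m)) * uc (θ + 2 * π * k / m)).re ≤ 0 := by
  have hπ := Real.pi_pos
  have key : conj (uc (θ + 2 * π * j / m)) * uc (θ + 2 * π * k / m) =
      uc (2 * π * ((k - j : ℤ) : ℝ) / m) := by
    have h1 : conj (uc (θ + 2 * π * j / m)) * uc (θ + 2 * π * j / m) = 1 :=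
      conj_mul_self_of_norm (norm_uc _)
    have h2 : uc (θ + 2 * π * k / m) = uc (θ + 2 * π * j / m) * uc (2 * π * ((k - j : ℤ) : ℝ) / m) := by
      rw [← uc_add]
      congr 1
      push_cast
      ring
    rw [h2, ← mul_assoc, h1, one_mul]
  have huc : ∀ t : ℝ, uc t = 1 → uc (θ + 2 * π * j / m) = uc (θ + 2 * π * j / m) * uc t :=
    fun t ht => by rw [ht, mul_one]
  have h2 : uc (θ + 2 * π * k / m) = uc (θ + 2 * π * j / m) * uc (2 * π * ((k - j : ℤ) : ℝ) / m) := by
    rw [← uc_add]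
    congr 1
    push_cast
    ring
  rw [key]
  set n : ℤ := k - j with hn
  have hper : ∀ q : ℤ, ∀ t : ℝ, uc (t + 2 * π * q) = uc t := by
    intro q t
    unfold uc
    rw [Complex.exp_eq_exp_iff_exists_int]
    exact ⟨q, by push_cast; ring⟩
  have hre : ∀ t : ℝ, (uc t).re = Real.cos t := fun t => by
    unfold uc; rw [Complex.exp_ofReal_mul_I_re]
  rcases hm with rfl | rfl | rfl
  · left
    rw [h2]
    refine huc _ ?_
    have := hper n 0
    rw [zero_add] at this
    simp only [Nat.cast_one, div_one]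
    rw [this]
    simp [uc]
  · rcases Int.emod_two_eq_zero_or_one n with h | h
    · left
      rw [h2]
      refine huc _ ?_
      obtain ⟨q, hq⟩ : ∃ q, n = 2 * q := ⟨n / 2, by omega⟩
      have := hper q 0
      rw [zero_add] at this
      rw [hq]
      rw [show (2 * π * ((2 * q : ℤ) : ℝ) / ((2 : ℕ) : ℝ)) = 2 * π * q by push_cast; ring, this]
      simp [uc]
    · right
      obtain ⟨q, hq⟩ : ∃ q, n = 2 * q + 1 := ⟨n / 2, by omega⟩
      have := hper q π
      rw [hq, show (2 * π * ((2 * q + 1 : ℤ) : ℝ) / ((2 : ℕ) : ℝ)) = π + 2 * π * q by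
        push_cast; ring, this, hre, Real.cos_pi]
      norm_num
  · have h3 : n % 3 = 0 ∨ n % 3 = 1 ∨ n % 3 = 2 := by omega
    rcases h3 with h | h | h
    · left
      rw [h2]
      refine huc _ ?_
      obtain ⟨q, hq⟩ : ∃ q, n = 3 * q := ⟨n / 3, by omega⟩
      have := hper q 0
      rw [zero_add] at this
      rw [hq]
      rw [show (2 * π * ((3 * q : ℤ) : ℝ) / ((3 : ℕ) : ℝ)) = 2 * π * q by push_cast; ring, this]
      simp [uc]
    · right
      obtain ⟨q, hq⟩ : ∃ q, n = 3 * q + 1 := ⟨n / 3, by omega⟩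
      have := hper q (π - π / 3)
      rw [hq, show (2 * π * ((3 * q + 1 : ℤ) : ℝ) / ((3 : ℕ) : ℝ)) = (π - π / 3) + 2 * π * q by
        push_cast; ring, this, hre, Real.cos_pi_sub, Real.cos_pi_div_three]
      norm_num
    · right
      obtain ⟨q, hq⟩ : ∃ q, n = 3 * q + 2 := ⟨n / 3, by omega⟩
      have := hper q (π / 3 + π)
      rw [hq, show (2 * π * ((3 * q + 2 : ℤ) : ℝ) / ((3 : ℕ) : ℝ)) = (π / 3 + π) + 2 * π * q by
        push_cast; ring, this, hre, Real.cos_add_pi, Real.cos_pi_div_three]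
      norm_num

/-- Near each of its points `K` is close to one ray. -/
theorem Cone.near (h : Cone K x m R c A) {δ : ℝ} (hδ : 0 < δ) (hδ1 : δ ≤ 1 / 10) :
    ∃ r₂ > 0, ∀ y ∈ K, y ≠ x → dist y x ≤ r₂ → ∃ w : ℂ, ‖w‖ = 1 ∧
      0 < (conj w * (y - x)).re ∧
      ∀ z ∈ K, dist z y ≤ dist y x / 4 → |(conj w * (z - x)).im| ≤ δ * dist y x := by
  obtain ⟨r₂, hr₂, hrays⟩ := h.rays (δ / 2) (by positivity)
  refine ⟨r₂ / 2, by positivity, ?_⟩
  intro y hy hyx hyr
  have hd : 0 < dist y x := dist_pos.2 hyx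
  obtain ⟨θ, h1, -⟩ := hrays (2 * dist y x) (by positivity) (by linarith)
  obtain ⟨k, ρ, hρ, hyk⟩ := h1 y hy (by linarith)
  set w := uc (θ + 2 * π * k / m) with hw
  have hw1 : ‖w‖ = 1 := norm_uc _
  have hww := conj_mul_self_of_norm hw1
  have e1 : δ / 2 * (2 * dist y x) = δ * dist y x := by ring
  rw [e1] at hyk
  have hρd : dist y x - δ * dist y x ≤ ρ := by
    have h2 : dist y x ≤ dist y (x + ρ * w) + dist (x + ρ * w) x := dist_triangle _ _ _
    have h3 : dist (x + ρ * w) x = ρ := by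
      rw [dist_eq_norm, add_sub_cancel_left, norm_mul, hw1, Complex.norm_real,
        Real.norm_of_nonneg hρ, mul_one]
    linarith
  have hbound : ∀ (z : ℂ) (τ : ℝ), dist z (x + τ * w) ≤ δ * dist y x →
      |(conj w * (z - x)).im| ≤ δ * dist y x ∧ τ - δ * dist y x ≤ (conj w * (z - x)).re := by
    intro z τ hz
    have e2 : conj w * (z - x) = conj w * (z - (x + τ * w)) + τ := by
      linear_combination (τ : ℂ) * hww
    have h4 : ‖conj w * (z - (x + τ * w))‖ ≤ δ * dist y x := by
      rw [norm_mul, Complex.norm_conj, hw1, one_mul, ← dist_eq_norm]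
      exact hz
    constructor
    · rw [e2, Complex.add_im, Complex.ofReal_im, add_zero]
      exact (Complex.abs_im_le_norm _).trans h4
    · rw [e2, Complex.add_re, Complex.ofReal_re]
      have := (abs_le.1 ((Complex.abs_re_le_norm (conj w * (z - (x + τ * w)))).trans h4)).1
      linarith
  refine ⟨w, hw1, ?_, ?_⟩
  · have := (hbound y ρ hyk).2
    have h5 : δ * dist y x ≤ 1 / 10 * dist y x := mul_le_mul_of_nonneg_right hδ1 hd.le
    linarith only [h5, this, hρd, hd]
  · intro z hz hzy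
    have hzx : dist z x ≤ 2 * dist y x := by
      have := dist_triangle z y x
      linarith
    obtain ⟨k', ρ', hρ', hzk⟩ := h1 z hz hzx
    rw [e1] at hzk
    rcases ray_cases h.hm θ k k' with heq | hobt
    · rw [← heq] at hzk
      exact (hbound z ρ' hzk).1
    · exfalso
      set w' := uc (θ + 2 * π * k' / m) with hw'
      have hw1' : ‖w'‖ = 1 := norm_uc _
      have h5 : dist (x + ρ * w) (x + ρ' * w') ≤ dist y x / 4 + 2 * (δ * dist y x) := by
        have := dist_triangle4 (x + ρ * w) y z (x + ρ' * w')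
        rw [dist_comm (x + ρ * w) y, dist_comm y z] at this
        linarith only [this, hzk, hzy, hyk]
      have h6 : ρ ≤ dist (x + ρ * w) (x + ρ' * w') := by
        rw [dist_eq_norm, show x + ρ * w - (x + ρ' * w') = ρ * w - ρ' * w' by ring]
        have h7 : conj w * (ρ * w - ρ' * w') = ρ - ρ' * (conj w * w') := by
          linear_combination (ρ : ℂ) * hww
        have h8 : ‖(ρ : ℂ) * w - ρ' * w'‖ = ‖(ρ : ℂ) - ρ' * (conj w * w')‖ := by
          rw [← h7, norm_mul, Complex.norm_conj, hw1, one_mul]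
        rw [h8]
        refine le_trans ?_ (Complex.abs_re_le_norm _)
        refine le_trans ?_ (le_abs_self _)
        rw [Complex.sub_re, Complex.ofReal_re, Complex.re_ofReal_mul]
        have : ρ' * (conj w * w').re ≤ 0 := mul_nonpos_of_nonneg_of_nonpos hρ' hobt
        linarith only [this]
      have h9 : δ * dist y x ≤ 1 / 10 * dist y x := mul_le_mul_of_nonneg_right hδ1 hd.le
      linarith only [h9, h6, h5, hρd, hd]

/-- The tangents are almost radial near `x`. -/
theorem Cone.radial (h : Cone K x m R c A) {ε : ℝ} (hε : 0 < ε) :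
    ∃ r₂ > 0, r₂ ≤ R ∧ ∀ y ∈ K, y ≠ x → dist y x ≤ r₂ → ∀ e, Tan K A y (c * dist y x) e →
      |(conj e * (y - x)).im| ≤ ε * dist y x := by
  have hA0 : 0 < A := lt_of_lt_of_le one_pos h.A1
  have hc0 := h.c0
  -- the scale factor
  obtain ⟨η, hη0, hη1, hη2, hη3⟩ : ∃ η : ℝ, 0 < η ∧ η ≤ 1 / 4 ∧ A * η ^ (1 / 4 : ℝ) ≤ ε / 4 ∧
      A * η ^ (1 / 4 : ℝ) ≤ 1 / 10 := by
    obtain ⟨b, hb⟩ : ∃ b, b = min (min (ε / (4 * A)) (1 / (10 * A))) (1 / 2) := ⟨_, rfl⟩
    have hb0 : 0 < b := by rw [hb]; positivity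
    have hb1 : b ≤ ε / (4 * A) := by
      rw [hb]; exact (min_le_left _ _).trans (min_le_left _ _)
    have hb2 : b ≤ 1 / (10 * A) := by
      rw [hb]; exact (min_le_left _ _).trans (min_le_right _ _)
    have hb3 : b ≤ 1 / 2 := by rw [hb]; exact min_le_right _ _
    have hb4 : (b ^ 4) ^ (1 / 4 : ℝ) = b := by
      rw [← Real.rpow_natCast, ← Real.rpow_mul hb0.le]
      norm_num
    refine ⟨b ^ 4, by positivity, ?_, ?_, ?_⟩
    · have : b ^ 4 ≤ (1 / 2) ^ 4 := by gcongr
      norm_num at this ⊢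
      linarith only [this, hb3, hb0]
    · rw [hb4]
      rw [le_div_iff₀ (by positivity)] at hb1
      linarith
    · rw [hb4]
      rw [le_div_iff₀ (by positivity)] at hb2
      linarith
  obtain ⟨δ, hδ0, hδ1, hδ2⟩ : ∃ δ : ℝ, 0 < δ ∧ δ ≤ 1 / 10 ∧ 2 * δ / (η * c) + δ ≤ ε / 2 := by
    obtain ⟨b, hb⟩ : ∃ b, b = min (ε / (2 * (2 / (η * c) + 1))) (1 / 10) := ⟨_, rfl⟩
    have hk : 0 < 2 / (η * c) + 1 := by positivity
    refine ⟨b, by rw [hb]; positivity, by rw [hb]; exact min_le_right _ _, ?_⟩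
    have h1 : b ≤ ε / (2 * (2 / (η * c) + 1)) := by rw [hb]; exact min_le_left _ _
    rw [le_div_iff₀ (by positivity)] at h1
    have e1 : 2 * b / (η * c) + b = b * (2 / (η * c) + 1) := by ring
    rw [e1]
    linarith only [h1]
  obtain ⟨r₂, hr₂, hnear⟩ := h.near hδ0 hδ1
  refine ⟨min r₂ R, lt_min hr₂ h.R0, min_le_right _ _, ?_⟩
  intro y hy hyx hyr e hT
  have hd : 0 < dist y x := dist_pos.2 hyx
  obtain ⟨w, hw1, -, hwz⟩ := hnear y hy hyx (hyr.trans (min_le_left _ _))
  set d := dist y x with hdd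
  set s := η * (c * d) with hs
  have hs0 : 0 < s := by positivity
  have hcd : 0 < c * d := by positivity
  have hsr : s / (c * d) = η := by rw [hs]; field_simp
  have hs1 : s ≤ c * d := by
    rw [hs]
    have : η * (c * d) ≤ 1 * (c * d) := mul_le_mul_of_nonneg_right (by linarith) hcd.le
    linarith
  have hs4 : s ≤ d / 4 := by
    rw [hs]
    have h1 : c * d ≤ d := by
      have := mul_le_mul_of_nonneg_right h.c1 hd.le
      linarith
    have h2 : η * (c * d) ≤ 1 / 4 * d := mul_le_mul hη1 h1 hcd.le (by norm_num)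
    linarith only [h2]
  obtain ⟨⟨p, hp, hpd, -⟩, -⟩ := hT.cross s hs0 hs1 (by rw [hsr]; exact hη3)
  have hsc : (s : ℂ) ≠ 0 := by exact_mod_cast hs0.ne'
  have hdc : (d : ℂ) ≠ 0 := by exact_mod_cast hd.ne'
  obtain ⟨v, hv⟩ : ∃ v, v = (p - y) / (s : ℂ) := ⟨_, rfl⟩
  obtain ⟨q, hq⟩ : ∃ q, q = (y - x) / (d : ℂ) := ⟨_, rfl⟩
  have hpy : p - y = s * v := by rw [hv]; field_simp
  have hyq : y - x = d * q := by rw [hq]; field_simp
  have hv1 : ‖v‖ = 1 := by
    rw [hv, norm_div, Complex.norm_real, Real.norm_of_nonneg hs0.le, ← dist_eq_norm, hpd,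
      div_self hs0.ne']
  have hq1 : ‖q‖ = 1 := by
    rw [hq, norm_div, Complex.norm_real, Real.norm_of_nonneg hd.le, ← dist_eq_norm, ← hdd,
      div_self hd.ne']
  have him : ∀ (a b : ℂ) (t : ℝ), 0 < t → |(conj a * (t * b)).im| = t * |(conj a * b).im| := by
    intro a b t ht
    rw [show conj a * (t * b) = (t : ℂ) * (conj a * b) by ring, Complex.im_ofReal_mul, abs_mul,
      abs_of_pos ht]
  have b1 : |(conj e * v).im| ≤ ε / 4 := by
    have := hT.est p hp (hpd.le.trans hs1)
    rw [hpd, hsr, hpy, him _ _ _ hs0] at this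
    refine le_of_mul_le_mul_left ?_ hs0
    have h2 := mul_le_mul_of_nonneg_right hη2 hs0.le
    linarith only [h2, this]
  have b2 : |(conj w * q).im| ≤ δ := by
    have := hwz y hy (by rw [dist_self]; positivity)
    rw [hyq, him _ _ _ hd] at this
    refine le_of_mul_le_mul_left ?_ hd
    linarith only [this]
  have b3 : |(conj w * v).im| ≤ 2 * δ / (η * c) := by
    have h1 := hwz p hp (by rw [hpd]; exact hs4)
    have h2 := hwz y hy (by rw [dist_self]; positivity)
    have e1 : conj w * (s * v) = conj w * (p - x) - conj w * (y - x) := by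
      rw [← hpy]; ring
    have h3 : s * |(conj w * v).im| ≤ 2 * (δ * d) := by
      rw [← him _ _ _ hs0, e1, Complex.sub_im]
      have := abs_sub (conj w * (p - x)).im (conj w * (y - x)).im
      linarith
    rw [le_div_iff₀ (by positivity)]
    have e2 : s * |(conj w * v).im| = |(conj w * v).im| * (η * c) * d := by rw [hs]; ring
    rw [e2] at h3
    have h4 : |(conj w * v).im| * (η * c) * d ≤ 2 * δ * d := by linarith
    exact le_of_mul_le_mul_right h4 hd
  have b4 : |(conj v * w).im| = |(conj w * v).im| := by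
    have : conj v * w = conj (conj w * v) := by rw [map_mul, Complex.conj_conj]; ring
    rw [this, Complex.conj_im, abs_neg]
  have t1 := im_triangle hT.norm hv1 hq1
  have t2 := im_triangle hv1 hw1 hq1
  rw [b4] at t2
  rw [hyq, him _ _ _ hd]
  have : |(conj e * q).im| ≤ ε := by linarith only [t2, t1, b3, b2, b1, hδ2, hε]
  calc d * |(conj e * q).im| ≤ d * ε := mul_le_mul_of_nonneg_left this hd.le
    _ = ε * d := by ring

end Vale.Agent.P128.Q1
end

section

/-! P128, Q1: local radial structure. -/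

open Set Metric Filter ComplexConjugate
open scoped Topology Real

namespace Vale.Agent.P128.Q1

open Vale.Agent.P128

variable {K : Set ℂ} {x : ℂ} {m : ℕ} {R c A : ℝ}

theorem exists_small_scale {A ε : ℝ} (hA : 1 ≤ A) (hε : 0 < ε) :
    ∃ η : ℝ, 0 < η ∧ η ≤ 1 / 100 ∧ ∀ t : ℝ, 0 ≤ t → t ≤ η → A * t ^ (1 / 4 : ℝ) ≤ ε := by
  have hA0 : 0 < A := lt_of_lt_of_le one_pos hA
  obtain ⟨b, hb⟩ : ∃ b, b = min (ε / A) (1 / 10) := ⟨_, rfl⟩
  have hb0 : 0 < b := by rw [hb]; positivity
  have hb1 : b ≤ ε / A := by rw [hb]; exact min_le_left _ _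
  have hb3 : b ≤ 1 / 10 := by rw [hb]; exact min_le_right _ _
  have hb4 : (b ^ 4) ^ (1 / 4 : ℝ) = b := by
    rw [← Real.rpow_natCast, ← Real.rpow_mul hb0.le]
    norm_num
  refine ⟨b ^ 4, by positivity, ?_, ?_⟩
  · have : b ^ 4 ≤ (1 / 10) ^ 4 := by gcongr
    norm_num at this ⊢
    linarith
  · intro t ht htη
    have h1 : t ^ (1 / 4 : ℝ) ≤ b := by
      rw [← hb4]
      exact Real.rpow_le_rpow ht htη (by norm_num)
    rw [le_div_iff₀ hA0] at hb1
    have h2 := mul_le_mul_of_nonneg_left h1 hA0.le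
    linarith only [h2, hb1]

/-- If `v` is within angle `1/10` of the direction `e`, and `e` of `q`, then the component of `v`
along `q` is large. -/
theorem re_large {e q v : ℂ} (he : ‖e‖ = 1) (hq : ‖q‖ = 1) (hv : ‖v‖ = 1)
    (h1 : |(conj e * v).im| ≤ 1 / 10) (h2 : |(conj e * q).im| ≤ 1 / 10) :
    24 / 25 ≤ |(conj q * v).re| := by
  have h3 := im_triangle hq he hv
  have h4 : |(conj q * e).im| = |(conj e * q).im| := by
    have : conj q * e = conj (conj e * q) := by rw [map_mul, Complex.conj_conj]; ring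
    rw [this, Complex.conj_im, abs_neg]
  rw [h4] at h3
  have h5 := re_sq_add_im_sq hq hv
  have h6 : |(conj q * v).im| ≤ 1 / 5 := by linarith
  have h7 := sq_le_sq' (abs_le.1 h6).1 (abs_le.1 h6).2
  by_contra hcon
  push Not at hcon
  have h8 : |(conj q * v).re| ^ 2 < (24 / 25) ^ 2 := by
    have := abs_nonneg (conj q * v).re
    gcongr
  rw [sq_abs] at h8
  linarith only [h8, h7, h5]

theorem dist_sq_formula {x y z q v : ℂ} {d t : ℝ} (hq : ‖q‖ = 1) (hv : ‖v‖ = 1)
    (hyq : y - x = d * q) (hzv : z - y = t * v) :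
    dist z x ^ 2 = d ^ 2 + 2 * d * t * (conj q * v).re + t ^ 2 := by
  have e1 : z - x = d * q + t * v := by rw [← hzv, ← hyq]; ring
  have e2 : dist z x ^ 2 = Complex.normSq (d * q + t * v) := by
    rw [dist_eq_norm, e1, Complex.normSq_eq_norm_sq]
  rw [e2]
  have hqn : q.re * q.re + q.im * q.im = 1 := by
    have : Complex.normSq q = 1 := by rw [Complex.normSq_eq_norm_sq, hq]; norm_num
    rwa [Complex.normSq_apply] at this
  have hvn : v.re * v.re + v.im * v.im = 1 := by
    have : Complex.normSq v = 1 := by rw [Complex.normSq_eq_norm_sq, hv]; norm_num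
    rwa [Complex.normSq_apply] at this
  have f1 : (d * q + t * v : ℂ).re = d * q.re + t * v.re := by
    rw [Complex.add_re, Complex.re_ofReal_mul, Complex.re_ofReal_mul]
  have f2 : (d * q + t * v : ℂ).im = d * q.im + t * v.im := by
    rw [Complex.add_im, Complex.im_ofReal_mul, Complex.im_ofReal_mul]
  rw [Complex.normSq_apply, f1, f2, Complex.mul_re, Complex.conj_re, Complex.conj_im]
  linear_combination d ^ 2 * hqn + t ^ 2 * hvn

theorem exists_unit {y z : ℂ} {t : ℝ} (ht : 0 < t) (hz : dist z y = t) :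
    ∃ v : ℂ, ‖v‖ = 1 ∧ z - y = t * v := by
  have htc : (t : ℂ) ≠ 0 := by exact_mod_cast ht.ne'
  refine ⟨(z - y) / t, ?_, by field_simp⟩
  rw [norm_div, Complex.norm_real, Real.norm_of_nonneg ht.le, ← dist_eq_norm, hz,
    div_self ht.ne']

theorem abs_im_scale (a b : ℂ) {t : ℝ} (ht : 0 < t) :
    |(conj a * (t * b)).im| = t * |(conj a * b).im| := by
  rw [show conj a * (t * b) = (t : ℂ) * (conj a * b) by ring, Complex.im_ofReal_mul, abs_mul,
    abs_of_pos ht]

theorem re_scale (a b : ℂ) (t : ℝ) : (conj a * (t * b)).re = t * (conj a * b).re := by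
  rw [show conj a * (t * b) = (t : ℂ) * (conj a * b) by ring, Complex.re_ofReal_mul]

/-- The distance of nearby points is controlled by the difference of their radii. -/
theorem radial_dist {x y z e q v : ℂ} {d t : ℝ} (hd : 0 < d) (ht : 0 < t) (htd : t ≤ 1 / 100 * d)
    (he : ‖e‖ = 1) (hq : ‖q‖ = 1) (hv : ‖v‖ = 1) (hyq : y - x = d * q) (hzv : z - y = t * v)
    (h1 : |(conj e * v).im| ≤ 1 / 10) (beq : |(conj e * q).im| ≤ 1 / 10) :
    t ≤ 2 * |dist z x - d| := by
  have h2 := re_large he hq hv h1 beq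
  have h3 := dist_sq_formula hq hv hyq hzv
  have hdy : dist y x = d := by
    rw [dist_eq_norm, hyq, norm_mul, hq, Complex.norm_real, Real.norm_of_nonneg hd.le, mul_one]
  have hzy : dist z y = t := by
    rw [dist_eq_norm, hzv, norm_mul, hv, Complex.norm_real, Real.norm_of_nonneg ht.le, mul_one]
  have hzx : dist z x ≤ d + t := by
    have := dist_triangle z y x
    linarith only [this, hzy, hdy]
  have hzx0 : 0 ≤ dist z x := dist_nonneg
  have h5 : |dist z x ^ 2 - d ^ 2| = |dist z x - d| * (dist z x + d) := by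
    rw [show dist z x ^ 2 - d ^ 2 = (dist z x - d) * (dist z x + d) by ring, abs_mul,
      abs_of_pos (by linarith only [hzx0, htd, ht] : 0 < dist z x + d)]
  have h6 : 2 * d * t * (24 / 25) - t ^ 2 ≤ |dist z x ^ 2 - d ^ 2| := by
    have e1 : dist z x ^ 2 - d ^ 2 = 2 * d * t * (conj q * v).re + t ^ 2 := by rw [h3]; ring
    rw [e1]
    have h7 := abs_add_le (2 * d * t * (conj q * v).re + t ^ 2) (-t ^ 2)
    rw [show 2 * d * t * (conj q * v).re + t ^ 2 + -t ^ 2 = 2 * d * t * (conj q * v).re by ring,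
      abs_mul, abs_of_pos (by positivity : 0 < 2 * d * t), abs_neg,
      abs_of_pos (by positivity : 0 < t ^ 2)] at h7
    have h8 := mul_le_mul_of_nonneg_left h2 (by positivity : 0 ≤ 2 * d * t)
    linarith only [h8, h7]
  rw [h5] at h6
  have h9 : |dist z x - d| * (dist z x + d) ≤ |dist z x - d| * (2.01 * d) :=
    mul_le_mul_of_nonneg_left (by linarith only [hzx, htd]) (abs_nonneg _)
  have h10 : t ^ 2 ≤ 1 / 100 * d * t := by
    have := mul_le_mul_of_nonneg_right htd ht.le
    linarith only [this]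
  have h12 : t * 1.9 ≤ |dist z x - d| * 2.01 := by
    have h13 : (t * 1.9) * d ≤ (|dist z x - d| * 2.01) * d := by
      have e5 : 2 * d * t * (24 / 25) - 1 / 100 * d * t = (t * 1.91) * d := by ring
      have e6 : (t * 1.9) * d ≤ (t * 1.91) * d :=
        mul_le_mul_of_nonneg_right (by linarith only [ht]) hd.le
      linarith only [e6, h10, h9, h6]
    exact le_of_mul_le_mul_right h13 hd
  have := abs_nonneg (dist z x - d)
  linarith only [h12, ht]

theorem dist_plus {x y z q w : ℂ} {d t : ℝ} (hd : 0 < d) (ht : 0 < t) (hq : ‖q‖ = 1)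
    (hw : ‖w‖ = 1) (hyq : y - x = d * q) (hzw : z - y = t * w)
    (hre : 24 / 25 ≤ (conj q * w).re) : d + t / 2 ≤ dist z x := by
  have h3 := dist_sq_formula hq hw hyq hzw
  have h4 : (d + t / 2) ^ 2 ≤ dist z x ^ 2 := by
    rw [h3]
    have h5 := mul_le_mul_of_nonneg_left hre (by positivity : 0 ≤ 2 * d * t)
    have h6 : 0 < d * t := by positivity
    have h7 : 0 < t ^ 2 := by positivity
    linarith only [h7, h6, h5]
  exact (pow_le_pow_iff_left₀ (by positivity) dist_nonneg two_ne_zero).1 h4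

theorem dist_minus {x y z q w : ℂ} {d t : ℝ} (hd : 0 < d) (ht : 0 < t) (htd : t ≤ 1 / 100 * d)
    (hq : ‖q‖ = 1) (hw : ‖w‖ = 1) (hyq : y - x = d * q) (hzw : z - y = t * w)
    (hre : (conj q * w).re ≤ -(24 / 25)) : dist z x ≤ d - t / 2 := by
  have h3 := dist_sq_formula hq hw hyq hzw
  have h4 : dist z x ^ 2 ≤ (d - t / 2) ^ 2 := by
    rw [h3]
    have h5 := mul_le_mul_of_nonneg_left hre (by positivity : 0 ≤ 2 * d * t)
    have h6 : 0 < d * t := by positivity
    have h7 : t ^ 2 ≤ 1 / 100 * (d * t) := by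
      have := mul_le_mul_of_nonneg_right htd ht.le
      linarith only [this]
    have h8 : 0 < t ^ 2 := by positivity
    linarith only [h8, h7, h5]
  exact (pow_le_pow_iff_left₀ dist_nonneg (by linarith) two_ne_zero).1 h4

/-- Local radial structure at the points near `x`. -/
theorem Cone.loc (h : Cone K x m R c A) : ∃ r₂ > 0, ∃ ε₀ > 0, r₂ ≤ R ∧ ε₀ ≤ 1 / 100 ∧
    ∀ y ∈ K, y ≠ x → dist y x ≤ r₂ →
      (∀ z ∈ K, dist z y ≤ ε₀ * dist y x → dist z y ≤ 2 * |dist z x - dist y x|) ∧
      (∀ t, 0 < t → t ≤ ε₀ * dist y x →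
        (∃ z ∈ K, dist z y = t ∧ dist y x + t / 2 ≤ dist z x) ∧
          ∃ z ∈ K, dist z y = t ∧ dist z x ≤ dist y x - t / 2) := by
  have hc0 := h.c0
  have hc1 := h.c1
  obtain ⟨η, hη0, hη1, hη⟩ := exists_small_scale h.A1 (ε := 1 / 10) (by norm_num)
  obtain ⟨r₂, hr₂, hr₂R, hrad⟩ := h.radial (ε := 1 / 10) (by norm_num)
  have hcη : c * η ≤ 1 / 100 := by nlinarith
  refine ⟨r₂, hr₂, c * η, by positivity, hr₂R, hcη, ?_⟩
  intro y hy hyx hyr
  obtain ⟨e, hT⟩ := h.tan y hy hyx (hyr.trans hr₂R)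
  have hre := hrad y hy hyx hyr e hT
  have hd : 0 < dist y x := dist_pos.2 hyx
  obtain ⟨d, hdd⟩ : ∃ d, d = dist y x := ⟨_, rfl⟩
  rw [← hdd] at hT hre hd hyr ⊢
  have hcd : 0 < c * d := by positivity
  obtain ⟨q, hq1, hyq⟩ := exists_unit hd hdd.symm
  have beq : |(conj e * q).im| ≤ 1 / 10 := by
    rw [hyq, abs_im_scale _ _ hd] at hre
    refine le_of_mul_le_mul_left ?_ hd
    linarith only [hre]
  have hzv : ∀ z ∈ K, ∀ t : ℝ, 0 < t → t ≤ c * η * d → dist z y = t → ∀ v : ℂ, ‖v‖ = 1 →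
      z - y = t * v → |(conj e * v).im| ≤ 1 / 10 := by
    intro z hz t ht ht1 hzt v hv hzv
    have h1 : t / (c * d) ≤ η := by
      rw [div_le_iff₀ hcd]; linarith
    have h2 := hT.est z hz (by
      rw [hzt]
      have : c * η * d ≤ c * 1 * d := by gcongr; linarith
      linarith)
    rw [hzt, hzv, abs_im_scale _ _ ht] at h2
    refine le_of_mul_le_mul_left ?_ ht
    have h3 := mul_le_mul_of_nonneg_right (hη (t / (c * d)) (by positivity) h1) ht.le
    linarith only [h3, h2]
  constructor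
  · intro z hz hzy
    rcases (dist_nonneg (x := z) (y := y)).eq_or_lt with h0 | h0
    · rw [← h0]; positivity
    obtain ⟨v, hv, hzv'⟩ := exists_unit h0 rfl
    exact radial_dist hd h0 (hzy.trans (mul_le_mul_of_nonneg_right hcη hd.le)) hT.norm hq1 hv hyq
      hzv' (hzv z hz _ h0 hzy rfl v hv hzv') beq
  · intro t ht ht1
    have htcd : t ≤ c * d := by
      have : c * η * d ≤ c * 1 * d := by gcongr; linarith
      linarith
    have htd : t ≤ 1 / 100 * d := ht1.trans (mul_le_mul_of_nonneg_right hcη hd.le)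
    have h1 : t / (c * d) ≤ η := by
      rw [div_le_iff₀ hcd]; linarith
    obtain ⟨⟨p, hp, hpd, hp0⟩, ⟨r, hr, hrd, hr0⟩⟩ := hT.cross t ht htcd
      (hη (t / (c * d)) (by positivity) h1)
    obtain ⟨v, hv, hpv⟩ := exists_unit ht hpd
    obtain ⟨v', hv', hrv⟩ := exists_unit ht hrd
    have b1 := hzv p hp t ht ht1 hpd v hv hpv
    have b2 := hzv r hr t ht ht1 hrd v' hv' hrv
    have l1 := re_large hT.norm hq1 hv b1 beq
    have l2 := re_large hT.norm hq1 hv' b2 beq
    rw [hpv, re_scale] at hp0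
    rw [hrv, re_scale] at hr0
    have s1 : 0 < (conj e * v).re := (pos_iff_pos_of_mul_pos hp0).1 ht
    have s2 : (conj e * v').re < 0 := by
      by_contra hcon
      push Not at hcon
      have := mul_nonneg ht.le hcon
      linarith
    have hq' : |(conj q * e).im| = |(conj e * q).im| := by
      have : conj q * e = conj (conj e * q) := by rw [map_mul, Complex.conj_conj]; ring
      rw [this, Complex.conj_im, abs_neg]
    have c1 : |(conj q * v).im| ≤ 1 / 5 := by
      have := im_triangle hq1 hT.norm hv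
      linarith only [this, hq', b1, beq]
    have c2 : |(conj q * v').im| ≤ 1 / 5 := by
      have := im_triangle hq1 hT.norm hv'
      linarith only [this, hq', b2, beq]
    rcases side_compare hT.norm hq1 hv hv' b1 b2 c1 c2 s1 s2 with ⟨n1, n2⟩ | ⟨n1, n2⟩
    · rw [abs_of_pos n1] at l1
      rw [abs_of_neg n2] at l2
      exact ⟨⟨p, hp, hpd, dist_plus hd ht hq1 hv hyq hpv l1⟩,
        ⟨r, hr, hrd, dist_minus hd ht htd hq1 hv' hyq hrv (by linarith only [l2])⟩⟩
    · rw [abs_of_neg n1] at l1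
      rw [abs_of_pos n2] at l2
      exact ⟨⟨r, hr, hrd, dist_plus hd ht hq1 hv' hyq hrv l2⟩,
        ⟨p, hp, hpd, dist_minus hd ht htd hq1 hv hyq hpv (by linarith only [l1])⟩⟩

end Vale.Agent.P128.Q1
end
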