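import Vale.Agent.P128.MathlibUsed
import Vale.Agent.P128.Bdl.K_GM_C_Defs
import Vale.Agent.P128.Bdl.B5
import Vale.Agent.P128.Bdl.B4
import Vale.Agent.P128.Bdl.B9
import Vale.Agent.P128.Bdl.B1
import Vale.Agent.P128.Bdl.B6
import Vale.Agent.P128.Bdl.B7
import Vale.Agent.P128.Bdl.B2
import Vale.Agent.P128.Bdl.B8

set_option linter.all false

section

/-! Theorem C, S0: change of centre. -/

open MeasureTheory Set Metric Filter InnerProductSpace
open scoped ENNReal NNReal ContDiff Topology Real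

namespace Vale.Agent.P128.GM

open Vale.Agent.P128

theorem shp_grad (x : ℂ) (u : ℂ → ℝ) (z : ℂ) : grad (shift x u) z = grad u (z + x) := by
  unfold shift grad
  rw [fderiv_comp_add_right]

theorem shp_shiftSet_eq (x : ℂ) (K : Set ℂ) : shiftSet x K = (IsometryEquiv.addRight x) ⁻¹' K := rfl

theorem shp_ball (x y : ℂ) (r : ℝ) : ball y r = shiftSet x (ball (y + x) r) := by
  ext z
  simp [shiftSet, mem_ball, dist_add_right]

theorem shp_hausdorff (x : ℂ) (K : Set ℂ) : μH[1] (shiftSet x K) = μH[1] K := by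
  rw [shp_shiftSet_eq]
  exact IsometryEquiv.hausdorffMeasure_preimage _ _ _

theorem shp_mp (x : ℂ) : MeasurePreserving (fun z : ℂ => z + x) volume volume :=
  measurePreserving_add_right volume x

theorem shp_emb (x : ℂ) : MeasurableEmbedding (fun z : ℂ => z + x) :=
  measurableEmbedding_addRight x

theorem isPreconnected_shiftSet {K : Set ℂ} (hK : IsPreconnected K) (x : ℂ) :
    IsPreconnected (shiftSet x K) := by
  have : shiftSet x K = (fun z => z - x) '' K := by
    ext z
    simp only [shiftSet, mem_ofPred_eq, mem_image]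
    constructor
    · intro h
      exact ⟨z + x, h, by ring⟩
    · rintro ⟨y, hy, rfl⟩
      simpa using hy
  rw [this]
  exact hK.image _ (by fun_prop)

theorem shp_memLp {E : Type} [NormedAddCommGroup E] {f : ℂ → E} {C : Set ℂ} (x : ℂ)
    (h : MemLp f 2 (volume.restrict C)) :
    MemLp (fun z => f (z + x)) 2 (volume.restrict (shiftSet x C)) :=
  h.comp_measurePreserving ((shp_mp x).restrict_preimage_emb (shp_emb x) C)

theorem shp_compact {C : Set ℂ} (hC : IsCompact C) (x : ℂ) : IsCompact (shiftSet x C) := by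
  rw [shp_shiftSet_eq]
  exact (IsometryEquiv.addRight x).toHomeomorph.isCompact_preimage.2 hC

theorem shp_shift_neg (x : ℂ) (K : Set ℂ) : shiftSet x (shiftSet (-x) K) = K := by
  ext z
  simp [shiftSet]

theorem shp_shift_neg' (x : ℂ) (K : Set ℂ) : shiftSet (-x) (shiftSet x K) = K := by
  ext z
  simp [shiftSet]

theorem shp_mono {x : ℂ} {K L : Set ℂ} (h : K ⊆ L) : shiftSet x K ⊆ shiftSet x L :=
  fun _ hz => h hz

theorem shp_w12 {U : Set ℂ} {u : ℂ → ℝ} {G : ℂ → ℂ} (h : W12loc U u G) (x : ℂ) :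
    W12loc (shiftSet x U) (fun z => u (z + x)) (fun z => G (z + x)) := by
  have key : ∀ C : Set ℂ, C ⊆ shiftSet x U → shiftSet (-x) C ⊆ U := by
    intro C hC
    have := shp_mono (x := -x) hC
    rwa [shp_shift_neg'] at this
  refine ⟨fun C hC hCU => ?_, fun C hC hCU => ?_, ?_⟩
  · have := shp_memLp x (h.memLp _ (shp_compact hC (-x)) (key C hCU))
    rwa [shp_shift_neg] at this
  · have := shp_memLp x (h.grad_memLp _ (shp_compact hC (-x)) (key C hCU))
    rwa [shp_shift_neg] at this
  · refine isWeakGrad_of_test fun φ h1 h2 h3 v => ?_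
    have e1 : ContDiff ℝ ∞ (fun z => φ (z + (-x))) := h1.comp (contDiff_id.add contDiff_const)
    have e2 : HasCompactSupport (fun z => φ (z + (-x))) :=
      h2.comp_homeomorph (Homeomorph.addRight (-x))
    have e3 : tsupport (fun z => φ (z + (-x))) ⊆ U := by
      have h4 : tsupport (fun z => φ (z + (-x))) ⊆ shiftSet (-x) (tsupport φ) := by
        refine closure_minimal (fun z hz => ?_) ?_
        · exact subset_tsupport φ hz
        · exact (isClosed_tsupport φ).preimage (by fun_prop)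
      exact h4.trans (key _ h3)
    have := h.weak.test e1 e2 e3 v
    rw [← integral_add_right_eq_self _ x, ← integral_add_right_eq_self (fun z => _ * φ _) x] at this
    simpa [fderiv_comp_add_right] using this

theorem shp_genergy (G : ℂ → ℂ) (K V : Set ℂ) (x : ℂ) :
    genergy (fun z => G (z + x)) (shiftSet x K) (shiftSet x V) = genergy G K V := by
  unfold genergy
  have h1 : shiftSet x K ∩ shiftSet x V = shiftSet x (K ∩ V) := rfl
  have h2 : shiftSet x V \ shiftSet x K = (fun z : ℂ => z + x) ⁻¹' (V \ K) := rfl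
  rw [h1, shp_hausdorff, h2,
    (shp_mp x).setLIntegral_comp_preimage_emb (shp_emb x) (fun z => ENNReal.ofReal (‖G z‖ ^ 2))]

theorem shp_comp {F : Set ℂ} {p q : ℂ} (x : ℂ) (h : q ∈ connectedComponentIn F p) :
    q - x ∈ connectedComponentIn (shiftSet x F) (p - x) := by
  have hp : p ∈ F := by
    by_contra hp
    rw [connectedComponentIn_eq_empty hp] at h
    exact h
  have e := (Homeomorph.addRight (-x)).image_connectedComponentIn hp
  have e2 : (Homeomorph.addRight (-x)) '' F = shiftSet x F := by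
    ext z
    simp only [Homeomorph.coe_addRight, mem_image, shiftSet, mem_ofPred_eq]
    constructor
    · rintro ⟨y, hy, rfl⟩
      simpa using hy
    · intro h
      exact ⟨z + x, h, by ring⟩
  rw [e2] at e
  have : (Homeomorph.addRight (-x)) q ∈ connectedComponentIn (shiftSet x F)
      ((Homeomorph.addRight (-x)) p) := by
    rw [← e]
    exact mem_image_of_mem _ h
  simpa [sub_eq_add_neg] using this

theorem shp_lap (x : ℂ) (u : ℂ → ℝ) (z : ℂ) : lap (shift x u) z = lap u (z + x) := by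
  unfold lap shift
  simp only [fderiv_comp_add_right]
  rw [fderiv_comp_add_right (f := fun w => fderiv ℝ u w 1),
    fderiv_comp_add_right (f := fun w => fderiv ℝ u w Complex.I)]

theorem GMin.shift {u : ℂ → ℝ} {K : Set ℂ} (h : GMin u K) (x : ℂ) :
    GMin (shift x u) (shiftSet x K) := by
  have hg : grad (GM.shift x u) = fun z => grad u (z + x) := funext fun z => shp_grad x u z
  refine ⟨⟨?_, ?_, ?_, ?_⟩, ?_, ?_, ?_⟩
  · exact h.gm.closed.preimage (by fun_prop)
  · rw [hg]
    exact shp_w12 h.gm.sobolev x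
  · intro y r
    rw [hg, shp_ball x, shp_genergy]
    exact h.gm.finite _ _
  · intro y r v H L hL hW hC hsep
    obtain ⟨C, hC, hCb, hCs, hCv⟩ := hC
    have key := h.gm.minimal (y + x) r (fun z => v (z + -x)) (fun z => H (z + -x))
      (shiftSet (-x) L) (hL.preimage (by fun_prop)) (shp_w12 hW (-x)) ?_ ?_
    · have e1 : genergy (fun z => H (z + -x)) (shiftSet (-x) L) (ball (y + x) r)
          = genergy H L (ball y r) := by
        have : ball (y + x) r = shiftSet (-x) (ball y r) := by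
          have := shp_ball (-x) (y + x) r
          rwa [add_neg_cancel_right] at this
        rw [this, shp_genergy]
      rw [e1] at key
      rw [hg]
      conv_lhs => rw [shp_ball x]
      rw [shp_genergy]
      exact key
    · refine ⟨shiftSet (-x) C, shp_compact hC (-x), ?_, ?_, ?_⟩
      · have := shp_mono (x := -x) hCb
        rwa [shp_ball x y r, shp_shift_neg'] at this
      · have h1 : symmDiff (shiftSet (-x) L) K = shiftSet (-x) (symmDiff L (shiftSet x K)) := by
          have : K = shiftSet (-x) (shiftSet x K) := (shp_shift_neg' x K).symm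
          conv_lhs => rw [this]
          rfl
        rw [h1]
        exact shp_mono hCs
      · have := (shp_mp (-x)).quasiMeasurePreserving.ae hCv
        filter_upwards [this] with z hz hzC
        have := hz hzC
        simpa [GM.shift] using this
    · intro p q hp hq hpq hpq'
      have h1 := hsep (p - x) (q - x) ?_ ?_ ?_
      · apply h1
        have := shp_comp x hpq'
        have e : shiftSet x (shiftSet (-x) L)ᶜ = Lᶜ := by
          have : shiftSet x (shiftSet (-x) L)ᶜ = (shiftSet x (shiftSet (-x) L))ᶜ := rfl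
          rw [this, shp_shift_neg]
        rwa [e] at this
      · rintro (h1 | h1)
        · apply hp; left
          simpa [mem_ball, dist_eq_norm, sub_sub, add_comm] using h1
        · apply hp; right
          simpa [shiftSet] using h1
      · rintro (h1 | h1)
        · apply hq; left
          simpa [mem_ball, dist_eq_norm, sub_sub, add_comm] using h1
        · apply hq; right
          simpa [shiftSet] using h1
      · intro h1
        apply hpq
        have := shp_comp (-x) h1
        have e : shiftSet (-x) (shiftSet x K)ᶜ = Kᶜ := by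
          have : shiftSet (-x) (shiftSet x K)ᶜ = (shiftSet (-x) (shiftSet x K))ᶜ := rfl
          rw [this, shp_shift_neg']
        rw [e] at this
        simpa using this
  · have ho : IsOpen (shiftSet x K)ᶜ := (h.gm.closed.preimage (by fun_prop)).isOpen_compl
    refine harmonicOnNhd_of_lap ho ?_ ?_
    · have h1 : ContDiffOn ℝ 2 u Kᶜ := InnerProductSpace.HarmonicOnNhd.contDiffOn h.harm
      have h2 : ContDiff ℝ 2 (fun z : ℂ => z + x) := contDiff_id.add contDiff_const
      exact h1.comp h2.contDiffOn fun z hz => hz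
    · intro z hz
      rw [shp_lap]
      exact HarmonicOnNhd.lap_eq h.harm hz
  · have : (shiftSet x K)ᶜ = shiftSet x Kᶜ := rfl
    rw [this]
    exact isPreconnected_shiftSet h.conn x
  · intro y hy r hr
    have e : shiftSet x K ∩ ball y r = shiftSet x (K ∩ ball (y + x) r) := by
      conv_lhs => rw [shp_ball x y r]
      rfl
    rw [e, shp_hausdorff]
    exact h.red _ hy r hr

theorem En_shift (u : ℂ → ℝ) (x : ℂ) (s : ℝ) : En (shift x u) s = Ec u x s := by
  unfold En Ec
  have e : ball (0 : ℂ) s = (fun z : ℂ => z + x) ⁻¹' (ball x s) := by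
    ext z
    simp [mem_ball, dist_eq_norm]
  rw [e]
  simp only [shp_grad]
  exact (shp_mp x).setIntegral_preimage_emb (shp_emb x) (fun z => ‖grad u z‖ ^ 2) _

end Vale.Agent.P128.GM
end

section

open MeasureTheory Set Metric Filter
open scoped ENNReal NNReal Topology Real ContDiff

namespace Vale.Agent.P128

theorem uc_eq_one {t : ℝ} (h : uc t = 1) (h0 : 0 < t) (h1 : t < 2 * π) : False := by
  have : t = 0 := uc_inj (by rw [h, uc_zero]) (by
    rw [sub_zero, abs_of_pos h0]; exact h1)
  linarith only [h0, this]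

theorem next_inj {T : Finset ℂ} (h1 : ∀ w ∈ T, ‖w‖ = 1) {p p' : ℂ} (hp : p ∈ T) (hp' : p' ∈ T)
    (h : p * uc (gap (T : Set ℂ) p) = p' * uc (gap (T : Set ℂ) p')) : p = p' := by
  wlog hle : gap (T : Set ℂ) p ≤ gap (T : Set ℂ) p' generalizing p p'
  · exact (this hp' hp h.symm (le_of_not_ge hle)).symm
  obtain ⟨g1, g2, g3, g4⟩ := gap_spec T.finite_toSet hp (h1 p hp)
  obtain ⟨g1', g2', g3', g4'⟩ := gap_spec T.finite_toSet hp' (h1 p' hp')
  have h2 : p = p' * uc (gap (T : Set ℂ) p' + -gap (T : Set ℂ) p) := by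
    have h3 : p * uc (gap (T : Set ℂ) p) * uc (-gap (T : Set ℂ) p) =
        p' * uc (gap (T : Set ℂ) p') * uc (-gap (T : Set ℂ) p) := by rw [h]
    rw [mul_assoc, mul_comm (uc _) (uc (-gap (T : Set ℂ) p)), uc_neg_mul, mul_one, mul_assoc,
      ← uc_add] at h3
    exact h3
  rcases eq_or_lt_of_le hle with h3 | h3
  · rw [h2, h3, add_neg_cancel, uc_zero, mul_one]
  · exfalso
    refine g4' (gap (T : Set ℂ) p' + -gap (T : Set ℂ) p) (by linarith only [h3]) (by linarith only [g1]) ?_
    rw [← h2]; exact hp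

theorem norm_add_smul_sub (x : ℂ) {e : ℂ} (he : ‖e‖ = 1) {ρ : ℝ} (hρ : 0 ≤ ρ) :
    ‖x + ρ • e - x‖ = ρ := by
  rw [add_sub_cancel_left, norm_smul, he, mul_one, Real.norm_of_nonneg hρ]

theorem secS_pos {γ : ℝ} : ∀ p ∈ secS γ, 0 < p.1 := fun _ h => h.1

end Vale.Agent.P128
end

section

open MeasureTheory Set Metric Filter
open scoped ENNReal NNReal Topology Real ContDiff

namespace Vale.Agent.P128

/-- Competing sets with the regions they bound: `L` has length at most `ℓ`, contains the rays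
towards `T` outside the disk of radius `a`, and `U p` is the region of the arc after `p`. -/
def StarData (T : Finset ℂ) (x : ℂ) (a s ℓ : ℝ) : Prop :=
  ∃ (L : Set ℂ) (U : ℂ → Set ℂ), IsClosed L ∧ L ⊆ closedBall x s ∧
    μH[1] L ≤ ENNReal.ofReal ℓ ∧
    (∀ r ∈ Icc a s, ∀ w ∈ T, x + r • w ∈ L) ∧
    ∀ p ∈ T, IsOpen (U p) ∧ closure (U p) ∩ ball x s ⊆ U p ∪ L ∧
      (∀ e, ‖e‖ = 1 → (x + a • e ∈ U p ↔ e ∈ arcAfter (T : Set ℂ) p)) ∧
      ∀ r : ℝ, 0 < r → volume (ang ∩ {θ | x + r • uc θ ∈ U p}) ≤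
        ENNReal.ofReal (2 * gap (T : Set ℂ) p)

theorem starData_plain {T : Finset ℂ} (h1 : ∀ w ∈ T, ‖w‖ = 1) (x : ℂ) {a s : ℝ} (ha : 0 < a)
    (has : a < s) : StarData T x a s (T.card * s) := by
  have hs0 : 0 < s := ha.trans has
  set L : Set ℂ := ⋃ w ∈ T, segment ℝ (x + (0 : ℝ) • w) (x + s • w) with hL
  have M1 : ∀ w ∈ T, ∀ ρ : ℝ, 0 ≤ ρ → ρ ≤ s → x + ρ • w ∈ L := fun w hw ρ h2 h3 =>
    mem_iUnion₂.mpr ⟨w, hw, mem_seg_ray x w h2 h3⟩
  have hrad : ∀ (e : ℂ), ‖e‖ = 1 → ∀ ρ : ℝ, 0 ≤ ρ → x + ρ • e ∈ ball x s → ρ ≤ s := by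
    intro e he ρ hρ hb
    rw [mem_ball, dist_eq_norm, norm_add_smul_sub x he hρ] at hb
    exact hb.le
  refine ⟨L, fun w => pm x w 1 '' secS (gap (T : Set ℂ) w), ?_, ?_, ?_, ?_, ?_⟩
  · exact (T.finite_toSet.isCompact_biUnion fun w _ => isCompact_seg _ _).isClosed
  · refine iUnion₂_subset fun w hw => ?_
    have hcb : ∀ ρ : ℝ, 0 ≤ ρ → ρ ≤ s → x + ρ • w ∈ closedBall x s := by
      intro ρ h2 h3
      rw [mem_closedBall, dist_eq_norm, norm_add_smul_sub x (h1 w hw) h2]; exact h3
    exact (convex_closedBall x s).segment_subset (hcb 0 le_rfl hs0.le) (hcb s hs0.le le_rfl)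
  · refine (measure_biUnion_finset_le T _).trans ?_
    have e2 : ∀ w ∈ T, μH[1] (segment ℝ (x + (0 : ℝ) • w) (x + s • w)) =
        ENNReal.ofReal s := by
      intro w hw
      rw [hausdorff_ray x w (h1 w hw) hs0.le, sub_zero]
    rw [Finset.sum_congr rfl e2, Finset.sum_const, nsmul_eq_mul,
      ← ENNReal.ofReal_natCast, ← ENNReal.ofReal_mul (by (clear * -; positivity))]
  · intro r hr w hw
    exact M1 w hw r (ha.le.trans hr.1) hr.2
  · intro w hw
    obtain ⟨m1, m2, m3, m4⟩ := gap_spec T.finite_toSet hw (h1 w hw)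
    have hw1 := h1 w hw
    have hw0 : w ≠ 0 := by rw [← norm_ne_zero_iff, hw1]; exact one_ne_zero
    refine ⟨isOpen_pm_image hw0 (by norm_num) (isOpen_secS _) secS_pos, ?_, ?_, ?_⟩
    · rintro z ⟨hz, hzb⟩
      rcases closure_sec hw1 hz with h | ⟨ρ, h2, rfl⟩ | ⟨ρ, h2, rfl⟩
      · exact Or.inl h
      · exact Or.inr (M1 w hw ρ h2 (hrad w hw1 ρ h2 hzb))
      · exact Or.inr (M1 _ m3 ρ h2 (hrad _ (h1 _ m3) ρ h2 hzb))
    · intro e he
      exact sphere_sec hw1 he ha
    · intro r hr
      have h2 := volume_dir hw1 (α₁ := 0) (α₂ := gap (T : Set ℂ) w) m1.le (by linarith)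
      refine (measure_mono ?_).trans (h2.le.trans (ENNReal.ofReal_le_ofReal (by linarith)))
      rintro θ ⟨hθ, hθ'⟩
      rw [mem_ofPred_eq] at hθ'
      obtain ⟨t, ⟨a1, a2, a3⟩, a5⟩ := dir_of_mem hw1 (norm_uc θ) hr secS_pos hθ'
      rw [one_mul] at a5
      exact ⟨hθ, t, ⟨a2, a3⟩, a5⟩

/-- Restriction of a test function to an open set whose boundary it avoids. -/
theorem indicator_test {U : Set ℂ} (hU : IsOpen U) {φ : ℂ → ℝ} (hφ : ContDiff ℝ ∞ φ)
    (hc : HasCompactSupport φ) (hd : ∀ z ∈ closure U, z ∉ U → z ∉ tsupport φ) :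
    ContDiff ℝ ∞ (U.indicator φ) ∧ HasCompactSupport (U.indicator φ) ∧
      ∀ z v, fderiv ℝ (U.indicator φ) z v = U.indicator (fun z => fderiv ℝ φ z v) z := by
  have h1 : ∀ z ∈ U, U.indicator φ =ᶠ[𝓝 z] φ := fun z hz => by
    filter_upwards [hU.mem_nhds hz] with y hy
    exact indicator_of_mem hy φ
  have h2 : ∀ z, z ∉ closure U → U.indicator φ =ᶠ[𝓝 z] fun _ => 0 := fun z hz => by
    filter_upwards [isClosed_closure.isOpen_compl.mem_nhds hz] with y hy
    exact indicator_of_notMem (fun h => hy (subset_closure h)) φ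
  have h3 : ∀ z, z ∉ tsupport φ → U.indicator φ =ᶠ[𝓝 z] fun _ => 0 := fun z hz => by
    filter_upwards [(isClosed_tsupport φ).isOpen_compl.mem_nhds hz] with y hy
    by_cases hyU : y ∈ U
    · rw [indicator_of_mem hyU]; exact image_eq_zero_of_notMem_tsupport hy
    · exact indicator_of_notMem hyU φ
  have h0 : ∀ z, z ∉ U → U.indicator φ =ᶠ[𝓝 z] fun _ => 0 := fun z hz => by
    by_cases hcl : z ∈ closure U
    · exact h3 z (hd z hcl hz)
    · exact h2 z hcl
  refine ⟨?_, ?_, ?_⟩
  · rw [contDiff_iff_contDiffAt]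
    intro z
    by_cases hz : z ∈ U
    · exact hφ.contDiffAt.congr_of_eventuallyEq (h1 z hz)
    · exact contDiffAt_const.congr_of_eventuallyEq (h0 z hz)
  · refine HasCompactSupport.intro hc.isCompact fun z hz => ?_
    exact (h3 z hz).eq_of_nhds
  · intro z v
    by_cases hz : z ∈ U
    · rw [indicator_of_mem hz, (h1 z hz).fderiv_eq]
    · rw [indicator_of_notMem hz, (h0 z hz).fderiv_eq]
      simp

/-- Integration by parts in the inner disk for one region. -/
theorem region_ibp {x : ℂ} {a s : ℝ} (ha : 0 < a) (has : a < s) {U L : Set ℂ} (hU : IsOpen U)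
    (hcl : closure U ∩ ball x s ⊆ U ∪ L) {φ : ℂ → ℝ} (hφ : ContDiff ℝ ∞ φ)
    (hc : HasCompactSupport φ) (hd : Disjoint (tsupport φ) L) (v : ℂ) :
    ∫ z in annu x 0 a, U.indicator (fun z => fderiv ℝ φ z v) z =
      a * ∫ θ in ang, U.indicator φ (circleMap x a θ) * inner ℝ (circleMap 0 1 θ) v := by
  let χ : ContDiffBump x := ⟨a, (a + s) / 2, ha, by linarith only [has]⟩
  have hχ : ContDiff ℝ ∞ (χ : ℂ → ℝ) := χ.contDiff
  have hχφ : ContDiff ℝ ∞ (fun z => χ z * φ z) := hχ.mul hφ
  have hχφc : HasCompactSupport (fun z => χ z * φ z) := hc.mul_left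
  have hdis : ∀ z ∈ closure U, z ∉ U → z ∉ tsupport (fun z => χ z * φ z) := by
    intro z hz hzU hzt
    have h1 : z ∈ tsupport φ := tsupport_mul_subset_right hzt
    have h2 : z ∈ tsupport (χ : ℂ → ℝ) := tsupport_mul_subset_left hzt
    rw [χ.tsupport_eq, mem_closedBall] at h2
    have h3 : z ∈ ball x s := by
      rw [mem_ball]
      have : (χ.rOut : ℝ) = (a + s) / 2 := rfl
      linarith only [this, h2, has]
    rcases hcl ⟨hz, h3⟩ with h | h
    · exact hzU h
    · exact disjoint_left.mp hd h1 h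
  obtain ⟨t1, t2, t3⟩ := indicator_test hU hχφ hχφc hdis
  have hfin : IsFiniteMeasure (volume.restrict ang) := ⟨by simp⟩
  have hA := volume_annu_ne_top x 0 a
  have b4 : ∫⁻ r in Ioo 0 a, ENNReal.ofReal (r * (fun _ : ℝ => (1 : ℝ)) r ^ 2) < ⊤ := by
    simp only [one_pow, mul_one]
    rw [lintegral_id_Ioo le_rfl ha.le]
    exact ENNReal.ofReal_lt_top
  have mU1 : MemLp (extU x (fun _ => 1) (fun _ => (1 : ℝ))) 2 (volume.restrict (annu x 0 a)) :=
    memLp_extU x le_rfl measurable_const measurable_const (memLp_const 1) b4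
  have z1 : MemLp (fun _ : ℂ => (0 : ℂ)) 2 (volume.restrict (annu x 0 a)) := MemLp.zero
  have D1 : IntegrableOn (fun z => extU x (fun _ => 1) (fun _ => (1 : ℝ)) z *
      fderiv ℝ (U.indicator fun z => χ z * φ z) z v +
      inner ℝ (extG x (fun _ => 1) (fun _ => 0) (fun _ => (1 : ℝ)) (fun _ => 0) z) v *
        (U.indicator fun z => χ z * φ z) z) (annu x 0 a) := by
    rw [extG_zero]
    exact integrableOn_density hA mU1 z1 t1 t2 v
  have I1 := annulus_ibp (x := x) (a := 0) (s := a) (ζ := fun _ => 1) (ζ' := fun _ => 0)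
    (f := fun _ => (1 : ℝ)) (h := fun _ => 0) le_rfl ha
    (fun r => hasDerivAt_const r 1) continuous_const measurable_const measurable_const
    (integrable_const (1 : ℝ)) (integrable_const 0) (circWeak_const ∅ 1) t1
    (fun r _ w hw => absurd hw (notMem_empty w)) v D1
  rw [zero_mul, zero_mul, sub_zero, mul_one] at I1
  have e1 : ∫ z in annu x 0 a, (extU x (fun _ => 1) (fun _ => (1 : ℝ)) z *
      fderiv ℝ (U.indicator fun z => χ z * φ z) z v +
      inner ℝ (extG x (fun _ => 1) (fun _ => 0) (fun _ => (1 : ℝ)) (fun _ => 0) z) v *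
        (U.indicator fun z => χ z * φ z) z) =
      ∫ z in annu x 0 a, U.indicator (fun z => fderiv ℝ φ z v) z := by
    refine setIntegral_congr_fun (measurableSet_annu x 0 a) fun z hz => ?_
    have hzb : z ∈ ball x a := hz.2
    have hne : (fun z => χ z * φ z) =ᶠ[𝓝 z] φ := by
      filter_upwards [isOpen_ball.mem_nhds hzb] with y hy
      rw [χ.one_of_mem_closedBall (ball_subset_closedBall hy), one_mul]
    rw [extG_zero, t3]
    simp only [extU, one_mul, inner_zero_left, zero_mul, add_zero]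
    by_cases hzU : z ∈ U
    · rw [indicator_of_mem hzU, indicator_of_mem hzU, hne.fderiv_eq]
    · rw [indicator_of_notMem hzU, indicator_of_notMem hzU]
  rw [← e1, I1]
  congr 1
  refine setIntegral_congr_fun measurableSet_Ioo fun θ hθ => ?_
  have hzb : circleMap x a θ ∈ closedBall x a := by
    rw [mem_closedBall, dist_cm x ha]
  rw [one_mul]
  congr 1
  by_cases hzU : circleMap x a θ ∈ U
  · rw [indicator_of_mem hzU, indicator_of_mem hzU, χ.one_of_mem_closedBall hzb, one_mul]
  · rw [indicator_of_notMem hzU, indicator_of_notMem hzU]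

end Vale.Agent.P128
end

section

open MeasureTheory Set Metric Filter
open scoped ENNReal NNReal Topology Real ContDiff

namespace Vale.Agent.P128

theorem integral_fderiv_cc {φ : ℂ → ℝ} (h1 : ContDiff ℝ ∞ φ) (h2 : HasCompactSupport φ) (v : ℂ) :
    ∫ z, fderiv ℝ φ z v = 0 := by
  have hd := (h1.differentiable (by simp))
  have hcφ : Continuous fun z => fderiv ℝ φ z v :=
    (h1.continuous_fderiv (by simp)).clm_apply continuous_const
  have h0 : Integrable fun z => fderiv ℝ φ z v :=
    hcφ.integrable_of_hasCompactSupport (h2.fderiv_apply ℝ v)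
  have h5 : Integrable φ := h1.continuous.integrable_of_hasCompactSupport h2
  have := integral_mul_fderiv_eq_neg_fderiv_mul_of_integrable (μ := (volume : Measure ℂ)) (𝕜 := ℝ)
    (f := fun _ : ℂ => (1 : ℝ)) (g := φ) (v := v) (by simp only [fderiv_fun_const, Pi.zero_apply, zero_apply, zero_mul, integrable_fun_zero]) (by simpa only [one_mul] using h0)
    (by simpa only [one_mul] using h5) (fun _ _ => by fun_prop) (fun z _ => hd z)
  simpa only [one_mul, fderiv_fun_const, Pi.zero_apply, zero_apply, zero_mul, integral_zero, neg_zero] using     this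

/-- A cut-off of a region whose boundary is not seen by the cut-off. -/
theorem isWeakGrad_indicator {V U : Set ℂ} (hU : IsOpen U) {η : ℂ → ℝ} (hη : ContDiff ℝ ∞ η)
    (hd : ∀ z ∈ closure U, z ∉ U → z ∈ V → z ∉ tsupport η) :
    IsWeakGrad V (U.indicator η) (U.indicator (grad η)) := by
  refine isWeakGrad_of_test fun φ h1 h2 h3 v => ?_
  have hc : HasCompactSupport fun z => η z * φ z := h2.mul_left
  obtain ⟨t1, t2, t3⟩ := indicator_test hU (hη.mul h1) hc (by
    intro z hz hzU hzt
    have a1 : z ∈ tsupport φ := tsupport_mul_subset_right hzt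
    have a2 : z ∈ tsupport η := tsupport_mul_subset_left hzt
    exact hd z hz hzU (h3 a1) a2)
  have e0 := integral_fderiv_cc t1 t2 v
  have e1 : ∀ z, U.indicator η z * fderiv ℝ φ z v + inner ℝ (U.indicator (grad η) z) v * φ z =
      fderiv ℝ (U.indicator fun z => η z * φ z) z v := by
    intro z
    rw [t3 z v]
    by_cases hz : z ∈ U
    · simp only [indicator_of_mem hz]
      have hηd : DifferentiableAt ℝ η z := (hη.differentiable (by simp)) z
      have hφd : DifferentiableAt ℝ φ z := (h1.differentiable (by simp)) z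
      rw [inner_grad]
      have : fderiv ℝ (fun z => η z * φ z) z = η z • fderiv ℝ φ z + φ z • fderiv ℝ η z :=
        fderiv_fun_mul hηd hφd
      rw [this]
      simp only [add_apply, smul_apply, smul_eq_mul, add_right_inj]
      ring
    · simp only [indicator_of_notMem hz, inner_zero_left, zero_mul, add_zero]
  have c1 : Continuous fun z => fderiv ℝ φ z v :=
    (h1.continuous_fderiv (by simp)).clm_apply continuous_const
  have hcd : HasCompactSupport fun z => fderiv ℝ φ z v := h2.fderiv_apply ℝ v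
  have i1 : Integrable fun z => U.indicator η z * fderiv ℝ φ z v := by
    have : (fun z => U.indicator η z * fderiv ℝ φ z v) =
        U.indicator fun z => η z * fderiv ℝ φ z v := by
      funext z
      by_cases hz : z ∈ U
      · simp only [indicator_of_mem hz]
      · simp only [indicator_of_notMem hz, zero_mul]
    rw [this]
    exact ((hη.continuous.mul c1).integrable_of_hasCompactSupport hcd.mul_left).indicator
      hU.measurableSet
  have i3 : Integrable fun z => fderiv ℝ (U.indicator fun z => η z * φ z) z v :=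
    ((t1.continuous_fderiv (by simp)).clm_apply continuous_const).integrable_of_hasCompactSupport
      (t2.fderiv_apply ℝ v)
  have i2 : Integrable fun z => inner ℝ (U.indicator (grad η) z) v * φ z := by
    have := i3.sub i1
    refine this.congr (Eventually.of_forall fun z => ?_)
    simp only [Pi.sub_apply]
    rw [← e1 z]
    ring
  have e2 : (∫ z, U.indicator η z * fderiv ℝ φ z v) +
      ∫ z, inner ℝ (U.indicator (grad η) z) v * φ z = 0 := by
    rw [← integral_add i1 i2, ← e0]
    exact integral_congr_ae (Eventually.of_forall e1)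
  linarith only [e2]

/-- Limits of averages against kernels, for a function with a one-sided limit in mean. -/
theorem ker_limit {k : ℕ → ℝ → ℝ} {C s A : ℝ} {Φ D : ℝ → ℝ} {T : Set ℝ} (hC : 0 ≤ C)
    (hkm : ∀ n, Continuous (k n)) (hkc : ∀ n, HasCompactSupport (k n))
    (hkb : ∀ n r, |k n r| ≤ C * (n + 1))
    (hks : ∀ n r, k n r ≠ 0 → r ∈ T ∧ |r - s| ≤ 2 / ((n : ℝ) + 1))
    (hk1 : ∀ n, ∫ r, k n r = 1) (hΦ : ∀ᶠ n in atTop, Integrable fun r => k n r * Φ r)
    (hD0 : ∀ r, 0 ≤ D r) (hDi : ∀ δ > 0, IntegrableOn D (Icc (s - δ) (s + δ)))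
    (hDl : Tendsto (fun δ => (∫ r in Icc (s - δ) (s + δ), D r) / δ) (𝓝[>] 0) (𝓝 0))
    (hb : ∀ ε > 0, ∃ δ > 0, ∀ᵐ r, r ∈ T → |r - s| < δ → |Φ r - A| ≤ D r + ε) :
    Tendsto (fun n => ∫ r, k n r * Φ r) atTop (𝓝 A) := by
  rw [Metric.tendsto_atTop']
  intro ε hε
  obtain ⟨ε₁, hε₁⟩ : ∃ ε₁, ε₁ = ε / (16 * (C + 1)) := ⟨_, rfl⟩
  have hε₁0 : 0 < ε₁ := by rw [hε₁]; positivity
  obtain ⟨δ, hδ, hδb⟩ := hb ε₁ hε₁0
  have ht : Tendsto (fun n : ℕ => 2 / ((n : ℝ) + 1)) atTop (𝓝[>] 0) := by
    rw [tendsto_nhdsWithin_iff]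
    refine ⟨?_, Eventually.of_forall fun n => (by (clear * -; positivity) : (0 : ℝ) < 2 / ((n : ℝ) + 1))⟩
    have := (tendsto_one_div_add_atTop_nhds_zero_nat (𝕜 := ℝ)).const_mul 2
    rw [mul_zero] at this
    refine this.congr fun n => ?_
    ring
  have h1 := (hDl.comp ht).eventually (gt_mem_nhds hε₁0)
  have h2 : ∀ᶠ n : ℕ in atTop, 2 / ((n : ℝ) + 1) < δ := by
    have := (tendsto_nhdsWithin_iff.mp ht).1
    exact this.eventually (gt_mem_nhds hδ)
  obtain ⟨n₀, hn₀⟩ := (h1.and (h2.and hΦ)).exists_forall_of_atTop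
  refine ⟨n₀, fun n hn => ?_⟩
  obtain ⟨h3, h4, h5⟩ := hn₀ n hn.le
  obtain ⟨d, hd⟩ : ∃ d, d = 2 / ((n : ℝ) + 1) := ⟨_, rfl⟩
  have hd0 : 0 < d := by rw [hd]; (clear * -; positivity)
  simp only [Function.comp_apply] at h3
  rw [← hd] at h3 h4
  have hki : Integrable (k n) := (hkm n).integrable_of_hasCompactSupport (hkc n)
  have e1 : (∫ r, k n r * Φ r) - A = ∫ r, k n r * (Φ r - A) := by
    have : A = ∫ r, k n r * A := by rw [integral_mul_const, hk1, one_mul]
    conv_lhs => rw [this]
    rw [← integral_sub h5 (hki.mul_const A)]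
    exact integral_congr_ae (Eventually.of_forall fun r => by ring)
  have e2 : ∫ r, k n r * (Φ r - A) = ∫ r in Icc (s - d) (s + d), k n r * (Φ r - A) := by
    refine (setIntegral_eq_integral_of_forall_compl_eq_zero fun r hr => ?_).symm
    have : k n r = 0 := by
      by_contra hne
      have h6 := (hks n r hne).2
      rw [← hd] at h6
      obtain ⟨h7, h8⟩ := abs_le.mp h6
      exact hr ⟨by linarith only [h7], by linarith only [h8]⟩
    rw [this, zero_mul]
  rw [Real.dist_eq, e1, e2]
  have hCn : C * ((n : ℝ) + 1) = 2 * C / d := by rw [hd]; (clear * -; field_simp)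
  have h6 : |∫ r in Icc (s - d) (s + d), k n r * (Φ r - A)| ≤
      ∫ r in Icc (s - d) (s + d), (2 * C / d) * (D r + ε₁) := by
    refine abs_integral_le_integral_abs.trans ?_
    refine integral_mono_of_nonneg (Eventually.of_forall fun r => abs_nonneg _)
      (((hDi d hd0).add (integrable_const _)).const_mul _) ?_
    filter_upwards [ae_restrict_of_ae hδb] with r hr
    rw [abs_mul]
    by_cases hne : k n r = 0
    · rw [hne, abs_zero, zero_mul]
      have := hD0 r
      (clear * - hC hd0 this hε₁0; positivity)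
    · obtain ⟨h7, h8⟩ := hks n r hne
      rw [← hd] at h8
      have h9 := hr h7 (h8.trans_lt h4)
      have h10 := hkb n r
      rw [hCn] at h10
      exact mul_le_mul h10 h9 (abs_nonneg _) (by (clear * - hC hd0; positivity))
  have h7 : ∫ r in Icc (s - d) (s + d), (2 * C / d) * (D r + ε₁) =
      2 * C * ((∫ r in Icc (s - d) (s + d), D r) / d) + 4 * C * ε₁ := by
    rw [integral_const_mul, integral_add (hDi d hd0) (integrable_const _)]
    simp only [integral_const, smul_eq_mul, measureReal_def, Measure.restrict_apply_univ,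
      Real.volume_Icc]
    rw [ENNReal.toReal_ofReal (by linarith only [hd0])]
    field_simp
    ring
  rw [h7] at h6
  refine h6.trans_lt ?_
  have h8 : 2 * C * ((∫ r in Icc (s - d) (s + d), D r) / d) ≤ 2 * C * ε₁ := by (clear * - h3 hC; gcongr)
  have h9 : (C + 1) * ε₁ = ε / 16 := by rw [hε₁]; (clear * - hC hε; field_simp)
  linarith only [h9, h8, hε₁0, hε]

end Vale.Agent.P128
end

section

open MeasureTheory Set Metric Filter
open scoped ENNReal NNReal Topology Real ContDiff

namespace Vale.Agent.P128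

/-- The piecewise constant function on the regions. -/
noncomputable def regFun (T : Finset ℂ) (U : ℂ → Set ℂ) (m : ℂ → ℝ) (z : ℂ) : ℝ :=
  ∑ p ∈ T, (U p).indicator (fun _ => m p) z

theorem measurable_regFun {T : Finset ℂ} {U : ℂ → Set ℂ} (m : ℂ → ℝ)
    (hU : ∀ p ∈ T, IsOpen (U p)) : Measurable (regFun T U m) := by
  unfold regFun
  exact Finset.measurable_sum _ fun p hp => measurable_const.indicator (hU p hp).measurableSet

theorem memLp_regFun {T : Finset ℂ} {U : ℂ → Set ℂ} (m : ℂ → ℝ)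
    (hU : ∀ p ∈ T, IsOpen (U p)) {A : Set ℂ} (hA : volume A ≠ ⊤) :
    MemLp (regFun T U m) 2 (volume.restrict A) := by
  have : IsFiniteMeasure (volume.restrict A) :=
    ⟨by rw [Measure.restrict_apply_univ]; exact hA.lt_top⟩
  unfold regFun
  exact memLp_finsetSum T fun p hp => (memLp_const (m p)).indicator (hU p hp).measurableSet

/-- Square integral of the piecewise constant function in the inner disk. -/
theorem lintegral_regFun_sq {T : Finset ℂ} {U : ℂ → Set ℂ} (m : ℂ → ℝ)
    (hU : ∀ p ∈ T, IsOpen (U p)) (x : ℂ) {a B : ℝ} (ha : 0 ≤ a)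
    (hvol : ∀ p ∈ T, ∀ r : ℝ, 0 < r → volume (ang ∩ {θ | x + r • uc θ ∈ U p}) ≤
      ENNReal.ofReal (2 * gap (T : Set ℂ) p))
    (hg : ∀ p ∈ T, 0 ≤ gap (T : Set ℂ) p)
    (hB : ∑ p ∈ T, gap (T : Set ℂ) p * m p ^ 2 ≤ B) :
    ∫⁻ z in annu x 0 a, ENNReal.ofReal (regFun T U m z ^ 2) ≤
      ENNReal.ofReal (T.card * a ^ 2 * B) := by
  have hmeas := measurable_regFun m hU
  have hB0 : 0 ≤ B := (Finset.sum_nonneg fun p hp => mul_nonneg (hg p hp) (sq_nonneg _)).trans hB
  rw [lintegral_annu x (hmeas.pow_const 2).ennreal_ofReal le_rfl]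
  have key : ∀ r ∈ Ioo 0 a, ENNReal.ofReal r *
      ∫⁻ θ in ang, ENNReal.ofReal (regFun T U m (circleMap x r θ) ^ 2) ≤
      ENNReal.ofReal r * ENNReal.ofReal (2 * T.card * B) := by
    intro r hr
    gcongr
    have h1 : ∀ θ, ENNReal.ofReal (regFun T U m (circleMap x r θ) ^ 2) ≤
        ∑ p ∈ T, ENNReal.ofReal (T.card * m p ^ 2) *
          {θ | x + r • uc θ ∈ U p}.indicator (fun _ => (1 : ℝ≥0∞)) θ := by
      intro θ
      have h2 : regFun T U m (circleMap x r θ) ^ 2 ≤
          T.card * ∑ p ∈ T, ((U p).indicator (fun _ => m p) (circleMap x r θ)) ^ 2 :=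
        sq_sum_le_card_mul_sum_sq
      refine (ENNReal.ofReal_le_ofReal h2).trans ?_
      rw [Finset.mul_sum, ENNReal.ofReal_sum_of_nonneg (fun p _ => by (clear * -; positivity))]
      refine Finset.sum_le_sum fun p hp => ?_
      by_cases hc : circleMap x r θ ∈ U p
      · have hc' : θ ∈ {θ | x + r • uc θ ∈ U p} := by
          rw [circleMap_eq, uc_eq] at hc; exact hc
        rw [indicator_of_mem hc, indicator_of_mem hc', mul_one]
      · rw [indicator_of_notMem hc]
        simp
    calc ∫⁻ θ in ang, ENNReal.ofReal (regFun T U m (circleMap x r θ) ^ 2)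
        ≤ ∫⁻ θ in ang, ∑ p ∈ T, ENNReal.ofReal (T.card * m p ^ 2) *
          {θ | x + r • uc θ ∈ U p}.indicator (fun _ => (1 : ℝ≥0∞)) θ := lintegral_mono h1
      _ = ∑ p ∈ T, ENNReal.ofReal (T.card * m p ^ 2) *
          volume (ang ∩ {θ | x + r • uc θ ∈ U p}) := by
          have hset : ∀ p ∈ T, MeasurableSet {θ : ℝ | x + r • uc θ ∈ U p} := fun p hp =>
            ((hU p hp).preimage (continuous_const.add
              (continuous_uc.const_smul r))).measurableSet
          have hm : ∀ p ∈ T, AEMeasurable (fun θ : ℝ => ENNReal.ofReal (T.card * m p ^ 2) *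
              {θ | x + r • uc θ ∈ U p}.indicator (fun _ => (1 : ℝ≥0∞)) θ)
              (volume.restrict ang) := fun p hp =>
            (measurable_const.mul (measurable_const.indicator (hset p hp))).aemeasurable
          rw [lintegral_finsetSum' T hm]
          refine Finset.sum_congr rfl fun p hp => ?_
          rw [lintegral_const_mul _ (measurable_const.indicator (hset p hp)),
            lintegral_indicator (hset p hp), Measure.restrict_restrict (hset p hp)]
          simp only [lintegral_const, Measure.restrict_apply_univ, one_mul]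
          rw [inter_comm]
      _ ≤ ∑ p ∈ T, ENNReal.ofReal (T.card * m p ^ 2) *
          ENNReal.ofReal (2 * gap (T : Set ℂ) p) := by
          refine Finset.sum_le_sum fun p hp => ?_
          gcongr
          exact hvol p hp r hr.1
      _ = ENNReal.ofReal (2 * T.card * ∑ p ∈ T, gap (T : Set ℂ) p * m p ^ 2) := by
          rw [Finset.mul_sum, ENNReal.ofReal_sum_of_nonneg
            (fun p hp => mul_nonneg (by (clear * -; positivity)) (mul_nonneg (hg p hp) (sq_nonneg _)))]
          refine Finset.sum_congr rfl fun p hp => ?_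
          rw [← ENNReal.ofReal_mul (by (clear * -; positivity))]
          congr 1; ring
      _ ≤ ENNReal.ofReal (2 * T.card * B) := by
          refine ENNReal.ofReal_le_ofReal ?_
          gcongr
  calc ∫⁻ r in Ioo 0 a, ENNReal.ofReal r *
      ∫⁻ θ in ang, ENNReal.ofReal (regFun T U m (circleMap x r θ) ^ 2)
      ≤ ∫⁻ r in Ioo 0 a, ENNReal.ofReal r * ENNReal.ofReal (2 * T.card * B) :=
        setLIntegral_mono (by fun_prop) key
    _ = ENNReal.ofReal (T.card * a ^ 2 * B) := by
        rw [lintegral_mul_const _ (by fun_prop), lintegral_id_Ioo le_rfl ha,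
          ← ENNReal.ofReal_mul (by linarith only [sq_nonneg a])]
        congr 1; ring

/-- Values on the inner circle. -/
theorem regFun_circle {T : Finset ℂ} {U : ℂ → Set ℂ} {f : ℝ → ℝ} {x : ℂ} {a : ℝ}
    (hU : ∀ p ∈ T, ∀ e, ‖e‖ = 1 → (x + a • e ∈ U p ↔ e ∈ arcAfter (T : Set ℂ) p)) (θ : ℝ) :
    regFun T U (arcMean (T : Set ℂ) f) (circleMap x a θ) = arcFun T f θ := by
  unfold regFun arcFun
  refine Finset.sum_congr rfl fun p hp => ?_
  have h := hU p hp (uc θ) (norm_uc θ)
  rw [circleMap_eq, uc_eq]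
  by_cases hc : uc θ ∈ arcAfter (T : Set ℂ) p
  · rw [indicator_of_mem (h.mpr hc), indicator_of_mem (show θ ∈ arcAng (T : Set ℂ) p from hc)]
  · rw [indicator_of_notMem (fun hd => hc (h.mp hd)),
      indicator_of_notMem (show θ ∉ arcAng (T : Set ℂ) p from hc)]

/-- Integration by parts in the inner disk for the piecewise constant function. -/
theorem regFun_ibp {T : Finset ℂ} {U : ℂ → Set ℂ} {L : Set ℂ} {f : ℝ → ℝ} {x : ℂ} {a s : ℝ}
    (ha : 0 < a) (has : a < s) (hUo : ∀ p ∈ T, IsOpen (U p))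
    (hcl : ∀ p ∈ T, closure (U p) ∩ ball x s ⊆ U p ∪ L)
    (hU : ∀ p ∈ T, ∀ e, ‖e‖ = 1 → (x + a • e ∈ U p ↔ e ∈ arcAfter (T : Set ℂ) p))
    {φ : ℂ → ℝ} (hφ : ContDiff ℝ ∞ φ)
    (hc : HasCompactSupport φ) (hd : Disjoint (tsupport φ) L) (v : ℂ) :
    ∫ z in annu x 0 a, regFun T U (arcMean (T : Set ℂ) f) z * fderiv ℝ φ z v =
      a * ∫ θ in ang, arcFun T f θ *
        (φ (circleMap x a θ) * inner ℝ (circleMap 0 1 θ) v) := by
  have hcφ : Continuous fun z => fderiv ℝ φ z v :=
    (hφ.continuous_fderiv (by simp)).clm_apply continuous_const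
  have hi1 : Integrable (fun z => fderiv ℝ φ z v) :=
    hcφ.integrable_of_hasCompactSupport (hc.fderiv_apply ℝ v)
  have hfin : IsFiniteMeasure (volume.restrict ang) := ⟨by simp⟩
  have ct : Continuous fun θ : ℝ => φ (circleMap x a θ) * inner ℝ (circleMap 0 1 θ) v :=
    (hφ.continuous.comp (continuous_circleMap x a)).mul
      ((continuous_circleMap 0 1).inner continuous_const)
  have e1 : ∫ z in annu x 0 a, regFun T U (arcMean (T : Set ℂ) f) z * fderiv ℝ φ z v =
      ∑ p ∈ T, arcMean (T : Set ℂ) f p *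
        ∫ z in annu x 0 a, (U p).indicator (fun z => fderiv ℝ φ z v) z := by
    have e2 : ∀ z, regFun T U (arcMean (T : Set ℂ) f) z * fderiv ℝ φ z v =
        ∑ p ∈ T, arcMean (T : Set ℂ) f p * (U p).indicator (fun z => fderiv ℝ φ z v) z := by
      intro z
      unfold regFun
      rw [Finset.sum_mul]
      refine Finset.sum_congr rfl fun p _ => ?_
      by_cases hz : z ∈ U p
      · rw [indicator_of_mem hz, indicator_of_mem hz]
      · rw [indicator_of_notMem hz, indicator_of_notMem hz]; ring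
    simp only [e2]
    rw [integral_finsetSum]
    · exact Finset.sum_congr rfl fun p _ => integral_const_mul _ _
    · intro p hp
      exact ((hi1.indicator (hUo p hp).measurableSet).integrableOn).const_mul _
  rw [e1]
  have e3 : ∀ θ, arcFun T f θ * (φ (circleMap x a θ) * inner ℝ (circleMap 0 1 θ) v) =
      ∑ p ∈ T, arcMean (T : Set ℂ) f p *
        ((U p).indicator φ (circleMap x a θ) * inner ℝ (circleMap 0 1 θ) v) := by
    intro θ
    rw [← regFun_circle hU θ]
    unfold regFun
    rw [Finset.sum_mul]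
    refine Finset.sum_congr rfl fun p _ => ?_
    by_cases hz : circleMap x a θ ∈ U p
    · rw [indicator_of_mem hz, indicator_of_mem hz]
    · rw [indicator_of_notMem hz, indicator_of_notMem hz]; ring
  simp only [e3]
  rw [integral_finsetSum, Finset.mul_sum]
  · refine Finset.sum_congr rfl fun p hp => ?_
    rw [region_ibp ha has (hUo p hp) (hcl p hp) hφ hc hd v, integral_const_mul]
    ring
  · intro p hp
    have h5 : IntegrableOn (fun θ : ℝ => φ (circleMap x a θ) * inner ℝ (circleMap 0 1 θ) v) ang := by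
      have := integrable_mul_cont (integrable_const (1 : ℝ)) ct
      simpa using this
    have h6 : (fun θ : ℝ => (U p).indicator φ (circleMap x a θ) * inner ℝ (circleMap 0 1 θ) v) =
        {θ : ℝ | circleMap x a θ ∈ U p}.indicator
          (fun θ => φ (circleMap x a θ) * inner ℝ (circleMap 0 1 θ) v) := by
      funext θ
      by_cases hz : circleMap x a θ ∈ U p
      · rw [indicator_of_mem hz, indicator_of_mem (show θ ∈ {θ : ℝ | circleMap x a θ ∈ U p} from hz)]
      · rw [indicator_of_notMem hz,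
          indicator_of_notMem (show θ ∉ {θ : ℝ | circleMap x a θ ∈ U p} from hz)]; ring
    have h7 : MeasurableSet {θ : ℝ | circleMap x a θ ∈ U p} :=
      ((hUo p hp).preimage (continuous_circleMap x a)).measurableSet
    have h8 : Integrable (fun θ : ℝ => (U p).indicator φ (circleMap x a θ) *
        inner ℝ (circleMap 0 1 θ) v) (volume.restrict ang) := by
      rw [h6]; exact h5.indicator h7
    exact h8.const_mul _

end Vale.Agent.P128
end

section

open MeasureTheory Set Metric Filter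
open scoped ENNReal NNReal Topology Real ContDiff

namespace Vale.Agent.P128

theorem lintegral_affine_zeta {a s : ℝ} (ha : 0 < a) (has : a < s) :
    ∫⁻ r in Ioo a s, ENNReal.ofReal (r * (1 / (s - a)) ^ 2) =
      ENNReal.ofReal ((s + a) / (2 * (s - a))) := by
  have hsa : 0 < s - a := by (clear * - has; linarith)
  have : ∀ r, ENNReal.ofReal (r * (1 / (s - a)) ^ 2) =
      ENNReal.ofReal ((1 / (s - a)) ^ 2) * ENNReal.ofReal r := by
    intro r
    rw [← ENNReal.ofReal_mul (by positivity)]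
    congr 1; ring
  simp only [this]
  rw [lintegral_const_mul _ (by fun_prop), lintegral_id_Ioo ha.le has.le,
    ← ENNReal.ofReal_mul (by positivity)]
  congr 1
  field_simp
  ring

theorem lintegral_affine_zeta_div {a s : ℝ} (ha : 0 < a) (has : a < s) :
    ∫⁻ r in Ioo a s, ENNReal.ofReal (((r - a) / (s - a)) ^ 2 / r) ≤ ENNReal.ofReal (1 / 2) := by
  have hsa : 0 < s - a := by linarith only [has]
  have hs : 0 < s := by linarith only [ha, has]
  have h1 : ∀ r ∈ Ioo a s, ENNReal.ofReal (((r - a) / (s - a)) ^ 2 / r) ≤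
      ENNReal.ofReal (1 / s ^ 2) * ENNReal.ofReal r := by
    intro r hr
    have hr0 : 0 < r := ha.trans hr.1
    rw [← ENNReal.ofReal_mul (by positivity)]
    refine ENNReal.ofReal_le_ofReal ?_
    have h2 : (r - a) / (s - a) ≤ r / s := by
      rw [div_le_div_iff₀ hsa hs]; linarith only [mul_pos (sub_pos.2 ha) (sub_pos.2 hr.2)]
    have h3 : 0 ≤ (r - a) / (s - a) := div_nonneg (by linarith only [hr.1]) hsa.le
    calc ((r - a) / (s - a)) ^ 2 / r ≤ (r / s) ^ 2 / r := by (clear * - h3 h2 hr0; gcongr)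
      _ = 1 / s ^ 2 * r := by (clear * - hs hr0; field_simp)
  refine (setLIntegral_mono (by fun_prop) h1).trans ?_
  rw [lintegral_const_mul _ (by fun_prop), lintegral_id_Ioo ha.le has.le,
    ← ENNReal.ofReal_mul (by positivity)]
  refine ENNReal.ofReal_le_ofReal ?_
  rw [show 1 / s ^ 2 * ((s ^ 2 - a ^ 2) / 2) = 1 / 2 - a ^ 2 / s ^ 2 / 2 by (clear * - hs; field_simp)]
  have : 0 ≤ a ^ 2 / s ^ 2 / 2 := by positivity
  linarith only [this]

/-- The star competitor on almost every circle. -/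
theorem Nice.comp_star {Ω K : Set ℂ} {g u : ℂ → ℝ} {G : ℂ → ℂ} {M : ℝ}
    (N : Nice Ω g u G K M) {x : ℂ} {R : ℝ} (hR : closedBall x R ⊆ Ω) :
    ∀ᵐ s : ℝ, 0 < s → s < R → ∀ T : Finset ℂ, T.Nonempty →
      (∀ w, w ∈ T ↔ ‖w‖ = 1 ∧ x + s • w ∈ K) →
      ∀ a₀ a ℓ : ℝ, (∀ p ∈ T, gap (T : Set ℂ) p ≤ a₀) → 0 < a → a < s →
      T.card * a ^ 2 ≤ s ^ 2 / 100 → StarData T x a s ℓ →
      (∫⁻ z in ball x s, ENNReal.ofReal (‖G z‖ ^ 2)) + μH[1] (K ∩ ball x s) +
          ∫⁻ z in ball x s, ENNReal.ofReal ((u z - g z) ^ 2) ≤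
        ENNReal.ofReal ℓ +
        ENNReal.ofReal (((s + a) / (2 * (s - a)) * (a₀ / π) ^ 2 + 1 / 2) * s ^ 2) *
          (∫⁻ θ in ang, ENNReal.ofReal
          ((inner ℝ (G (circleMap x s θ)) (circleMap 0 1 θ * Complex.I) : ℝ) ^ 2)) +
        ENNReal.ofReal (2 / 3 * s ^ 2) * (∫⁻ θ in ang, ENNReal.ofReal
          ((u (circleMap x s θ) - g (circleMap x s θ)) ^ 2)) +
        ENNReal.ofReal (18 * π * M ^ 2 * s ^ 2) := by
  filter_upwards [N.glue_compare hR, (N.loc hR).ae_circWeak, (N.loc hR).ae_slices]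
    with s hcmp hcw hsl hs0 hsR T hne hT a₀ a ℓ hgap ha has hcard hstar
  have hcmp := hcmp hs0 hsR
  have hcw := hcw hs0 hsR
  obtain ⟨hf, hh⟩ := hsl hs0
  obtain ⟨L, U, hLc, hLs, hLm, hLray, hUall⟩ := hstar
  have h1 : ∀ w ∈ T, ‖w‖ = 1 := fun w hw => ((hT w).mp hw).1
  have hUo : ∀ p ∈ T, IsOpen (U p) := fun p hp => (hUall p hp).1
  have hUcl : ∀ p ∈ T, closure (U p) ∩ ball x s ⊆ U p ∪ L := fun p hp => (hUall p hp).2.1
  have hUarc : ∀ p ∈ T, ∀ e, ‖e‖ = 1 → (x + a • e ∈ U p ↔ e ∈ arcAfter (T : Set ℂ) p) :=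
    fun p hp => (hUall p hp).2.2.1
  have hUvol : ∀ p ∈ T, ∀ r : ℝ, 0 < r → volume (ang ∩ {θ | x + r • uc θ ∈ U p}) ≤
      ENNReal.ofReal (2 * gap (T : Set ℂ) p) := fun p hp => (hUall p hp).2.2.2
  have hπ := Real.pi_pos
  have hsa : 0 < s - a := by linarith only [has]
  set f : ℝ → ℝ := fun θ => u (circleMap x s θ) with hfdef
  set h : ℝ → ℝ := fun θ => s * inner ℝ (G (circleMap x s θ)) (circleMap 0 1 θ * Complex.I)
    with hhdef
  have fm : Measurable f := N.um.comp (measurable_circleMap x s)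
  have hm : Measurable h := measurable_const.mul ((N.Gm.comp (measurable_circleMap x s)).inner
      ((measurable_circleMap 0 1).mul_const _))
  have pf : Function.Periodic f (2 * π) := fun θ => by
    simp only [hfdef, periodic_circleMap x s θ]
  have ph : Function.Periodic h (2 * π) := fun θ => by
    simp only [hhdef, periodic_circleMap x s θ, periodic_circleMap 0 1 θ]
  have hΘ : {w : ℂ | ‖w‖ = 1 ∧ x + s • w ∈ K} = (T : Set ℂ) := by
    ext w; exact (hT w).symm
  rw [hΘ] at hcw
  have hfin : IsFiniteMeasure (volume.restrict ang) := ⟨by simp only [MeasurableSet.univ, Measure.restrict_apply, univ_inter, Real.volume_Ioo, sub_neg_eq_add, ENNReal.ofReal_lt_top]⟩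
  have hfi : IntegrableOn f ang := hf.integrable (by norm_num)
  have hhi : IntegrableOn h ang := hh.integrable (by norm_num)
  set c : ℝ → ℝ := arcFun T f with hc
  have cm : Measurable c := measurable_arcFun h1 f
  have hcL : MemLp c 2 (volume.restrict ang) := memLp_arcFun h1 f
  have hci : IntegrableOn c ang := hcL.integrable (by norm_num)
  have hccw : CircWeak (T : Set ℂ) c (fun _ => 0) := circWeak_arcFun hne h1 f
  set k : ℝ → ℝ := fun θ => f θ - c θ with hk
  have km : Measurable k := fm.sub cm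
  have hkL : MemLp k 2 (volume.restrict ang) := hf.sub hcL
  have hki : IntegrableOn k ang := hkL.integrable (by norm_num)
  have hkw : CircWeak (T : Set ℂ) k h := by
    have := hcw.sub hccw hfi hci hhi (integrable_const 0)
    simpa using this
  have hpoin : ∫ t in ang, k t ^ 2 ≤ (a₀ / π) ^ 2 * ∫ t in ang, h t ^ 2 :=
    integral_sub_arcFun_sq_le hne h1 hcw pf ph fm hm hf hh hgap
  have hc2 : ∫⁻ θ in ang, ENNReal.ofReal (c θ ^ 2) ≤
      ∫⁻ θ in ang, ENNReal.ofReal (f θ ^ 2) := by
    rw [lintegral_sq_eq hf, lintegral_sq_eq hcL]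
    exact ENNReal.ofReal_le_ofReal (integral_arcFun_sq_le hne h1 pf fm hf)
  -- the competitor
  let ζ : ℝ → ℝ := fun r => (r - a) / (s - a)
  let ζ' : ℝ → ℝ := fun _ => 1 / (s - a)
  have hζ : ∀ r, HasDerivAt ζ (ζ' r) r := fun r =>
    ((hasDerivAt_id r).sub_const a).div_const (s - a)
  have hζc : Continuous ζ := (continuous_id.sub continuous_const).div_const _
  have hζ'c : Continuous ζ' := continuous_const
  have hζs : ζ s = 1 := div_self hsa.ne'
  have hζa : ζ a = 0 := by simp [ζ]
  let Wo : ℂ → ℝ := fun z => extU x (fun _ => 1) c z + extU x ζ k z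
  let Ci : ℂ → ℝ := regFun T U (arcMean (T : Set ℂ) f)
  let Go : ℂ → ℂ := extG x ζ ζ' k h
  let Wi : ℂ → ℝ := fun z => (annu x a s).indicator Wo z + (annu x 0 a).indicator Ci z
  let Gi : ℂ → ℂ := (annu x a s).indicator Go
  have mA := measurableSet_annu x a s
  have mB := measurableSet_annu x 0 a
  have hAB : ∀ z ∈ annu x a s, z ∉ annu x 0 a := fun z hz hz' => by
    exact absurd hz.1 (not_lt.mpr hz'.2.le)
  have sA : annu x a s ⊆ ball x s := fun z hz => hz.2
  have sB : annu x 0 a ⊆ ball x s := fun z hz => (show dist z x < s from hz.2.trans has)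
  have b1 : ∫⁻ r in Ioo a s, ENNReal.ofReal (r * ζ' r ^ 2) =
      ENNReal.ofReal ((s + a) / (2 * (s - a))) := lintegral_affine_zeta ha has
  have b2 : ∫⁻ r in Ioo a s, ENNReal.ofReal (ζ r ^ 2 / r) ≤ ENNReal.ofReal (1 / 2) :=
    lintegral_affine_zeta_div ha has
  have hz01 : ∀ r ∈ Ioo a s, 0 ≤ ζ r ∧ ζ r ≤ 1 := fun r hr =>
    ⟨div_nonneg (by linarith only [hr.1]) hsa.le, (div_le_one hsa).mpr (by linarith only [hr.2])⟩
  have b3 : ∫⁻ r in Ioo a s, ENNReal.ofReal (r * ζ r ^ 2) < ⊤ := by
    refine lt_of_le_of_lt (setLIntegral_mono measurable_const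
      (g := fun _ => ENNReal.ofReal s) fun r hr => ?_) ?_
    · refine ENNReal.ofReal_le_ofReal ?_
      obtain ⟨h2, h3⟩ := hz01 r hr
      have h4 : ζ r ^ 2 ≤ 1 := pow_le_one₀ h2 h3
      linarith only [mul_nonneg (le_of_lt (sub_pos.2 hs0)) (sub_nonneg.2 h4), mul_nonneg (sq_nonneg (ζ r : ℝ)) (le_of_lt (sub_pos.2 hr.2))]
    · rw [setLIntegral_const]
      exact ENNReal.mul_lt_top ENNReal.ofReal_lt_top (by simp only [Real.volume_Ioo, ENNReal.ofReal_lt_top])
  have b4 : ∫⁻ r in Ioo a s, ENNReal.ofReal (r * (fun _ : ℝ => (1 : ℝ)) r ^ 2) < ⊤ := by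
    simp only [one_pow, mul_one]
    rw [lintegral_id_Ioo ha.le has.le]
    exact ENNReal.ofReal_lt_top
  have mU1 : MemLp (extU x (fun _ => 1) c) 2 (volume.restrict (annu x a s)) :=
    memLp_extU x ha.le measurable_const cm hcL b4
  have mU2 : MemLp (extU x ζ k) 2 (volume.restrict (annu x a s)) :=
    memLp_extU x ha.le hζc.measurable km hkL b3
  have mG : MemLp Go 2 (volume.restrict (annu x a s)) :=
    memLp_extG x ha.le hζc.measurable hζ'c.measurable km hm hkL hh
      (by rw [b1]; exact ENNReal.ofReal_lt_top) (lt_of_le_of_lt b2 ENNReal.ofReal_lt_top)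
  have mWo : MemLp Wo 2 (volume.restrict (annu x a s)) := mU1.add mU2
  have mCi : MemLp Ci 2 (volume.restrict (annu x 0 a)) :=
    memLp_regFun _ hUo (volume_annu_ne_top x 0 a)
  have mW : MemLp Wi 2 (volume.restrict (ball x s)) :=
    (((memLp_indicator_iff_restrict mA).mpr mWo).add
      ((memLp_indicator_iff_restrict mB).mpr mCi)).restrict _
  have mGi : MemLp Gi 2 (volume.restrict (ball x s)) :=
    ((memLp_indicator_iff_restrict mA).mpr mG).restrict _
  have hmain := hcmp Wi Gi L mW mGi hLc hLs ?_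
  · refine hmain.trans ?_
    have hE : ∫⁻ z in ball x s, ENNReal.ofReal (‖Gi z‖ ^ 2) ≤
        ENNReal.ofReal (((s + a) / (2 * (s - a)) * (a₀ / π) ^ 2 + 1 / 2) * s ^ 2) *
          (∫⁻ θ in ang, ENNReal.ofReal
          ((inner ℝ (G (circleMap x s θ)) (circleMap 0 1 θ * Complex.I) : ℝ) ^ 2)) := by
      have e0 : ∫⁻ z in ball x s, ENNReal.ofReal (‖Gi z‖ ^ 2) =
          ∫⁻ z in annu x a s, ENNReal.ofReal (‖Go z‖ ^ 2) := by
        have e1 : ∀ z, ENNReal.ofReal (‖Gi z‖ ^ 2) =
            (annu x a s).indicator (fun z => ENNReal.ofReal (‖Go z‖ ^ 2)) z := by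
          intro z
          by_cases hz : z ∈ annu x a s
          · simp only [Gi, indicator_of_mem hz]
          · simp only [Gi, indicator_of_notMem hz]; simp
        simp only [e1]
        rw [setLIntegral_indicator mA, inter_eq_self_of_subset_left sA]
      rw [e0, lintegral_extG x ha.le hζc.measurable hζ'c.measurable km hm, b1,
        lintegral_sq_eq hkL, lintegral_sq_eq hh]
      have h2 : ENNReal.ofReal (((s + a) / (2 * (s - a)) * (a₀ / π) ^ 2 + 1 / 2) * s ^ 2) *
          (∫⁻ θ in ang, ENNReal.ofReal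
          ((inner ℝ (G (circleMap x s θ)) (circleMap 0 1 θ * Complex.I) : ℝ) ^ 2)) =
          ENNReal.ofReal (((s + a) / (2 * (s - a)) * (a₀ / π) ^ 2 + 1 / 2) *
            ∫ θ in ang, h θ ^ 2) := by
        rw [ENNReal.ofReal_mul (by (clear * - hs0 ha has; positivity)), mul_assoc,
          ENNReal.ofReal_mul (q := ∫ θ in ang, h θ ^ 2) (by (clear * - hs0 ha has; positivity))]
        congr 1
        rw [← lintegral_sq_eq hh, ← lintegral_const_mul' _ _ ENNReal.ofReal_ne_top]
        refine lintegral_congr fun θ => ?_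
        rw [← ENNReal.ofReal_mul (by positivity), hhdef]
        beta_reduce
        rw [mul_pow]
      rw [h2]
      have h3 : 0 ≤ ∫ θ in ang, h θ ^ 2 := integral_nonneg fun θ => sq_nonneg _
      have h4 : 0 ≤ ∫ θ in ang, k θ ^ 2 := integral_nonneg fun θ => sq_nonneg _
      calc ENNReal.ofReal ((s + a) / (2 * (s - a))) * ENNReal.ofReal (∫ θ in ang, k θ ^ 2) +
            (∫⁻ r in Ioo a s, ENNReal.ofReal (ζ r ^ 2 / r)) *
              ENNReal.ofReal (∫ θ in ang, h θ ^ 2)
          ≤ ENNReal.ofReal ((s + a) / (2 * (s - a))) *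
              ENNReal.ofReal ((a₀ / π) ^ 2 * ∫ θ in ang, h θ ^ 2) +
            ENNReal.ofReal (1 / 2) * ENNReal.ofReal (∫ θ in ang, h θ ^ 2) := by
            (clear * - hpoin b2; gcongr)
        _ = ENNReal.ofReal (((s + a) / (2 * (s - a)) * (a₀ / π) ^ 2 + 1 / 2) *
            ∫ θ in ang, h θ ^ 2) := by
            rw [← ENNReal.ofReal_mul (by (clear * - hs0 ha has; positivity)), ← ENNReal.ofReal_mul (by norm_num),
              ← ENNReal.ofReal_add (by (clear * - hs0 ha has; positivity)) (by (clear * -; positivity))]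
            congr 1; ring
    have hWm : AEMeasurable Wi (volume.restrict (ball x s)) := mW.1.aemeasurable
    have hWb : ∫⁻ z in ball x s, ENNReal.ofReal (Wi z ^ 2) ≤
        ENNReal.ofReal (51 / 100 * s ^ 2) * ∫⁻ θ in ang, ENNReal.ofReal (f θ ^ 2) := by
      have e1 : ∀ z, ENNReal.ofReal (Wi z ^ 2) =
          (annu x a s).indicator (fun z => ENNReal.ofReal (Wo z ^ 2)) z +
          (annu x 0 a).indicator (fun z => ENNReal.ofReal (Ci z ^ 2)) z := by
        intro z
        by_cases hz : z ∈ annu x a s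
        · simp only [Wi, indicator_of_mem hz, indicator_of_notMem (hAB z hz), add_zero]
        · simp only [Wi, indicator_of_notMem hz, zero_add]
          by_cases hz' : z ∈ annu x 0 a
          · simp only [indicator_of_mem hz']
          · simp only [indicator_of_notMem hz']; simp
      have mWom : Measurable Wo :=
        (measurable_extU x measurable_const cm).add (measurable_extU x hζc.measurable km)
      simp only [e1]
      rw [lintegral_add_left ((mWom.pow_const 2).ennreal_ofReal.indicator mA),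
        setLIntegral_indicator mA, setLIntegral_indicator mB,
        inter_eq_self_of_subset_left sA, inter_eq_self_of_subset_left sB]
      have i1 := lintegral_interp x ha.le has.le hζc.measurable cm fm hz01 hc2
      have i2 := lintegral_regFun_sq (T := T) (U := U) (arcMean (T : Set ℂ) f) hUo x ha.le hUvol
        (fun p hp => (gap_spec T.finite_toSet hp (h1 p hp)).1.le)
        (sum_arc_mean_sq_le hne h1 pf fm hf)
      refine (add_le_add i1 i2).trans ?_
      have h5 : 0 ≤ ∫ θ in ang, f θ ^ 2 := integral_nonneg fun θ => sq_nonneg _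
      rw [lintegral_sq_eq hf, ← ENNReal.ofReal_mul (by nlinarith only [has, ha]),
        ← ENNReal.ofReal_mul (by positivity), ← ENNReal.ofReal_add
          (mul_nonneg (by nlinarith only [has, ha]) h5) (by (clear * - hne ha; positivity))]
      refine ENNReal.ofReal_le_ofReal ?_
      have h6 : (s ^ 2 - a ^ 2) / 2 + T.card * a ^ 2 ≤ 51 / 100 * s ^ 2 := by
        nlinarith only [hcard]
      calc (s ^ 2 - a ^ 2) / 2 * (∫ θ in ang, f θ ^ 2) + T.card * a ^ 2 * ∫ θ in ang, f θ ^ 2
          = ((s ^ 2 - a ^ 2) / 2 + T.card * a ^ 2) * ∫ θ in ang, f θ ^ 2 := by ring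
        _ ≤ 51 / 100 * s ^ 2 * ∫ θ in ang, f θ ^ 2 := by (clear * - h6; gcongr)
    have hU := fidelity_bound x hs0 hWm N.gm fm N.gb hWb
    calc (∫⁻ z in ball x s, ENNReal.ofReal (‖Gi z‖ ^ 2)) + μH[1] L +
          ∫⁻ z in ball x s, ENNReal.ofReal ((Wi z - g z) ^ 2)
        ≤ ENNReal.ofReal (((s + a) / (2 * (s - a)) * (a₀ / π) ^ 2 + 1 / 2) * s ^ 2) *
          (∫⁻ θ in ang, ENNReal.ofReal
          ((inner ℝ (G (circleMap x s θ)) (circleMap 0 1 θ * Complex.I) : ℝ) ^ 2)) +
          ENNReal.ofReal ℓ + (ENNReal.ofReal (2 / 3 * s ^ 2) *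
        (∫⁻ θ in ang, ENNReal.ofReal ((f θ - g (circleMap x s θ)) ^ 2)) +
      ENNReal.ofReal (18 * π * M ^ 2 * s ^ 2)) := add_le_add (add_le_add hE hLm) hU
      _ = _ := by
        simp only [hfdef]
        ring
  · intro φ g1 g2 g3 g4 _ v
    have hfinA := volume_annu_ne_top x a s
    have z1 : MemLp (fun _ : ℂ => (0 : ℂ)) 2 (volume.restrict (annu x a s)) := MemLp.zero
    have hray : ∀ r ∈ Ioo a s, ∀ w ∈ (T : Set ℂ), x + r • w ∉ tsupport φ := fun r hr w hw hc =>
      disjoint_left.mp g4 hc (hLray r (Ioo_subset_Icc_self hr) w hw)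
    have D1 : IntegrableOn (fun z => extU x (fun _ => 1) c z * fderiv ℝ φ z v +
        inner ℝ (extG x (fun _ => 1) (fun _ => 0) c (fun _ => 0) z) v * φ z)
        (annu x a s) := by
      rw [extG_zero]
      exact integrableOn_density hfinA mU1 z1 g1 g2 v
    have D2 : IntegrableOn (fun z => extU x ζ k z * fderiv ℝ φ z v +
        inner ℝ (extG x ζ ζ' k h z) v * φ z) (annu x a s) :=
      integrableOn_density hfinA mU2 mG g1 g2 v
    have I1 := annulus_ibp (x := x) (a := a) (s := s) (ζ := fun _ => 1) (ζ' := fun _ => 0)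
      (f := c) (h := fun _ => 0) ha.le has
      (fun r => hasDerivAt_const r 1) continuous_const cm measurable_const
      hci (integrable_const 0) hccw g1 hray v D1
    have I2 := annulus_ibp (x := x) (a := a) (s := s) ha.le has hζ hζ'c km hm hki hhi hkw g1
      hray v D2
    have I3 := regFun_ibp (T := T) (U := U) (L := L) (f := f) ha has hUo hUcl hUarc g1 g2 g4 v
    have hcφ : Continuous fun z => fderiv ℝ φ z v :=
      (g1.continuous_fderiv (by simp)).clm_apply continuous_const
    have D3 : IntegrableOn (fun z => Ci z * fderiv ℝ φ z v) (annu x 0 a) := by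
      have hz : MemLp (fun _ : ℂ => (0 : ℂ)) 2 (volume.restrict (annu x 0 a)) := MemLp.zero
      have := integrableOn_density (volume_annu_ne_top x 0 a) mCi hz g1 g2 v
      simpa only [inner_zero_left, zero_mul, add_zero] using this
    have D12 : IntegrableOn (fun z => (extU x (fun _ => 1) c z * fderiv ℝ φ z v +
        inner ℝ (extG x (fun _ => 1) (fun _ => 0) c (fun _ => 0) z) v * φ z) +
        (extU x ζ k z * fderiv ℝ φ z v +
        inner ℝ (extG x ζ ζ' k h z) v * φ z)) (annu x a s) := D1.add D2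
    have e0 : ∀ z, Wi z * fderiv ℝ φ z v + inner ℝ (Gi z) v * φ z =
        (annu x a s).indicator (fun z => (extU x (fun _ => 1) c z * fderiv ℝ φ z v +
        inner ℝ (extG x (fun _ => 1) (fun _ => 0) c (fun _ => 0) z) v * φ z) +
        (extU x ζ k z * fderiv ℝ φ z v +
        inner ℝ (extG x ζ ζ' k h z) v * φ z)) z +
        (annu x 0 a).indicator (fun z => Ci z * fderiv ℝ φ z v) z := by
      intro z
      by_cases hz : z ∈ annu x a s
      · simp only [Wi, Gi, indicator_of_mem hz, indicator_of_notMem (hAB z hz), add_zero,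
          extG_zero, inner_zero_left, zero_mul, Wo, Go]
        ring
      · simp only [Wi, Gi, indicator_of_notMem hz, zero_add, inner_zero_left, zero_mul, add_zero]
        by_cases hz' : z ∈ annu x 0 a
        · simp only [indicator_of_mem hz']
        · simp only [indicator_of_notMem hz']; ring
    simp only [e0]
    rw [integral_add (((integrable_indicator_iff mA).mpr D12).integrableOn)
      (((integrable_indicator_iff mB).mpr D3).integrableOn), setIntegral_indicator mA,
      setIntegral_indicator mB, inter_eq_self_of_subset_right sA,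
      inter_eq_self_of_subset_right sB, integral_add D1 D2, I1, I2, I3, hζs, hζa]
    have ct : Continuous fun θ : ℝ => φ (circleMap x s θ) * inner ℝ (circleMap 0 1 θ) v :=
      (g1.continuous.comp (continuous_circleMap x s)).mul
        ((continuous_circleMap 0 1).inner continuous_const)
    have e5 : ∫ θ in ang, f θ * (φ (circleMap x s θ) * inner ℝ (circleMap 0 1 θ) v) =
        (∫ θ in ang, c θ * (φ (circleMap x s θ) * inner ℝ (circleMap 0 1 θ) v)) +
        ∫ θ in ang, k θ * (φ (circleMap x s θ) * inner ℝ (circleMap 0 1 θ) v) := by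
      rw [← integral_add (integrable_mul_cont hci ct) (integrable_mul_cont hki ct)]
      refine integral_congr_ae (Eventually.of_forall fun θ => ?_)
      simp only [hk]
      ring
    rw [e5]
    ring

end Vale.Agent.P128
end

section

open MeasureTheory Set Metric Filter
open scoped ENNReal NNReal Topology Real ContDiff

namespace Vale.Agent.P128

/-- Integration by parts against the primitive of an integrable function. -/
theorem ibp_primitive {H : ℝ → ℝ} (hH : Integrable H) (c : ℝ) {φ : ℝ → ℝ}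
    (hφ : ContDiff ℝ ∞ φ) (a b : ℝ) :
    ∫ t in a..b, (c + ∫ τ in a..t, H τ) * deriv φ t =
      (c + ∫ τ in a..b, H τ) * φ b - c * φ a - ∫ t in a..b, H t * φ t := by
  have hHi : IntervalIntegrable H volume a b := hH.intervalIntegrable
  have hac1 : AbsolutelyContinuousOnInterval (fun t => ∫ τ in a..t, H τ) a b :=
    hHi.absolutelyContinuousOnInterval_intervalIntegral left_mem_uIcc
  have hac0 : AbsolutelyContinuousOnInterval (fun _ : ℝ => c) a b :=
    (contDiff_const.contDiffOn).absolutelyContinuousOnInterval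
  have hac : AbsolutelyContinuousOnInterval (fun t => c + ∫ τ in a..t, H τ) a b := hac0.add hac1
  have hacφ : AbsolutelyContinuousOnInterval φ a b :=
    (hφ.of_le (by exact_mod_cast le_top)).contDiffOn.absolutelyContinuousOnInterval
  have key := hac.integral_mul_deriv_eq_deriv_mul hacφ
  have hd : ∀ᵐ t, deriv (fun t => c + ∫ τ in a..t, H τ) t = H t := by
    filter_upwards [LocallyIntegrable.ae_hasDerivAt_integral hH.locallyIntegrable] with t ht
    exact ((ht a).const_add c).deriv
  have e1 : ∫ t in a..b, deriv (fun t => c + ∫ τ in a..t, H τ) t * φ t =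
      ∫ t in a..b, H t * φ t := by
    refine intervalIntegral.integral_congr_ae ?_
    filter_upwards [hd] with t ht _
    rw [ht]
  rw [key, e1, intervalIntegral.integral_same, add_zero]

/-- A function with zero weak derivative is almost everywhere constant. -/
theorem ae_const_of_weak {g : ℝ} (hg : 0 < g) {D : ℝ → ℝ}
    (hD : MemLp D 2 (volume.restrict (Ioo 0 g)))
    (hw : ∀ φ : ℝ → ℝ, ContDiff ℝ ∞ φ → HasCompactSupport φ → tsupport φ ⊆ Ioo 0 g →
      ∫ t in Ioo 0 g, D t * deriv φ t = 0) :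
    ∃ c : ℝ, ∀ᵐ t ∂(volume.restrict (Ioo 0 g)), D t = c := by
  have h0 : MemLp (fun _ : ℝ => (0 : ℝ)) 2 (volume.restrict (Ioo 0 g)) := MemLp.zero
  have hp := arc_poincare hg hD h0 (fun φ a b c => by rw [hw φ a b c]; simp only [zero_mul, integral_zero, neg_zero])
  have hfin : IsFiniteMeasure (volume.restrict (Ioo 0 g)) := ⟨by simp only [MeasurableSet.univ, Measure.restrict_apply, univ_inter, Real.volume_Ioo, sub_zero, ENNReal.ofReal_lt_top]⟩
  set m : ℝ := (g - 0)⁻¹ * ∫ t in Ioo 0 g, D t with hm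
  have hz : ∫ t in Ioo 0 g, (D t - m) ^ 2 = 0 := by
    refine le_antisymm ?_ (integral_nonneg fun t => sq_nonneg _)
    simpa only [sub_zero, ne_eq, OfNat.ofNat_ne_zero, not_false_eq_true, zero_pow, integral_zero, mul_zero] using     hp
  refine ⟨m, ?_⟩
  have hi : Integrable (fun t => (D t - m) ^ 2) (volume.restrict (Ioo 0 g)) :=
    (hD.sub (memLp_const m)).integrable_sq
  rw [integral_eq_zero_iff_of_nonneg (fun t => sq_nonneg _) hi] at hz
  filter_upwards [hz] with t ht
  have : (D t - m) ^ 2 = 0 := ht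
  have := pow_eq_zero_iff (two_ne_zero) |>.mp this
  linarith only [this]

/-- Constant extension of a function with square integrable weak derivative. -/
theorem exists_ext {g l r : ℝ} (hg : 0 < g) (hl : 0 ≤ l) (hr : 0 ≤ r) {f h : ℝ → ℝ}
    (hf : MemLp f 2 (volume.restrict (Ioo 0 g))) (hh : MemLp h 2 (volume.restrict (Ioo 0 g)))
    (hw : ∀ φ : ℝ → ℝ, ContDiff ℝ ∞ φ → HasCompactSupport φ → tsupport φ ⊆ Ioo 0 g →
      ∫ t in Ioo 0 g, f t * deriv φ t = - ∫ t in Ioo 0 g, h t * φ t)
    {M : ℝ} (hM : ∀ᵐ t ∂(volume.restrict (Ioo 0 g)), |f t| ≤ M) :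
    ∃ k : ℝ → ℝ, Continuous k ∧ (∀ t, |k t| ≤ M) ∧
      (∀ᵐ t ∂(volume.restrict (Ioo 0 g)), f t = k (l + t)) ∧
      ∀ φ : ℝ → ℝ, ContDiff ℝ ∞ φ → φ 0 = 0 → φ (l + g + r) = 0 →
        ∫ t in Ioo 0 (l + g + r), k t * deriv φ t =
          - ∫ t in Ioo 0 (l + g + r), (Ioo l (l + g)).indicator (fun t => h (t - l)) t * φ t := by
  have hfin : IsFiniteMeasure (volume.restrict (Ioo 0 g)) := ⟨by simp only [MeasurableSet.univ, Measure.restrict_apply, univ_inter, Real.volume_Ioo, sub_zero, ENNReal.ofReal_lt_top]⟩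
  have hhi : IntegrableOn h (Ioo 0 g) := hh.integrable (by norm_num)
  have hfi : IntegrableOn f (Ioo 0 g) := hf.integrable (by norm_num)
  set H₀ : ℝ → ℝ := (Ioo 0 g).indicator h with hH₀
  have hH₀i : Integrable H₀ := (integrable_indicator_iff measurableSet_Ioo).mpr hhi
  set K₀ : ℝ → ℝ := fun t => ∫ τ in (0 : ℝ)..t, H₀ τ with hK₀
  have hK₀c : Continuous K₀ := intervalIntegral.continuous_primitive
    (fun a b => hH₀i.intervalIntegrable) 0
  have hK0 : K₀ 0 = 0 := intervalIntegral.integral_same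
  have hzero : ∀ a b : ℝ, (∀ t ∈ uIoc a b, t ∉ Ioo 0 g) → ∫ τ in a..b, H₀ τ = 0 := by
    intro a b hab
    rw [intervalIntegral.integral_congr_ae (g := fun _ => 0)
      (Eventually.of_forall fun t ht => indicator_of_notMem (hab t ht) h)]
    simp
  have hKneg : ∀ t ≤ 0, K₀ t = 0 := by
    intro t ht
    refine hzero 0 t fun τ hτ hc => ?_
    rw [uIoc_of_ge ht] at hτ
    linarith only [hτ.2, hc.1]
  have hKg : ∀ t, g ≤ t → K₀ t = K₀ g := by
    intro t ht
    have h1 : K₀ t = K₀ g + ∫ τ in g..t, H₀ τ :=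
      (intervalIntegral.integral_add_adjacent_intervals hH₀i.intervalIntegrable
        hH₀i.intervalIntegrable).symm
    rw [h1, hzero g t fun τ hτ hc => ?_, add_zero]
    rw [uIoc_of_le ht] at hτ
    linarith only [hτ.1, hc.2]
  have hK₀L : MemLp K₀ 2 (volume.restrict (Ioo 0 g)) := by
    obtain ⟨C, hC⟩ := (isCompact_Icc (a := (0 : ℝ)) (b := g)).exists_bound_of_continuousOn
      hK₀c.continuousOn
    exact MemLp.of_bound hK₀c.aestronglyMeasurable C
      ((ae_restrict_mem measurableSet_Ioo).mono fun t ht => hC t (Ioo_subset_Icc_self ht))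
  have hK₀i : IntegrableOn K₀ (Ioo 0 g) := hK₀L.integrable (by norm_num)
  -- the difference has zero derivative
  obtain ⟨c, hc⟩ := ae_const_of_weak hg (hf.sub hK₀L) fun φ h1 h2 h3 => by
    have hφ0 : φ 0 = 0 := image_eq_zero_of_notMem_tsupport fun hc => lt_irrefl _ (h3 hc).1
    have hφg : φ g = 0 := image_eq_zero_of_notMem_tsupport fun hc => lt_irrefl _ (h3 hc).2
    have k1 := ibp_primitive hH₀i 0 h1 0 g
    have k2 := hw φ h1 h2 h3
    have hdc : Continuous (deriv φ) := h1.continuous_deriv (by simp only [WithTop.one_le_coe, le_top])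
    obtain ⟨C, hC⟩ := (isCompact_Icc (a := (0 : ℝ)) (b := g)).exists_bound_of_continuousOn
      hdc.continuousOn
    have i1 : IntegrableOn (fun t => f t * deriv φ t) (Ioo 0 g) :=
      Integrable.mul_bdd (c := C) hfi hdc.aestronglyMeasurable
        ((ae_restrict_mem measurableSet_Ioo).mono fun t ht => hC t (Ioo_subset_Icc_self ht))
    have i2 : IntegrableOn (fun t => K₀ t * deriv φ t) (Ioo 0 g) :=
      Integrable.mul_bdd (c := C) hK₀i hdc.aestronglyMeasurable
        ((ae_restrict_mem measurableSet_Ioo).mono fun t ht => hC t (Ioo_subset_Icc_self ht))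
    have e1 : ∫ t in Ioo 0 g, (f - K₀) t * deriv φ t =
        (∫ t in Ioo 0 g, f t * deriv φ t) - ∫ t in Ioo 0 g, K₀ t * deriv φ t := by
      rw [← integral_sub i1 i2]
      refine integral_congr_ae (Eventually.of_forall fun t => ?_)
      simp only [Pi.sub_apply]; ring
    have e2 : ∫ t in Ioo 0 g, K₀ t * deriv φ t = - ∫ t in Ioo 0 g, h t * φ t := by
      have e3 : ∫ t in (0 : ℝ)..g, H₀ t * φ t = ∫ t in Ioo 0 g, h t * φ t := by
        rw [intervalIntegral.integral_of_le hg.le, integral_Ioc_eq_integral_Ioo]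
        refine setIntegral_congr_fun measurableSet_Ioo fun t ht => ?_
        simp only [hH₀, indicator_of_mem ht]
      rw [← integral_Ioc_eq_integral_Ioo, ← intervalIntegral.integral_of_le hg.le]
      simp only [zero_add, hφ0, hφg, mul_zero, sub_zero, zero_sub] at k1
      rw [← e3]
      exact k1
    rw [e1, k2, e2, sub_self]
  have hc' : ∀ᵐ t ∂(volume.restrict (Ioo 0 g)), f t = c + K₀ t := by
    filter_upwards [hc] with t ht
    have : f t - K₀ t = c := ht
    linarith only [this]
  -- the bound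
  have hbd : ∀ t, |c + K₀ t| ≤ M := by
    have hcont : Continuous fun t => |c + K₀ t| := (continuous_const.add hK₀c).abs
    have hin : ∀ t ∈ Icc 0 g, |c + K₀ t| ≤ M := by
      have hcl : IsClosed {t : ℝ | |c + K₀ t| ≤ M} := isClosed_le hcont continuous_const
      have hsub : Ioo 0 g ⊆ {t : ℝ | |c + K₀ t| ≤ M} := by
        have hop : IsOpen (Ioo 0 g ∩ {t : ℝ | M < |c + K₀ t|}) :=
          isOpen_Ioo.inter (isOpen_lt continuous_const hcont)
        have hnull : volume (Ioo 0 g ∩ {t : ℝ | M < |c + K₀ t|}) = 0 := by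
          have h5 : ∀ᵐ t ∂(volume.restrict (Ioo 0 g)), ¬ (M < |c + K₀ t|) := by
            filter_upwards [hc', hM] with t h6 h7
            rw [← h6]; exact not_lt.mpr h7
          rw [ae_restrict_iff' measurableSet_Ioo] at h5
          refine measure_mono_null ?_ (ae_iff.mp h5)
          rintro t ⟨h6, h7⟩ h8
          exact h8 h6 h7
        have hemp := (hop.measure_eq_zero_iff volume).mp hnull
        intro t ht
        by_contra hlt
        have : t ∈ Ioo 0 g ∩ {t : ℝ | M < |c + K₀ t|} :=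
          ⟨ht, show M < |c + K₀ t| from not_le.mp hlt⟩
        rw [hemp] at this
        exact this
      intro t ht
      have := closure_minimal hsub hcl
      rw [closure_Ioo hg.ne] at this
      exact this ht
    intro t
    rcases le_total t 0 with h1 | h1
    · rw [hKneg t h1, ← hK0]; exact hin 0 (left_mem_Icc.mpr hg.le)
    rcases le_total g t with h2 | h2
    · rw [hKg t h2]; exact hin g (right_mem_Icc.mpr hg.le)
    · exact hin t ⟨h1, h2⟩
  refine ⟨fun t => c + K₀ (t - l), continuous_const.add (hK₀c.comp (continuous_id.sub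
    continuous_const)), fun t => hbd _, ?_, ?_⟩
  · filter_upwards [hc'] with t ht
    rw [ht, add_sub_cancel_left]
  · intro φ hφ h0 ho
    have hlgr : 0 ≤ l + g + r := by (clear * - hl hg hr; positivity)
    have hφl : ContDiff ℝ ∞ (fun t => φ (t + l)) := hφ.comp (contDiff_id.add contDiff_const)
    have k1 := ibp_primitive hH₀i c hφl (-l) (g + r)
    have hsame : ∀ t, ∫ τ in (-l)..t, H₀ τ = K₀ t := by
      intro t
      have h1 : ∫ τ in (-l)..t, H₀ τ = (∫ τ in (-l)..0, H₀ τ) + K₀ t :=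
        (intervalIntegral.integral_add_adjacent_intervals hH₀i.intervalIntegrable
          hH₀i.intervalIntegrable).symm
      rw [h1, hzero (-l) 0 fun τ hτ hc => ?_, zero_add]
      rw [uIoc_of_le (by linarith only [hl])] at hτ
      linarith only [hτ.2, hc.1]
    simp only [hsame, neg_add_cancel, h0, mul_zero, sub_zero,
      show g + r + l = l + g + r by ring, ho, zero_sub] at k1
    have hder : ∀ t, deriv (fun t => φ (t + l)) t = deriv φ (t + l) := fun t =>
      deriv_comp_add_const φ l t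
    simp only [hder] at k1
    have e1 : ∫ t in Ioo 0 (l + g + r), (c + K₀ (t - l)) * deriv φ t =
        ∫ t in (-l)..(g + r), (c + K₀ t) * deriv φ (t + l) := by
      rw [← integral_Ioc_eq_integral_Ioo, ← intervalIntegral.integral_of_le hlgr]
      have := intervalIntegral.integral_comp_add_right
        (fun t => (c + K₀ (t - l)) * deriv φ t) l (a := -l) (b := g + r)
      simp only [add_sub_cancel_right, neg_add_cancel] at this
      rw [this, show g + r + l = l + g + r by ring]
    have e2 : ∫ t in Ioo 0 (l + g + r), (Ioo l (l + g)).indicator (fun t => h (t - l)) t * φ t =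
        ∫ t in (-l)..(g + r), H₀ t * φ (t + l) := by
      rw [← integral_Ioc_eq_integral_Ioo, ← intervalIntegral.integral_of_le hlgr]
      have := intervalIntegral.integral_comp_add_right
        (fun t => (Ioo l (l + g)).indicator (fun t => h (t - l)) t * φ t) l (a := -l)
        (b := g + r)
      rw [neg_add_cancel, show g + r + l = l + g + r by ring] at this
      rw [← this]
      refine intervalIntegral.integral_congr fun t _ => ?_
      simp only [hH₀]
      congr 1
      by_cases ht : t ∈ Ioo 0 g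
      · rw [indicator_of_mem ht, indicator_of_mem (show t + l ∈ Ioo l (l + g) from
          ⟨by linarith only [ht.1], by linarith only [ht.2]⟩), add_sub_cancel_right]
      · rw [indicator_of_notMem ht, indicator_of_notMem (fun hc => ht
          ⟨by linarith only [hc.1], by linarith only [hc.2]⟩)]
    rw [e1, e2, k1]

end Vale.Agent.P128
end

section

open MeasureTheory Set Metric Filter
open scoped ENNReal NNReal Topology Real ContDiff

namespace Vale.Agent.P128

end Vale.Agent.P128
end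

section

open MeasureTheory Set Metric Filter
open scoped ENNReal NNReal Topology Real ContDiff

namespace Vale.Agent.P128

end Vale.Agent.P128
end

section

open MeasureTheory Set Metric Filter
open scoped ENNReal NNReal Topology Real ContDiff

namespace Vale.Agent.P128

theorem unit_eq_exp (θ : ℝ) : circleMap 0 1 θ * Complex.I =
    Complex.I * Complex.exp (θ * Complex.I) := by
  rw [circleMap_zero]; push_cast; ring

/-- From the extended inequality of the competitors to real quantities. -/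
theorem Nice.ae_convert {Ω K : Set ℂ} {g u : ℂ → ℝ} {G : ℂ → ℂ} {M : ℝ}
    (N : Nice Ω g u G K M) {x : ℂ} {R : ℝ} (hR : closedBall x R ⊆ Ω) :
    ∀ᵐ s : ℝ, 0 < s → s < R → (K ∩ sphere x s).Finite → ∀ A κ B C : ℝ, 0 ≤ A → 0 ≤ κ → 0 ≤ B →
      0 ≤ C →
      (∫⁻ z in ball x s, ENNReal.ofReal (‖G z‖ ^ 2)) + μH[1] (K ∩ ball x s) +
          ∫⁻ z in ball x s, ENNReal.ofReal ((u z - g z) ^ 2) ≤
        ENNReal.ofReal A + ENNReal.ofReal (κ * s ^ 2) * (∫⁻ θ in ang, ENNReal.ofReal
          ((inner ℝ (G (circleMap x s θ)) (circleMap 0 1 θ * Complex.I) : ℝ) ^ 2)) +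
        ENNReal.ofReal (B * s ^ 2) * (∫⁻ θ in ang, ENNReal.ofReal
          ((u (circleMap x s θ) - g (circleMap x s θ)) ^ 2)) + ENNReal.ofReal C →
      En G x s + Hn K x s + Un g u x s ≤
        A + κ * (s * eT G x s) + B * (s * eU g u x s) + C := by
  filter_upwards [(N.loc hR).ae_slices] with s hsl hs0 hsR hfin A κ B C hA hκ hB hC hmain
  obtain ⟨hf, hh⟩ := hsl hs0
  have hfinm : IsFiniteMeasure (volume.restrict ang) := ⟨by simp⟩
  -- left side
  have l1 : ∫⁻ z in ball x s, ENNReal.ofReal (‖G z‖ ^ 2) = ENNReal.ofReal (En G x s) := by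
    unfold En
    rw [ofReal_integral_eq_lintegral_ofReal ((N.G_memLp.restrict _).norm.integrable_sq)
      (Eventually.of_forall fun _ => by positivity)]
  have l2 : μH[1] (K ∩ ball x s) = ENNReal.ofReal (Hn K x s) := by
    unfold Hn
    have hfin1 : μH[1] (K ∩ closedBall x s) ≠ ⊤ :=
      ((measure_mono inter_subset_left).trans_lt N.min.1.finite).ne
    rw [ENNReal.ofReal_toReal hfin1, ← ball_union_sphere, inter_union_distrib_left]
    refine le_antisymm (measure_mono subset_union_left) ?_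
    refine (measure_union_le _ _).trans ?_
    have : NullSingletonClass (μH[1] : Measure ℂ) :=
      Measure.nullSingletonClass_hausdorff ℂ one_pos
    rw [hfin.measure_zero, add_zero]
  have l3 : ∫⁻ z in ball x s, ENNReal.ofReal ((u z - g z) ^ 2) = ENNReal.ofReal (Un g u x s) := by
    unfold Un
    rw [ofReal_integral_eq_lintegral_ofReal (N.ug_integrableOn measure_ball_lt_top.ne)
      (Eventually.of_forall fun _ => by positivity)]
  have p1 : 0 ≤ En G x s := integral_nonneg fun _ => by positivity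
  have p2 : 0 ≤ Un g u x s := integral_nonneg fun _ => by positivity
  have p3 : 0 ≤ Hn K x s := ENNReal.toReal_nonneg
  -- right side
  have hT : MemLp (fun θ => (inner ℝ (G (circleMap x s θ)) (circleMap 0 1 θ * Complex.I) : ℝ)) 2
      (volume.restrict ang) := by
    have := hh.const_mul (1 / s)
    refine this.ae_eq (Eventually.of_forall fun θ => ?_)
    simp only
    field_simp
  have r1 : ENNReal.ofReal (κ * s ^ 2) * (∫⁻ θ in ang, ENNReal.ofReal
      ((inner ℝ (G (circleMap x s θ)) (circleMap 0 1 θ * Complex.I) : ℝ) ^ 2)) =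
      ENNReal.ofReal (κ * (s * eT G x s)) := by
    rw [lintegral_sq_eq hT, ← ENNReal.ofReal_mul (by positivity)]
    unfold eT
    simp only [unit_eq_exp]
    congr 1
    ring
  have hg : MemLp (fun θ => g (circleMap x s θ)) 2 (volume.restrict ang) :=
    MemLp.of_bound (N.gm.comp (measurable_circleMap x s)).aestronglyMeasurable M
      (Eventually.of_forall fun θ => by simpa using N.gb _)
  have r2 : ENNReal.ofReal (B * s ^ 2) * (∫⁻ θ in ang, ENNReal.ofReal
      ((u (circleMap x s θ) - g (circleMap x s θ)) ^ 2)) =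
      ENNReal.ofReal (B * (s * eU g u x s)) := by
    have := lintegral_sq_eq (f := fun θ => u (circleMap x s θ) - g (circleMap x s θ)) (hf.sub hg)
    rw [this, ← ENNReal.ofReal_mul (by positivity)]
    unfold eU
    congr 1
    ring
  have q1 : 0 ≤ κ * (s * eT G x s) := mul_nonneg hκ (mul_nonneg hs0.le (eT_nonneg G x hs0.le))
  have q2 : 0 ≤ B * (s * eU g u x s) := mul_nonneg hB (mul_nonneg hs0.le (eU_nonneg g u x hs0.le))
  rw [l1, l2, l3, r1, r2, ← ENNReal.ofReal_add p1 p3, ← ENNReal.ofReal_add (by (clear * - p1 p3; positivity)) p2,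
    ← ENNReal.ofReal_add hA q1, ← ENNReal.ofReal_add (by (clear * - hA q1; positivity)) q2,
    ← ENNReal.ofReal_add (by (clear * - hA q1 q2; positivity)) hC] at hmain
  exact (ENNReal.ofReal_le_ofReal_iff (by (clear * - hA q1 q2 hC; positivity))).mp hmain

/-- Estimate (B): disks whose boundary circle misses `K`. -/
theorem Nice.estB_sixty {Ω K : Set ℂ} {g u : ℂ → ℝ} {G : ℂ → ℂ} {M : ℝ}
    (N : Nice Ω g u G K M) {x : ℂ} {R : ℝ} (hR : closedBall x R ⊆ Ω) :
    ∀ᵐ s : ℝ, s ∈ Ioo 0 R → K ∩ sphere x s = ∅ →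
      En G x s + Hn K x s + Un g u x s ≤
        s * eT G x s + 2 / 3 * s * eU g u x s + 60 * M ^ 2 * s ^ 2 := by
  filter_upwards [N.comp_free hR, N.ae_convert hR] with s h1 h2 hs hK
  have hd : Disjoint (sphere x s) K := by
    rw [disjoint_iff_inter_eq_empty, inter_comm]; exact hK
  have h3 := h1 hs.1 hs.2 hd
  have h4 := h2 hs.1 hs.2 (by rw [hK]; exact finite_empty) 0 1 (2 / 3) (18 * π * M ^ 2 * s ^ 2)
    le_rfl zero_le_one (by norm_num) (by positivity) (by
      rw [ENNReal.ofReal_zero, zero_add, one_mul]; exact h3)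
  have hπ : π < 3.15 := Real.pi_lt_d2
  have hp : 0 ≤ M ^ 2 * s ^ 2 := by positivity
  nlinarith

end Vale.Agent.P128
end

section

open MeasureTheory Set Metric Filter
open scoped ENNReal NNReal Topology Real ContDiff

namespace Vale.Agent.P128

/-- The directions of the points of `K` on the circle. -/
theorem exists_dirs {K : Set ℂ} {x : ℂ} {s : ℝ} (hs : 0 < s) (hfin : (K ∩ sphere x s).Finite) :
    ∃ T : Finset ℂ, (∀ w, w ∈ T ↔ ‖w‖ = 1 ∧ x + s • w ∈ K) ∧ T.card = (K ∩ sphere x s).ncard := by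
  classical
  set D : Set ℂ := {w | ‖w‖ = 1 ∧ x + s • w ∈ K} with hD
  have hinj : Function.Injective fun w : ℂ => x + s • w := by
    intro w w' h
    exact smul_right_injective ℂ hs.ne' (add_left_cancel h)
  have himg : (fun w : ℂ => x + s • w) '' D = K ∩ sphere x s := by
    ext z
    constructor
    · rintro ⟨w, ⟨h1, h2⟩, rfl⟩
      refine ⟨h2, ?_⟩
      rw [mem_sphere, dist_eq_norm, norm_add_smul_sub x h1 hs.le]
    · rintro ⟨h1, h2⟩
      rw [mem_sphere, dist_eq_norm] at h2
      refine ⟨(s⁻¹ : ℝ) • (z - x), ⟨?_, ?_⟩, ?_⟩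
      · rw [norm_smul, h2, norm_inv, Real.norm_of_nonneg hs.le, inv_mul_cancel₀ hs.ne']
      · rw [smul_smul, mul_inv_cancel₀ hs.ne', one_smul]; simpa using h1
      · simp only
        rw [smul_smul, mul_inv_cancel₀ hs.ne', one_smul]; ring
  have hDfin : D.Finite := by
    refine Finite.of_finite_image ?_ hinj.injOn
    rw [himg]; exact hfin
  refine ⟨hDfin.toFinset, fun w => by rw [Finite.mem_toFinset, hD, mem_ofPred_eq], ?_⟩
  rw [← himg, ncard_image_of_injective D hinj, ncard_eq_toFinset_card D hDfin]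

end Vale.Agent.P128
end

section

open MeasureTheory Set Metric Filter
open scoped ENNReal NNReal Topology Real ContDiff

namespace Vale.Agent.P128

end Vale.Agent.P128
end

section

open MeasureTheory Set Metric Filter
open scoped ENNReal NNReal Topology Real ContDiff

namespace Vale.Agent.P128

end Vale.Agent.P128
end

section

open MeasureTheory Set Metric Filter
open scoped ENNReal NNReal Topology Real ContDiff

namespace Vale.Agent.P128

theorem ne_zero_of_norm_one {p : ℂ} (hp : ‖p‖ = 1) : p ≠ 0 := by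
  rw [← norm_ne_zero_iff, hp]; exact one_ne_zero

end Vale.Agent.P128
end

section

open MeasureTheory Set Metric Filter
open scoped ENNReal NNReal Topology Real ContDiff

namespace Vale.Agent.P128

theorem gap_eq_of {Θ : Set ℂ} {p : ℂ} {τ : ℝ} (h0 : 0 < τ) (h1 : p * uc τ ∈ Θ)
    (h2 : ∀ t, 0 < t → t < τ → p * uc t ∉ Θ) : gap Θ p = τ := by
  unfold gap
  have hlb : ∀ t ∈ {t | 0 < t ∧ p * uc t ∈ Θ}, τ ≤ t := by
    rintro t ⟨h3, h4⟩
    by_contra hlt
    exact h2 t h3 (not_le.mp hlt) h4
  exact le_antisymm (csInf_le ⟨τ, hlb⟩ ⟨h0, h1⟩) (le_csInf ⟨τ, h0, h1⟩ hlb)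

theorem gap_pos {T : Finset ℂ} (h1 : ∀ w ∈ T, ‖w‖ = 1) {p : ℂ} (hp : p ∈ T) :
    0 < gap (T : Set ℂ) p := (gap_spec T.finite_toSet hp (h1 p hp)).1

end Vale.Agent.P128
end

section

open MeasureTheory Set Metric Filter
open scoped ENNReal NNReal Topology Real ContDiff

namespace Vale.Agent.P128

theorem gap_singleton (p : ℂ) (hp : ‖p‖ = 1) : gap ({p} : Set ℂ) p = 2 * π := by
  have hπ := Real.pi_pos
  have hp0 : p ≠ 0 := by rw [← norm_ne_zero_iff, hp]; exact one_ne_zero
  refine gap_eq_of (by positivity) (by rw [uc_two_pi, mul_one]; exact mem_singleton p) ?_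
  intro t h1 h2 h3
  have h4 : p * uc t = p * uc 0 := by rw [uc_zero, mul_one]; exact h3
  have := uc_inj (mul_left_cancel₀ hp0 h4) (by rw [sub_zero, abs_of_pos h1]; exact h2)
  (clear * - h1 this; linarith)

end Vale.Agent.P128
end

section

open MeasureTheory Set Metric Filter
open scoped ENNReal NNReal Topology Real ContDiff

namespace Vale.Agent.P128

/-- Almost every circle meets `K` in finitely many points. -/
theorem Nice.ae_finite_sphere {Ω K : Set ℂ} {g u : ℂ → ℝ} {G : ℂ → ℂ} {M : ℝ}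
    (N : Nice Ω g u G K M) (x : ℂ) : ∀ᵐ s : ℝ, (K ∩ sphere x s).Finite := by
  have hL : LipschitzWith 1 fun z : ℂ => dist z x := by
    have := LipschitzWith.dist_left (α := ℂ) x
    simpa using this
  set S : Set ℝ := {s | ¬ (K ∩ sphere x s).Finite} with hS
  have h1 : ∀ m : ℕ, (m : ℝ≥0∞) * volume S ≤ μH[1] K := by
    intro m
    refine (eilenberg (X := ℂ) hL (E := K) (m := m) (S := S) fun s hs => ?_).trans
      (measure_mono inter_subset_left)
    have h2 : (K ∩ sphere x s).Infinite := hs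
    have h3 : K ∩ (fun z : ℂ => dist z x) ⁻¹' {s} = K ∩ sphere x s := by
      ext z; rfl
    rw [h3, h2.encard_eq]
    exact le_top
  have h0 : volume S = 0 := by
    by_contra hne
    have hfin := N.min.1.finite
    have h4 : ∀ m : ℕ, (m : ℝ≥0∞) ≤ μH[1] K / volume S := by
      intro m
      rw [ENNReal.le_div_iff_mul_le (Or.inl hne) (Or.inr hfin.ne)]
      exact h1 m
    have h5 : μH[1] K / volume S < ⊤ := ENNReal.div_lt_top hfin.ne hne
    obtain ⟨m, hm⟩ := ENNReal.exists_nat_gt h5.ne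
    exact absurd (h4 m) (not_le.mpr hm)
  rw [ae_iff]
  exact h0

theorem abs_clampf_le (m t : ℝ) (hm : 0 ≤ m) : |clampf m t| ≤ |t| := by
  unfold clampf
  rcases le_total t (-m) with h | h
  · rw [max_eq_left ((min_le_right _ _).trans h), abs_neg, abs_of_nonneg hm]
    have := neg_le_abs t
    linarith only [h, this]
  · rcases le_total t m with h2 | h2
    · rw [min_eq_right h2, max_eq_right h]
    · rw [min_eq_left h2, max_eq_right (by linarith only [hm]), abs_of_nonneg hm]
      exact h2.trans (le_abs_self t)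

theorem clampf_eq {m t : ℝ} (h : |t| ≤ m) : clampf m t = t := by
  unfold clampf
  have := abs_le.mp h
  rw [min_eq_right this.2, max_eq_right this.1]

theorem continuous_clampf (m : ℝ) : Continuous (clampf m) := by
  unfold clampf; fun_prop

/-- Localisation data for the truncated function. -/
theorem Loc.clamp {x : ℂ} {R : ℝ} {Ω K : Set ℂ} {u : ℂ → ℝ} {G : ℂ → ℂ}
    (h : Loc x R Ω K u G) (hΩK : IsOpen (Ω \ K)) {m : ℝ} (hm : 0 < m) :
    Loc x R Ω K (fun z => clampf m (u z)) (fun z => (if |u z| < m then (1 : ℝ) else 0) • G z) := by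
  have hind : Measurable fun z => if |u z| < m then (1 : ℝ) else 0 :=
    Measurable.ite (measurableSet_lt h.um.abs measurable_const) measurable_const
      measurable_const
  refine
    { um := (continuous_clampf m).measurable.comp h.um
      Gm := hind.smul h.Gm
      u2 := ?_
      G2 := ?_
      weak := h.weak.clamp hΩK h.um (h.u2.locallyIntegrable (by norm_num)) h.Gm
        (h.G2.locallyIntegrable (by norm_num)) hm
      relClosed := h.relClosed
      sub := h.sub }
  · refine h.u2.mono ((continuous_clampf m).measurable.comp h.um).aestronglyMeasurable ?_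
    exact Eventually.of_forall fun z => by
      rw [Real.norm_eq_abs, Real.norm_eq_abs]; exact abs_clampf_le m _ hm.le
  · refine h.G2.mono (hind.smul h.Gm).aestronglyMeasurable ?_
    refine Eventually.of_forall fun z => ?_
    rw [norm_smul]
    by_cases hz : |u z| < m
    · simp [hz]
    · simp only [hz, ↓reduceIte, norm_zero, zero_mul, norm_nonneg]

theorem CircWeak.mono {Θ Θ' : Set ℂ} {f h : ℝ → ℝ} (hw : CircWeak Θ f h) (hs : Θ ⊆ Θ') :
    CircWeak Θ' f h := fun Φ hΦ hd => hw Φ hΦ (hd.mono_right hs)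

/-- On almost every circle the trace of `u` is essentially bounded. -/
theorem Nice.ae_trace_bounded {Ω K : Set ℂ} {g u : ℂ → ℝ} {G : ℂ → ℂ} {M : ℝ}
    (N : Nice Ω g u G K M) {x : ℂ} {R : ℝ} (hR : closedBall x R ⊆ Ω) :
    ∀ᵐ s : ℝ, 0 < s → s < R → ∃ C : ℝ, ∀ᵐ θ ∂(volume.restrict ang),
      |u (circleMap x s θ)| ≤ C := by
  filter_upwards [(N.loc hR).ae_circWeak, (N.loc hR).ae_slices, N.ae_finite_sphere x]
    with s hcw hsl hfin hs0 hsR
  have hcw := hcw hs0 hsR
  obtain ⟨hf, hh⟩ := hsl hs0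
  obtain ⟨T, hT, -⟩ := exists_dirs hs0 hfin
  set f : ℝ → ℝ := fun θ => u (circleMap x s θ) with hfdef
  set h : ℝ → ℝ := fun θ => s * inner ℝ (G (circleMap x s θ)) (circleMap 0 1 θ * Complex.I)
    with hhdef
  have fm : Measurable f := N.um.comp (measurable_circleMap x s)
  have hm : Measurable h := measurable_const.mul ((N.Gm.comp (measurable_circleMap x s)).inner
      ((measurable_circleMap 0 1).mul_const _))
  have pf : Function.Periodic f (2 * π) := fun θ => by
    simp only [hfdef, periodic_circleMap x s θ]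
  have ph : Function.Periodic h (2 * π) := fun θ => by
    simp only [hhdef, periodic_circleMap x s θ, periodic_circleMap 0 1 θ]
  set T' : Finset ℂ := insert 1 T with hT'
  have hne : T'.Nonempty := ⟨1, Finset.mem_insert_self 1 T⟩
  have h1 : ∀ w ∈ T', ‖w‖ = 1 := by
    intro w hw
    rcases Finset.mem_insert.mp hw with rfl | hw
    · exact norm_one
    · exact ((hT w).mp hw).1
  have hcw' : CircWeak (T' : Set ℂ) f h := by
    refine hcw.mono fun w hw => ?_
    exact Finset.mem_coe.mpr (Finset.mem_insert_of_mem ((hT w).mpr hw))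
  have hb : ∀ p ∈ T', ∃ C : ℝ, ∀ᵐ t ∂(volume.restrict (Ioo 0 (gap (T' : Set ℂ) p))),
      |f (p.arg + t)| ≤ C := by
    intro p hp
    obtain ⟨g1, g2, g3, g4⟩ := gap_spec T'.finite_toSet hp (h1 p hp)
    exact weak_bounded g1 (memLp_arc T'.finite_toSet hp (h1 p hp) pf fm hf)
      (memLp_arc T'.finite_toSet hp (h1 p hp) ph hm hh)
      (fun φ hφ hc hs => hcw'.arc h1 pf ph hp hφ hc hs)
  choose! C hC using hb
  obtain ⟨B, hB⟩ : ∃ B : ℝ, ∀ p ∈ T', C p ≤ B := by
    obtain ⟨q, hq, hmax⟩ := T'.exists_max_image C hne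
    exact ⟨C q, hmax⟩
  refine ⟨B, ?_⟩
  -- the exceptional set has measure zero
  set E : Set ℝ := {θ | B < |f θ|} with hE
  have hEm : MeasurableSet E := measurableSet_lt measurable_const fm.abs
  have pE : Function.Periodic (E.indicator fun _ => (1 : ℝ)) (2 * π) := by
    intro θ
    by_cases hθ : θ ∈ E
    · have : θ + 2 * π ∈ E := by
        show B < |f (θ + 2 * π)|
        rw [pf θ]; exact hθ
      rw [indicator_of_mem hθ, indicator_of_mem this]
    · have : θ + 2 * π ∉ E := by
        intro hc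
        have hc' : B < |f (θ + 2 * π)| := hc
        rw [pf θ] at hc'; exact hθ hc'
      rw [indicator_of_notMem hθ, indicator_of_notMem this]
  have hfinm : IsFiniteMeasure (volume.restrict ang) := ⟨by simp only [MeasurableSet.univ, Measure.restrict_apply, univ_inter, Real.volume_Ioo, sub_neg_eq_add, ENNReal.ofReal_lt_top]⟩
  have iE : IntegrableOn (E.indicator fun _ => (1 : ℝ)) ang :=
    (integrable_const (1 : ℝ)).indicator hEm
  have hsum := integral_eq_sum_arcs hne h1 pE iE
  have hz : ∀ p ∈ T', ∫ t in Ioo 0 (gap (T' : Set ℂ) p),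
      (E.indicator fun _ => (1 : ℝ)) (p.arg + t) = 0 := by
    intro p hp
    rw [integral_eq_zero_of_ae]
    filter_upwards [hC p hp] with t ht
    refine indicator_of_notMem (fun hc => ?_) _
    have hc' : B < |f (p.arg + t)| := hc
    linarith only [ht, hc', hB p hp]
  rw [Finset.sum_congr rfl hz, Finset.sum_const_zero] at hsum
  rw [integral_eq_zero_iff_of_nonneg
    (fun _ => indicator_nonneg (fun _ _ => zero_le_one) _) iE] at hsum
  filter_upwards [hsum] with θ hθ
  by_contra hcon
  rw [not_le] at hcon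
  rw [indicator_of_mem (show θ ∈ E from hcon)] at hθ
  exact one_ne_zero hθ

theorem sub_sq_clampf_le {m t c : ℝ} (hm : 0 ≤ m) (hc : |c| ≤ m) :
    (clampf m t - c) ^ 2 ≤ (t - c) ^ 2 ∧ ((clampf m t - c) ^ 2 = (t - c) ^ 2 → |t| ≤ m) := by
  have hc' := abs_le.mp hc
  unfold clampf
  rcases lt_or_ge t (-m) with h | h
  · rw [max_eq_left ((min_le_right _ _).trans h.le)]
    constructor
    · (clear * - hc' h; nlinarith)
    · intro he
      exfalso
      nlinarith only [he, hc', h]
  · rcases lt_or_ge m t with h2 | h2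
    · rw [min_eq_left h2.le, max_eq_right (by linarith)]
      constructor
      · nlinarith only [hc', h2]
      · intro he
        exfalso
        nlinarith only [he, hc', h2]
    · rw [min_eq_right h2, max_eq_right h]
      exact ⟨le_rfl, fun _ => abs_le.mpr ⟨h, h2⟩⟩

/-- Minimizers are bounded in almost every small disk. -/
theorem Nice.ae_bounded {Ω K : Set ℂ} {g u : ℂ → ℝ} {G : ℂ → ℂ} {M : ℝ}
    (N : Nice Ω g u G K M) {x : ℂ} {R : ℝ} (hR : closedBall x R ⊆ Ω) :
    ∀ᵐ s : ℝ, 0 < s → s < R → ∃ M₁ : ℝ, M ≤ M₁ ∧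
      ∀ᵐ z ∂(volume.restrict (ball x s)), |u z| ≤ M₁ := by
  have hΩK : IsOpen (Ω \ K) := N.min.1.isOpen_diff N.isOpen
  have hall : ∀ᵐ s : ℝ, ∀ k : ℕ, 0 < s → s < R → ∀ φ : ℂ → ℝ, ContDiff ℝ ∞ φ →
      HasCompactSupport φ → tsupport φ ⊆ Ω → Disjoint (tsupport φ) (K \ ball x s) → ∀ v : ℂ,
      ∫ z in (closedBall x s)ᶜ, (clampf (k + 1) (u z) * fderiv ℝ φ z v +
        inner ℝ ((if |u z| < (k : ℝ) + 1 then (1 : ℝ) else 0) • G z) v * φ z) =
        - (s * ∫ θ in ang, clampf (k + 1) (u (circleMap x s θ)) *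
          (φ (circleMap x s θ) * inner ℝ (circleMap 0 1 θ) v)) := by
    rw [ae_all_iff]
    intro k
    exact ((N.loc hR).clamp hΩK (m := (k : ℝ) + 1) (by positivity)).ae_outer
  filter_upwards [hall, N.glue_compare hR, N.ae_trace_bounded hR, N.ae_finite_sphere x]
    with s hout hglue htr hfin hs0 hsR
  obtain ⟨C, hC⟩ := htr hs0 hsR
  obtain ⟨k, hk⟩ := exists_nat_ge (max C M)
  obtain ⟨m, hmdef⟩ : ∃ m : ℝ, m = (k : ℝ) + 1 := ⟨_, rfl⟩
  have hm0 : 0 < m := by rw [hmdef]; (clear * -; positivity)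
  have hCm : C ≤ m := by linarith [le_max_left C M]
  have hMm : M ≤ m := by linarith only [hk, hmdef, le_max_right C M]
  refine ⟨m, hMm, ?_⟩
  have hout := hout k hs0 hsR
  have hL := (N.loc hR).clamp hΩK hm0
  rw [← hmdef] at hout
  have hcmp := hglue hs0 hsR (fun z => clampf m (u z))
    (fun z => (if |u z| < m then (1 : ℝ) else 0) • G z) (K ∩ closedBall x s)
    (hL.u2.restrict _) (hL.G2.restrict _)
    (N.min.1.isCompact_inter
      ((closedBall_subset_closedBall hsR.le).trans hR)).isClosed inter_subset_right ?_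
  · -- compare
    set B : Set ℂ := ball x s with hB
    have hHfin : μH[1] (K ∩ closedBall x s) ≠ ⊤ :=
      ((measure_mono inter_subset_left).trans_lt N.min.1.finite).ne
    have hHeq : μH[1] (K ∩ B) = μH[1] (K ∩ closedBall x s) := by
      rw [← ball_union_sphere, inter_union_distrib_left]
      refine le_antisymm (measure_mono subset_union_left) ?_
      refine (measure_union_le _ _).trans ?_
      have : NullSingletonClass (μH[1] : Measure ℂ) :=
        Measure.nullSingletonClass_hausdorff ℂ one_pos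
      rw [hfin.measure_zero, add_zero]
    have hEle : ∫⁻ z in B, ENNReal.ofReal (‖(if |u z| < m then (1 : ℝ) else 0) • G z‖ ^ 2) ≤
        ∫⁻ z in B, ENNReal.ofReal (‖G z‖ ^ 2) := by
      refine lintegral_mono fun z => ENNReal.ofReal_le_ofReal ?_
      rw [norm_smul]
      by_cases hz : |u z| < m
      · simp [hz]
      · simp only [hz, if_false, norm_zero, zero_mul]
        rw [zero_pow two_ne_zero]
        (clear * -; positivity)
    have hEfin : ∫⁻ z in B, ENNReal.ofReal (‖G z‖ ^ 2) ≠ ⊤ := by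
      rw [← ofReal_integral_eq_lintegral_ofReal ((N.G_memLp.restrict _).norm.integrable_sq)
        (Eventually.of_forall fun _ => by (clear * -; positivity))]
      exact ENNReal.ofReal_ne_top
    rw [hHeq] at hcmp
    have h1 : (∫⁻ z in B, ENNReal.ofReal (‖G z‖ ^ 2)) + μH[1] (K ∩ closedBall x s) +
        ∫⁻ z in B, ENNReal.ofReal ((u z - g z) ^ 2) ≤
        (∫⁻ z in B, ENNReal.ofReal (‖G z‖ ^ 2)) + μH[1] (K ∩ closedBall x s) +
        ∫⁻ z in B, ENNReal.ofReal ((clampf m (u z) - g z) ^ 2) :=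
      hcmp.trans (by (clear * - hEle; gcongr))
    have h2 : ∫⁻ z in B, ENNReal.ofReal ((u z - g z) ^ 2) ≤
        ∫⁻ z in B, ENNReal.ofReal ((clampf m (u z) - g z) ^ 2) :=
      (ENNReal.add_le_add_iff_left (ENNReal.add_ne_top.mpr ⟨hEfin, hHfin⟩)).mp h1
    have i1 : IntegrableOn (fun z => (u z - g z) ^ 2) B :=
      N.ug_integrableOn measure_ball_lt_top.ne
    have hp : ∀ z, (clampf m (u z) - g z) ^ 2 ≤ (u z - g z) ^ 2 := fun z =>
      (sub_sq_clampf_le hm0.le ((N.gb z).trans hMm)).1
    have i2 : IntegrableOn (fun z => (clampf m (u z) - g z) ^ 2) B := by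
      refine i1.mono' ?_ (Eventually.of_forall fun z => ?_)
      · exact (((continuous_clampf m).measurable.comp N.um).sub N.gm).pow_const 2
          |>.aestronglyMeasurable
      · rw [Real.norm_of_nonneg (sq_nonneg _)]; exact hp z
    rw [← ofReal_integral_eq_lintegral_ofReal i1 (Eventually.of_forall fun _ => sq_nonneg _),
      ← ofReal_integral_eq_lintegral_ofReal i2 (Eventually.of_forall fun _ => sq_nonneg _)] at h2
    have h3 : ∫ z in B, (u z - g z) ^ 2 ≤ ∫ z in B, (clampf m (u z) - g z) ^ 2 :=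
      (ENNReal.ofReal_le_ofReal_iff (integral_nonneg fun _ => sq_nonneg _)).mp h2
    have h4 : ∫ z in B, ((u z - g z) ^ 2 - (clampf m (u z) - g z) ^ 2) = 0 := by
      rw [integral_sub i1 i2]
      have h5 : ∫ z in B, (clampf m (u z) - g z) ^ 2 ≤ ∫ z in B, (u z - g z) ^ 2 :=
        integral_mono i2 i1 hp
      linarith only [h5, h3]
    rw [integral_eq_zero_iff_of_nonneg (fun z => sub_nonneg.mpr (hp z)) (i1.sub i2)] at h4
    filter_upwards [h4] with z hz
    have hz' : (u z - g z) ^ 2 - (clampf m (u z) - g z) ^ 2 = 0 := hz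
    exact (sub_sq_clampf_le hm0.le ((N.gb z).trans hMm)).2 (by linarith only [hz'])
  · -- inner identity
    intro φ h1 h2 h3 h4 h5 v
    have hdK : Disjoint (tsupport φ) K := by
      rw [disjoint_left]
      intro z hz hzK
      by_cases hzB : z ∈ ball x s
      · exact disjoint_left.mp h4 hz ⟨hzK, ball_subset_closedBall hzB⟩
      · exact disjoint_left.mp h5 hz ⟨hzK, hzB⟩
    have hsub : tsupport φ ⊆ Ω \ K := fun z hz => ⟨h3 hz, fun hc => disjoint_left.mp hdK hz hc⟩
    have e1 := hout φ h1 h2 h3 h5 v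
    have e2 := hL.weak.test h1 h2 hsub v
    have hcφ : Continuous fun z => fderiv ℝ φ z v :=
      (h1.continuous_fderiv (by simp)).clm_apply continuous_const
    have j1 := integrable_mul_cc (hL.u2.locallyIntegrable (by norm_num)) hcφ (h2.fderiv_apply ℝ v)
    have j2 := integrable_mul_cc (locallyIntegrable_inner (hL.G2.locallyIntegrable (by norm_num)) v)
      h1.continuous h2
    have hD : Integrable fun z => clampf m (u z) * fderiv ℝ φ z v +
        inner ℝ ((if |u z| < m then (1 : ℝ) else 0) • G z) v * φ z := j1.add j2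
    have e3 := integral_add_compl (measurableSet_ball (x := x) (ε := s)) hD
    rw [integral_add j1 j2, e2, setIntegral_congr_set (compl_ball_ae x hs0.ne'), e1] at e3
    have e4 : ∫ θ in ang, clampf m (u (circleMap x s θ)) *
        (φ (circleMap x s θ) * inner ℝ (circleMap 0 1 θ) v) =
        ∫ θ in ang, u (circleMap x s θ) *
          (φ (circleMap x s θ) * inner ℝ (circleMap 0 1 θ) v) := by
      refine integral_congr_ae ?_
      filter_upwards [hC] with θ hθ
      rw [clampf_eq (hθ.trans hCm)]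
    rw [e4] at e3
    linarith only [e3]

/-- Minimizers are bounded in some disk. -/
theorem Nice.exists_bounded {Ω K : Set ℂ} {g u : ℂ → ℝ} {G : ℂ → ℂ} {M : ℝ}
    (N : Nice Ω g u G K M) {x : ℂ} {R : ℝ} (hR0 : 0 < R) (hR : closedBall x R ⊆ Ω) :
    ∃ R₁ M₁ : ℝ, R / 2 < R₁ ∧ R₁ < R ∧ M ≤ M₁ ∧
      ∀ᵐ z ∂(volume.restrict (ball x R₁)), |u z| ≤ M₁ := by
  have h := N.ae_bounded hR
  have hpos : 0 < volume (Ioo (R / 2) R) := by
    rw [Real.volume_Ioo]; simp only [ENNReal.ofReal_pos, sub_pos, half_lt_self_iff]; linarith only [hR0]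
  obtain ⟨s, hs1, hs2⟩ := (h.and_frequently
    (frequently_ae_mem_iff.mpr hpos.ne')).exists
  obtain ⟨M₁, h1, h2⟩ := hs1 (by linarith only [hR0, hs2.1]) hs2.2
  exact ⟨s, M₁, hs2.1, hs2.2, h1, h2⟩

end Vale.Agent.P128
end

section

open MeasureTheory Set Metric Filter
open scoped ENNReal NNReal Topology Real ContDiff

namespace Vale.Agent.P128

/-- Normal component of the gradient on a circle, times the radius. -/
noncomputable def nsl (G : ℂ → ℂ) (x : ℂ) (s θ : ℝ) : ℝ :=
  s * inner ℝ (G (circleMap x s θ)) (Complex.exp (θ * Complex.I))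

/-- Tangential component of the gradient on a circle, times the radius. -/
noncomputable def tsl (G : ℂ → ℂ) (x : ℂ) (s θ : ℝ) : ℝ :=
  s * inner ℝ (G (circleMap x s θ)) (circleMap 0 1 θ * Complex.I)

/-- Mean of `u` on a circle. -/
noncomputable def cmean (u : ℂ → ℝ) (x : ℂ) (s : ℝ) : ℝ :=
  (2 * π)⁻¹ * ∫ θ in ang, u (circleMap x s θ)

/-- Variance of `u` on a circle. -/
noncomputable def cvar (u : ℂ → ℝ) (x : ℂ) (s : ℝ) : ℝ :=
  ∫ θ in ang, (u (circleMap x s θ) - cmean u x s) ^ 2

theorem measurable_nsl {G : ℂ → ℂ} (hG : Measurable G) (x : ℂ) (s : ℝ) :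
    Measurable (nsl G x s) :=
  measurable_const.mul ((hG.comp (measurable_circleMap x s)).inner (by fun_prop))

theorem measurable_tsl {G : ℂ → ℂ} (hG : Measurable G) (x : ℂ) (s : ℝ) :
    Measurable (tsl G x s) :=
  measurable_const.mul ((hG.comp (measurable_circleMap x s)).inner
    ((measurable_circleMap 0 1).mul_const _))

theorem Loc.ae_nsl {x : ℂ} {R : ℝ} {Ω K : Set ℂ} {u : ℂ → ℝ} {G : ℂ → ℂ}
    (h : Loc x R Ω K u G) :
    ∀ᵐ s : ℝ, 0 < s → MemLp (nsl G x s) 2 (volume.restrict ang) := by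
  have hn : MemLp (fun z => ‖G z‖) 2 volume := h.G2.norm
  filter_upwards [ae_memLp_circle x h.Gm.norm hn] with s h2 hs
  refine (h2 hs).of_le_mul (c := s) (measurable_nsl h.Gm x s).aestronglyMeasurable
    (Eventually.of_forall fun θ => ?_)
  unfold nsl
  rw [norm_mul, Real.norm_of_nonneg hs.le, norm_norm]
  gcongr
  refine (norm_inner_le_norm _ _).trans ?_
  rw [Complex.norm_exp_ofReal_mul_I, mul_one]

theorem tsl_sq (G : ℂ → ℂ) (x : ℂ) (s : ℝ) : ∫ θ in ang, tsl G x s θ ^ 2 = s * eT G x s := by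
  unfold eT tsl
  simp only [← unit_eq_exp]
  rw [← mul_assoc, ← integral_const_mul]
  refine integral_congr_ae (Eventually.of_forall fun θ => ?_)
  simp only
  ring

theorem nsl_sq (G : ℂ → ℂ) (x : ℂ) (s : ℝ) : ∫ θ in ang, nsl G x s θ ^ 2 = s * eN G x s := by
  unfold eN nsl
  rw [← mul_assoc, ← integral_const_mul]
  refine integral_congr_ae (Eventually.of_forall fun θ => ?_)
  simp only
  ring

/-- The flux identity with all constants. -/
theorem Nice.flux_c {Ω K : Set ℂ} {g u : ℂ → ℝ} {G : ℂ → ℂ} {M : ℝ}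
    (N : Nice Ω g u G K M) {x : ℂ} {R : ℝ} (hR : closedBall x R ⊆ Ω) :
    ∀ᵐ s : ℝ, s ∈ Ioo 0 R → ∀ c : ℝ,
      En G x s + ∫ z in ball x s, (u z - g z) * (u z - c) =
        ∫ θ in ang, (u (circleMap x s θ) - c) * nsl G x s θ := by
  rcases le_or_gt R 0 with hR0 | hR0
  · exact Eventually.of_forall fun s hs => absurd (hs.1.trans hs.2) (not_lt.mpr hR0)
  filter_upwards [N.flux hR0 hR 0, N.flux hR0 hR 1, (N.loc hR).ae_slices, (N.loc hR).ae_nsl]
    with s h0 h1 hsl hn hs c
  have h0 := h0 hs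
  have h1 := h1 hs
  obtain ⟨hu, _⟩ := hsl hs.1
  have hn := hn hs.1
  have hfin : IsFiniteMeasure (volume.restrict ang) := ⟨by simp only [MeasurableSet.univ, Measure.restrict_apply, univ_inter, Real.volume_Ioo, sub_neg_eq_add, ENNReal.ofReal_lt_top]⟩
  have hfinB : IsFiniteMeasure (volume.restrict (ball x s)) :=
    ⟨by rw [Measure.restrict_apply_univ]; exact measure_ball_lt_top⟩
  have i1 : Integrable (fun θ => u (circleMap x s θ) * nsl G x s θ) (volume.restrict ang) :=
    hu.integrable_mul hn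
  have i2 : Integrable (fun θ => nsl G x s θ) (volume.restrict ang) :=
    hn.integrable (by norm_num)
  have hug : MemLp (fun z => u z - g z) 2 (volume.restrict (ball x s)) :=
    (N.u_memLp.restrict _).sub (N.g_memLp measure_ball_lt_top.ne)
  have j1 : Integrable (fun z => (u z - g z) * u z) (volume.restrict (ball x s)) :=
    hug.integrable_mul (N.u_memLp.restrict _)
  have j2 : Integrable (fun z => u z - g z) (volume.restrict (ball x s)) :=
    hug.integrable (by norm_num)
  have j0 : Integrable (fun z => ‖G z‖ ^ 2) (volume.restrict (ball x s)) :=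
    N.G_memLp.norm.integrable_sq.restrict
  have a1 : ∀ c : ℝ, ∫ z in ball x s, (u z - g z) * (u z - c) =
      (∫ z in ball x s, (u z - g z) * u z) - c * ∫ z in ball x s, (u z - g z) := by
    intro c
    rw [← integral_const_mul, ← integral_sub j1 (j2.const_mul c)]
    exact integral_congr_ae (Eventually.of_forall fun z => by ring)
  have a2 : ∀ c : ℝ, ∫ θ in ang, (u (circleMap x s θ) - c) * nsl G x s θ =
      (∫ θ in ang, u (circleMap x s θ) * nsl G x s θ) - c * ∫ θ in ang, nsl G x s θ := by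
    intro c
    rw [← integral_const_mul, ← integral_sub i1 (i2.const_mul c)]
    exact integral_congr_ae (Eventually.of_forall fun z => by ring)
  have a3 : ∀ c : ℝ, (∫ z in ball x s, (‖G z‖ ^ 2 + (u z - g z) * (u z - c))) =
      s * (∫ θ in ang, (u (circleMap x s θ) - c) *
        inner ℝ (G (circleMap x s θ)) (Complex.exp (θ * Complex.I))) →
      En G x s + ∫ z in ball x s, (u z - g z) * (u z - c) =
        ∫ θ in ang, (u (circleMap x s θ) - c) * nsl G x s θ := by
    intro c hc
    have j3 : Integrable (fun z => (u z - g z) * (u z - c)) (volume.restrict (ball x s)) := by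
      have := j1.sub (j2.const_mul c)
      exact this.congr (Eventually.of_forall fun z => by simp only [Pi.sub_apply]; ring)
    rw [integral_add j0 j3] at hc
    unfold En
    rw [hc, ← integral_const_mul]
    refine integral_congr_ae (Eventually.of_forall fun θ => ?_)
    simp only [nsl]
    ring
  have b0 := a3 0 h0
  have b1 := a3 1 h1
  rw [a1, a2] at b0 b1 ⊢
  linear_combination (1 - c) * b0 + c * b1

end Vale.Agent.P128
end

section

open MeasureTheory Set Metric Filter
open scoped ENNReal NNReal Topology Real ContDiff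

namespace Vale.Agent.P128

/-- Cut-off vanishing near the circle of radius `s`. -/
noncomputable def scut (n : ℕ) (s r : ℝ) : ℝ :=
  rcut n (s + 1 / (n + 1)) r + rcut n (-s + 1 / (n + 1)) (-r)

/-- Its derivative. -/
noncomputable def dscut (n : ℕ) (s r : ℝ) : ℝ :=
  ker n (s + 1 / (n + 1)) r - ker n (-s + 1 / (n + 1)) (-r)

theorem contDiff_scut (n : ℕ) (s : ℝ) : ContDiff ℝ ∞ (scut n s) :=
  (contDiff_rcut n _).add ((contDiff_rcut n _).comp contDiff_neg)

theorem hasDerivAt_scut (n : ℕ) (s r : ℝ) : HasDerivAt (scut n s) (dscut n s r) r := by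
  have h1 := hasDerivAt_rcut n (s + 1 / (n + 1)) r
  have h2 := (hasDerivAt_rcut n (-s + 1 / (n + 1)) (-r)).comp r (hasDerivAt_neg r)
  have h3 := h1.add h2
  unfold dscut
  rw [sub_eq_add_neg, ← mul_neg_one]
  exact h3

theorem scut_nonneg (n : ℕ) (s r : ℝ) : 0 ≤ scut n s r :=
  add_nonneg (rcut_nonneg _ _ _) (rcut_nonneg _ _ _)

theorem scut_le_one (n : ℕ) (s r : ℝ) : scut n s r ≤ 1 := by
  unfold scut
  have hd : (0 : ℝ) < 1 / ((n : ℝ) + 1) := by positivity
  rcases le_total r s with h | h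
  · rw [cut_of_le (show r ≤ s + 1 / ((n : ℝ) + 1) by linarith), zero_add]
    exact cut_le_one _ _ _
  · rw [cut_of_le (show -r ≤ -s + 1 / ((n : ℝ) + 1) by linarith), add_zero]
    exact cut_le_one _ _ _

theorem scut_zero {n : ℕ} {s r : ℝ} (h : |r - s| < 1 / ((n : ℝ) + 1)) : scut n s r = 0 := by
  obtain ⟨h1, h2⟩ := abs_lt.mp h
  unfold scut
  rw [cut_of_le (by linarith only [h2]), cut_of_le (by linarith only [h1]), add_zero]

theorem scut_one {n : ℕ} {s r : ℝ} (h : r ≤ s - 2 / ((n : ℝ) + 1)) : scut n s r = 1 := by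
  have hd : (0 : ℝ) < 1 / ((n : ℝ) + 1) := by positivity
  have e : 2 / ((n : ℝ) + 1) = 1 / ((n : ℝ) + 1) + 1 / ((n : ℝ) + 1) := by ring
  unfold scut
  rw [cut_of_le (by linarith), cut_of_ge (by linarith only [e, h]), zero_add]

/-- The angular part of the weighted flux. -/
noncomputable def fluxF (G : ℂ → ℂ) (x : ℂ) (R : ℝ) (p : ℝ × ℝ) : ℝ :=
  (Ioi (0 : ℝ)).indicator (fun r => r * (ball x R).indicator
    (fun z => inner ℝ (G z) (nu x z)) (circleMap x r p.2)) p.1

theorem fluxF_eq {G : ℂ → ℂ} {x : ℂ} {R r : ℝ} (hr : r ∈ Ioo 0 R) (θ : ℝ) :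
    fluxF G x R (r, θ) = nsl G x r θ := by
  unfold fluxF nsl
  have h1 : circleMap x r θ ∈ ball x R := by
    rw [mem_ball, dist_cm x hr.1]; exact hr.2
  simp only
  rw [indicator_of_mem (show r ∈ Ioi (0 : ℝ) from hr.1), indicator_of_mem h1,
    nu_circleMap x hr.1]

theorem measurable_F2 {G : ℂ → ℂ} (hG : Measurable G) (x : ℂ) (R : ℝ) :
    Measurable ((ball x R).indicator fun z => (inner ℝ (G z) (nu x z) : ℝ)) :=
  (hG.inner (measurable_nu x)).indicator measurableSet_ball

theorem Nice.integrable_F2 {Ω K : Set ℂ} {g u : ℂ → ℝ} {G : ℂ → ℂ} {M : ℝ}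
    (N : Nice Ω g u G K M) (x : ℂ) (R : ℝ) :
    Integrable ((ball x R).indicator fun z => (inner ℝ (G z) (nu x z) : ℝ)) := by
  rw [integrable_indicator_iff measurableSet_ball]
  have hfin : IsFiniteMeasure (volume.restrict (ball x R)) :=
    ⟨by rw [Measure.restrict_apply_univ]; exact measure_ball_lt_top⟩
  have : MemLp (fun z => (inner ℝ (G z) (nu x z) : ℝ)) 2 (volume.restrict (ball x R)) := by
    refine (N.G_memLp.restrict (ball x R)).of_le_mul (c := 1)
      (N.Gm.inner (measurable_nu x)).aestronglyMeasurable (Eventually.of_forall fun z => ?_)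
    calc ‖(inner ℝ (G z) (nu x z) : ℝ)‖ ≤ ‖G z‖ * ‖nu x z‖ := norm_inner_le_norm _ _
      _ ≤ ‖G z‖ * 1 := by gcongr; exact norm_nu_le x z
      _ = 1 * ‖G z‖ := by ring
  exact this.integrable (by norm_num)

theorem Nice.integrable_fluxF {Ω K : Set ℂ} {g u : ℂ → ℝ} {G : ℂ → ℂ} {M : ℝ}
    (N : Nice Ω g u G K M) (x : ℂ) (R : ℝ) :
    Integrable (fluxF G x R) (volume.prod (volume.restrict ang)) := by
  have h := integrable_polar x (measurable_F2 N.Gm x R) (N.integrable_F2 x R)
  have e : (volume.restrict (Ioi (0 : ℝ))).prod (volume.restrict ang) =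
      ((volume : Measure ℝ).prod (volume.restrict ang)).restrict (Ioi 0 ×ˢ univ) := by
    rw [← Measure.prod_restrict, Measure.restrict_univ]
  rw [e] at h
  have h2 := (integrable_indicator_iff (measurableSet_Ioi.prod MeasurableSet.univ)).mpr h
  refine h2.congr (Eventually.of_forall fun p => ?_)
  unfold fluxF
  by_cases hp : p.1 ∈ Ioi (0 : ℝ)
  · rw [indicator_of_mem hp, indicator_of_mem (show p ∈ Ioi (0 : ℝ) ×ˢ univ from ⟨hp, mem_univ _⟩)]
  · rw [indicator_of_notMem hp, indicator_of_notMem fun h => hp h.1]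

end Vale.Agent.P128
end

section

open MeasureTheory Set Metric Filter
open scoped ENNReal NNReal Topology Real ContDiff

namespace Vale.Agent.P128

/-- Slices of the flux through a region. -/
noncomputable def fluxPhi (G : ℂ → ℂ) (x : ℂ) (R : ℝ) (U : Set ℂ) (r : ℝ) : ℝ :=
  ∫ θ in ang, U.indicator (fun _ => (1 : ℝ)) (circleMap x r θ) * fluxF G x R (r, θ)

theorem measurable_chi {U : Set ℂ} (hU : IsOpen U) (x : ℂ) :
    Measurable fun p : ℝ × ℝ => U.indicator (fun _ => (1 : ℝ)) (circleMap x p.1 p.2) :=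
  (measurable_const.indicator hU.measurableSet).comp (continuous_circleMap_uncurry x).measurable

theorem abs_chi_le (U : Set ℂ) (z : ℂ) : |U.indicator (fun _ => (1 : ℝ)) z| ≤ 1 := by
  by_cases hz : z ∈ U
  · rw [indicator_of_mem hz, abs_one]
  · rw [indicator_of_notMem hz, abs_zero]; exact zero_le_one

theorem Nice.integrable_chiF {Ω K : Set ℂ} {g u : ℂ → ℝ} {G : ℂ → ℂ} {M : ℝ}
    (N : Nice Ω g u G K M) (x : ℂ) (R : ℝ) {U : Set ℂ} (hU : IsOpen U) :
    Integrable (fun p : ℝ × ℝ => U.indicator (fun _ => (1 : ℝ)) (circleMap x p.1 p.2) *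
      fluxF G x R p) (volume.prod (volume.restrict ang)) :=
  (N.integrable_fluxF x R).bdd_mul (c := 1) (measurable_chi hU x).aestronglyMeasurable
    (Eventually.of_forall fun _ => abs_chi_le U _)

theorem dscut_zero {n : ℕ} {s : ℝ} (hn : 2 / ((n : ℝ) + 1) < s) : dscut n s 0 = 0 := by
  have hd : (0 : ℝ) < 1 / ((n : ℝ) + 1) := by positivity
  have e : 2 / ((n : ℝ) + 1) = 1 / ((n : ℝ) + 1) + 1 / ((n : ℝ) + 1) := by ring
  unfold dscut
  rw [ker_of_lt (by linarith only [e, hd, hn]), ker_of_gt (by linarith), sub_zero]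

theorem abs_ker_le {C : ℝ} (hC : ∀ t, |deriv Real.smoothTransition t| ≤ C) (n : ℕ) (a r : ℝ) :
    |ker n a r| ≤ C * (n + 1) := by
  unfold ker
  rw [abs_mul, abs_of_pos (show (0 : ℝ) < n + 1 by positivity)]
  exact mul_le_mul_of_nonneg_right (hC _) (by positivity)

/-- The gradient term in polar coordinates. -/
theorem Nice.flux_polar {Ω K : Set ℂ} {g u : ℂ → ℝ} {G : ℂ → ℂ} {M : ℝ}
    (N : Nice Ω g u G K M) (x : ℂ) {R : ℝ} {U : Set ℂ} (hU : IsOpen U) (hUR : U ⊆ ball x R)
    {n : ℕ} {s : ℝ} (hn : 2 / ((n : ℝ) + 1) < s) :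
    ∫ z, (inner ℝ (G z) (U.indicator (grad fun y => scut n s ‖y - x‖) z) : ℝ) =
      ∫ r, dscut n s r * fluxPhi G x R U r := by
  have hs : 0 < s := lt_trans (by positivity) hn
  have hcd : Continuous (dscut n s) :=
    ((contDiff_ker n _).continuous).sub ((contDiff_ker n _).continuous.comp continuous_neg)
  obtain ⟨C, hC0, hC⟩ := exists_bound_deriv_st
  have hb : ∀ r, |dscut n s r| ≤ 2 * (C * (n + 1)) := by
    intro r
    unfold dscut
    refine (abs_sub _ _).trans ?_
    linarith [abs_ker_le hC n (s + 1 / (n + 1)) r, abs_ker_le hC n (-s + 1 / (n + 1)) (-r)]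
  set F2 : ℂ → ℝ := (ball x R).indicator fun z => (inner ℝ (G z) (nu x z) : ℝ) with hF2
  have hpt : ∀ z, (inner ℝ (G z) (U.indicator (grad fun y => scut n s ‖y - x‖) z) : ℝ) =
      dscut n s ‖z - x‖ * (U.indicator (fun _ => (1 : ℝ)) z * F2 z) := by
    intro z
    by_cases hz : z ∈ U
    · rw [indicator_of_mem hz, indicator_of_mem hz, one_mul, real_inner_comm, inner_grad, hF2,
        indicator_of_mem (hUR hz)]
      by_cases hzx : z = x
      · have e1 : fderiv ℝ (fun y => scut n s ‖y - x‖) z = 0 := by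
          have : (fun y => scut n s ‖y - x‖) =ᶠ[𝓝 z] fun _ => 1 := by
            have h1 : ball x (s - 2 / ((n : ℝ) + 1)) ∈ 𝓝 z := by
              rw [hzx]; exact ball_mem_nhds x (by linarith)
            filter_upwards [h1] with y hy
            rw [mem_ball, dist_eq_norm] at hy
            exact scut_one hy.le
          rw [this.fderiv_eq]
          simp
        rw [e1, hzx, sub_self, norm_zero, dscut_zero hn]
        simp
      · rw [fderiv_radial hzx (hasDerivAt_scut n s _), real_inner_comm]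
    · rw [indicator_of_notMem hz, indicator_of_notMem hz, inner_zero_right, zero_mul, mul_zero]
  simp only [hpt]
  have hF2m : Measurable F2 := measurable_F2 N.Gm x R
  have hF2i : Integrable F2 := N.integrable_F2 x R
  have hm1 : Measurable fun z => U.indicator (fun _ => (1 : ℝ)) z * F2 z :=
    (measurable_const.indicator hU.measurableSet).mul hF2m
  have hmeas : Measurable fun z => dscut n s ‖z - x‖ * (U.indicator (fun _ => (1 : ℝ)) z * F2 z) :=
    (hcd.measurable.comp (measurable_id.sub_const x).norm).mul hm1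
  have hi1 : Integrable fun z => U.indicator (fun _ => (1 : ℝ)) z * F2 z :=
    hF2i.bdd_mul (c := 1) (measurable_const.indicator hU.measurableSet).aestronglyMeasurable
      (Eventually.of_forall fun z => abs_chi_le U z)
  have hint : Integrable fun z =>
      dscut n s ‖z - x‖ * (U.indicator (fun _ => (1 : ℝ)) z * F2 z) :=
    hi1.bdd_mul (c := 2 * (C * (n + 1)))
      (hcd.comp (continuous_id.sub continuous_const).norm).aestronglyMeasurable
      (Eventually.of_forall fun z => hb _)
  rw [integral_polar x hmeas hint]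
  have e1 : ∫ r, dscut n s r * fluxPhi G x R U r =
      ∫ r in Ioi (0 : ℝ), dscut n s r * fluxPhi G x R U r := by
    refine (setIntegral_eq_integral_of_forall_compl_eq_zero fun r hr => ?_).symm
    have : fluxPhi G x R U r = 0 := by
      unfold fluxPhi fluxF
      simp only [indicator_of_notMem hr, mul_zero, integral_zero]
    rw [this, mul_zero]
  rw [e1]
  refine setIntegral_congr_fun measurableSet_Ioi fun r hr => ?_
  have hr' : (0 : ℝ) < r := hr
  have hnr : ∀ θ, ‖circleMap x r θ - x‖ = r := fun θ => by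
    rw [← dist_eq_norm]; exact dist_circleMap_center x hr'.le θ
  simp only [hnr, integral_const_mul]
  unfold fluxPhi fluxF
  simp only [indicator_of_mem hr]
  have e2 : ∀ θ, U.indicator (fun _ => (1 : ℝ)) (circleMap x r θ) *
      (r * (ball x R).indicator (fun z => (inner ℝ (G z) (nu x z) : ℝ)) (circleMap x r θ)) =
      r * (U.indicator (fun _ => (1 : ℝ)) (circleMap x r θ) * F2 (circleMap x r θ)) := fun θ => by
    rw [hF2]; ring
  simp only [e2, integral_const_mul]
  ring

end Vale.Agent.P128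
end

section

open MeasureTheory Set Metric Filter
open scoped ENNReal NNReal Topology Real ContDiff

namespace Vale.Agent.P128

theorem tendsto_one_div_mul {c : ℝ} (hc : 0 < c) :
    ∀ᶠ n : ℕ in atTop, 2 / ((n : ℝ) + 1) < c := by
  have := (tendsto_one_div_add_atTop_nhds_zero_nat (𝕜 := ℝ)).const_mul 2
  rw [mul_zero] at this
  filter_upwards [this.eventually (gt_mem_nhds hc)] with n hn
  have e : 2 / ((n : ℝ) + 1) = 2 * (1 / ((n : ℝ) + 1)) := by ring
  rw [e]; exact hn

/-- Comparison of the slices with the limit slice. -/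
theorem fluxPhi_close {G : ℂ → ℂ} {x : ℂ} {R s : ℝ} {U : Set ℂ} (hU : IsOpen U)
    (hFs : IntegrableOn (fun θ => fluxF G x R (s, θ)) ang)
    (hFr : ∀ᵐ r : ℝ, IntegrableOn (fun θ => fluxF G x R (r, θ)) ang) {c : ℝ → ℝ} {T : Set ℝ}
    (hc : ∀ᵐ θ ∂(volume.restrict ang), Tendsto
      (fun r => U.indicator (fun _ => (1 : ℝ)) (circleMap x r θ)) (𝓝[T] s) (𝓝 (c θ))) :
    ∀ ε > 0, ∃ δ > 0, ∀ᵐ r, r ∈ T → |r - s| < δ →
      |fluxPhi G x R U r - ∫ θ in ang, c θ * fluxF G x R (s, θ)| ≤
        sliceD (fluxF G x R) s r + ε := by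
  intro ε hε
  have hlim : Tendsto (fun r => ∫ θ in ang, U.indicator (fun _ => (1 : ℝ)) (circleMap x r θ) *
      fluxF G x R (s, θ)) (𝓝[T] s) (𝓝 (∫ θ in ang, c θ * fluxF G x R (s, θ))) := by
    refine tendsto_integral_filter_of_dominated_convergence (fun θ => |fluxF G x R (s, θ)|)
      ?_ ?_ hFs.abs ?_
    · refine Eventually.of_forall fun r => ?_
      have : Measurable fun θ => U.indicator (fun _ => (1 : ℝ)) (circleMap x r θ) :=
        (measurable_const.indicator hU.measurableSet).comp (measurable_circleMap x r)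
      exact this.aestronglyMeasurable.mul hFs.1
    · refine Eventually.of_forall fun r => Eventually.of_forall fun θ => ?_
      rw [norm_mul, Real.norm_eq_abs, Real.norm_eq_abs]
      exact mul_le_of_le_one_left (abs_nonneg _) (abs_chi_le U _)
    · filter_upwards [hc] with θ hθ
      exact hθ.mul_const _
  have h1 := (Metric.tendsto_nhds.mp hlim) ε hε
  rw [eventually_nhdsWithin_iff, Metric.eventually_nhds_iff] at h1
  obtain ⟨δ, hδ, h2⟩ := h1
  refine ⟨δ, hδ, ?_⟩
  filter_upwards [hFr] with r hr hrT hrs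
  have h3 := h2 (y := r) (by rw [Real.dist_eq]; exact hrs) hrT
  rw [Real.dist_eq] at h3
  have hχm : Measurable fun θ => U.indicator (fun _ => (1 : ℝ)) (circleMap x r θ) :=
    (measurable_const.indicator hU.measurableSet).comp (measurable_circleMap x r)
  have i1 : Integrable (fun θ => U.indicator (fun _ => (1 : ℝ)) (circleMap x r θ) *
      fluxF G x R (r, θ)) (volume.restrict ang) :=
    hr.bdd_mul (c := 1) hχm.aestronglyMeasurable (Eventually.of_forall fun _ => abs_chi_le U _)
  have i2 : Integrable (fun θ => U.indicator (fun _ => (1 : ℝ)) (circleMap x r θ) *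
      fluxF G x R (s, θ)) (volume.restrict ang) :=
    hFs.bdd_mul (c := 1) hχm.aestronglyMeasurable (Eventually.of_forall fun _ => abs_chi_le U _)
  have h4 : |fluxPhi G x R U r - ∫ θ in ang, U.indicator (fun _ => (1 : ℝ)) (circleMap x r θ) *
      fluxF G x R (s, θ)| ≤ sliceD (fluxF G x R) s r := by
    unfold fluxPhi sliceD
    rw [← integral_sub i1 i2]
    refine abs_integral_le_integral_abs.trans ?_
    refine integral_mono_of_nonneg (Eventually.of_forall fun θ => abs_nonneg _)
      (hr.sub hFs).abs (Eventually.of_forall fun θ => ?_)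
    simp only
    rw [← mul_sub, abs_mul]
    exact mul_le_of_le_one_left (abs_nonneg _) (abs_chi_le U _)
  have h5 := abs_sub_le (fluxPhi G x R U r)
    (∫ θ in ang, U.indicator (fun _ => (1 : ℝ)) (circleMap x r θ) * fluxF G x R (s, θ))
    (∫ θ in ang, c θ * fluxF G x R (s, θ))
  linarith

/-- The flux through the part of a circle that bounds a region. -/
theorem Nice.flux_region {Ω K : Set ℂ} {g u : ℂ → ℝ} {G : ℂ → ℂ} {M : ℝ}
    (N : Nice Ω g u G K M) {x : ℂ} {R : ℝ} (hR : closedBall x R ⊆ Ω)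
    (hub : ∀ z ∈ ball x R, |u z| ≤ M) :
    ∀ᵐ s : ℝ, s ∈ Ioo 0 R → ∀ (U : Set ℂ) (ρ : ℝ), IsOpen U → 0 ≤ ρ → ρ < R →
      U ⊆ closedBall x ρ → (∀ z ∈ closure U, z ∉ U → z ∉ K → z ∈ sphere x s) →
      ∀ cin cout : ℝ → ℝ,
      (∀ᵐ θ ∂(volume.restrict ang), Tendsto
        (fun r => U.indicator (fun _ => (1 : ℝ)) (circleMap x r θ)) (𝓝[<] s) (𝓝 (cin θ))) →
      (∀ᵐ θ ∂(volume.restrict ang), Tendsto
        (fun r => U.indicator (fun _ => (1 : ℝ)) (circleMap x r θ)) (𝓝[>] s) (𝓝 (cout θ))) →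
      |(∫ θ in ang, cout θ * nsl G x s θ) - ∫ θ in ang, cin θ * nsl G x s θ| ≤
        2 * M * (π * ρ ^ 2) := by
  have hF := N.integrable_fluxF x R
  filter_upwards [ae_lebL1 hF] with s hL hs U ρ hU hρ0 hρR hUρ hcl cin cout hcin hcout
  obtain ⟨hFs, hDi, hDl⟩ := hL
  have hs0 := hs.1
  have hUR : U ⊆ ball x R := hUρ.trans (closedBall_subset_ball hρR)
  obtain ⟨C, hC0, hC⟩ := exists_bound_deriv_st
  have hΦi : Integrable (fluxPhi G x R U) := (N.integrable_chiF x R hU).integral_prod_left
  have hFr : ∀ᵐ r : ℝ, IntegrableOn (fun θ => fluxF G x R (r, θ)) ang := hF.prod_right_ae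
  have bddk : ∀ (n : ℕ) (a : ℝ), Integrable fun r => ker n a r * fluxPhi G x R U r :=
    fun n a => hΦi.bdd_mul (c := C * (n + 1)) (contDiff_ker n a).continuous.aestronglyMeasurable
      (Eventually.of_forall fun r => abs_ker_le hC n a r)
  have bddk' : ∀ (n : ℕ) (a : ℝ), Integrable fun r => ker n a (-r) * fluxPhi G x R U r :=
    fun n a => hΦi.bdd_mul (c := C * (n + 1))
      ((contDiff_ker n a).continuous.comp continuous_neg).aestronglyMeasurable
      (Eventually.of_forall fun r => abs_ker_le hC n a (-r))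
  -- outer limit
  have L1 : Tendsto (fun n : ℕ => ∫ r, ker n (s + 1 / (n + 1)) r * fluxPhi G x R U r) atTop
      (𝓝 (∫ θ in ang, cout θ * fluxF G x R (s, θ))) := by
    refine ker_limit (k := fun n r => ker n (s + 1 / (n + 1)) r) (T := Ioi s) hC0
      (fun n => (contDiff_ker n _).continuous) (fun n => hasCompactSupport_ker n _)
      (fun n r => abs_ker_le hC n _ r) ?_ (fun n => integral_ker_one n _)
      (Eventually.of_forall fun n => bddk n _) (fun r => sliceD_nonneg _ s r) hDi hDl
      (fluxPhi_close hU hFs hFr hcout)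
    intro n r hne
    have hd : (0 : ℝ) < 1 / ((n : ℝ) + 1) := by positivity
    have e : 2 / ((n : ℝ) + 1) = 1 / ((n : ℝ) + 1) + 1 / ((n : ℝ) + 1) := by ring
    have h1 : s + 1 / ((n : ℝ) + 1) ≤ r := by
      by_contra hcon
      exact hne (ker_of_lt (not_le.mp hcon))
    have h2 : r ≤ s + 1 / ((n : ℝ) + 1) + 1 / ((n : ℝ) + 1) := by
      by_contra hcon
      exact hne (ker_of_gt (not_le.mp hcon))
    refine ⟨show s < r by linarith, ?_⟩
    rw [abs_le]; constructor <;> linarith
  -- inner limit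
  have L2 : Tendsto (fun n : ℕ => ∫ r, ker n (-s + 1 / (n + 1)) (-r) * fluxPhi G x R U r) atTop
      (𝓝 (∫ θ in ang, cin θ * fluxF G x R (s, θ))) := by
    refine ker_limit (k := fun n r => ker n (-s + 1 / (n + 1)) (-r)) (T := Iio s) hC0
      (fun n => (contDiff_ker n _).continuous.comp continuous_neg) ?_
      (fun n r => abs_ker_le hC n _ (-r)) ?_ ?_
      (Eventually.of_forall fun n => bddk' n _) (fun r => sliceD_nonneg _ s r) hDi hDl
      (fluxPhi_close hU hFs hFr hcin)
    · intro n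
      exact (hasCompactSupport_ker n (-s + 1 / (n + 1))).comp_homeomorph (Homeomorph.neg ℝ)
    · intro n r hne
      have hd : (0 : ℝ) < 1 / ((n : ℝ) + 1) := by positivity
      have e : 2 / ((n : ℝ) + 1) = 1 / ((n : ℝ) + 1) + 1 / ((n : ℝ) + 1) := by ring
      have h1 : -s + 1 / ((n : ℝ) + 1) ≤ -r := by
        by_contra hcon
        exact hne (ker_of_lt (not_le.mp hcon))
      have h2 : -r ≤ -s + 1 / ((n : ℝ) + 1) + 1 / ((n : ℝ) + 1) := by
        by_contra hcon
        exact hne (ker_of_gt (not_le.mp hcon))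
      refine ⟨show r < s by linarith, ?_⟩
      rw [abs_le]; constructor <;> linarith
    · intro n
      rw [integral_neg_eq_self (fun r => ker n (-s + 1 / (n + 1)) r)]
      exact integral_ker_one n _
  have L3 := L1.sub L2
  -- the first variation
  have hbound : ∀ᶠ n : ℕ in atTop,
      |(∫ r, ker n (s + 1 / (n + 1)) r * fluxPhi G x R U r) -
        ∫ r, ker n (-s + 1 / (n + 1)) (-r) * fluxPhi G x R U r| ≤ 2 * M * (π * ρ ^ 2) := by
    filter_upwards [tendsto_one_div_mul hs0] with n hn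
    have hsm : ContDiff ℝ ∞ fun y : ℂ => scut n s ‖y - x‖ :=
      contDiff_radial (contDiff_scut n s) (ε := s - 2 / ((n : ℝ) + 1)) (by linarith)
        (fun r hr => scut_one hr.le) x
    have hvan : ∀ z ∈ sphere x s, z ∉ tsupport fun y : ℂ => scut n s ‖y - x‖ := by
      intro z hz
      rw [notMem_tsupport_iff_eventuallyEq]
      have hc : Continuous fun y : ℂ => |‖y - x‖ - s| := by fun_prop
      have h0 : |‖z - x‖ - s| < 1 / ((n : ℝ) + 1) := by
        rw [mem_sphere, dist_eq_norm] at hz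
        rw [hz, sub_self, abs_zero]
        (clear * -; positivity)
      filter_upwards [hc.continuousAt.eventually (gt_mem_nhds h0)] with y hy
      exact scut_zero hy
    have hw : IsWeakGrad (Ω \ K) (U.indicator fun y : ℂ => scut n s ‖y - x‖)
        (U.indicator (grad fun y : ℂ => scut n s ‖y - x‖)) :=
      isWeakGrad_indicator hU hsm fun z hz hzU hzV => hvan z (hcl z hz hzU hzV.2)
    have hgc : Continuous (grad fun y : ℂ => scut n s ‖y - x‖) := continuous_grad hsm
    have hfinU : volume (closedBall x ρ) ≠ ⊤ := measure_closedBall_lt_top.ne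
    have hfinU' : volume U ≠ ⊤ := ne_top_of_le_ne_top hfinU (measure_mono hUρ)
    have m1 : MemLp (U.indicator fun y : ℂ => scut n s ‖y - x‖) 2 volume := by
      rw [memLp_indicator_iff_restrict hU.measurableSet]
      have : IsFiniteMeasure (volume.restrict U) :=
        ⟨by rw [Measure.restrict_apply_univ]; exact lt_top_iff_ne_top.mpr hfinU'⟩
      exact MemLp.of_bound hsm.continuous.aestronglyMeasurable 1 (Eventually.of_forall fun z => by
        rw [Real.norm_of_nonneg (scut_nonneg _ _ _)]; exact scut_le_one _ _ _)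
    have m2 : MemLp (U.indicator (grad fun y : ℂ => scut n s ‖y - x‖)) 2 volume := by
      rw [memLp_indicator_iff_restrict hU.measurableSet]
      have : IsFiniteMeasure (volume.restrict U) :=
        ⟨by rw [Measure.restrict_apply_univ]; exact lt_top_iff_ne_top.mpr hfinU'⟩
      obtain ⟨B, hB⟩ := (isCompact_closedBall x ρ).exists_bound_of_continuousOn hgc.continuousOn
      exact MemLp.of_bound hgc.aestronglyMeasurable B
        ((ae_restrict_mem hU.measurableSet).mono fun z hz => hB z (hUρ hz))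
    have FV := N.first_variation hR m1 m2 hw (isCompact_closedBall x ρ)
      (closedBall_subset_ball hρR) (fun z hz => indicator_of_notMem (fun h => hz (hUρ h)) _)
      (fun z hz => indicator_of_notMem (fun h => hz (hUρ h)) _)
    rw [N.flux_polar x hU hUR hn] at FV
    have e1 : ∫ r, dscut n s r * fluxPhi G x R U r =
        (∫ r, ker n (s + 1 / (n + 1)) r * fluxPhi G x R U r) -
        ∫ r, ker n (-s + 1 / (n + 1)) (-r) * fluxPhi G x R U r := by
      rw [← integral_sub (bddk n _) (bddk' n _)]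
      refine integral_congr_ae (Eventually.of_forall fun r => ?_)
      simp only [dscut]
      ring
    rw [← e1]
    have e2 : ∫ r, dscut n s r * fluxPhi G x R U r =
        -∫ z, (u z - g z) * U.indicator (fun y : ℂ => scut n s ‖y - x‖) z := by linarith
    rw [e2, abs_neg]
    have e3 : ∫ z, (u z - g z) * U.indicator (fun y : ℂ => scut n s ‖y - x‖) z =
        ∫ z in closedBall x ρ, (u z - g z) * U.indicator (fun y : ℂ => scut n s ‖y - x‖) z := by
      refine (setIntegral_eq_integral_of_forall_compl_eq_zero fun z hz => ?_).symm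
      rw [indicator_of_notMem (fun h => hz (hUρ h)), mul_zero]
    rw [e3, ← Real.norm_eq_abs]
    refine (norm_setIntegral_le_of_norm_le_const (C := 2 * M) measure_closedBall_lt_top
      fun z hz => ?_).trans (le_of_eq ?_)
    · have hzR : z ∈ ball x R := closedBall_subset_ball hρR hz
      have h1 := abs_le.mp (hub z hzR)
      have h2 := abs_le.mp (N.gb z)
      have h4 : |u z - g z| ≤ 2 * M := by rw [abs_le]; constructor <;> linarith
      rw [Real.norm_eq_abs, abs_mul]
      have h5 : |U.indicator (fun y : ℂ => scut n s ‖y - x‖) z| ≤ 1 := by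
        by_cases hzU : z ∈ U
        · rw [indicator_of_mem hzU, abs_of_nonneg (scut_nonneg _ _ _)]; exact scut_le_one _ _ _
        · rw [indicator_of_notMem hzU, abs_zero]; exact zero_le_one
      calc |u z - g z| * |U.indicator (fun y : ℂ => scut n s ‖y - x‖) z| ≤ (2 * M) * 1 :=
            mul_le_mul h4 h5 (abs_nonneg _) (by linarith [N.M_nonneg])
        _ = 2 * M := by ring
    · rw [measureReal_def, Complex.volume_closedBall, ENNReal.toReal_mul, ENNReal.toReal_pow,
        ENNReal.toReal_ofReal hρ0]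
      have : ((NNReal.pi : ℝ≥0∞)).toReal = π := by simp
      rw [this]
      ring
  have hle := le_of_tendsto (L3.abs) hbound
  have e4 : ∀ c : ℝ → ℝ, ∫ θ in ang, c θ * fluxF G x R (s, θ) = ∫ θ in ang, c θ * nsl G x s θ := by
    intro c
    refine integral_congr_ae (Eventually.of_forall fun θ => ?_)
    simp only
    rw [fluxF_eq hs]
  rw [e4, e4] at hle
  exact hle

end Vale.Agent.P128
end

section

open MeasureTheory Set Metric Filter
open scoped ENNReal NNReal Topology Real ContDiff

namespace Vale.Agent.P128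

/-- Minimality with respect to compactly supported changes of `u`, a compact wall `L` being
added to `K`. -/
def WallMin (K : Set ℂ) (G : ℂ → ℂ) : Prop :=
  ∀ (L : Set ℂ) (ξ : ℂ → ℝ) (Ξ : ℂ → ℂ), IsCompact L → μH[1] L ≠ ⊤ → MemLp ξ 2 volume →
    MemLp Ξ 2 volume → IsWeakGrad (K ∪ L)ᶜ ξ Ξ → (∃ ρ, ∀ z, ρ < ‖z‖ → ξ z = 0 ∧ Ξ z = 0) →
    0 ≤ 2 * (∫ z, (inner ℝ (G z) (Ξ z) : ℝ)) + (∫ z, ‖Ξ z‖ ^ 2) + (μH[1] L).toReal

theorem WallMin.scaled {K : Set ℂ} {G : ℂ → ℂ} (W : WallMin K G) {L : Set ℂ} {ξ : ℂ → ℝ}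
    {Ξ : ℂ → ℂ} (hL : IsCompact L) (hLf : μH[1] L ≠ ⊤) (hξ : MemLp ξ 2 volume)
    (hΞ : MemLp Ξ 2 volume) (hw : IsWeakGrad (K ∪ L)ᶜ ξ Ξ)
    (hs : ∃ ρ, ∀ z, ρ < ‖z‖ → ξ z = 0 ∧ Ξ z = 0) (t : ℝ) :
    0 ≤ 2 * t * (∫ z, (inner ℝ (G z) (Ξ z) : ℝ)) + t ^ 2 * (∫ z, ‖Ξ z‖ ^ 2) +
      (μH[1] L).toReal := by
  obtain ⟨ρ, hρ⟩ := hs
  have h := W L (fun z => t * ξ z) (fun z => t • Ξ z) hL hLf (hξ.const_mul t)
    (hΞ.const_smul t) (hw.const_mul t) ⟨ρ, fun z hz => by
      rw [(hρ z hz).1, (hρ z hz).2]; simp⟩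
  have e1 : ∫ z, (inner ℝ (G z) (t • Ξ z) : ℝ) = t * ∫ z, (inner ℝ (G z) (Ξ z) : ℝ) := by
    rw [← integral_const_mul]
    refine integral_congr_ae (Eventually.of_forall fun z => ?_)
    simp only [inner_smul_right]
  have e2 : ∫ z, ‖t • Ξ z‖ ^ 2 = t ^ 2 * ∫ z, ‖Ξ z‖ ^ 2 := by
    rw [← integral_const_mul]
    refine integral_congr_ae (Eventually.of_forall fun z => ?_)
    simp only [norm_smul, mul_pow, Real.norm_eq_abs, sq_abs]
  rw [e1, e2] at h
  linarith only [h]

theorem WallMin.el {K : Set ℂ} {G : ℂ → ℂ} (W : WallMin K G) {ξ : ℂ → ℝ} {Ξ : ℂ → ℂ}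
    (hξ : MemLp ξ 2 volume) (hΞ : MemLp Ξ 2 volume) (hw : IsWeakGrad Kᶜ ξ Ξ)
    (hs : ∃ ρ, ∀ z, ρ < ‖z‖ → ξ z = 0 ∧ Ξ z = 0) :
    ∫ z, (inner ℝ (G z) (Ξ z) : ℝ) = 0 := by
  refine quad_zero (Q := ∫ z, ‖Ξ z‖ ^ 2) fun t => ?_
  have h := W.scaled (L := ∅) isCompact_empty (by simp only [measure_empty, ne_eq, ENNReal.zero_ne_top, not_false_eq_true]) hξ hΞ (by rwa [union_empty]) hs t
  simpa only [Complex.inner, Complex.mul_re, Complex.conj_re, Complex.conj_im, mul_neg, sub_neg_eq_add,     ge_iff_le, measure_empty, ENNReal.toReal_zero, add_zero] using h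

theorem scut_eq_one {n : ℕ} {s r : ℝ} (h : 2 / ((n : ℝ) + 1) ≤ |r - s|) : scut n s r = 1 := by
  have hd : (0 : ℝ) < 1 / ((n : ℝ) + 1) := by (clear * -; positivity)
  have e : 2 / ((n : ℝ) + 1) = 1 / ((n : ℝ) + 1) + 1 / ((n : ℝ) + 1) := by ring
  rcases le_total r s with h1 | h1
  · rw [abs_of_nonpos (by linarith only [h1])] at h
    exact scut_one (by linarith only [h])
  · rw [abs_of_nonneg (by linarith only [h1])] at h
    unfold scut
    rw [cut_of_ge (by linarith only [h, e]), cut_of_le (by linarith), add_zero]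

theorem contDiff_scut_norm {n : ℕ} {s : ℝ} (x : ℂ) (hn : 2 / ((n : ℝ) + 1) < s) :
    ContDiff ℝ ∞ fun y : ℂ => scut n s ‖y - x‖ :=
  contDiff_radial (contDiff_scut n s) (ε := s - 2 / ((n : ℝ) + 1)) (by linarith only [hn])
    (fun _ hr => scut_one hr.le) x

theorem scut_norm_tsupport {n : ℕ} {s : ℝ} (x : ℂ) {z : ℂ} (hz : z ∈ sphere x s) :
    z ∉ tsupport fun y : ℂ => scut n s ‖y - x‖ := by
  rw [notMem_tsupport_iff_eventuallyEq]
  have hc : Continuous fun y : ℂ => |‖y - x‖ - s| := by fun_prop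
  have h0 : |‖z - x‖ - s| < 1 / ((n : ℝ) + 1) := by
    rw [mem_sphere, dist_eq_norm] at hz
    rw [hz, sub_self, abs_zero]
    positivity
  filter_upwards [hc.continuousAt.eventually (gt_mem_nhds h0)] with y hy
  exact scut_zero hy

/-- Away from the circle the gradient of the cut-off vanishes. -/
theorem grad_scut_zero {n : ℕ} {s : ℝ} (x : ℂ) {z : ℂ} (hz : 2 / ((n : ℝ) + 1) < |‖z - x‖ - s|) :
    grad (fun y : ℂ => scut n s ‖y - x‖) z = 0 := by
  have hc : Continuous fun y : ℂ => |‖y - x‖ - s| := by fun_prop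
  have h1 : (fun y : ℂ => scut n s ‖y - x‖) =ᶠ[𝓝 z] fun _ => 1 := by
    filter_upwards [hc.continuousAt.eventually (lt_mem_nhds hz)] with y hy
    exact scut_eq_one hy.le
  unfold grad
  rw [h1.fderiv_eq]
  simp only [fderiv_fun_const, Pi.zero_apply, zero_apply]
  rfl

theorem grad_mul {f g : ℂ → ℝ} (hf : ContDiff ℝ ∞ f) (hg : ContDiff ℝ ∞ g) (z : ℂ) :
    grad (fun y => f y * g y) z = f z • grad g z + g z • grad f z := by
  have hfd : DifferentiableAt ℝ f z := (hf.differentiable (by simp)) z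
  have hgd : DifferentiableAt ℝ g z := (hg.differentiable (by simp)) z
  have : fderiv ℝ (fun z => f z * g z) z = f z • fderiv ℝ g z + g z • fderiv ℝ f z :=
    fderiv_fun_mul hfd hgd
  unfold grad
  rw [this]
  apply Complex.ext <;> simp

theorem grad_zero_of_eventually_const {f : ℂ → ℝ} {c : ℝ} {z : ℂ} (h : f =ᶠ[𝓝 z] fun _ => c) :
    grad f z = 0 := by
  unfold grad
  rw [h.fderiv_eq]
  simp
  rfl

end Vale.Agent.P128
end

section

open MeasureTheory Set Metric Filter
open scoped ENNReal NNReal Topology Real ContDiff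

namespace Vale.Agent.P128

/-- Dyadic radial cut-off. -/
noncomputable def dcut (x : ℂ) (a : ℝ) (k : ℕ) (z : ℂ) : ℝ :=
  Real.smoothTransition (2 - ‖z - x‖ ^ 2 / ((2 : ℝ) ^ k * a) ^ 2)

theorem contDiff_dcut (x : ℂ) (a : ℝ) (k : ℕ) : ContDiff ℝ ∞ (dcut x a k) := by
  unfold dcut
  refine Real.smoothTransition.contDiff.comp ?_
  refine contDiff_const.sub (ContDiff.div_const ?_ _)
  exact (contDiff_id.sub contDiff_const).norm_sq ℝ

theorem dcut_one {x : ℂ} {a : ℝ} (ha : 0 < a) (k : ℕ) {z : ℂ} (hz : ‖z - x‖ ≤ 2 ^ k * a) :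
    dcut x a k z = 1 := by
  unfold dcut
  refine Real.smoothTransition.one_of_one_le ?_
  have h1 : ‖z - x‖ ^ 2 / ((2 : ℝ) ^ k * a) ^ 2 ≤ 1 := by
    rw [div_le_one (by positivity)]
    gcongr
  linarith only [h1]

theorem dcut_zero {x : ℂ} {a : ℝ} (ha : 0 < a) (k : ℕ) {z : ℂ}
    (hz : 2 * ((2 : ℝ) ^ k * a) ^ 2 ≤ ‖z - x‖ ^ 2) : dcut x a k z = 0 := by
  unfold dcut
  refine Real.smoothTransition.zero_of_nonpos ?_
  have h1 : 2 ≤ ‖z - x‖ ^ 2 / ((2 : ℝ) ^ k * a) ^ 2 := by
    rw [le_div_iff₀ (by (clear * - ha; positivity))]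
    exact hz
  linarith only [h1]

theorem grad_dcut_zero_in {x : ℂ} {a : ℝ} (ha : 0 < a) (k : ℕ) {z : ℂ}
    (hz : ‖z - x‖ < 2 ^ k * a) : grad (dcut x a k) z = 0 := by
  refine grad_zero_of_eventually_const (c := 1) ?_
  have hc : Continuous fun y : ℂ => ‖y - x‖ := by (clear * -; fun_prop)
  filter_upwards [hc.continuousAt.eventually (gt_mem_nhds hz)] with y hy
  exact dcut_one ha k hy.le

theorem grad_dcut_zero_out {x : ℂ} {a : ℝ} (ha : 0 < a) (k : ℕ) {z : ℂ}
    (hz : 2 * ((2 : ℝ) ^ k * a) ^ 2 < ‖z - x‖ ^ 2) : grad (dcut x a k) z = 0 := by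
  refine grad_zero_of_eventually_const (c := 0) ?_
  have hc : Continuous fun y : ℂ => ‖y - x‖ ^ 2 := by (clear * -; fun_prop)
  filter_upwards [hc.continuousAt.eventually (lt_mem_nhds hz)] with y hy
  exact dcut_zero ha k hy.le

theorem norm_grad_le {f : ℂ → ℝ} {z : ℂ} : ‖grad f z‖ ≤ ‖fderiv ℝ f z‖ := by
  by_cases h : grad f z = 0
  · rw [h, norm_zero]; exact norm_nonneg _
  · have h1 : 0 < ‖grad f z‖ := norm_pos_iff.mpr h
    have h2 : ‖grad f z‖ ^ 2 ≤ ‖fderiv ℝ f z‖ * ‖grad f z‖ := by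
      rw [← real_inner_self_eq_norm_sq, inner_grad]
      exact (le_abs_self _).trans ((fderiv ℝ f z).le_opNorm _)
    rw [sq] at h2
    exact le_of_mul_le_mul_right h2 h1

theorem norm_grad_dcut_le {C : ℝ} (hC0 : 0 ≤ C) (hC : ∀ t, |deriv Real.smoothTransition t| ≤ C)
    (x : ℂ) {a : ℝ} (ha : 0 < a) (k : ℕ) (z : ℂ) :
    ‖grad (dcut x a k) z‖ ≤ 4 * C / (2 ^ k * a) := by
  rcases lt_or_ge (2 * ((2 : ℝ) ^ k * a) ^ 2) (‖z - x‖ ^ 2) with h | h
  · rw [grad_dcut_zero_out ha k h, norm_zero]; positivity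
  obtain ⟨b, hb⟩ : ∃ b, b = (2 : ℝ) ^ k * a := ⟨_, rfl⟩
  have hb0 : 0 < b := by rw [hb]; positivity
  rw [← hb] at h ⊢
  refine norm_grad_le.trans ?_
  have hst : HasDerivAt Real.smoothTransition
      (deriv Real.smoothTransition (2 - ‖z - x‖ ^ 2 / b ^ 2)) (2 - ‖z - x‖ ^ 2 / b ^ 2) :=
    (contDiff_st.differentiable (by simp)).differentiableAt.hasDerivAt
  have hN : HasFDerivAt (fun y : ℂ => ‖y - x‖ ^ 2) ((2 : ℝ) • (innerSL ℝ (z - x))) z := by
    have h1 : HasFDerivAt (fun y : ℂ => y - x) (ContinuousLinearMap.id ℝ ℂ) z :=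
      (hasFDerivAt_id z).sub_const x
    have h2 := h1.norm_sq
    have e0 : ((2 : ℝ) • (innerSL ℝ (z - x)) : ℂ →L[ℝ] ℝ) =
        2 • (innerSL ℝ (z - x)).comp (ContinuousLinearMap.id ℝ ℂ) := by
      rw [ContinuousLinearMap.comp_id, two_smul, two_smul]
    rw [e0]
    exact h2
  have hg : HasFDerivAt (fun y : ℂ => 2 - ‖y - x‖ ^ 2 / b ^ 2)
      (-((b ^ 2)⁻¹ • ((2 : ℝ) • (innerSL ℝ (z - x))))) z := by
    have h3 := (hN.const_mul (b ^ 2)⁻¹).const_sub 2
    refine h3.congr_of_eventuallyEq (Eventually.of_forall fun y => ?_)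
    simp only [div_eq_inv_mul]
  have hcomp := hst.comp_hasFDerivAt z hg
  have e1 : fderiv ℝ (dcut x a k) z =
      deriv Real.smoothTransition (2 - ‖z - x‖ ^ 2 / b ^ 2) •
        (-((b ^ 2)⁻¹ • ((2 : ℝ) • (innerSL ℝ (z - x))))) := by
    rw [← hcomp.fderiv]
    congr 1
    funext y
    simp only [dcut, Function.comp_apply, hb]
  rw [e1, norm_smul, norm_neg, norm_smul, norm_smul, Real.norm_eq_abs, Real.norm_eq_abs]
  have hzb : ‖z - x‖ ≤ 2 * b := by
    refine le_of_sq_le_sq ?_ (by positivity) |>.trans le_rfl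
    (by_contra nlg; linarith [mul_nonneg (le_of_lt (sub_pos.2 (not_le.1 nlg))) (sub_nonneg.2 h), mul_pos (sub_pos.2 (not_le.1 nlg)) (sub_pos.2 (not_le.1 nlg)), mul_nonneg (sq_nonneg (2 * b : ℝ)) (le_of_lt (sub_pos.2 (not_le.1 nlg)))])
  have h4 : ‖innerSL ℝ (z - x)‖ = ‖z - x‖ := innerSL_apply_norm _ _
  rw [h4]
  have h5 : |(b ^ 2)⁻¹| = (b ^ 2)⁻¹ := abs_of_pos (by positivity)
  rw [h5]
  calc |deriv Real.smoothTransition (2 - ‖z - x‖ ^ 2 / b ^ 2)| * ((b ^ 2)⁻¹ * (‖(2 : ℝ)‖ * ‖z - x‖))
      ≤ C * ((b ^ 2)⁻¹ * (2 * (2 * b))) := by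
        gcongr
        · exact hC _
        · simp
    _ = 4 * C / b := by field_simp; ring

end Vale.Agent.P128
end

section

open MeasureTheory Set Metric Filter
open scoped ENNReal NNReal Topology Real ContDiff

namespace Vale.Agent.P128

/-- Data of a function on the circle cut at one point. -/
theorem full_arc {p : ℂ} (hp : ‖p‖ = 1) {M : ℝ} {f h : ℝ → ℝ} (hw : CircWeak {p} f h)
    (pf : Function.Periodic f (2 * π)) (ph : Function.Periodic h (2 * π)) (fm : Measurable f)
    (hm : Measurable h) (hM : ∀ θ, |f θ| ≤ M) (hh : MemLp h 2 (volume.restrict ang)) :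
    MemLp (fun t => f (p.arg + t)) 2 (volume.restrict (Ioo 0 (2 * π))) ∧
    MemLp (fun t => h (p.arg + t)) 2 (volume.restrict (Ioo 0 (2 * π))) ∧
    ∀ φ : ℝ → ℝ, ContDiff ℝ ∞ φ → HasCompactSupport φ → tsupport φ ⊆ Ioo 0 (2 * π) →
      ∫ t in Ioo 0 (2 * π), f (p.arg + t) * deriv φ t =
        - ∫ t in Ioo 0 (2 * π), h (p.arg + t) * φ t := by
  have hfin : IsFiniteMeasure (volume.restrict ang) := ⟨by simp⟩
  have hfL : MemLp f 2 (volume.restrict ang) :=
    MemLp.of_bound fm.aestronglyMeasurable M (Eventually.of_forall hM)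
  have h1 : ∀ w ∈ ({p} : Finset ℂ), ‖w‖ = 1 := fun w hw => by
    rw [Finset.mem_singleton.mp hw]; exact hp
  have hpT : p ∈ ({p} : Finset ℂ) := Finset.mem_singleton_self p
  have hco : ((({p} : Finset ℂ)) : Set ℂ) = {p} := Finset.coe_singleton p
  have hg : gap ((({p} : Finset ℂ)) : Set ℂ) p = 2 * π := by rw [hco, gap_singleton p hp]
  have hw' : CircWeak (({p} : Finset ℂ) : Set ℂ) f h := by rw [hco]; exact hw
  have mf := memLp_arc (Finset.finite_toSet {p}) hpT hp pf fm hfL
  have mh := memLp_arc (Finset.finite_toSet {p}) hpT hp ph hm hh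
  have hwk := fun (φ : ℝ → ℝ) a b c => hw'.arc (φ := φ) h1 pf ph hpT a b c
  rw [hg] at mf mh hwk
  exact ⟨mf, mh, hwk⟩

theorem finite_Ioo (a b : ℝ) : IsFiniteMeasure (volume.restrict (Ioo a b)) :=
  ⟨by rw [Measure.restrict_apply_univ]; exact measure_Ioo_lt_top⟩

theorem memLp_cont {F : ℝ → ℝ} (hF : Continuous F) (a b : ℝ) :
    MemLp F 2 (volume.restrict (Ioo a b)) := by
  have := finite_Ioo a b
  obtain ⟨C, hC⟩ := (isCompact_Icc (a := a) (b := b)).exists_bound_of_continuousOn
    hF.continuousOn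
  exact MemLp.of_bound hF.aestronglyMeasurable C
    ((ae_restrict_mem measurableSet_Ioo).mono fun t ht => hC t (Ioo_subset_Icc_self ht))

theorem integral_cos_half (a b : ℝ) : ∫ t in a..b, Real.cos (t / 2) =
    2 * Real.sin (b / 2) - 2 * Real.sin (a / 2) := by
  have : ∀ t ∈ uIcc a b, HasDerivAt (fun t => 2 * Real.sin (t / 2)) (Real.cos (t / 2)) t := by
    intro t _
    have h1 : HasDerivAt (fun t : ℝ => t / 2) (1 / 2) t := (hasDerivAt_id t).div_const 2
    have h2 := (h1.sin).const_mul 2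
    exact h2.congr_deriv (by ring)
  rw [intervalIntegral.integral_eq_sub_of_hasDerivAt this
    (Continuous.intervalIntegrable (by fun_prop) _ _)]

theorem integral_cos_half_sq : ∫ t in (0 : ℝ)..(2 * π), Real.cos (t / 2) ^ 2 = π := by
  have : ∀ t ∈ uIcc 0 (2 * π), HasDerivAt (fun t => t / 2 + Real.sin t / 2)
      (Real.cos (t / 2) ^ 2) t := by
    intro t _
    have h1 : HasDerivAt (fun t : ℝ => t / 2) (1 / 2) t := (hasDerivAt_id t).div_const 2
    have h2 := h1.add ((Real.hasDerivAt_sin t).div_const 2)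
    refine h2.congr_deriv ?_
    have h3 := Real.cos_sq (t / 2)
    rw [h3, show 2 * (t / 2) = t by ring]
  rw [intervalIntegral.integral_eq_sub_of_hasDerivAt this
    (Continuous.intervalIntegrable (by fun_prop) _ _)]
  simp

theorem integral_sin_half_sq : ∫ t in (0 : ℝ)..(2 * π), Real.sin (t / 2) ^ 2 = π := by
  have h1 : ∀ t : ℝ, Real.sin (t / 2) ^ 2 = 1 - Real.cos (t / 2) ^ 2 := fun t => Real.sin_sq _
  simp only [h1]
  rw [intervalIntegral.integral_sub intervalIntegrable_const
    (Continuous.intervalIntegrable (by fun_prop) _ _), integral_cos_half_sq]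
  simp; ring

theorem ii_eq {a b : ℝ} (hab : a ≤ b) (F : ℝ → ℝ) :
    ∫ t in a..b, F t = ∫ t in Ioo a b, F t := by
  rw [intervalIntegral.integral_of_le hab, integral_Ioc_eq_integral_Ioo]

/-- Splitting at `π`. -/
theorem split_pi {F : ℝ → ℝ} (hF : IntegrableOn F (Ioo 0 (2 * π))) :
    ∫ t in Ioo 0 (2 * π), F t = (∫ t in Ioo 0 π, F t) + ∫ t in Ioo π (2 * π), F t := by
  have hπ := Real.pi_pos
  have h1 : IntervalIntegrable F volume 0 π :=
    (intervalIntegrable_iff_integrableOn_Ioo_of_le hπ.le).mpr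
      (hF.mono_set (Ioo_subset_Ioo_right (by linarith)))
  have h2 : IntervalIntegrable F volume π (2 * π) :=
    (intervalIntegrable_iff_integrableOn_Ioo_of_le (by linarith)).mpr
      (hF.mono_set (Ioo_subset_Ioo_left hπ.le))
  rw [← ii_eq hπ.le, ← ii_eq (by linarith : π ≤ 2 * π), ← ii_eq (by linarith : 0 ≤ 2 * π),
    intervalIntegral.integral_add_adjacent_intervals h1 h2]

/-- Variance on an interval. -/
theorem var_expand {a b : ℝ} (hab : a < b) {F : ℝ → ℝ}
    (hF : MemLp F 2 (volume.restrict (Ioo a b))) {m : ℝ}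
    (hm : m = (b - a)⁻¹ * ∫ t in Ioo a b, F t) :
    ∫ t in Ioo a b, F t ^ 2 = (∫ t in Ioo a b, (F t - m) ^ 2) + (b - a) * m ^ 2 := by
  have := finite_Ioo a b
  have hFi : Integrable F (volume.restrict (Ioo a b)) := hF.integrable (by norm_num)
  have hba : 0 < b - a := by linarith
  have e1 : ∀ t, (F t - m) ^ 2 = F t ^ 2 - (2 * m * F t - m ^ 2) := fun t => by ring
  have j1 : Integrable (fun t => 2 * m * F t - m ^ 2) (volume.restrict (Ioo a b)) :=
    (hFi.const_mul _).sub (integrable_const _)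
  simp only [e1]
  rw [integral_sub hF.integrable_sq j1, integral_sub (hFi.const_mul _) (integrable_const _),
    integral_const_mul]
  have e2 : ∫ t in Ioo a b, F t = (b - a) * m := by rw [hm]; field_simp
  rw [e2]
  simp only [integral_const, measureReal_def, Measure.restrict_apply_univ, Real.volume_Ioo,
    smul_eq_mul]
  rw [ENNReal.toReal_ofReal hba.le]
  ring

/-- Cauchy-Schwarz. -/
theorem cs_sq {a b : ℝ} {F H : ℝ → ℝ} (hF : MemLp F 2 (volume.restrict (Ioo a b)))
    (hH : MemLp H 2 (volume.restrict (Ioo a b))) :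
    (∫ t in Ioo a b, F t * H t) ^ 2 ≤ (∫ t in Ioo a b, F t ^ 2) * ∫ t in Ioo a b, H t ^ 2 := by
  have i1 := hF.integrable_sq
  have i2 := hH.integrable_sq
  have i3 : Integrable (fun t => F t * H t) (volume.restrict (Ioo a b)) := hF.integrable_mul hH
  obtain ⟨X, hX⟩ : ∃ X : ℝ, X = ∫ t in Ioo a b, F t ^ 2 := ⟨_, rfl⟩
  obtain ⟨Y, hY⟩ : ∃ Y : ℝ, Y = ∫ t in Ioo a b, H t ^ 2 := ⟨_, rfl⟩
  obtain ⟨Z, hZ⟩ : ∃ Z : ℝ, Z = ∫ t in Ioo a b, F t * H t := ⟨_, rfl⟩
  have hX0 : 0 ≤ X := by rw [hX]; exact integral_nonneg fun _ => sq_nonneg _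
  have hY0 : 0 ≤ Y := by rw [hY]; exact integral_nonneg fun _ => sq_nonneg _
  have key : ∀ c : ℝ, 0 ≤ X - 2 * c * Z + c ^ 2 * Y := by
    intro c
    have h0 : 0 ≤ ∫ t in Ioo a b, (F t - c * H t) ^ 2 := integral_nonneg fun _ => sq_nonneg _
    have e1 : ∀ t, (F t - c * H t) ^ 2 = (F t ^ 2 - 2 * c * (F t * H t)) + c ^ 2 * H t ^ 2 :=
      fun t => by ring
    simp only [e1] at h0
    have i4 : Integrable (fun t => F t ^ 2 - 2 * c * (F t * H t)) (volume.restrict (Ioo a b)) :=
      i1.sub (i3.const_mul _)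
    rw [integral_add i4 (i2.const_mul _), integral_sub i1 (i3.const_mul _),
      integral_const_mul, integral_const_mul, ← hX, ← hY, ← hZ] at h0
    exact h0
  rw [← hX, ← hY, ← hZ]
  rcases hY0.eq_or_lt with h | h
  · rw [← h, mul_zero]
    by_contra hne
    have hZ0 : Z ≠ 0 := fun h0 => hne (by rw [h0]; norm_num)
    have h1 := key ((X + 1) / (2 * Z))
    rw [← h, mul_zero, add_zero] at h1
    have h2 : 2 * ((X + 1) / (2 * Z)) * Z = X + 1 := by field_simp
    linarith only [h2, h1]
  · have h1 := key (Z / Y)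
    have h2 : X - 2 * (Z / Y) * Z + (Z / Y) ^ 2 * Y = X - Z ^ 2 / Y := by field_simp; ring
    rw [h2] at h1
    have h3 : Z ^ 2 / Y ≤ X := by linarith
    rwa [div_le_iff₀ h] at h3

theorem memLp_cos_half (a b : ℝ) :
    MemLp (fun t : ℝ => Real.cos (t / 2)) 2 (volume.restrict (Ioo a b)) :=
  memLp_cont (by fun_prop) a b

theorem integral_mul_cos_half {a b : ℝ} (hab : a ≤ b) {F : ℝ → ℝ}
    (hF : MemLp F 2 (volume.restrict (Ioo a b))) (m : ℝ) :
    ∫ t in Ioo a b, F t * Real.cos (t / 2) =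
      (∫ t in Ioo a b, (F t - m) * Real.cos (t / 2)) +
        m * (2 * Real.sin (b / 2) - 2 * Real.sin (a / 2)) := by
  have := finite_Ioo a b
  have e1 : ∀ t, F t * Real.cos (t / 2) = (F t - m) * Real.cos (t / 2) +
      m * Real.cos (t / 2) := fun t => by ring
  have i1 : Integrable (fun t => (F t - m) * Real.cos (t / 2)) (volume.restrict (Ioo a b)) :=
    (hF.sub (memLp_const m)).integrable_mul (memLp_cos_half a b)
  have i2 : Integrable (fun t : ℝ => Real.cos (t / 2)) (volume.restrict (Ioo a b)) :=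
    (memLp_cos_half a b).integrable (by norm_num)
  simp only [e1]
  rw [integral_add i1 (i2.const_mul m), integral_const_mul,
    ← ii_eq hab (fun t => Real.cos (t / 2)), integral_cos_half]

theorem integral_cos_half_sq_left : ∫ t in Ioo 0 π, Real.cos (t / 2) ^ 2 = π / 2 := by
  have hπ := Real.pi_pos
  have : ∀ t ∈ uIcc 0 π, HasDerivAt (fun t => t / 2 + Real.sin t / 2)
      (Real.cos (t / 2) ^ 2) t := by
    intro t _
    have h1 : HasDerivAt (fun t : ℝ => t / 2) (1 / 2) t := (hasDerivAt_id t).div_const 2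
    have h2 := h1.add ((Real.hasDerivAt_sin t).div_const 2)
    refine h2.congr_deriv ?_
    have h3 := Real.cos_sq (t / 2)
    rw [h3, show 2 * (t / 2) = t by ring]
  rw [← ii_eq hπ.le (fun t => Real.cos (t / 2) ^ 2),
    intervalIntegral.integral_eq_sub_of_hasDerivAt this
    (Continuous.intervalIntegrable (by fun_prop) _ _)]
  simp

theorem integral_cos_half_sq_right : ∫ t in Ioo π (2 * π), Real.cos (t / 2) ^ 2 = π / 2 := by
  have hπ := Real.pi_pos
  have h3 := split_pi (F := fun t : ℝ => Real.cos (t / 2) ^ 2)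
    ((memLp_cos_half 0 (2 * π)).integrable_sq)
  rw [← ii_eq (by linarith : 0 ≤ 2 * π) (fun t => Real.cos (t / 2) ^ 2),
    integral_cos_half_sq, integral_cos_half_sq_left] at h3
  linarith

theorem mode_alg {m X Y I J P Q : ℝ} (p1 : I ≤ P) (p2 : J ≤ Q) (k1 : X ^ 2 ≤ I * (π / 2))
    (k2 : Y ^ 2 ≤ J * (π / 2)) (hXY : X + Y = -(4 * m)) :
    I + π * m ^ 2 + (J + π * (-m) ^ 2) ≤ (1 + π ^ 2 / 8) * (P + Q) := by
  have hπ := Real.pi_pos
  have hm2 : 16 * m ^ 2 ≤ π * (I + J) := by
    have h5 : (X + Y) ^ 2 ≤ 2 * X ^ 2 + 2 * Y ^ 2 := by linarith only [sq_nonneg (X - Y)]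
    rw [hXY] at h5
    linarith only [h5, k2, k1]
  have h6 : 2 * π * m ^ 2 ≤ π ^ 2 / 8 * (I + J) := by
    have h8 := mul_le_mul_of_nonneg_left hm2 (by positivity : 0 ≤ π / 8)
    calc 2 * π * m ^ 2 = π / 8 * (16 * m ^ 2) := by ring
      _ ≤ _ := h8
      _ = _ := by ring
  have h7 : (1 + π ^ 2 / 8) * (I + J) ≤ (1 + π ^ 2 / 8) * (P + Q) :=
    mul_le_mul_of_nonneg_left (by linarith only [p2, p1]) (by positivity)
  calc I + π * m ^ 2 + (J + π * (-m) ^ 2) = I + J + 2 * π * m ^ 2 := by ring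
    _ ≤ I + J + π ^ 2 / 8 * (I + J) := by linarith only [h6]
    _ = (1 + π ^ 2 / 8) * (I + J) := by ring
    _ ≤ _ := h7

theorem weak_sub {F H : ℝ → ℝ} {c d : ℝ}
    (hw : ∀ φ : ℝ → ℝ, ContDiff ℝ ∞ φ → HasCompactSupport φ → tsupport φ ⊆ Ioo c d →
      ∫ t in Ioo c d, F t * deriv φ t = - ∫ t in Ioo c d, H t * φ t)
    {a b : ℝ} (hab : Ioo a b ⊆ Ioo c d) (φ : ℝ → ℝ) (k1 : ContDiff ℝ ∞ φ)
    (k2 : HasCompactSupport φ) (k3 : tsupport φ ⊆ Ioo a b) :
    ∫ t in Ioo a b, F t * deriv φ t = - ∫ t in Ioo a b, H t * φ t := by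
  have k4 := hw φ k1 k2 (k3.trans hab)
  have e1 : ∫ t in Ioo c d, F t * deriv φ t = ∫ t in Ioo a b, F t * deriv φ t := by
    refine setIntegral_eq_of_subset_of_forall_sdiff_eq_zero measurableSet_Ioo hab
      fun t ht => ?_
    have : deriv φ t = 0 := by
      by_contra hne
      exact ht.2 (k3 (support_deriv_subset hne))
    rw [this, mul_zero]
  have e2 : ∫ t in Ioo c d, H t * φ t = ∫ t in Ioo a b, H t * φ t := by
    refine setIntegral_eq_of_subset_of_forall_sdiff_eq_zero measurableSet_Ioo hab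
      fun t ht => ?_
    rw [image_eq_zero_of_notMem_tsupport fun hc => ht.2 (k3 hc), mul_zero]
  rw [← e1, ← e2]; exact k4

/-- The second mode: functions orthogonal to the constants and to `cos (t / 2)`. -/
theorem second_mode {F H : ℝ → ℝ} (hF : MemLp F 2 (volume.restrict (Ioo 0 (2 * π))))
    (hH : MemLp H 2 (volume.restrict (Ioo 0 (2 * π))))
    (hw : ∀ φ : ℝ → ℝ, ContDiff ℝ ∞ φ → HasCompactSupport φ → tsupport φ ⊆ Ioo 0 (2 * π) →
      ∫ t in Ioo 0 (2 * π), F t * deriv φ t = - ∫ t in Ioo 0 (2 * π), H t * φ t)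
    (h0 : ∫ t in Ioo 0 (2 * π), F t = 0)
    (h1 : ∫ t in Ioo 0 (2 * π), F t * Real.cos (t / 2) = 0) :
    ∫ t in Ioo 0 (2 * π), F t ^ 2 ≤ (1 + π ^ 2 / 8) * ∫ t in Ioo 0 (2 * π), H t ^ 2 := by
  have hπ := Real.pi_pos
  have f0 := finite_Ioo 0 (2 * π)
  have f1 := finite_Ioo 0 π
  have f2 := finite_Ioo π (2 * π)
  have s1 : Ioo 0 π ⊆ Ioo 0 (2 * π) := Ioo_subset_Ioo_right (by linarith)
  have s2 : Ioo π (2 * π) ⊆ Ioo 0 (2 * π) := Ioo_subset_Ioo_left hπ.le
  have hπ2 : π < 2 * π := by linarith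
  have hF1 : MemLp F 2 (volume.restrict (Ioo 0 π)) :=
    hF.mono_measure (Measure.restrict_mono s1 le_rfl)
  have hF2 : MemLp F 2 (volume.restrict (Ioo π (2 * π))) :=
    hF.mono_measure (Measure.restrict_mono s2 le_rfl)
  have hH1 : MemLp H 2 (volume.restrict (Ioo 0 π)) :=
    hH.mono_measure (Measure.restrict_mono s1 le_rfl)
  have hH2 : MemLp H 2 (volume.restrict (Ioo π (2 * π))) :=
    hH.mono_measure (Measure.restrict_mono s2 le_rfl)
  have p1 := arc_poincare hπ hF1 hH1 (weak_sub hw s1)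
  have p2 := arc_poincare hπ2 hF2 hH2 (weak_sub hw s2)
  have q1 := var_expand hπ hF1 rfl
  have q2 := var_expand hπ2 hF2 rfl
  obtain ⟨m, hm⟩ : ∃ m : ℝ, m = (π - 0)⁻¹ * ∫ t in Ioo 0 π, F t := ⟨_, rfl⟩
  obtain ⟨m', hm'⟩ : ∃ m' : ℝ, m' = (2 * π - π)⁻¹ * ∫ t in Ioo π (2 * π), F t := ⟨_, rfl⟩
  rw [← hm] at p1 q1
  rw [← hm'] at p2 q2
  have e2π : (2 * π - π) = π := by ring
  have eππ : π / π = 1 := div_self hπ.ne'
  rw [sub_zero, eππ, one_pow, one_mul] at p1
  rw [e2π, eππ, one_pow, one_mul] at p2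
  rw [sub_zero] at q1
  rw [e2π] at q2
  have hFi : IntegrableOn F (Ioo 0 (2 * π)) := hF.integrable (by norm_num)
  have hsum := split_pi hFi
  rw [h0] at hsum
  have hmm : m' = -m := by
    rw [hm, hm', e2π, sub_zero]
    have : ∫ t in Ioo π (2 * π), F t = - ∫ t in Ioo 0 π, F t := by linarith
    rw [this]; ring
  rw [hmm] at p2 q2
  have hFc : IntegrableOn (fun t => F t * Real.cos (t / 2)) (Ioo 0 (2 * π)) :=
    hF.integrable_mul (memLp_cos_half _ _)
  have hsumc := split_pi hFc
  rw [h1] at hsumc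
  have c1 := integral_mul_cos_half hπ.le hF1 m
  have c2 := integral_mul_cos_half hπ2.le hF2 (-m)
  have k1 := cs_sq (hF1.sub (memLp_const m)) (memLp_cos_half 0 π)
  have k2 := cs_sq (hF2.sub (memLp_const (-m))) (memLp_cos_half π (2 * π))
  simp only [Pi.sub_apply] at k1 k2
  rw [integral_cos_half_sq_left] at k1
  rw [integral_cos_half_sq_right] at k2
  have v1 : Real.sin (π / 2) = 1 := Real.sin_pi_div_two
  have v2 : Real.sin (2 * π / 2) = 0 := by
    rw [show 2 * π / 2 = π by ring]; exact Real.sin_pi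
  have v3 : Real.sin ((0 : ℝ) / 2) = 0 := by simp
  rw [v1, v3] at c1
  rw [v1, v2] at c2
  rw [split_pi (F := fun t => F t ^ 2) hF.integrable_sq, q1, q2,
    split_pi (F := fun t => H t ^ 2) hH.integrable_sq]
  exact mode_alg p1 p2 k1 k2 (by linarith)

end Vale.Agent.P128
end

section

/-! Flux of the gradient of a minimizer through the arcs of a circle whose points of `K` are joined
in the closed disk. -/

open MeasureTheory Set Metric Filter
open scoped ENNReal NNReal Topology Real ContDiff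

namespace Vale.Agent.P128.Q1

open Vale.Agent.P128

theorem cm_eq' (x : ℂ) (s θ : ℝ) : circleMap x s θ = x + s * uc θ := rfl

theorem periodic_nsl' (G : ℂ → ℂ) (x : ℂ) (s : ℝ) : Function.Periodic (nsl G x s) (2 * π) := by
  intro θ
  unfold nsl
  have h1 : circleMap x s (θ + 2 * π) = circleMap x s θ := periodic_circleMap x s θ
  have h2 : Complex.exp (((θ + 2 * π : ℝ) : ℂ) * Complex.I) = Complex.exp (θ * Complex.I) := by
    have h3 := uc_add θ (2 * π)
    rw [uc_two_pi, mul_one] at h3
    exact h3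
  rw [h1, h2]

/-- The flux through an arc of the complement of `K` in almost every circle, when
`K ∩ closedBall x s` is connected. -/
theorem arc_flux {Ω K : Set ℂ} {g u : ℂ → ℝ} {G : ℂ → ℂ} {M : ℝ}
    (N : Nice Ω g u G K M) {x : ℂ} {R : ℝ} (hR : closedBall x R ⊆ Ω)
    (hub : ∀ z ∈ ball x R, |u z| ≤ M) :
    ∀ᵐ s : ℝ, s ∈ Ioo 0 R → IsPreconnected (K ∩ closedBall x s) →
      ∀ α β : ℝ, α < β → β < α + 2 * π → circleMap x s α ∈ K →
      circleMap x s β ∈ K → (∀ θ ∈ Ioo α β, circleMap x s θ ∉ K) →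
      |∫ θ in α..β, nsl G x s θ| ≤ 2 * M * (π * s ^ 2) := by
  have hπ := Real.pi_pos
  filter_upwards [N.flux_region hR hub, (N.loc hR).ae_nsl, N.ae_finite_sphere x]
    with s hreg hL2 hfs hsR hconn α β hαβ hlt hα hβK hI
  have hs := hsR.1
  have hreg := hreg hsR
  have hn2 := hL2 hs
  have hfinm : IsFiniteMeasure (volume.restrict ang) := ⟨by simp⟩
  have hni : IntegrableOn (nsl G x s) ang := hn2.integrable (by norm_num)
  obtain ⟨γ, hγ⟩ : ∃ γ, γ = β - α := ⟨_, rfl⟩
  have hγ0 : 0 < γ := by rw [hγ]; linarith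
  have hγ1 : γ < 2 * π := by rw [hγ]; linarith
  have hp : ‖uc α‖ = 1 := norm_uc α
  have hpt : ∀ t : ℝ, x + s * (uc α * uc t) = circleMap x s (α + t) := by
    intro t; rw [cm_eq', uc_add]
  have hsph : ∀ θ : ℝ, circleMap x s θ ∈ sphere x s := fun θ => by
    rw [mem_sphere, dist_circleMap_center x hs.le]
  set C : Set ℂ := K ∩ closedBall x s with hC
  have hCc : IsClosed C :=
    (N.min.1.isCompact_inter ((closedBall_subset_closedBall hsR.2.le).trans hR)).isClosed
  have hmC : ∀ θ : ℝ, circleMap x s θ ∈ K → circleMap x s θ ∈ C := fun θ h =>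
    ⟨h, sphere_subset_closedBall (hsph θ)⟩
  obtain ⟨U, hU, hUρ, hUs, hUc, hUt⟩ := exists_region hCc hconn hs le_rfl
    (inter_subset_right : C ⊆ closedBall x s) hp hγ0 hγ1 (x := x)
    (by rw [← cm_eq']; exact hmC _ hα)
    (by rw [hpt, hγ, show α + (β - α) = β by ring]; exact hmC _ hβK)
    (fun t ht => by
      rw [hpt]
      exact fun h => hI _ ⟨by linarith [ht.1], by rw [hγ] at ht; linarith [ht.2]⟩ h.1)
  have hUt' : ∀ t ∈ Ioo 0 γ, ∀ᶠ r in 𝓝[<] s, pol x (uc α) (r, t) ∈ U := by
    rcases hUt with h | h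
    · exact fun t ht => (h t ht).1
    · exfalso
      have h1 := (h (γ / 2) ⟨by linarith, by linarith⟩).2
      have h2 : ∀ᶠ r in 𝓝[>] s, s < r := self_mem_nhdsWithin
      obtain ⟨r, hr1, hr2⟩ := (h1.and h2).exists
      have h3 := hUρ hr1
      rw [mem_closedBall, dist_eq_norm, norm_pol_sub hp (hs.trans hr2).le] at h3
      linarith
  obtain ⟨L, hL⟩ : ∃ L : Set ℂ, L = cArc x s (uc α) γ := ⟨_, rfl⟩
  rw [← hL] at hUs hUc
  have hLc : IsCompact L := hL ▸ isCompact_cArc x s (uc α) γ
  have hLs : L ⊆ sphere x s := hL ▸ cArc_subset_sphere hs.le hp γ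
  have hUb : U ⊆ ball x s := by
    have h1 : U ⊆ interior (closedBall x s) := interior_maximal hUρ hU
    rwa [interior_closedBall x hs.ne'] at h1
  obtain ⟨cL, hcL⟩ : ∃ cL : ℝ → ℝ, cL = fun θ => L.indicator (fun _ => (1 : ℝ))
    (circleMap x s θ) := ⟨_, rfl⟩
  have hK0 : ∀ᵐ θ ∂(volume.restrict ang), circleMap x s θ ∉ K := by
    have h1 : {θ | θ ∈ ang ∧ circleMap x s θ ∈ K}.Finite := by
      refine Finite.of_finite_image (f := circleMap x s) (hfs.subset ?_) ?_
      · rintro _ ⟨θ, hθ, rfl⟩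
        exact ⟨hθ.2, hsph θ⟩
      · intro θ hθ θ' hθ' he
        rw [cm_eq', cm_eq'] at he
        have h2 : uc θ = uc θ' := by
          have h3 := add_left_cancel he
          exact mul_left_cancel₀ (by exact_mod_cast hs.ne') h3
        refine uc_inj h2 ?_
        rw [abs_lt]
        constructor <;> linarith [hθ.1.1, hθ.1.2, hθ'.1.1, hθ'.1.2]
    rw [ae_restrict_iff' measurableSet_Ioo, ae_iff]
    refine measure_mono_null ?_ (h1.measure_zero volume)
    intro θ hθ
    simp only [mem_ofPred_eq, Classical.not_imp, not_not] at hθ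
    exact hθ
  have hin : ∀ᵐ θ ∂(volume.restrict ang), Tendsto
      (fun r => U.indicator (fun _ => (1 : ℝ)) (circleMap x r θ)) (𝓝[<] s) (𝓝 (cL θ)) := by
    filter_upwards [hK0] with θ hθK
    by_cases hθ : circleMap x s θ ∈ L
    · have hθ' := hθ
      rw [hL] at hθ'
      obtain ⟨t, ht, he⟩ := hθ'
      have hu : uc θ = uc α * uc t := by
        rw [cm_eq'] at he
        exact mul_left_cancel₀ (by exact_mod_cast hs.ne') (add_left_cancel he)
      have ht0 : t ≠ 0 := by
        rintro rfl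
        apply hθK
        rw [he, hpt, add_zero]
        exact hα
      have htγ : t ≠ γ := by
        rintro rfl
        apply hθK
        rw [he, hpt, hγ, show α + (β - α) = β by ring]
        exact hβK
      have htI : t ∈ Ioo 0 γ := ⟨lt_of_le_of_ne ht.1 (Ne.symm ht0), lt_of_le_of_ne ht.2 htγ⟩
      have e : cL θ = 1 := by
        rw [hcL]
        simp only
        rw [indicator_of_mem hθ]
      rw [e]
      refine tendsto_const_nhds.congr' ?_
      filter_upwards [hUt' t htI] with r hr'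
      have hr : circleMap x r θ = pol x (uc α) (r, t) := by rw [cm_eq', hu]; rfl
      rw [hr, indicator_of_mem hr']
    · have e : cL θ = 0 := by
        rw [hcL]
        simp only
        rw [indicator_of_notMem hθ]
      rw [e]
      have hnU : circleMap x s θ ∉ U := by
        intro h
        have h1 := hUb h
        have h2 := hsph θ
        rw [mem_ball] at h1
        rw [mem_sphere] at h2
        linarith
      have h1 : circleMap x s θ ∉ closure U := fun h =>
        hnU (hUc _ h fun h2 => h2.elim (fun h3 => hθK h3.1) hθ)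
      have hc : ContinuousAt (fun r : ℝ => circleMap x r θ) s := by
        have : Continuous fun r : ℝ => circleMap x r θ := by
          simp only [cm_eq']
          fun_prop
        exact this.continuousAt
      refine tendsto_const_nhds.congr' ?_
      have h2 : ∀ᶠ r in 𝓝 s, circleMap x r θ ∉ closure U :=
        hc.eventually (isClosed_closure.isOpen_compl.mem_nhds h1)
      filter_upwards [nhdsWithin_le_nhds h2] with r hr
      rw [indicator_of_notMem fun h => hr (subset_closure h)]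
  have hout : ∀ᵐ θ ∂(volume.restrict ang), Tendsto
      (fun r => U.indicator (fun _ => (1 : ℝ)) (circleMap x r θ)) (𝓝[>] s)
      (𝓝 ((fun _ => (0 : ℝ)) θ)) := by
    refine Eventually.of_forall fun θ => tendsto_const_nhds.congr' ?_
    filter_upwards [self_mem_nhdsWithin] with r hrs
    have hrs : s < r := hrs
    rw [indicator_of_notMem]
    intro h
    have := hUb h
    rw [mem_ball, dist_circleMap_center x (hs.trans hrs).le] at this
    linarith
  have hF := hreg U s hU hs.le hsR.2 hUρ (fun z hz hzU hzK => by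
    by_contra hcon
    exact hzU (hUc z hz fun h => h.elim (fun h' => hzK h'.1) fun h' => hcon (hLs h')))
    cL (fun _ => 0) hin hout
  simp only [zero_mul, integral_zero, zero_sub, abs_neg] at hF
  -- shift
  have hper : Function.Periodic (fun θ => cL θ * nsl G x s θ) (2 * π) := by
    intro θ
    rw [hcL]
    simp only
    rw [periodic_nsl' G x s θ, periodic_circleMap x s θ]
  rw [integral_ang_shift hper α] at hF
  have e1 : ∫ t in Ioo 0 (2 * π), cL (α + t) * nsl G x s (α + t) =
      ∫ t in Ioo 0 γ, nsl G x s (α + t) := by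
    have h1 : ∀ t ∈ Ioo 0 (2 * π), cL (α + t) * nsl G x s (α + t) =
        (Ioc 0 γ).indicator (fun t => nsl G x s (α + t)) t := by
      intro t ht
      rw [hcL]
      simp only
      by_cases htγ : t ≤ γ
      · rw [indicator_of_mem (show t ∈ Ioc 0 γ from ⟨ht.1, htγ⟩), indicator_of_mem, one_mul]
        rw [hL]
        exact ⟨t, ⟨ht.1.le, htγ⟩, (hpt t).symm⟩
      · have hnI : t ∉ Ioc 0 γ := fun h => htγ h.2
        suffices hnL : circleMap x s (α + t) ∉ L by
          rw [indicator_of_notMem hnL, indicator_of_notMem hnI, zero_mul]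
        rw [hL]
        rintro ⟨t', ht', he⟩
        rw [hpt, cm_eq', cm_eq'] at he
        have h2 : uc (α + t) = uc (α + t') :=
          mul_left_cancel₀ (by exact_mod_cast hs.ne') (add_left_cancel he)
        have h3 : α + t = α + t' := by
          refine uc_inj h2 ?_
          rw [abs_lt]
          push Not at htγ
          constructor <;> linarith [ht'.1, ht'.2, ht.1, ht.2]
        exact htγ (by linarith [ht'.2])
    have hsub : Ioc 0 γ ⊆ Ioo 0 (2 * π) := fun t ht => ⟨ht.1, lt_of_le_of_lt ht.2 hγ1⟩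
    rw [setIntegral_congr_fun measurableSet_Ioo h1, setIntegral_indicator measurableSet_Ioc,
      inter_eq_self_of_subset_right hsub, integral_Ioc_eq_integral_Ioo]
  rw [e1, ← integral_Ioc_eq_integral_Ioo, ← intervalIntegral.integral_of_le hγ0.le,
    intervalIntegral.integral_comp_add_left (fun θ => nsl G x s θ) α, add_zero, hγ,
    show α + (β - α) = β by ring] at hF
  exact hF

end Vale.Agent.P128.Q1
end
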