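import Vale.Agent.P128.MathlibUsed
import Vale.Agent.P128.Bdl.B5
import Vale.Agent.P128.Bdl.B2
import Vale.Agent.P128.Bdl.B7
import Vale.Agent.P128.Bdl.K_GM_C_Defs
import Vale.Agent.P128.Bdl.B3

set_option linter.all false

section

open MeasureTheory Set Metric Filter InnerProductSpace
open scoped ENNReal NNReal ContDiff Topology Real Manifold

namespace Vale.Agent.P128.GM

open Vale.Agent.P128

variable {u : ℂ → ℝ} {K A : Set ℂ} {η w : ℂ → ℝ} {δ : ℝ}

/-- a cut-off around an isolated compact piece `A` of `K` -/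
structure Piece (K A : Set ℂ) (η : ℂ → ℝ) (δ : ℝ) : Prop where
  cpt : IsCompact A
  sub : A ⊆ K
  out : IsClosed (K \ A)
  pos : 0 < δ
  smooth : ContDiff ℝ ∞ η
  supp : HasCompactSupport η
  one : ∀ z ∈ cthickening (2 * δ) A, η z = 1
  zero : ∀ z ∈ cthickening (2 * δ) (K \ A), η z = 0

theorem exists_piece (hA : IsCompact A) (hAK : A ⊆ K) (ho : IsClosed (K \ A)) :
    ∃ η δ, Piece K A η δ := by
  obtain ⟨δ₀, hδ₀, hd⟩ := disjoint_sdiff_right.exists_cthickenings hA ho
  obtain ⟨R, hR⟩ := (hA.cthickening (r := δ₀)).isBounded.subset_ball 0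
  set T : Set ℂ := cthickening δ₀ (K \ A) ∪ (ball 0 R)ᶜ with hT
  have hTc : IsClosed T := isClosed_cthickening.union isOpen_ball.isClosed_compl
  have hdis : Disjoint T (cthickening δ₀ A) := by
    rw [hT, disjoint_union_left]
    exact ⟨hd.symm, disjoint_compl_left_iff_subset.2 hR⟩
  obtain ⟨f, hf0, hf1, hf⟩ := exists_contMDiffMap_zero_one_of_isClosed (n := (⊤ : ℕ∞)) 𝓘(ℝ, ℂ) hTc
    isClosed_cthickening hdis
  refine ⟨f, δ₀ / 2, hA, hAK, ho, by positivity, f.contMDiff.contDiff, ?_, ?_, ?_⟩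
  · refine HasCompactSupport.intro (isCompact_closedBall (0 : ℂ) R) fun z hz => ?_
    refine hf0 (Or.inr fun h => hz (ball_subset_closedBall h))
  · intro z hz
    rw [mul_div_cancel₀ _ (two_ne_zero)] at hz
    exact hf1 hz
  · intro z hz
    rw [mul_div_cancel₀ _ (two_ne_zero)] at hz
    exact hf0 (Or.inl hz)

/-- the source `s = Δ(ηu)` (off `A`) -/
noncomputable def src (u η : ℂ → ℝ) (z : ℂ) : ℝ :=
  2 * inner ℝ (grad u z) (grad η z) + u z * lap η z

theorem lap_congr {f g : ℂ → ℝ} {z : ℂ} (h : f =ᶠ[𝓝 z] g) : lap f z = lap g z := by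
  unfold lap
  have h1 : ∀ v : ℂ, (fun w => fderiv ℝ f w v) =ᶠ[𝓝 z] fun w => fderiv ℝ g w v := fun v => by
    filter_upwards [h.fderiv (𝕜 := ℝ)] with w hw; rw [hw]
  rw [(h1 1).fderiv_eq, (h1 Complex.I).fderiv_eq]

theorem lap_const (c : ℝ) (z : ℂ) : lap (fun _ => c) z = 0 := by
  unfold lap; simp only [fderiv_fun_const, Pi.zero_apply, zero_apply, add_zero]

theorem continuous_lap {f : ℂ → ℝ} (hf : ContDiff ℝ ∞ f) : Continuous (lap f) :=
  ((contDiff_fderiv_apply (contDiff_fderiv_apply hf 1) 1).continuous).add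
    ((contDiff_fderiv_apply (contDiff_fderiv_apply hf Complex.I) Complex.I).continuous)

theorem contDiff_lap {f : ℂ → ℝ} (hf : ContDiff ℝ ∞ f) : ContDiff ℝ ∞ (lap f) :=
  (contDiff_fderiv_apply (contDiff_fderiv_apply hf 1) 1).add
    (contDiff_fderiv_apply (contDiff_fderiv_apply hf Complex.I) Complex.I)

/-- near a point of `cthickening`, the function is constant, hence gradient and Laplacian vanish. -/
theorem flat_of_thick {E : Set ℂ} {c : ℝ} (hδ : 0 < δ) (hη : ContDiff ℝ ∞ η)
    (h : ∀ z ∈ cthickening (2 * δ) E, η z = c) {z : ℂ} (hz : z ∈ cthickening (2 * δ) E) :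
    grad η z = 0 ∧ lap η z = 0 := by
  have h1 : ∀ z ∈ thickening (2 * δ) E, grad η z = 0 ∧ lap η z = 0 := by
    intro z hz
    have he : η =ᶠ[𝓝 z] fun _ => c := by
      filter_upwards [isOpen_thickening.mem_nhds hz] with w hw
      exact h w (thickening_subset_cthickening _ _ hw)
    rw [grad_congr he, lap_congr he]
    exact ⟨grad_const c z, lap_const c z⟩
  have hcl : IsClosed {z : ℂ | grad η z = 0 ∧ lap η z = 0} :=
    (isClosed_eq (continuous_grad hη) continuous_const).inter
      (isClosed_eq (continuous_lap hη) continuous_const)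
  have h2 : closure (thickening (2 * δ) E) ⊆ {z : ℂ | grad η z = 0 ∧ lap η z = 0} :=
    hcl.closure_subset_iff.2 h1
  rw [closure_thickening (by positivity)] at h2
  exact h2 hz

theorem src_near (P : Piece K A η δ) {z : ℂ} (hz : z ∈ cthickening (2 * δ) A) :
    src u η z = 0 := by
  obtain ⟨h1, h2⟩ := flat_of_thick P.pos P.smooth P.one hz
  simp only [src, h1, inner_zero_right, mul_zero, h2, add_zero]

theorem src_near' (P : Piece K A η δ) {z : ℂ} (hz : z ∈ cthickening (2 * δ) (K \ A)) :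
    src u η z = 0 := by
  obtain ⟨h1, h2⟩ := flat_of_thick P.pos P.smooth P.zero hz
  simp [src, h1, h2]

theorem src_supp (P : Piece K A η δ) : HasCompactSupport (src u η) := by
  refine HasCompactSupport.intro P.supp.isCompact fun z hz => ?_
  have he : η =ᶠ[𝓝 z] fun _ => 0 := notMem_tsupport_iff_eventuallyEq.1 hz
  simp only [src, grad_congr he, grad_const, inner_zero_right, mul_zero, lap_congr he, lap_const, add_zero]

theorem thick_mem_nhds {E : Set ℂ} (hδ : 0 < δ) {z : ℂ} (hz : z ∈ E) :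
    cthickening (2 * δ) E ∈ 𝓝 z :=
  mem_of_superset (isOpen_thickening.mem_nhds (self_subset_thickening (by positivity) E hz))
    (thickening_subset_cthickening _ _)

theorem contDiffAt_fderiv_apply {f : ℂ → ℝ} {z : ℂ} (hf : ContDiffAt ℝ ∞ f z) (v : ℂ) :
    ContDiffAt ℝ ∞ (fun z => fderiv ℝ f z v) z :=
  (hf.fderiv_right (m := ∞) (by simp)).clm_apply contDiffAt_const

theorem contDiffAt_of_notMem (h : GMin u K) {z : ℂ} (hz : z ∉ K) : ContDiffAt ℝ ∞ u z :=
  (HarmonicOnNhd.smooth h.harm).contDiffAt (h.gm.closed.isOpen_compl.mem_nhds hz)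

theorem src_smooth (h : GMin u K) (P : Piece K A η δ) : ContDiff ℝ ∞ (src u η) := by
  rw [contDiff_iff_contDiffAt]
  intro z
  by_cases hz : z ∈ K
  · by_cases hzA : z ∈ A
    · refine contDiffAt_const.congr_of_eventuallyEq (f₁ := src u η) (f := fun _ => (0 : ℝ)) ?_
      filter_upwards [thick_mem_nhds P.pos hzA] with w hw
      exact src_near P hw
    · refine contDiffAt_const.congr_of_eventuallyEq (f₁ := src u η) (f := fun _ => (0 : ℝ)) ?_
      filter_upwards [thick_mem_nhds P.pos (show z ∈ K \ A from ⟨hz, hzA⟩)] with w hw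
      exact src_near' P hw
  · have hu := contDiffAt_of_notMem h hz
    have e : src u η = fun z => 2 * (fderiv ℝ u z 1 * fderiv ℝ η z 1 +
        fderiv ℝ u z Complex.I * fderiv ℝ η z Complex.I) + u z * lap η z := by
      funext z
      simp only [src, inner_eq, grad_re, grad_im]
    rw [e]
    exact (contDiffAt_const.mul (((contDiffAt_fderiv_apply hu 1).mul
      (contDiff_fderiv_apply P.smooth 1).contDiffAt).add ((contDiffAt_fderiv_apply hu Complex.I).mul
      (contDiff_fderiv_apply P.smooth Complex.I).contDiffAt))).add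
      (hu.mul (contDiff_lap P.smooth).contDiffAt)

theorem b_smooth (h : GMin u K) (P : Piece K A η δ) :
    ContDiffOn ℝ ∞ (fun z => η z * u z) Aᶜ := by
  intro z hz
  refine ContDiffAt.contDiffWithinAt ?_
  by_cases hzK : z ∈ K
  · refine contDiffAt_const.congr_of_eventuallyEq (f := fun _ => (0 : ℝ)) ?_
    filter_upwards [thick_mem_nhds P.pos (show z ∈ K \ A from ⟨hzK, hz⟩)] with w hw
    rw [P.zero w hw, zero_mul]
  · exact P.smooth.contDiffAt.mul (contDiffAt_of_notMem h hzK)

theorem a_smooth (h : GMin u K) (P : Piece K A η δ) :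
    ContDiffOn ℝ ∞ (fun z => (1 - η z) * u z) (K \ A)ᶜ := by
  intro z hz
  refine ContDiffAt.contDiffWithinAt ?_
  by_cases hzK : z ∈ K
  · have hzA : z ∈ A := by by_contra hA; exact hz ⟨hzK, hA⟩
    refine contDiffAt_const.congr_of_eventuallyEq (f := fun _ => (0 : ℝ)) ?_
    filter_upwards [thick_mem_nhds P.pos hzA] with w hw
    rw [P.one w hw, sub_self, zero_mul]
  · exact (contDiffAt_const.sub P.smooth.contDiffAt).mul (contDiffAt_of_notMem h hzK)

theorem lap_mul {f g : ℂ → ℝ} {z : ℂ} (hf : ContDiffAt ℝ 2 f z) (hg : ContDiffAt ℝ 2 g z) :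
    lap (fun z => f z * g z) z =
      lap f z * g z + 2 * inner ℝ (grad f z) (grad g z) + f z * lap g z := by
  have key : ∀ v : ℂ, fderiv ℝ (fun w => fderiv ℝ (fun z => f z * g z) w v) z v =
      fderiv ℝ (fun w => fderiv ℝ f w v) z v * g z + 2 * (fderiv ℝ f z v * fderiv ℝ g z v)
        + f z * fderiv ℝ (fun w => fderiv ℝ g w v) z v := by
    intro v
    have h1 : ∀ᶠ w in 𝓝 z, fderiv ℝ (fun z => f z * g z) w v =
        f w * fderiv ℝ g w v + g w * fderiv ℝ f w v := by
      filter_upwards [hf.eventually (by simp), hg.eventually (by simp)] with w hw hw'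
      have := fderiv_fun_mul (hw.differentiableAt (by norm_num)) (hw'.differentiableAt (by norm_num))
      rw [this]
      simp only [add_apply, smul_apply, smul_eq_mul]
    have hf1 : DifferentiableAt ℝ (fun w => fderiv ℝ f w v) z :=
      ((hf.fderiv_right (m := 1) (by norm_num)).clm_apply contDiffAt_const).differentiableAt
        (by norm_num)
    have hg1 : DifferentiableAt ℝ (fun w => fderiv ℝ g w v) z :=
      ((hg.fderiv_right (m := 1) (by norm_num)).clm_apply contDiffAt_const).differentiableAt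
        (by norm_num)
    have hf0 := hf.differentiableAt (by norm_num)
    have hg0 := hg.differentiableAt (by norm_num)
    rw [Filter.EventuallyEq.fderiv_eq h1]
    have e1 : DifferentiableAt ℝ (fun x => f x * fderiv ℝ g x v) z := hf0.mul hg1
    have e2 : DifferentiableAt ℝ (fun x => g x * fderiv ℝ f x v) z := hg0.mul hf1
    rw [fderiv_fun_add e1 e2, fderiv_fun_mul hf0 hg1, fderiv_fun_mul hg0 hf1]
    simp only [add_apply, smul_apply, smul_eq_mul]
    ring
  unfold lap
  rw [key 1, key Complex.I, inner_eq]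
  simp only [grad_re, grad_im]
  ring

theorem two_le_infty : (2 : WithTop ℕ∞) ≤ ((⊤ : ℕ∞) : WithTop ℕ∞) :=
  WithTop.coe_le_coe.2 (le_top : (2 : ℕ∞) ≤ ⊤)

theorem fderiv_one_sub (η : ℂ → ℝ) (w : ℂ) :
    fderiv ℝ (fun z => 1 - η z) w = - fderiv ℝ η w := fderiv_const_sub 1

theorem lap_b (h : GMin u K) (P : Piece K A η δ) {z : ℂ} (hz : z ∉ A) :
    lap (fun z => η z * u z) z = src u η z := by
  by_cases hzK : z ∈ K
  · have he : (fun z => η z * u z) =ᶠ[𝓝 z] fun _ => 0 := by
      filter_upwards [thick_mem_nhds P.pos (show z ∈ K \ A from ⟨hzK, hz⟩)] with w hw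
      rw [P.zero w hw, zero_mul]
    rw [lap_congr he, lap_const, src_near' P (self_subset_cthickening _ ⟨hzK, hz⟩)]
  · have hu := contDiffAt_of_notMem h hzK
    rw [lap_mul (P.smooth.contDiffAt.of_le two_le_infty) (hu.of_le two_le_infty),
      HarmonicOnNhd.lap_eq h.harm hzK, src, real_inner_comm]
    ring

theorem lap_a (h : GMin u K) (P : Piece K A η δ) {z : ℂ} (hz : z ∉ K \ A) :
    lap (fun z => (1 - η z) * u z) z = - src u η z := by
  by_cases hzK : z ∈ K
  · have hzA : z ∈ A := by by_contra hA; exact hz ⟨hzK, hA⟩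
    have he : (fun z => (1 - η z) * u z) =ᶠ[𝓝 z] fun _ => 0 := by
      filter_upwards [thick_mem_nhds P.pos hzA] with w hw
      rw [P.one w hw, sub_self, zero_mul]
    rw [lap_congr he, lap_const, src_near P (self_subset_cthickening _ hzA), neg_zero]
  · have hu := contDiffAt_of_notMem h hzK
    have h1 : ContDiffAt ℝ 2 (fun z => 1 - η z) z :=
      (contDiffAt_const.sub P.smooth.contDiffAt).of_le two_le_infty
    have e1 : ∀ w, grad (fun z => 1 - η z) w = - grad η w := by
      intro w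
      apply Complex.ext <;> simp only [grad, fderiv_one_sub] <;> simp
    have e2 : lap (fun z => 1 - η z) z = - lap η z := by
      unfold lap
      have : ∀ v : ℂ, (fun w => fderiv ℝ (fun z => 1 - η z) w v) = fun w => - fderiv ℝ η w v := by
        intro v; funext w; rw [fderiv_one_sub]; simp
      rw [this, this, fderiv_fun_neg, fderiv_fun_neg]
      simp only [neg_apply, neg_add_rev]
      ring
    rw [lap_mul h1 (hu.of_le two_le_infty), HarmonicOnNhd.lap_eq h.harm hzK, src, e1, e2,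
      inner_neg_left, real_inner_comm]
    ring

end Vale.Agent.P128.GM
end

section

/-! The two pieces of `u` tested against smooth functions. -/

open MeasureTheory Set Metric Filter InnerProductSpace
open scoped ENNReal NNReal ContDiff Topology Real Manifold

namespace Vale.Agent.P128.GM

open Vale.Agent.P128

variable {u : ℂ → ℝ} {K A : Set ℂ} {η w : ℂ → ℝ} {δ : ℝ}

theorem integrable_inner_of {μ : Measure ℂ} {F G : ℂ → ℂ} (hF : Measurable F) (hG : Measurable G)
    (h1 : Integrable (fun z => ‖F z‖ ^ 2) μ) (h2 : Integrable (fun z => ‖G z‖ ^ 2) μ) :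
    Integrable (fun z => (inner ℝ (F z) (G z) : ℝ)) μ := by
  refine Integrable.mono' (h1.add h2) (hF.inner hG).aestronglyMeasurable ?_
  refine Eventually.of_forall fun z => ?_
  have := abs_real_inner_le_norm (F z) (G z)
  simp only [Pi.add_apply, Real.norm_eq_abs]
  nlinarith [norm_nonneg (F z), norm_nonneg (G z), sq_nonneg (‖F z‖ - ‖G z‖)]

theorem integrable_grad_sq_cc {c : ℂ → ℝ} (hc : ContDiff ℝ ∞ c) (hcc : HasCompactSupport c) :
    Integrable (fun z => ‖grad c z‖ ^ 2) := by
  have h1 : Continuous fun z => ‖grad c z‖ ^ 2 := (continuous_grad hc).norm.pow 2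
  refine h1.integrable_of_hasCompactSupport (HasCompactSupport.intro hcc fun z hz => ?_)
  rw [grad_eq_zero_of_notMem hz]; simp

theorem GMin.integrable_inner (h : GMin u K) {G : ℂ → ℂ} (hG : Continuous G)
    (hc : HasCompactSupport G) : Integrable (fun z => (inner ℝ (grad u z) (G z) : ℝ)) := by
  obtain ⟨R, hR⟩ := hc.isCompact.isBounded.subset_ball (0 : ℂ)
  have h2 : Integrable (fun z => ‖G z‖ ^ 2) :=
    (hG.norm.pow 2).integrable_of_hasCompactSupport
      (HasCompactSupport.intro hc fun z hz => by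
        simp [image_eq_zero_of_notMem_tsupport hz])
  have h3 := integrable_inner_of (μ := volume.restrict (ball (0 : ℂ) R)) (measurable_grad u)
    hG.measurable (h.integrableOn R) h2.integrableOn
  refine (integrableOn_iff_integrable_of_support_subset ?_).1 h3
  intro z hz
  apply hR
  by_contra hh
  apply hz
  simp only
  rw [image_eq_zero_of_notMem_tsupport hh, inner_zero_right]

theorem fderiv_eq_zero_nhds (P : Piece K A η δ) {z : ℂ} (hz : z ∈ K) :
    ∀ᶠ y in 𝓝 z, fderiv ℝ η y = 0 := by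
  by_cases hA : z ∈ A
  · have h1 : z ∈ thickening (2 * δ) A := self_subset_thickening (by linarith [P.pos]) A hA
    have h2 : η =ᶠ[𝓝 z] fun _ => 1 := by
      filter_upwards [isOpen_thickening.mem_nhds h1] with y hy
      exact P.one y (thickening_subset_cthickening _ _ hy)
    filter_upwards [h2.fderiv (𝕜 := ℝ)] with y hy
    rw [hy]; simp
  · have h1 : z ∈ thickening (2 * δ) (K \ A) :=
      self_subset_thickening (by linarith [P.pos]) _ ⟨hz, hA⟩
    have h2 : η =ᶠ[𝓝 z] fun _ => 0 := by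
      filter_upwards [isOpen_thickening.mem_nhds h1] with y hy
      exact P.zero y (thickening_subset_cthickening _ _ hy)
    filter_upwards [h2.fderiv (𝕜 := ℝ)] with y hy
    rw [hy]; simp

theorem u_deta_smooth (h : GMin u K) (P : Piece K A η δ) (v : ℂ) :
    ContDiff ℝ ∞ fun z => u z * fderiv ℝ η z v := by
  rw [contDiff_iff_contDiffAt]
  intro z
  by_cases hz : z ∈ K
  · refine (contDiffAt_const (c := (0 : ℝ))).congr_of_eventuallyEq ?_
    filter_upwards [fderiv_eq_zero_nhds P hz] with y hy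
    rw [hy]; simp
  · exact (contDiffAt_of_notMem h hz).mul (contDiff_fderiv_apply P.smooth v).contDiffAt

theorem inner_grad_grad (f g : ℂ → ℝ) (z : ℂ) : inner ℝ (grad f z) (grad g z) =
    fderiv ℝ f z 1 * fderiv ℝ g z 1 + fderiv ℝ f z Complex.I * fderiv ℝ g z Complex.I := by
  rw [inner_eq]; rfl

theorem test_b (h : GMin u K) (P : Piece K A η δ) {φ : ℂ → ℝ} (h1 : ContDiff ℝ ∞ φ)
    (h2 : HasCompactSupport φ) :
    ∫ z, inner ℝ (grad (fun z => η z * u z) z) (grad φ z) = - ∫ z, src u η z * φ z := by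
  have hηφ : ContDiff ℝ ∞ fun z => η z * φ z := P.smooth.mul h1
  have hηφc : HasCompactSupport fun z => η z * φ z := h2.mul_left
  have hKo : IsOpen Kᶜ := h.gm.closed.isOpen_compl
  -- Euler-Lagrange
  have hel : ∫ z, inner ℝ (grad u z) (grad (fun z => η z * φ z) z) = 0 := by
    refine h.el (LocLip.of_contDiff hηφ hKo) ?_ ?_
    · obtain ⟨R, hR⟩ := hηφc.isCompact.isBounded.subset_ball (0 : ℂ)
      refine ⟨R, fun z _ hz => image_eq_zero_of_notMem_tsupport (f := fun z => η z * φ z) ?_⟩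
      intro hh
      have := hR hh
      rw [mem_ball, dist_zero_right] at this
      linarith
    · exact integrable_grad_sq_cc hηφ hηφc
  -- integration by parts
  have hp : ∀ v : ℂ, ∫ z, (u z * fderiv ℝ η z v) * fderiv ℝ φ z v
      = - ∫ z, fderiv ℝ (fun z => u z * fderiv ℝ η z v) z v * φ z := fun v =>
    ibp ((u_deta_smooth h P v).of_le (by simp)) (h1.of_le (by simp)) h2 v
  have cE : ∀ v : ℂ, Continuous fun z => u z * fderiv ℝ η z v := fun v =>
    (u_deta_smooth h P v).continuous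
  have cE' : ∀ v : ℂ, Continuous fun z => fderiv ℝ (fun z => u z * fderiv ℝ η z v) z v := fun v =>
    (contDiff_fderiv_apply (u_deta_smooth h P v) v).continuous
  have cφ : ∀ v : ℂ, Continuous fun z => fderiv ℝ φ z v := fun v =>
    (contDiff_fderiv_apply h1 v).continuous
  have i1 : ∀ v : ℂ, Integrable fun z => (u z * fderiv ℝ η z v) * fderiv ℝ φ z v := fun v =>
    ((cE v).mul (cφ v)).integrable_of_hasCompactSupport
      (hasCompactSupport_fderiv_apply h2 v).mul_left
  have i2 : ∀ v : ℂ, Integrable fun z =>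
      fderiv ℝ (fun z => u z * fderiv ℝ η z v) z v * φ z := fun v =>
    ((cE' v).mul h1.continuous).integrable_of_hasCompactSupport h2.mul_left
  have i3 : Integrable fun z => (inner ℝ (grad u z) (grad (fun z => η z * φ z) z) : ℝ) :=
    h.integrable_inner (continuous_grad hηφ)
      (HasCompactSupport.intro hηφc fun z hz => grad_eq_zero_of_notMem hz)
  have i4 : Integrable fun z => (inner ℝ (grad u z) (φ z • grad η z) : ℝ) :=
    h.integrable_inner (h1.continuous.smul (continuous_grad P.smooth))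
      (HasCompactSupport.intro h2 fun z hz => by
        rw [image_eq_zero_of_notMem_tsupport hz, zero_smul])
  have hae : ∀ᵐ z : ℂ, z ∉ K := h.ae_compl
  have e1 : ∫ z, inner ℝ (grad (fun z => η z * u z) z) (grad φ z)
      = ∫ z, ((inner ℝ (grad u z) (grad (fun z => η z * φ z) z) : ℝ)
        - inner ℝ (grad u z) (φ z • grad η z)
        + ((u z * fderiv ℝ η z 1) * fderiv ℝ φ z 1
          + (u z * fderiv ℝ η z Complex.I) * fderiv ℝ φ z Complex.I)) := by
    refine integral_congr_ae ?_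
    filter_upwards [hae] with z hz
    have du : DifferentiableAt ℝ u z := (contDiffAt_of_notMem h hz).differentiableAt (by simp)
    have dη : DifferentiableAt ℝ η z := P.smooth.differentiable (by simp) z
    have dφ : DifferentiableAt ℝ φ z := h1.differentiable (by simp) z
    rw [grad_mul dη du, grad_mul dη dφ]
    simp only [inner_add_left, inner_add_right, inner_smul_left, inner_smul_right, conj_trivial]
    rw [inner_grad_grad η φ]
    ring
  have e2 : ∫ z, src u η z * φ z
      = ∫ z, ((inner ℝ (grad u z) (φ z • grad η z) : ℝ)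
        + (fderiv ℝ (fun z => u z * fderiv ℝ η z 1) z 1 * φ z
          + fderiv ℝ (fun z => u z * fderiv ℝ η z Complex.I) z Complex.I * φ z)) := by
    refine integral_congr_ae ?_
    filter_upwards [hae] with z hz
    have du : DifferentiableAt ℝ u z := (contDiffAt_of_notMem h hz).differentiableAt (by simp)
    have dη : ∀ v : ℂ, DifferentiableAt ℝ (fun z => fderiv ℝ η z v) z := fun v =>
      (contDiff_fderiv_apply P.smooth v).differentiable (by simp) z
    rw [fderiv_fun_mul du (dη 1), fderiv_fun_mul du (dη Complex.I), inner_smul_right, src,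
      inner_grad_grad u η, lap]
    simp only [add_apply, smul_apply, smul_eq_mul]
    ring
  have j1 : Integrable fun z => (inner ℝ (grad u z) (grad (fun z => η z * φ z) z) : ℝ)
      - inner ℝ (grad u z) (φ z • grad η z) := i3.sub i4
  have j2 : Integrable fun z => (u z * fderiv ℝ η z 1) * fderiv ℝ φ z 1
      + (u z * fderiv ℝ η z Complex.I) * fderiv ℝ φ z Complex.I := (i1 1).add (i1 Complex.I)
  have j3 : Integrable fun z => fderiv ℝ (fun z => u z * fderiv ℝ η z 1) z 1 * φ z
      + fderiv ℝ (fun z => u z * fderiv ℝ η z Complex.I) z Complex.I * φ z :=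
    (i2 1).add (i2 Complex.I)
  rw [e1, e2, integral_add j1 j2, integral_sub i3 i4, integral_add (i1 1) (i1 Complex.I),
    integral_add i4 j3, integral_add (i2 1) (i2 Complex.I), hel, hp 1, hp Complex.I]
  ring

theorem test_a (h : GMin u K) (P : Piece K A η δ) {φ : ℂ → ℝ} (h1 : ContDiff ℝ ∞ φ)
    (h2 : HasCompactSupport φ) :
    ∫ z, inner ℝ (grad (fun z => (1 - η z) * u z) z) (grad φ z) = ∫ z, src u η z * φ z := by
  have hKo : IsOpen Kᶜ := h.gm.closed.isOpen_compl
  have hel : ∫ z, inner ℝ (grad u z) (grad φ z) = 0 := by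
    refine h.el (LocLip.of_contDiff h1 hKo) ?_ ?_
    · obtain ⟨R, hR⟩ := h2.isCompact.isBounded.subset_ball (0 : ℂ)
      refine ⟨R, fun z _ hz => image_eq_zero_of_notMem_tsupport ?_⟩
      intro hh
      have := hR hh
      rw [mem_ball, dist_zero_right] at this
      linarith
    · exact integrable_grad_sq_cc h1 h2
  have hae : ∀ᵐ z : ℂ, z ∉ K := h.ae_compl
  have i3 : Integrable fun z => (inner ℝ (grad u z) (grad φ z) : ℝ) :=
    h.integrable_inner (continuous_grad h1)
      (HasCompactSupport.intro h2 fun z hz => grad_eq_zero_of_notMem hz)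
  have i4 : Integrable fun z => (inner ℝ (grad u z) (η z • grad φ z) : ℝ) :=
    h.integrable_inner (P.smooth.continuous.smul (continuous_grad h1))
      (HasCompactSupport.intro h2 fun z hz => by
        rw [grad_eq_zero_of_notMem hz, smul_zero])
  have i5 : Integrable fun z =>
      (inner ℝ (grad (fun z => η z * u z) z) (grad φ z) : ℝ) := by
    have cE : ∀ v : ℂ, Continuous fun z => u z * fderiv ℝ η z v := fun v =>
      (u_deta_smooth h P v).continuous
    have cφ : ∀ v : ℂ, Continuous fun z => fderiv ℝ φ z v := fun v =>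
      (contDiff_fderiv_apply h1 v).continuous
    have i1 : ∀ v : ℂ, Integrable fun z => (u z * fderiv ℝ η z v) * fderiv ℝ φ z v := fun v =>
      ((cE v).mul (cφ v)).integrable_of_hasCompactSupport
        (hasCompactSupport_fderiv_apply h2 v).mul_left
    refine (i4.add ((i1 1).add (i1 Complex.I))).congr ?_
    filter_upwards [hae] with z hz
    have du : DifferentiableAt ℝ u z := (contDiffAt_of_notMem h hz).differentiableAt (by simp)
    have dη : DifferentiableAt ℝ η z := P.smooth.differentiable (by simp) z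
    rw [grad_mul dη du]
    simp only [Pi.add_apply, inner_add_left, inner_smul_left, inner_smul_right, conj_trivial]
    rw [inner_grad_grad η φ]
    ring
  have e1 : ∫ z, inner ℝ (grad (fun z => (1 - η z) * u z) z) (grad φ z)
      = ∫ z, ((inner ℝ (grad u z) (grad φ z) : ℝ)
        - inner ℝ (grad (fun z => η z * u z) z) (grad φ z)) := by
    refine integral_congr_ae ?_
    filter_upwards [hae] with z hz
    have du : DifferentiableAt ℝ u z := (contDiffAt_of_notMem h hz).differentiableAt (by simp)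
    have dη : DifferentiableAt ℝ η z := P.smooth.differentiable (by simp) z
    have d1 : DifferentiableAt ℝ (fun z => η z * u z) z := dη.mul du
    have : (fun z => (1 - η z) * u z) = fun z => u z - η z * u z := by funext y; ring
    rw [this, grad_sub du d1, inner_sub_left]
  rw [e1, integral_sub i3 i5, hel, test_b h P h1 h2]
  ring

end Vale.Agent.P128.GM
end

section

open MeasureTheory Set Metric Filter InnerProductSpace
open scoped ENNReal NNReal ContDiff Topology Real

namespace Vale.Agent.P128.GM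

open Vale.Agent.P128

/-- A fixed smooth bump. -/
noncomputable def cutB : ContDiffBump (0 : ℂ) := ⟨1, 3 / 2, by norm_num, by norm_num⟩

/-- The bump at scale `s`. -/
noncomputable def cutS (s : ℝ) (z : ℂ) : ℝ := cutB (s⁻¹ • z)

theorem contDiff_cutS (s : ℝ) : ContDiff ℝ ∞ (cutS s) := by
  unfold cutS
  exact cutB.contDiff.comp (contDiff_const_smul _)

theorem cutS_nonneg (s : ℝ) (z : ℂ) : 0 ≤ cutS s z := cutB.nonneg

theorem cutS_le_one (s : ℝ) (z : ℂ) : cutS s z ≤ 1 := cutB.le_one

theorem cutS_eq_one {s : ℝ} (hs : 0 < s) {z : ℂ} (hz : ‖z‖ ≤ s) : cutS s z = 1 := by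
  refine cutB.one_of_mem_closedBall ?_
  rw [mem_closedBall_zero_iff, norm_smul, norm_inv, Real.norm_eq_abs, abs_of_pos hs]
  show s⁻¹ * ‖z‖ ≤ 1
  rw [inv_mul_le_iff₀ hs]
  simpa using hz

theorem cutS_eq_zero {s : ℝ} (hs : 0 < s) {z : ℂ} (hz : 3 / 2 * s ≤ ‖z‖) : cutS s z = 0 := by
  refine cutB.zero_of_le_dist ?_
  rw [dist_zero_right, norm_smul, norm_inv, Real.norm_eq_abs, abs_of_pos hs]
  show (3 / 2 : ℝ) ≤ s⁻¹ * ‖z‖
  rw [le_inv_mul_iff₀ hs]
  linarith

theorem grad_cutS_eq_zero_of_lt {s : ℝ} (hs : 0 < s) {z : ℂ} (hz : ‖z‖ < s) :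
    grad (cutS s) z = 0 := by
  have h1 : cutS s =ᶠ[𝓝 z] fun _ => 1 := by
    filter_upwards [isOpen_ball.mem_nhds (mem_ball_zero_iff.2 hz)] with w hw
    exact cutS_eq_one hs (mem_ball_zero_iff.1 hw).le
  have h2 : fderiv ℝ (cutS s) z = 0 := by
    rw [h1.fderiv_eq]; simp
  simp [grad, h2, Complex.ext_iff]

theorem grad_cutS_eq_zero_of_gt {s : ℝ} (hs : 0 < s) {z : ℂ} (hz : 3 / 2 * s < ‖z‖) :
    grad (cutS s) z = 0 := by
  have h1 : cutS s =ᶠ[𝓝 z] fun _ => 0 := by
    filter_upwards [(isOpen_lt continuous_const continuous_norm).mem_nhds hz] with w hw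
    exact cutS_eq_zero hs (le_of_lt hw)
  have h2 : fderiv ℝ (cutS s) z = 0 := by
    rw [h1.fderiv_eq]; simp
  simp [grad, h2, Complex.ext_iff]

theorem hasCompactSupport_cutS {s : ℝ} (hs : 0 < s) : HasCompactSupport (cutS s) := by
  refine HasCompactSupport.intro (isCompact_closedBall (0 : ℂ) (3 / 2 * s)) fun z hz => ?_
  refine cutS_eq_zero hs ?_
  rw [mem_closedBall_zero_iff, not_le] at hz
  exact hz.le

theorem grad_cutS (s : ℝ) (z : ℂ) :
    grad (cutS s) z = s⁻¹ • grad (cutB : ℂ → ℝ) (s⁻¹ • z) := by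
  have hd : DifferentiableAt ℝ (cutB : ℂ → ℝ) (s⁻¹ • z) :=
    (cutB.contDiff (n := 1)).differentiable (by simp) _
  have h1 : HasFDerivAt (cutS s)
      ((fderiv ℝ (cutB : ℂ → ℝ) (s⁻¹ • z)).comp (s⁻¹ • ContinuousLinearMap.id ℝ ℂ)) z :=
    hd.hasFDerivAt.comp z ((hasFDerivAt_id z).const_smul s⁻¹)
  have h2 := h1.fderiv
  simp only [grad, h2]
  apply Complex.ext <;> simp

/-- The energy of the bump. -/
noncomputable def cutE : ℝ := ∫ z : ℂ, ‖grad (cutB : ℂ → ℝ) z‖ ^ 2

theorem cutE_nonneg : 0 ≤ cutE := integral_nonneg fun _ => by positivity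

theorem integral_grad_cutS {s : ℝ} (hs : 0 < s) :
    ∫ z, ‖grad (cutS s) z‖ ^ 2 = cutE := by
  have h1 : ∀ z, ‖grad (cutS s) z‖ ^ 2 = s⁻¹ ^ 2 * ‖grad (cutB : ℂ → ℝ) (s⁻¹ • z)‖ ^ 2 := by
    intro z
    rw [grad_cutS, norm_smul, mul_pow, Real.norm_eq_abs, sq_abs]
  simp only [h1]
  rw [integral_const_mul,
    Measure.integral_comp_smul (μ := (volume : Measure ℂ))
      (fun z => ‖grad (cutB : ℂ → ℝ) z‖ ^ 2) s⁻¹]
  rw [Complex.finrank_real_complex, smul_eq_mul, ← mul_assoc]
  have : s⁻¹ ^ 2 * |(s⁻¹ ^ 2)⁻¹| = 1 := by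
    rw [abs_of_pos (by positivity)]
    field_simp
  rw [this, one_mul]
  rfl

theorem integrable_grad_cutS {s : ℝ} (hs : 0 < s) :
    Integrable fun z => ‖grad (cutS s) z‖ ^ 2 := by
  refine Continuous.integrable_of_hasCompactSupport
    ((continuous_grad (contDiff_cutS s)).norm.pow 2) ?_
  refine HasCompactSupport.intro (isCompact_closedBall (0 : ℂ) (3 / 2 * s)) fun z hz => ?_
  rw [mem_closedBall_zero_iff, not_le] at hz
  simp [grad_cutS_eq_zero_of_gt hs hz]

theorem exists_cutoff {c : ℂ → ℝ} (hc : Continuous c) (h0 : Tendsto c (cocompact ℂ) (𝓝 0))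
    (ρ : ℝ) {ε : ℝ} (hε : 0 < ε) :
    ∃ χ : ℂ → ℝ, ContDiff ℝ ∞ χ ∧ HasCompactSupport χ ∧ (∀ z ∈ ball (0 : ℂ) ρ, χ z = 1) ∧
      (∀ z, 0 ≤ χ z ∧ χ z ≤ 1) ∧ ∫ z, ‖grad χ z‖ ^ 2 * c z ^ 2 < ε := by
  obtain ⟨δ, hδ, hδe⟩ : ∃ δ : ℝ, 0 < δ ∧ δ ^ 2 * cutE < ε := by
    refine ⟨min 1 (ε / (2 * (cutE + 1))), ?_, ?_⟩
    · have := cutE_nonneg
      positivity
    · have h1 := cutE_nonneg
      set a := min 1 (ε / (2 * (cutE + 1)))
      have ha0 : 0 ≤ a := by positivity
      have ha1 : a ≤ 1 := min_le_left _ _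
      have ha2 : a ≤ ε / (2 * (cutE + 1)) := min_le_right _ _
      have h3 : a ^ 2 ≤ a := by linarith only [mul_nonneg (sub_nonneg.2 ha0) (sub_nonneg.2 ha1)]
      calc a ^ 2 * cutE ≤ a * (cutE + 1) := by linarith only [mul_nonneg (sub_nonneg.2 ha1) (sub_nonneg.2 h3), mul_nonneg (sub_nonneg.2 ha0) (sub_nonneg.2 h3), mul_nonneg (sub_nonneg.2 ha0) (sub_nonneg.2 ha0), mul_nonneg (sub_nonneg.2 h1) (sub_nonneg.2 h3)]
        _ ≤ ε / (2 * (cutE + 1)) * (cutE + 1) := by gcongr
        _ = ε / 2 := by field_simp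
        _ < ε := by linarith
  have h1 : ∀ᶠ z in cocompact ℂ, |c z| < δ := by
    have := (tendsto_order.1 (h0.abs)).2 δ (by simpa using hδ)
    exact this
  rw [← Metric.cobounded_eq_cocompact, ← comap_norm_atTop (E := ℂ)] at h1
  obtain ⟨t, ht, hts⟩ := h1
  obtain ⟨R0, hR0⟩ := mem_atTop_sets.1 ht
  set s := max (max ρ R0) 1 with hsdef
  have hs : 0 < s := lt_of_lt_of_le one_pos (le_max_right _ _)
  have hcs : ∀ z, s ≤ ‖z‖ → |c z| < δ := fun z hz =>
    hts (show ‖z‖ ∈ t from hR0 _ (le_trans (le_trans (le_max_right _ _) (le_max_left _ _)) hz))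
  refine ⟨cutS s, contDiff_cutS s, hasCompactSupport_cutS hs, fun z hz => ?_,
    fun z => ⟨cutS_nonneg s z, cutS_le_one s z⟩, ?_⟩
  · refine cutS_eq_one hs ?_
    rw [mem_ball_zero_iff] at hz
    exact hz.le.trans (le_trans (le_max_left _ _) (le_max_left _ _))
  · have h2 : ∀ z, ‖grad (cutS s) z‖ ^ 2 * c z ^ 2 ≤ δ ^ 2 * ‖grad (cutS s) z‖ ^ 2 := by
      intro z
      rcases lt_or_ge ‖z‖ s with hz | hz
      · simp [grad_cutS_eq_zero_of_lt hs hz]
      · have h3 : c z ^ 2 ≤ δ ^ 2 := by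
          rw [sq_le_sq, abs_of_pos hδ]
          exact (hcs z hz).le
        linarith only [mul_nonneg (sub_nonneg.2 h3) (sq_nonneg ‖grad (cutS s) z‖)]
    calc ∫ z, ‖grad (cutS s) z‖ ^ 2 * c z ^ 2
        ≤ ∫ z, δ ^ 2 * ‖grad (cutS s) z‖ ^ 2 := by
          refine integral_mono_of_nonneg (Eventually.of_forall fun z => by positivity)
            ((integrable_grad_cutS hs).const_mul _) (Eventually.of_forall h2)
      _ = δ ^ 2 * cutE := by rw [integral_const_mul, integral_grad_cutS hs]
      _ < ε := hδe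

/-- logarithmic cut-offs: arbitrarily small Dirichlet energy -/
theorem exists_logcutoff (ρ : ℝ) {ε : ℝ} (hε : 0 < ε) :
    ∃ χ : ℂ → ℝ, ContDiff ℝ ∞ χ ∧ HasCompactSupport χ ∧ (∀ z ∈ ball (0 : ℂ) ρ, χ z = 1) ∧
      (∀ z, 0 ≤ χ z ∧ χ z ≤ 1) ∧ ∫ z, ‖grad χ z‖ ^ 2 < ε := by
  obtain ⟨m, hm0, hm⟩ : ∃ m : ℕ, 0 < m ∧ cutE / m < ε := by
    obtain ⟨m, hm⟩ := exists_nat_gt (cutE / ε)
    refine ⟨m + 1, by omega, ?_⟩
    rw [div_lt_iff₀ (by positivity)]
    rw [div_lt_iff₀ hε] at hm
    push_cast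
    linarith only [hm, hε]
  set s0 := max ρ 1 with hs0def
  have hs0 : 0 < s0 := lt_of_lt_of_le one_pos (le_max_right _ _)
  set s : ℕ → ℝ := fun j => s0 * 2 ^ j with hsdef
  have hs : ∀ j, 0 < s j := fun j => by positivity
  have hss : ∀ j, s0 ≤ s j := fun j => le_mul_of_one_le_right hs0.le (one_le_pow₀ (by norm_num))
  set χ : ℂ → ℝ := fun z => (m : ℝ)⁻¹ * ∑ j ∈ Finset.range m, cutS (s j) z with hχ
  have hmR : (0 : ℝ) < m := by exact_mod_cast hm0
  have hdisj : ∀ i j, i < j → ∀ z, grad (cutS (s i)) z = 0 ∨ grad (cutS (s j)) z = 0 := by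
    intro i j hij z
    rcases lt_or_ge ‖z‖ (s j) with hz | hz
    · exact Or.inr (grad_cutS_eq_zero_of_lt (hs j) hz)
    · refine Or.inl (grad_cutS_eq_zero_of_gt (hs i) ?_)
      have h1 : (2 : ℝ) ^ (i + 1) ≤ 2 ^ j := pow_le_pow_right₀ (by norm_num) hij
      have h2 : 2 * s i ≤ s j := by
        simp only [hsdef]
        rw [pow_succ] at h1
        linarith only [mul_nonneg (le_of_lt (sub_pos.2 hs0)) (sub_nonneg.2 h1)]
      linarith only [hs i, h2, hz]
  have hgrad : ∀ z, grad χ z = (m : ℝ)⁻¹ • ∑ j ∈ Finset.range m, grad (cutS (s j)) z := by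
    intro z
    have hd : ∀ j ∈ Finset.range m, HasFDerivAt (cutS (s j)) (fderiv ℝ (cutS (s j)) z) z :=
      fun j _ => ((contDiff_cutS (s j)).differentiable (by simp) z).hasFDerivAt
    have h1 : HasFDerivAt χ ((m : ℝ)⁻¹ • ∑ j ∈ Finset.range m, fderiv ℝ (cutS (s j)) z) z := by
      have := (HasFDerivAt.fun_sum hd).const_mul (m : ℝ)⁻¹
      exact this
    have h2 := h1.fderiv
    simp only [grad, h2]
    apply Complex.ext <;> simp [Complex.re_sum, Complex.im_sum]
  have hnorm : ∀ z, ‖grad χ z‖ ^ 2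
      = (m : ℝ)⁻¹ ^ 2 * ∑ j ∈ Finset.range m, ‖grad (cutS (s j)) z‖ ^ 2 := by
    intro z
    rw [hgrad, norm_smul, mul_pow, norm_inv, Real.norm_natCast]
    congr 1
    by_cases h : ∃ j ∈ Finset.range m, grad (cutS (s j)) z ≠ 0
    · obtain ⟨j, hj, hjz⟩ := h
      have h0 : ∀ i ∈ Finset.range m, i ≠ j → grad (cutS (s i)) z = 0 := by
        intro i _ hij
        rcases lt_or_gt_of_ne hij with hlt | hlt
        · rcases hdisj i j hlt z with h | h
          · exact h
          · exact absurd h hjz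
        · rcases hdisj j i hlt z with h | h
          · exact absurd h hjz
          · exact h
      rw [Finset.sum_eq_single_of_mem j hj h0,
        Finset.sum_eq_single_of_mem j hj (fun i hi hij => by rw [h0 i hi hij]; simp)]
    · push Not at h
      rw [Finset.sum_eq_zero h, Finset.sum_eq_zero (fun i hi => by rw [h i hi]; simp)]
      simp
  refine ⟨χ, ?_, ?_, ?_, ?_, ?_⟩
  · exact contDiff_const.mul (ContDiff.sum fun j _ => contDiff_cutS (s j))
  · refine HasCompactSupport.intro (isCompact_closedBall (0 : ℂ) (3 / 2 * s m)) fun z hz => ?_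
    rw [mem_closedBall_zero_iff, not_le] at hz
    simp only [hχ]
    rw [Finset.sum_eq_zero, mul_zero]
    intro j hj
    refine cutS_eq_zero (hs j) ?_
    have h1 : s j ≤ s m := by
      simp only [hsdef]
      have : (2 : ℝ) ^ j ≤ 2 ^ m :=
        pow_le_pow_right₀ (by norm_num) (Finset.mem_range.1 hj).le
      linarith only [mul_nonneg (le_of_lt (sub_pos.2 hs0)) (sub_nonneg.2 this)]
    linarith only [h1, hz]
  · intro z hz
    rw [mem_ball_zero_iff] at hz
    simp only [hχ]
    have h1 : ∀ j ∈ Finset.range m, cutS (s j) z = 1 := fun j _ =>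
      cutS_eq_one (hs j) (hz.le.trans ((le_max_left _ _).trans (hss j)))
    rw [Finset.sum_congr rfl h1]
    simp [hmR.ne']
  · intro z
    refine ⟨?_, ?_⟩
    · exact mul_nonneg (by positivity) (Finset.sum_nonneg fun j _ => cutS_nonneg _ z)
    · simp only [hχ]
      rw [inv_mul_le_iff₀ hmR, mul_one]
      calc ∑ j ∈ Finset.range m, cutS (s j) z ≤ ∑ j ∈ Finset.range m, (1 : ℝ) :=
            Finset.sum_le_sum fun j _ => cutS_le_one _ z
        _ = m := by simp
  · simp only [hnorm]
    rw [integral_const_mul, integral_finsetSum _ fun j _ => integrable_grad_cutS (hs j)]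
    rw [Finset.sum_congr rfl fun j _ => integral_grad_cutS (hs j)]
    rw [Finset.sum_const, Finset.card_range, nsmul_eq_mul]
    have : (m : ℝ)⁻¹ ^ 2 * (m * cutE) = cutE / m := by
      field_simp
    rw [this]
    exact hm

end Vale.Agent.P128.GM
end

section

/-! The function `H(t) = ∫ s(x) q(x - t) dx` is constant near `0` if it has a minimum there. -/

open MeasureTheory Set Metric Filter InnerProductSpace
open scoped ENNReal NNReal Topology Real ContDiff

namespace Vale.Agent.P128.GM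

theorem circleMap_neg_radius (x : ℂ) (ρ θ : ℝ) :
    circleMap x (-ρ) θ = x - circleMap 0 ρ θ := by
  simp only [circleMap, Complex.ofReal_neg, neg_mul, zero_add]; ring

/-- The integrand is jointly continuous. -/
theorem continuous_shift_mul {A : Set ℂ} {q s : ℂ → ℝ} (hq : ContinuousOn q Aᶜ) (hA : IsClosed A)
    (hs : Continuous s) {ρ : ℝ}
    (hdist : ∀ x ∈ tsupport s, ∀ t : ℂ, ‖t‖ ≤ |ρ| → x - t ∉ A) :
    Continuous (Function.uncurry fun (θ : ℝ) (x : ℂ) => s x * q (x - circleMap 0 ρ θ)) := by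
  rw [continuous_iff_continuousAt]
  rintro ⟨θ, x⟩
  by_cases hx : x ∈ tsupport s
  · have h1 : x - circleMap 0 ρ θ ∈ Aᶜ := hdist x hx _ (by simp)
    have h2 : ContinuousAt q (x - circleMap 0 ρ θ) := hq.continuousAt (hA.isOpen_compl.mem_nhds h1)
    have h3 : Continuous fun p : ℝ × ℂ => p.2 - circleMap 0 ρ p.1 := by
      unfold circleMap; fun_prop
    have h4 : ContinuousAt (fun p : ℝ × ℂ => q (p.2 - circleMap 0 ρ p.1)) (θ, x) :=
      ContinuousAt.comp (f := fun p : ℝ × ℂ => p.2 - circleMap 0 ρ p.1) h2 h3.continuousAt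
    exact (hs.comp continuous_snd).continuousAt.mul h4
  · have h1 : ∀ᶠ y in 𝓝 x, y ∉ tsupport s :=
      (isClosed_tsupport s).isOpen_compl.mem_nhds hx
    have h2 : ∀ᶠ p : ℝ × ℂ in 𝓝 (θ, x), p.2 ∉ tsupport s := by
      have h3 : Tendsto (fun p : ℝ × ℂ => p.2) (𝓝 (θ, x)) (𝓝 x) :=
        (continuous_snd (X := ℝ) (Y := ℂ)).tendsto (θ, x)
      exact h3.eventually h1
    refine ContinuousAt.congr (f := fun _ => (0 : ℝ)) continuousAt_const ?_
    filter_upwards [h2] with p hp
    simp [Function.uncurry, image_eq_zero_of_notMem_tsupport hp]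

theorem shift_average {A : Set ℂ} {q s : ℂ → ℝ} (hq : HarmonicOnNhd q Aᶜ) (hA : IsClosed A)
    (hs : Continuous s) (hc : HasCompactSupport s) {ρ : ℝ}
    (hdist : ∀ x ∈ tsupport s, ∀ t : ℂ, ‖t‖ ≤ |ρ| → x - t ∉ A) :
    ∫ θ in (0 : ℝ)..2 * π, (∫ x, s x * q (x - circleMap 0 ρ θ)) = 2 * π * ∫ x, s x * q x := by
  have hcont := continuous_shift_mul hq.continuousOn hA hs hdist
  have hpi : (0 : ℝ) ≤ 2 * π := by positivity
  rw [intervalIntegral.integral_of_le hpi]
  have hint : Integrable (Function.uncurry fun (θ : ℝ) (x : ℂ) => s x * q (x - circleMap 0 ρ θ))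
      ((volume.restrict (Ioc 0 (2 * π))).prod volume) := by
    have h1 : IntegrableOn (Function.uncurry fun (θ : ℝ) (x : ℂ) => s x * q (x - circleMap 0 ρ θ))
        (Icc 0 (2 * π) ×ˢ tsupport s) (volume.prod volume) :=
      hcont.continuousOn.integrableOn_compact (isCompact_Icc.prod hc.isCompact)
    have h2 : IntegrableOn (Function.uncurry fun (θ : ℝ) (x : ℂ) => s x * q (x - circleMap 0 ρ θ))
        (Icc 0 (2 * π) ×ˢ univ) (volume.prod volume) := by
      refine h1.of_forall_sdiff_eq_zero (measurableSet_Icc.prod MeasurableSet.univ) ?_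
      rintro ⟨θ, x⟩ ⟨h, h'⟩
      have hx : x ∉ tsupport s := fun hx => h' ⟨h.1, hx⟩
      simp [Function.uncurry, image_eq_zero_of_notMem_tsupport hx]
    have h3 := h2.mono_set (prod_mono Ioc_subset_Icc_self (subset_refl (univ : Set ℂ)))
    rw [IntegrableOn, ← Measure.prod_restrict, Measure.restrict_univ] at h3
    exact h3
  rw [integral_integral_swap hint, ← integral_const_mul]
  refine integral_congr_ae (Eventually.of_forall fun x => ?_)
  simp only
  rw [integral_const_mul]
  by_cases hx : x ∈ tsupport s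
  · have h1 : HarmonicOnNhd q (closedBall x |-ρ|) := by
      refine hq.mono fun y hy => ?_
      have := hdist x hx (x - y) (by
        rw [abs_neg] at hy
        rw [← dist_eq_norm, dist_comm]
        exact mem_closedBall.1 hy)
      simpa using this
    have h2 := h1.circleAverage_eq
    rw [Real.circleAverage_def, intervalIntegral.integral_of_le hpi] at h2
    simp only [circleMap_neg_radius] at h2
    rw [← h2, smul_eq_mul]
    have : (2 * π) ≠ 0 := by positivity
    (clear * -; field_simp)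
  · simp only [image_eq_zero_of_notMem_tsupport hx, zero_mul, mul_zero]

theorem continuous_shift_int {A : Set ℂ} {q s : ℂ → ℝ} (hq : ContinuousOn q Aᶜ) (hA : IsClosed A)
    (hs : Continuous s) (hc : HasCompactSupport s) {ρ : ℝ}
    (hdist : ∀ x ∈ tsupport s, ∀ t : ℂ, ‖t‖ ≤ |ρ| → x - t ∉ A) :
    Continuous fun θ : ℝ => ∫ x, s x * q (x - circleMap 0 ρ θ) := by
  have hcont := continuous_shift_mul hq hA hs hdist
  have h1 := continuous_parametric_integral_of_continuous (μ := (volume : Measure ℂ)) hcont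
    hc.isCompact
  refine h1.congr fun θ => ?_
  refine setIntegral_eq_integral_of_forall_compl_eq_zero fun x hx => ?_
  simp [image_eq_zero_of_notMem_tsupport hx]

theorem const_of_min_aux {A : Set ℂ} {q s : ℂ → ℝ} (hq : HarmonicOnNhd q Aᶜ) (hA : IsClosed A)
    (hs : Continuous s) (hc : HasCompactSupport s) {d : ℝ} (_hd0 : 0 ≤ d)
    (hdist : ∀ x ∈ tsupport s, ∀ t : ℂ, ‖t‖ ≤ d → x - t ∉ A)
    (hmin : ∀ t : ℂ, ‖t‖ ≤ d → ∫ x, s x * q x ≤ ∫ x, s x * q (x - t)) :
    ∀ t : ℂ, ‖t‖ ≤ d → ∫ x, s x * q (x - t) = ∫ x, s x * q x := by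
  intro t ht
  set ρ := ‖t‖ with hρ
  have hρ0 : 0 ≤ ρ := norm_nonneg t
  have hd : ∀ x ∈ tsupport s, ∀ t : ℂ, ‖t‖ ≤ |ρ| → x - t ∉ A := by
    intro x hx t' ht'
    rw [abs_of_nonneg hρ0] at ht'
    exact hdist x hx t' (ht'.trans ht)
  set g : ℝ → ℝ := fun θ => (∫ x, s x * q (x - circleMap 0 ρ θ)) - ∫ x, s x * q x with hg
  have hgc : Continuous g := (continuous_shift_int hq.continuousOn hA hs hc hd).sub continuous_const
  have hg0 : ∀ θ, 0 ≤ g θ := by
    intro θ
    have := hmin (circleMap 0 ρ θ) (by simpa only [norm_circleMap_zero, abs_of_nonneg hρ0] using ht)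
    simp only [hg]
    linarith
  have hpi : (0 : ℝ) < 2 * π := by positivity
  have hint : ∫ θ in (0 : ℝ)..2 * π, g θ = 0 := by
    simp only [hg]
    rw [intervalIntegral.integral_sub
      ((continuous_shift_int hq.continuousOn hA hs hc hd).intervalIntegrable _ _)
      (continuous_const.intervalIntegrable _ _), shift_average hq hA hs hc hd,
      intervalIntegral.integral_const]
    simp
  have hz : ∀ θ ∈ Icc (0 : ℝ) (2 * π), g θ = 0 := by
    intro θ hθ
    by_contra hne
    have hpos : 0 < g θ := lt_of_le_of_ne (hg0 θ) (Ne.symm hne)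
    have := intervalIntegral.integral_pos hpi hgc.continuousOn (fun θ _ => hg0 θ) ⟨θ, hθ, hpos⟩
    linarith only [hint, this]
  -- find the angle of `t`
  obtain ⟨θ, hθ, hθt⟩ : ∃ θ ∈ Icc (0 : ℝ) (2 * π), circleMap 0 ρ θ = t := by
    have h1 : t ∈ sphere (0 : ℂ) |ρ| := by simp [hρ]
    rw [← image_circleMap_Ioc] at h1
    obtain ⟨θ, hθ, h⟩ := h1
    exact ⟨θ, Ioc_subset_Icc_self hθ, h⟩
  have := hz θ hθ
  simp only [hg, hθt] at this
  linarith only [this]

theorem const_of_min {A : Set ℂ} (hA : IsCompact A) {q s : ℂ → ℝ} (hq : HarmonicOnNhd q Aᶜ)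
    (hs : Continuous s) (hsc : HasCompactSupport s) {δ : ℝ}
    (hsA : ∀ z ∈ cthickening (2 * δ) A, s z = 0)
    (hmin : ∀ t : ℂ, ‖t‖ ≤ δ → ∫ x, s x * q x ≤ ∫ x, s x * q (x - t)) :
    ∀ t : ℂ, ‖t‖ ≤ δ → ∫ x, s x * q (x - t) = ∫ x, s x * q x := by
  intro t ht
  have hδ : 0 ≤ δ := (norm_nonneg t).trans ht
  rcases eq_or_ne A ∅ with rfl | hAne
  · rcases eq_or_lt_of_le hδ with h0 | hpos
    · have : t = 0 := by rw [← norm_le_zero_iff]; linarith only [ht, h0]
      simp [this]
    · exact const_of_min_aux hq isClosed_empty hs hsc hδ (by simp) hmin t ht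
  · rcases eq_or_lt_of_le hδ with h0 | hpos
    · have : t = 0 := by rw [← norm_le_zero_iff]; linarith only [ht, h0]
      simp [this]
    · refine const_of_min_aux hq hA.isClosed hs hsc hδ ?_ hmin t ht
      intro x hx t' ht' hmem
      -- x is within δ of A, while s vanishes on the 2δ-thickening
      have h1 : x ∈ thickening (2 * δ) A := by
        rw [mem_thickening_iff]
        refine ⟨x - t', hmem, ?_⟩
        rw [dist_eq_norm]
        simp only [sub_sub_cancel]
        linarith
      have h2 : thickening (2 * δ) A ∩ Function.support s = ∅ := by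
        ext y
        simp only [mem_inter_iff, Function.mem_support, mem_empty_iff_false, iff_false, not_and,
          not_not]
        exact fun hy => hsA y (thickening_subset_cthickening _ _ hy)
      have h3 : x ∈ closure (Function.support s) := hx
      rw [_root_.mem_closure_iff] at h3
      obtain ⟨y, hy1, hy2⟩ := h3 _ isOpen_thickening h1
      have : y ∈ thickening (2 * δ) A ∩ Function.support s := ⟨hy1, hy2⟩
      rw [h2] at this
      exact this

end Vale.Agent.P128.GM
end

section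

/-! The energy of the translated competitor. -/

open MeasureTheory Set Metric Filter InnerProductSpace
open scoped ENNReal NNReal ContDiff Topology Real Manifold

namespace Vale.Agent.P128.GM

open Vale.Agent.P128

variable {u : ℂ → ℝ} {K A : Set ℂ} {η w : ℂ → ℝ} {δ : ℝ}

/-! ### Square integrable fields -/

theorem integrable_add_sq {μ : Measure ℂ} {F G : ℂ → ℂ} (hF : Measurable F) (hG : Measurable G)
    (h1 : Integrable (fun z => ‖F z‖ ^ 2) μ) (h2 : Integrable (fun z => ‖G z‖ ^ 2) μ) :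
    Integrable (fun z => ‖F z + G z‖ ^ 2) μ := by
  refine Integrable.mono' ((h1.const_mul 2).add (h2.const_mul 2))
    ((hF.add hG).norm.pow_const 2).aestronglyMeasurable ?_
  refine Eventually.of_forall fun z => ?_
  have := norm_add_le (F z) (G z)
  simp only [Real.norm_eq_abs, abs_pow, abs_norm, Pi.add_apply]
  linarith only [mul_nonneg (sub_nonneg.2 this) (sub_nonneg.2 (norm_nonneg (F z + G z))), mul_nonneg (sub_nonneg.2 this) (sub_nonneg.2 (norm_nonneg (G z))), mul_nonneg (sub_nonneg.2 this) (sub_nonneg.2 (norm_nonneg (F z))), sq_nonneg (‖F z‖ - ‖G z‖)]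

theorem integrable_sub_sq {μ : Measure ℂ} {F G : ℂ → ℂ} (hF : Measurable F) (hG : Measurable G)
    (h1 : Integrable (fun z => ‖F z‖ ^ 2) μ) (h2 : Integrable (fun z => ‖G z‖ ^ 2) μ) :
    Integrable (fun z => ‖F z - G z‖ ^ 2) μ := by
  have := integrable_add_sq (μ := μ) hF (G := fun z => - G z) hG.neg h1 (by simpa only [norm_neg] using h2)
  simpa only [sub_eq_add_neg] using this

/-! ### A cut-off near `A` -/

theorem exists_theta (A : Set ℂ) {δ : ℝ} (hδ : 0 < δ) :
    ∃ θ : ℂ → ℝ, ContDiff ℝ ∞ θ ∧ (∀ z ∈ cthickening δ A, θ =ᶠ[𝓝 z] fun _ => 0) ∧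
      ∀ z, z ∉ thickening (2 * δ) A → θ =ᶠ[𝓝 z] fun _ => 1 := by
  have hd : Disjoint (cthickening δ A) (thickening (2 * δ) A)ᶜ :=
    disjoint_compl_right_iff_subset.2
      (cthickening_subset_thickening' (by (clear * - hδ; positivity)) (by (clear * - hδ; linarith)) A)
  obtain ⟨f, hf0, hf1, -⟩ := exists_contMDiffMap_zero_one_nhds_of_isClosed (n := ⊤) 𝓘(ℝ, ℂ)
    (isClosed_cthickening (δ := δ) (E := A)) isOpen_thickening.isClosed_compl hd
  refine ⟨f, f.contMDiff.contDiff, fun z hz => ?_, fun z hz => ?_⟩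
  · exact hf0.filter_mono (nhds_le_nhdsSet hz)
  · exact hf1.filter_mono (nhds_le_nhdsSet (mem_compl hz))

theorem continuousOn_grad {U : Set ℂ} (hU : IsOpen U) {f : ℂ → ℝ} (hf : ContDiffOn ℝ 1 f U) :
    ContinuousOn (grad f) U := by
  have h : ContinuousOn (fderiv ℝ f) U := hf.continuousOn_fderiv_of_isOpen hU le_rfl
  have h1 : ContinuousOn (fun z => fderiv ℝ f z 1) U := h.clm_apply continuousOn_const
  have h2 : ContinuousOn (fun z => fderiv ℝ f z Complex.I) U := h.clm_apply continuousOn_const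
  have : grad f = fun z => (fderiv ℝ f z 1 : ℂ) + (fderiv ℝ f z Complex.I : ℂ) * Complex.I := by
    funext z
    apply Complex.ext <;> simp [grad]
  rw [this]
  exact (Complex.continuous_ofReal.comp_continuousOn h1).add
    ((Complex.continuous_ofReal.comp_continuousOn h2).mul continuousOn_const)

theorem Piece.notMem_out (P : Piece K A η δ) {z : ℂ} (hz : z ∈ cthickening (2 * δ) A) :
    z ∉ K \ A := by
  intro h
  have h1 := P.one z hz
  have h0 := P.zero z (self_subset_cthickening _ h)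
  rw [h1] at h0
  exact one_ne_zero h0

theorem Piece.grad_a (h : GMin u K) (P : Piece K A η δ) {z : ℂ}
    (hz : z ∈ cthickening (2 * δ) A) : grad (fun z => (1 - η z) * u z) z = 0 := by
  have hU : IsOpen (K \ A)ᶜ := P.out.isOpen_compl
  have hc : ContinuousAt (grad (fun z => (1 - η z) * u z)) z :=
    (continuousOn_grad hU ((a_smooth h P).of_le (by simp only [WithTop.one_le_coe, le_top]))).continuousAt
      (hU.mem_nhds (P.notMem_out hz))
  by_contra hne
  have hcl : z ∈ closure (thickening (2 * δ) A) := by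
    rwa [closure_thickening (by linarith only [P.pos])]
  have hfr := mem_closure_iff_frequently.1 hcl
  obtain ⟨y, hy1, hy2⟩ := (hfr.and_eventually (hc.eventually_ne hne)).exists
  apply hy2
  have : (fun z => (1 - η z) * u z) =ᶠ[𝓝 y] fun _ => 0 := by
    filter_upwards [isOpen_thickening.mem_nhds hy1] with x hx
    rw [P.one x (thickening_subset_cthickening _ _ hx)]; ring
  rw [grad_congr this, grad_const]

theorem Piece.grad_b (P : Piece K A η δ) (u : ℂ → ℝ) {z : ℂ}
    (hz : z ∈ thickening (2 * δ) A) : grad (fun z => η z * u z) z = grad u z := by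
  refine grad_congr ?_
  filter_upwards [isOpen_thickening.mem_nhds hz] with x hx
  rw [P.one x (thickening_subset_cthickening _ _ hx)]; ring

theorem Piece.b_lip (h : GMin u K) (P : Piece K A η δ) : LocLip Aᶜ (fun z => η z * u z) :=
  LocLip.of_contDiffOn P.cpt.isClosed.isOpen_compl ((b_smooth h P).of_le (by simp only [WithTop.one_le_coe, le_top]))

theorem Piece.a_lip (h : GMin u K) (P : Piece K A η δ) :
    LocLip (K \ A)ᶜ (fun z => (1 - η z) * u z) :=
  LocLip.of_contDiffOn P.out.isOpen_compl ((a_smooth h P).of_le (by simp only [WithTop.one_le_coe, le_top]))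

theorem Piece.grad_add (h : GMin u K) (P : Piece K A η δ) {z : ℂ} (hz : z ∉ K) :
    grad u z = grad (fun z => (1 - η z) * u z) z + grad (fun z => η z * u z) z := by
  have ha : DifferentiableAt ℝ (fun z => (1 - η z) * u z) z :=
    ((a_smooth h P).contDiffAt (P.out.isOpen_compl.mem_nhds fun h => hz h.1)).differentiableAt
      (by simp)
  have hb : DifferentiableAt ℝ (fun z => η z * u z) z :=
    ((b_smooth h P).contDiffAt (P.cpt.isClosed.isOpen_compl.mem_nhds
      fun h => hz (P.sub h))).differentiableAt (by simp)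
  rw [← GM.grad_add ha hb]
  congr 1
  funext w
  ring

theorem Piece.b_sq (h : GMin u K) (P : Piece K A η δ) :
    Integrable (fun z => ‖grad (fun z => η z * u z) z‖ ^ 2) := by
  have hT : IsCompact (tsupport η \ thickening (2 * δ) A) := P.supp.diff isOpen_thickening
  have hTA : tsupport η \ thickening (2 * δ) A ⊆ Aᶜ := fun z hz hzA =>
    hz.2 (self_subset_thickening (by linarith only [P.pos]) A hzA)
  obtain ⟨M, hM⟩ := (P.b_lip h).exists_bound P.cpt.isClosed.isOpen_compl hT hTA
  obtain ⟨R, hR⟩ := (P.cpt.isBounded.thickening (δ := 2 * δ)).subset_ball 0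
  have h1 : Integrable ((ball (0 : ℂ) R).indicator fun z => ‖grad u z‖ ^ 2) :=
    (integrable_indicator_iff measurableSet_ball).2 (h.integrableOn R)
  have h2 : Integrable ((tsupport η \ thickening (2 * δ) A).indicator fun _ : ℂ => M ^ 2) :=
    (integrable_indicator_iff hT.measurableSet).2 (integrableOn_const hT.measure_lt_top.ne)
  refine Integrable.mono' (h1.add h2)
    ((measurable_grad _).norm.pow_const 2).aestronglyMeasurable (Eventually.of_forall fun z => ?_)
  simp only [Pi.add_apply, Real.norm_eq_abs, abs_pow, abs_norm]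
  by_cases hz1 : z ∈ thickening (2 * δ) A
  · rw [P.grad_b u hz1, indicator_of_mem (hR hz1)]
    have : 0 ≤ (tsupport η \ thickening (2 * δ) A).indicator (fun _ : ℂ => M ^ 2) z :=
      indicator_nonneg (fun _ _ => sq_nonneg M) z
    linarith only [this]
  · have h3 : 0 ≤ (ball (0 : ℂ) R).indicator (fun z => ‖grad u z‖ ^ 2) z :=
      indicator_nonneg (fun _ _ => sq_nonneg _) z
    by_cases hz2 : z ∈ tsupport η
    · rw [indicator_of_mem (show z ∈ tsupport η \ thickening (2 * δ) A from ⟨hz2, hz1⟩)]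
      have := hM z ⟨hz2, hz1⟩
      have := pow_le_pow_left₀ (norm_nonneg _) this 2
      linarith only [h3, this]
    · rw [grad_eq_zero_of_notMem fun hh => hz2 (tsupport_mul_subset_left hh)]
      have h4 : (tsupport η \ thickening (2 * δ) A).indicator (fun _ : ℂ => M ^ 2) z = 0 :=
        indicator_of_notMem (fun hh => hz2 hh.1) _
      rw [h4]
      simpa only [norm_zero, ne_eq, OfNat.ofNat_ne_zero, not_false_eq_true, zero_pow, add_zero, ge_iff_le] using h3

theorem Piece.a_sq (h : GMin u K) (P : Piece K A η δ) (R : ℝ) :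
    IntegrableOn (fun z => ‖grad (fun z => (1 - η z) * u z) z‖ ^ 2) (ball 0 R) := by
  have h1 := integrable_sub_sq (measurable_grad u) (measurable_grad (fun z => η z * u z))
    (h.integrableOn R) (P.b_sq h).integrableOn
  refine h1.congr ?_
  have h0 : ∀ᵐ z ∂(volume.restrict (ball (0 : ℂ) R)), z ∉ K :=
    ae_restrict_of_ae (measure_eq_zero_iff_ae_notMem.1 h.vol_zero)
  filter_upwards [h0] with z hz
  rw [P.grad_add h hz]
  congr 2
  ring

theorem hasCompactSupport_translate {f : ℂ → ℝ} (hf : HasCompactSupport f) (t : ℂ) :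
    HasCompactSupport fun z => f (z - t) :=
  hf.comp_homeomorph (Homeomorph.subRight t)

theorem mem_cthickening_of_sub {t z : ℂ} (ht : ‖t‖ ≤ δ) (hz : z - t ∈ A) :
    z ∈ cthickening δ A := by
  refine mem_cthickening_of_dist_le z (z - t) δ A hz ?_
  rw [dist_eq_norm]
  simpa only [sub_sub_cancel] using ht

theorem Piece.cross (h : GMin u K) (P : Piece K A η δ) {t : ℂ} (ht : ‖t‖ ≤ δ) :
    ∫ z, inner ℝ (grad (fun z => (1 - η z) * u z) z) (grad (fun z => η z * u z) (z - t))
      = ∫ z, src u η z * (η (z - t) * u (z - t)) := by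
  obtain ⟨θ, hθ, hθ0, hθ1⟩ := exists_theta A P.pos
  have hAo := P.cpt.isClosed.isOpen_compl
  have hbt : ∀ z, z ∉ cthickening δ A →
      ContDiffAt ℝ ∞ (fun z => η (z - t) * u (z - t)) z := by
    intro z hz
    have hzt : z - t ∈ Aᶜ := fun hh => hz (mem_cthickening_of_sub ht hh)
    have h1 := (b_smooth h P).contDiffAt (hAo.mem_nhds hzt)
    exact h1.comp z (contDiffAt_id.sub contDiffAt_const)
  have hφ : ContDiff ℝ ∞ fun z => θ z * (η (z - t) * u (z - t)) := by
    rw [contDiff_iff_contDiffAt]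
    intro z
    by_cases hz : z ∈ cthickening δ A
    · refine (contDiffAt_const (c := (0 : ℝ))).congr_of_eventuallyEq ?_
      filter_upwards [hθ0 z hz] with y hy
      rw [hy, zero_mul]
    · exact hθ.contDiffAt.mul (hbt z hz)
  have hφc : HasCompactSupport fun z => θ z * (η (z - t) * u (z - t)) :=
    ((hasCompactSupport_translate P.supp t).mul_right).mul_left
  have key := test_a h P hφ hφc
  have e1 : ∀ z, inner ℝ (grad (fun z => (1 - η z) * u z) z)
      (grad (fun z => θ z * (η (z - t) * u (z - t))) z)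
      = inner ℝ (grad (fun z => (1 - η z) * u z) z) (grad (fun z => η z * u z) (z - t)) := by
    intro z
    by_cases hz : z ∈ cthickening (2 * δ) A
    · rw [P.grad_a h hz, inner_zero_left, inner_zero_left]
    · congr 1
      rw [← grad_translate (fun z => η z * u z) t z]
      refine grad_congr ?_
      filter_upwards [hθ1 z fun hh => hz (thickening_subset_cthickening _ _ hh)] with y hy
      rw [hy, one_mul]
  have e2 : ∀ z, src u η z * (θ z * (η (z - t) * u (z - t)))
      = src u η z * (η (z - t) * u (z - t)) := by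
    intro z
    by_cases hz : z ∈ cthickening (2 * δ) A
    · rw [src_near P hz, zero_mul, zero_mul]
    · rw [(hθ1 z fun hh => hz (thickening_subset_cthickening _ _ hh)).self_of_nhds, one_mul]
  simp only [e1, e2] at key
  exact key

/-- pairing of the translated piece with a smooth function -/
theorem Piece.test_bt (h : GMin u K) (P : Piece K A η δ) (t : ℂ) {c : ℂ → ℝ}
    (hc : ContDiff ℝ ∞ c) (hcc : HasCompactSupport c) :
    ∫ z, inner ℝ (grad (fun z => η z * u z) (z - t)) (grad c z) =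
      - ∫ z, src u η z * c (z + t) := by
  have h1 : ContDiff ℝ ∞ fun z => c (z + t) := hc.comp (contDiff_id.add contDiff_const)
  have h2 : HasCompactSupport fun z => c (z + t) := by
    have := hasCompactSupport_translate hcc (-t)
    simpa [sub_neg_eq_add] using this
  rw [← test_b h P h1 h2]
  rw [← integral_sub_right_eq_self (fun z => (inner ℝ (grad (fun z => η z * u z) z)
    (grad (fun z => c (z + t)) z) : ℝ)) t]
  refine integral_congr_ae (Eventually.of_forall fun z => ?_)
  simp only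
  congr 1
  have := grad_translate c (-t) (z - t)
  simp only [sub_neg_eq_add, sub_add_cancel] at this
  exact this.symm

theorem lap_eq_zero_of_notMem {f : ℂ → ℝ} {z : ℂ} (hz : z ∉ tsupport f) : lap f z = 0 := by
  have h0 : ∀ v : ℂ, (fun w => fderiv ℝ f w v) =ᶠ[𝓝 z] fun _ => 0 := by
    intro v
    filter_upwards [(isClosed_tsupport f).isOpen_compl.mem_nhds hz] with y hy
    have : fderiv ℝ f y = 0 := by
      by_contra h
      exact hy (support_fderiv_subset ℝ (f := f) h)
    rw [this]; simp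
  unfold lap
  rw [(h0 1).fderiv_eq, (h0 Complex.I).fderiv_eq]
  simp only [fderiv_fun_const, Pi.zero_apply, zero_apply, add_zero]

theorem src_eq_zero_of_notMem {z : ℂ} (hz : z ∉ tsupport η) : src u η z = 0 := by
  unfold src
  rw [grad_eq_zero_of_notMem hz, lap_eq_zero_of_notMem hz]
  simp

theorem lap_shift {w : ℂ → ℝ} (hw : ContDiff ℝ ∞ w) (t z : ℂ) :
    lap (fun z => w z - w (z - t)) z = lap w z - lap w (z - t) := by
  have hd : Differentiable ℝ w := hw.differentiable (by simp)
  have hd1 : ∀ v : ℂ, Differentiable ℝ fun y => fderiv ℝ w y v := fun v =>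
    ((hw.fderiv_right (m := ∞) (by simp)).clm_apply contDiff_const).differentiable (by simp)
  have h0 : ∀ v : ℂ, (fun y => fderiv ℝ (fun z => w z - w (z - t)) y v)
      = fun y => fderiv ℝ w y v - fderiv ℝ w (y - t) v := by
    intro v
    funext y
    have h2 : DifferentiableAt ℝ (fun y => w (y - t)) y :=
      (hd (y - t)).comp (f := fun y => y - t) y (by fun_prop)
    rw [fderiv_fun_sub (hd y) h2, fderiv_comp_sub]
    simp only [sub_apply]
  unfold lap
  have h1 : ∀ v : ℂ, fderiv ℝ (fun y => fderiv ℝ w y v - fderiv ℝ w (y - t) v) z v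
      = fderiv ℝ (fun y => fderiv ℝ w y v) z v
        - fderiv ℝ (fun y => fderiv ℝ w y v) (z - t) v := by
    intro v
    have h2 : DifferentiableAt ℝ (fun y => fderiv ℝ w (y - t) v) z :=
      (hd1 v (z - t)).comp (f := fun y => y - t) z (by fun_prop)
    rw [fderiv_fun_sub (hd1 v z) h2, fderiv_comp_sub t (f := fun y => fderiv ℝ w y v)]
    simp only [sub_apply]
  rw [h0 1, h0 Complex.I, h1, h1]
  ring

theorem sq_cutoff {χ f : ℂ → ℝ} (hχ : ContDiff ℝ ∞ χ) (hf : ContDiff ℝ ∞ f) (z : ℂ) :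
    ‖grad (fun z => χ z * f z) z‖ ^ 2 = ‖grad χ z‖ ^ 2 * f z ^ 2
      + inner ℝ (grad f z) (grad (fun z => χ z * χ z * f z) z) := by
  have d1 := (hχ.differentiable (by simp)) z
  have d2 := (hf.differentiable (by simp)) z
  have d3 : DifferentiableAt ℝ (fun z => χ z * χ z) z := d1.mul d1
  rw [grad_mul d1 d2, grad_mul d3 d2, grad_mul d1 d1]
  rw [← real_inner_self_eq_norm_sq, ← real_inner_self_eq_norm_sq]
  simp only [inner_add_right, inner_smul_right, inner_add_left, inner_smul_left, conj_trivial, smul_add]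
  rw [real_inner_comm (grad f z) (grad χ z)]
  ring

theorem corr_sq {χ f : ℂ → ℝ} (hχ : ContDiff ℝ ∞ χ) (hχc : HasCompactSupport χ)
    (hf : ContDiff ℝ ∞ f) :
    ∫ z, ‖grad (fun z => χ z * f z) z‖ ^ 2 = (∫ z, ‖grad χ z‖ ^ 2 * f z ^ 2)
      - ∫ z, lap f z * (χ z * χ z * f z) := by
  have h2 : HasCompactSupport fun z => χ z * χ z * f z := (hχc.mul_right).mul_right
  have h1 : ContDiff ℝ ∞ fun z => χ z * χ z * f z := (hχ.mul hχ).mul hf
  have g := green hf h1 h2
  have i1 : Integrable fun z => ‖grad χ z‖ ^ 2 * f z ^ 2 := by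
    refine Continuous.integrable_of_hasCompactSupport
      (((continuous_grad hχ).norm.pow 2).mul (hf.continuous.pow 2)) ?_
    refine HasCompactSupport.intro hχc fun z hz => ?_
    rw [grad_eq_zero_of_notMem hz]; simp
  have i2 : Integrable fun z =>
      (inner ℝ (grad f z) (grad (fun z => χ z * χ z * f z) z) : ℝ) := by
    refine Continuous.integrable_of_hasCompactSupport
      ((continuous_grad hf).inner (continuous_grad h1)) ?_
    refine HasCompactSupport.intro h2 fun z hz => ?_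
    rw [grad_eq_zero_of_notMem hz, inner_zero_right]
  simp only [sq_cutoff hχ hf]
  rw [integral_add i1 i2, g]
  ring

theorem supp_bound {ρ : ℝ} (hρ : ∀ z, η z ≠ 0 → ‖z‖ + δ < ρ) {z : ℂ} (hz : z ∈ tsupport η) :
    ‖z‖ + δ ≤ ρ := by
  have hc : IsClosed {z : ℂ | ‖z‖ + δ ≤ ρ} :=
    isClosed_le (continuous_norm.add continuous_const) continuous_const
  exact closure_minimal (fun y hy => (hρ y hy).le) hc hz

theorem chi_eq_one {χ : ℂ → ℝ} (hχ : Continuous χ) {ρ : ℝ} (hρ0 : 0 < ρ)
    (hχ1 : ∀ z ∈ ball (0 : ℂ) ρ, χ z = 1) {z : ℂ} (hz : ‖z‖ ≤ ρ) : χ z = 1 := by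
  have hc : IsClosed {z : ℂ | χ z = 1} := isClosed_eq hχ continuous_const
  have h1 : closure (ball (0 : ℂ) ρ) ⊆ {z : ℂ | χ z = 1} := closure_minimal hχ1 hc
  apply h1
  rw [closure_ball _ hρ0.ne', mem_closedBall, dist_zero_right]
  exact hz

theorem Piece.corr (h : GMin u K) (P : Piece K A η δ) (hw : Pot (src u η) w) {t : ℂ}
    (ht : ‖t‖ ≤ δ) {χ : ℂ → ℝ} (hχ : ContDiff ℝ ∞ χ) (hχc : HasCompactSupport χ) {ρ : ℝ}
    (hρ : ∀ z, η z ≠ 0 → ‖z‖ + δ < ρ) (hχ1 : ∀ z ∈ ball (0 : ℂ) ρ, χ z = 1) :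
    2 * (∫ z, inner ℝ (grad (fun z => (1 - η z) * u z) z)
        (grad (fun z => χ z * (w z - w (z - t))) z))
      + 2 * (∫ z, inner ℝ (grad (fun z => η z * u z) (z - t))
        (grad (fun z => χ z * (w z - w (z - t))) z))
      + ∫ z, ‖grad (fun z => χ z * (w z - w (z - t))) z‖ ^ 2
    = 2 * (∫ z, src u η z * w z) - 2 * (∫ z, src u η z * w (z - t))
      + ∫ z, ‖grad χ z‖ ^ 2 * (w z - w (z - t)) ^ 2 := by
  have hs := src_smooth h P
  have hsc : HasCompactSupport (src u η) := src_supp P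
  have hwt : ContDiff ℝ ∞ fun z => w (z - t) := hw.smooth.comp (contDiff_id.sub contDiff_const)
  have hf : ContDiff ℝ ∞ fun z => w z - w (z - t) := hw.smooth.sub hwt
  have hc : ContDiff ℝ ∞ fun z => χ z * (w z - w (z - t)) := hχ.mul hf
  have hcc : HasCompactSupport fun z => χ z * (w z - w (z - t)) := hχc.mul_right
  have hone : ∀ z, src u η z ≠ 0 → ∀ y : ℂ, ‖y‖ ≤ ‖z‖ + δ → χ y = 1 := by
    intro z hz y hy
    have h1 : z ∈ tsupport η := by
      by_contra h1
      exact hz (src_eq_zero_of_notMem h1)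
    have h2 := supp_bound hρ h1
    exact chi_eq_one hχ.continuous (by linarith [P.pos, norm_nonneg z]) hχ1 (hy.trans h2)
  have T1 : ∫ z, inner ℝ (grad (fun z => (1 - η z) * u z) z)
      (grad (fun z => χ z * (w z - w (z - t))) z) = ∫ z, src u η z * (w z - w (z - t)) := by
    rw [test_a h P hc hcc]
    refine integral_congr_ae (Eventually.of_forall fun z => ?_)
    by_cases hz : src u η z = 0
    · simp [hz]
    · simp only
      rw [hone z hz z (by linarith only [P.pos]), one_mul]
  have T2 : ∫ z, inner ℝ (grad (fun z => η z * u z) (z - t))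
      (grad (fun z => χ z * (w z - w (z - t))) z) = - ∫ z, src u η z * (w (z + t) - w z) := by
    rw [P.test_bt h t hc hcc]
    congr 1
    refine integral_congr_ae (Eventually.of_forall fun z => ?_)
    by_cases hz : src u η z = 0
    · simp [hz]
    · simp only
      rw [hone z hz (z + t) ((norm_add_le _ _).trans (by linarith only [ht])), one_mul, add_sub_cancel_right]
  have T3 : ∫ z, lap (fun z => w z - w (z - t)) z * (χ z * χ z * (w z - w (z - t)))
      = ∫ z, (src u η z - src u η (z - t)) * (w z - w (z - t)) := by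
    refine integral_congr_ae (Eventually.of_forall fun z => ?_)
    simp only
    rw [lap_shift hw.smooth, hw.eqn, hw.eqn]
    by_cases hz : src u η z = 0
    · by_cases hzt : src u η (z - t) = 0
      · simp [hz, hzt]
      · have : ‖z‖ ≤ ‖z - t‖ + δ := by
          calc ‖z‖ = ‖(z - t) + t‖ := by congr 1; ring
            _ ≤ ‖z - t‖ + ‖t‖ := norm_add_le _ _
            _ ≤ _ := by linarith only [ht]
        rw [hone (z - t) hzt z this]; ring
    · rw [hone z hz z (by linarith only [P.pos])]; ring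
  have i0 : Integrable fun z => src u η z * w z :=
    (hs.continuous.mul hw.smooth.continuous).integrable_of_hasCompactSupport hsc.mul_right
  have i1 : Integrable fun z => src u η z * w (z - t) :=
    (hs.continuous.mul hwt.continuous).integrable_of_hasCompactSupport hsc.mul_right
  have hwp : Continuous fun z => w (z + t) := hw.smooth.continuous.comp (by fun_prop)
  have i2 : Integrable fun z => src u η z * w (z + t) :=
    (hs.continuous.mul hwp).integrable_of_hasCompactSupport hsc.mul_right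
  have i3 : Integrable fun z => src u η z * (w (z + t) - w z) := by
    have := i2.sub i0
    refine this.congr (Eventually.of_forall fun z => ?_)
    simp only [Pi.sub_apply]; ring
  have i4 : Integrable fun z => src u η (z - t) * (w z - w (z - t)) := by
    have := i3.comp_sub_right t
    refine this.congr (Eventually.of_forall fun z => ?_)
    simp only [sub_add_cancel]
  have i5 : Integrable fun z => src u η z * (w z - w (z - t)) := by
    have := i0.sub i1
    refine this.congr (Eventually.of_forall fun z => ?_)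
    simp only [Pi.sub_apply]; ring
  have e1 : ∫ z, src u η z * (w z - w (z - t)) = (∫ z, src u η z * w z)
      - ∫ z, src u η z * w (z - t) := by
    rw [← integral_sub i0 i1]
    exact integral_congr_ae (Eventually.of_forall fun z => by simp only; ring)
  have e2 : ∫ z, src u η z * (w (z + t) - w z) = (∫ z, src u η z * w (z - t))
      - ∫ z, src u η z * w z := by
    rw [hw.even t, ← integral_sub i2 i0]
    exact integral_congr_ae (Eventually.of_forall fun z => by simp only; ring)
  have e3 : ∫ z, src u η (z - t) * (w z - w (z - t)) = ∫ z, src u η z * (w (z + t) - w z) := by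
    rw [← integral_sub_right_eq_self (fun z => src u η z * (w (z + t) - w z)) t]
    exact integral_congr_ae (Eventually.of_forall fun z => by simp only [sub_add_cancel])
  have e4 : ∫ z, (src u η z - src u η (z - t)) * (w z - w (z - t))
      = (∫ z, src u η z * (w z - w (z - t))) - ∫ z, src u η (z - t) * (w z - w (z - t)) := by
    rw [← integral_sub i5 i4]
    exact integral_congr_ae (Eventually.of_forall fun z => by simp only; ring)
  rw [T1, T2, corr_sq hχ hχc hf, T3, e4, e3, e2, e1]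
  ring

theorem Piece.src_b_integrable (h : GMin u K) (P : Piece K A η δ) {t : ℂ} (ht : ‖t‖ ≤ δ) :
    Integrable fun z => src u η z * (η (z - t) * u (z - t)) := by
  have hAo := P.cpt.isClosed.isOpen_compl
  have hsc : HasCompactSupport fun z => src u η z * (η (z - t) * u (z - t)) :=
    (src_supp P).mul_right
  refine Continuous.integrable_of_hasCompactSupport ?_ hsc
  rw [continuous_iff_continuousAt]
  intro z
  by_cases hz : z ∈ cthickening δ A
  · refine ContinuousAt.congr (f := fun _ => (0 : ℝ)) continuousAt_const ?_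
    have : z ∈ thickening (2 * δ) A :=
      cthickening_subset_thickening' (by linarith [P.pos]) (by linarith only [P.pos]) A hz
    filter_upwards [isOpen_thickening.mem_nhds this] with y hy
    rw [src_near P (thickening_subset_cthickening _ _ hy), zero_mul]
  · have hzt : z - t ∈ Aᶜ := fun hh => hz (mem_cthickening_of_sub ht hh)
    have h1 := ((b_smooth h P).contDiffAt (hAo.mem_nhds hzt)).continuousAt
    have h2 : ContinuousAt (fun z => η (z - t) * u (z - t)) z :=
      ContinuousAt.comp (f := fun z => z - t) (g := fun z => η z * u z) h1 (by fun_prop)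
    exact (src_smooth h P).continuous.continuousAt.mul h2

/-- `H(t) = ∫ s(x) q(x - t) dx`, `q = ηu - w` -/
noncomputable def HH (u η w : ℂ → ℝ) (t : ℂ) : ℝ :=
  ∫ x, src u η x * (η (x - t) * u (x - t) - w (x - t))

theorem Piece.HH_eq (h : GMin u K) (P : Piece K A η δ) (hw : Pot (src u η) w) {t : ℂ}
    (ht : ‖t‖ ≤ δ) : HH u η w t = (∫ z, src u η z * (η (z - t) * u (z - t)))
      - ∫ z, src u η z * w (z - t) := by
  have hwt : Continuous fun z => w (z - t) := hw.smooth.continuous.comp (by fun_prop)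
  have i1 : Integrable fun z => src u η z * w (z - t) :=
    ((src_smooth h P).continuous.mul hwt).integrable_of_hasCompactSupport (src_supp P).mul_right
  unfold HH
  rw [← integral_sub (P.src_b_integrable h ht) i1]
  exact integral_congr_ae (Eventually.of_forall fun z => by simp only; ring)

theorem grad_psi {ψ : ℂ → ℝ} (hψ0 : ∀ z, z ∉ cthickening δ A → ψ z = 0) {z : ℂ}
    (hz : z ∉ cthickening δ A) : grad ψ z = 0 := by
  have : ψ =ᶠ[𝓝 z] fun _ => 0 := by
    filter_upwards [isClosed_cthickening.isOpen_compl.mem_nhds hz] with y hy using hψ0 y hy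
  rw [grad_congr this, grad_const]

theorem cth_add {t z : ℂ} (P : Piece K A η δ) (ht : ‖t‖ ≤ δ) (hz : z ∈ cthickening δ A) :
    z + t ∈ cthickening (2 * δ) A := by
  have h1 : z + t ∈ cthickening ‖t‖ (cthickening δ A) := by
    refine mem_cthickening_of_dist_le (z + t) z ‖t‖ _ hz ?_
    rw [dist_eq_norm]; simp
  have h2 := cthickening_cthickening_subset (norm_nonneg t) P.pos.le A h1
  exact cthickening_mono (by linarith only [ht]) A h2

theorem Piece.psi_a (h : GMin u K) (P : Piece K A η δ) {t : ℂ} (ht : ‖t‖ ≤ δ) {ψ : ℂ → ℝ}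
    (hψ0 : ∀ z, z ∉ cthickening δ A → ψ z = 0) (z : ℂ) :
    inner ℝ (grad (fun z => (1 - η z) * u z) z) (grad ψ (z - t)) = 0 := by
  by_cases hz : z - t ∈ cthickening δ A
  · have := cth_add P ht hz
    rw [sub_add_cancel] at this
    rw [P.grad_a h this, inner_zero_left]
  · rw [grad_psi hψ0 hz, inner_zero_right]

theorem Piece.psi_b (h : GMin u K) (P : Piece K A η δ) {t : ℂ} {ψ : ℂ → ℝ}
    (hψ : LocLip Aᶜ ψ) (hψ0 : ∀ z, z ∉ cthickening δ A → ψ z = 0)
    (hψi : Integrable (fun z => ‖grad ψ z‖ ^ 2)) :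
    ∫ z, inner ℝ (grad (fun z => η z * u z) (z - t)) (grad ψ (z - t)) = 0 := by
  rw [integral_sub_right_eq_self (fun z => (inner ℝ (grad (fun z => η z * u z) z)
    (grad ψ z) : ℝ)) t]
  obtain ⟨R, hR⟩ := (P.cpt.isBounded.cthickening (δ := δ)).subset_ball 0
  have e := h.el (hψ.mono h.gm.closed.isOpen_compl (compl_subset_compl.2 P.sub))
    ⟨R, fun z _ hz => hψ0 z fun hh => by
      have := hR hh
      rw [mem_ball, dist_zero_right] at this
      linarith⟩ hψi
  rw [← e]
  refine integral_congr_ae (Eventually.of_forall fun z => ?_)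
  simp only
  by_cases hz : z ∈ cthickening δ A
  · rw [P.grad_b u (cthickening_subset_thickening' (by linarith only [P.pos]) (by linarith [P.pos]) A hz)]
  · rw [grad_psi hψ0 hz, inner_zero_right, inner_zero_right]

theorem Piece.psi_c (P : Piece K A η δ) {s : ℂ → ℝ} (hw : Pot s w) {t : ℂ}
    (ht : ‖t‖ ≤ δ) {χ : ℂ → ℝ} {ρ : ℝ}
    (hρ : ∀ z, η z ≠ 0 → ‖z‖ + δ < ρ) (hχ1 : ∀ z ∈ ball (0 : ℂ) ρ, χ z = 1)
    {ψ : ℂ → ℝ} (hψ0 : ∀ z, z ∉ cthickening δ A → ψ z = 0) :
    ∫ z, inner ℝ (grad (fun z => χ z * (w z - w (z - t))) z) (grad ψ (z - t))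
      = ∫ z, inner ℝ (grad w (z + t) - grad w z) (grad ψ z) := by
  rw [← integral_sub_right_eq_self (fun z => (inner ℝ (grad w (z + t) - grad w z)
    (grad ψ z) : ℝ)) t]
  refine integral_congr_ae (Eventually.of_forall fun z => ?_)
  simp only
  by_cases hz : z - t ∈ cthickening δ A
  · congr 1
    have h1 := cth_add P ht hz
    rw [sub_add_cancel] at h1 ⊢
    have h2 : ‖z‖ + δ < ρ := hρ z (by rw [P.one z h1]; exact one_ne_zero)
    have h3 : z ∈ ball (0 : ℂ) ρ := by
      rw [mem_ball, dist_zero_right]; linarith only [h2, P.pos]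
    have hd : Differentiable ℝ w := hw.smooth.differentiable (by simp)
    have hdt : DifferentiableAt ℝ (fun z => w (z - t)) z :=
      (hd (z - t)).comp (f := fun y => y - t) z (by fun_prop)
    have : (fun z => χ z * (w z - w (z - t))) =ᶠ[𝓝 z] fun z => w z - w (z - t) := by
      filter_upwards [isOpen_ball.mem_nhds h3] with y hy
      rw [hχ1 y hy, one_mul]
    rw [grad_congr this, grad_sub (hd z) hdt, grad_translate]
  · rw [grad_psi hψ0 hz, inner_zero_right, inner_zero_right]

theorem Piece.len_le (P : Piece K A η δ) (t : ℂ) {R : ℝ} (hR : A ⊆ ball 0 R) :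
    μH[1] (((K \ A) ∪ (fun z => z - t) ⁻¹' A) ∩ ball 0 R) ≤ μH[1] (K ∩ ball 0 R) := by
  have h1 : μH[1] ((fun z : ℂ => z - t) ⁻¹' A) = μH[1] A :=
    (IsometryEquiv.subRight t).hausdorffMeasure_preimage 1 A
  have h2 : μH[1] (K ∩ ball 0 R) = μH[1] A + μH[1] ((K \ A) ∩ ball 0 R) := by
    rw [← measure_inter_add_sdiff (K ∩ ball 0 R) P.cpt.measurableSet]
    congr 2
    · ext z
      exact ⟨fun hz => hz.2, fun hz => ⟨⟨P.sub hz, hR hz⟩, hz⟩⟩
    · ext z
      exact ⟨fun hz => ⟨⟨hz.1.1, hz.2⟩, hz.1.2⟩, fun hz => ⟨⟨hz.1.1, hz.2⟩, hz.1.2⟩⟩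
  rw [h2, union_inter_distrib_right, add_comm]
  refine (measure_union_le _ _).trans (add_le_add le_rfl ?_)
  exact (measure_mono inter_subset_left).trans h1.le

theorem norm_expand (a b b' c p : ℂ) :
    ‖a + b' + c + p‖ ^ 2 = ‖a + b‖ ^ 2 + (‖b'‖ ^ 2 - ‖b‖ ^ 2)
      + 2 * (inner ℝ a b' - inner ℝ a b) + 2 * inner ℝ a c + 2 * inner ℝ b' c + ‖c‖ ^ 2
      + 2 * inner ℝ a p + 2 * inner ℝ b' p + 2 * inner ℝ c p + ‖p‖ ^ 2 := by
  simp only [← real_inner_self_eq_norm_sq, inner_add_left, inner_add_right]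
  rw [real_inner_comm a b, real_inner_comm a b', real_inner_comm a c, real_inner_comm a p,
    real_inner_comm b' c, real_inner_comm b' p, real_inner_comm c p]
  ring

theorem integral_sum12 {μ : Measure ℂ} {f0 f1 f2 f3 f4 f5 f6 f7 f8 f9 f10 f11 : ℂ → ℝ}
    (h0 : Integrable f0 μ) (h1 : Integrable f1 μ) (h2 : Integrable f2 μ) (h3 : Integrable f3 μ)
    (h4 : Integrable f4 μ) (h5 : Integrable f5 μ) (h6 : Integrable f6 μ) (h7 : Integrable f7 μ)
    (h8 : Integrable f8 μ) (h9 : Integrable f9 μ) (h10 : Integrable f10 μ)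
    (h11 : Integrable f11 μ) :
    ∫ z, (f0 z + (f1 z - f2 z) + 2 * (f3 z - f4 z) + 2 * f5 z + 2 * f6 z + f7 z + 2 * f8 z
      + 2 * f9 z + 2 * f10 z + f11 z) ∂μ
    = (∫ z, f0 z ∂μ) + ((∫ z, f1 z ∂μ) - ∫ z, f2 z ∂μ)
      + 2 * ((∫ z, f3 z ∂μ) - ∫ z, f4 z ∂μ)
      + 2 * (∫ z, f5 z ∂μ) + 2 * (∫ z, f6 z ∂μ)
      + (∫ z, f7 z ∂μ)
      + 2 * (∫ z, f8 z ∂μ) + 2 * (∫ z, f9 z ∂μ)
      + 2 * (∫ z, f10 z ∂μ) + ∫ z, f11 z ∂μ := by
  have k1 : Integrable (fun z => f1 z - f2 z) μ := h1.sub h2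
  have j1 : Integrable (fun z => f0 z + (f1 z - f2 z)) μ := h0.add k1
  have k2' : Integrable (fun z => f3 z - f4 z) μ := h3.sub h4
  have k2 : Integrable (fun z => 2 * (f3 z - f4 z)) μ := k2'.const_mul 2
  have j2 : Integrable (fun z => f0 z + (f1 z - f2 z) + 2 * (f3 z - f4 z)) μ := j1.add k2
  have k3 : Integrable (fun z => 2 * f5 z) μ := h5.const_mul 2
  have j3 : Integrable (fun z => f0 z + (f1 z - f2 z) + 2 * (f3 z - f4 z) + 2 * f5 z) μ :=
    j2.add k3
  have k4 : Integrable (fun z => 2 * f6 z) μ := h6.const_mul 2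
  have j4 : Integrable (fun z => f0 z + (f1 z - f2 z) + 2 * (f3 z - f4 z) + 2 * f5 z
      + 2 * f6 z) μ := j3.add k4
  have j5 : Integrable (fun z => f0 z + (f1 z - f2 z) + 2 * (f3 z - f4 z) + 2 * f5 z
      + 2 * f6 z + f7 z) μ := j4.add h7
  have k6 : Integrable (fun z => 2 * f8 z) μ := h8.const_mul 2
  have j6 : Integrable (fun z => f0 z + (f1 z - f2 z) + 2 * (f3 z - f4 z) + 2 * f5 z
      + 2 * f6 z + f7 z + 2 * f8 z) μ := j5.add k6
  have k7 : Integrable (fun z => 2 * f9 z) μ := h9.const_mul 2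
  have j7 : Integrable (fun z => f0 z + (f1 z - f2 z) + 2 * (f3 z - f4 z) + 2 * f5 z
      + 2 * f6 z + f7 z + 2 * f8 z + 2 * f9 z) μ := j6.add k7
  have k8 : Integrable (fun z => 2 * f10 z) μ := h10.const_mul 2
  have j8 : Integrable (fun z => f0 z + (f1 z - f2 z) + 2 * (f3 z - f4 z) + 2 * f5 z
      + 2 * f6 z + f7 z + 2 * f8 z + 2 * f9 z + 2 * f10 z) μ := j7.add k8
  rw [integral_add j8 h11, integral_add j7 k8, integral_add j6 k7, integral_add j5 k6,
    integral_add j4 h7, integral_add j3 k4, integral_add j2 k3, integral_add j1 k2,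
    integral_add h0 k1, integral_sub h1 h2]
  simp only [integral_const_mul]
  rw [integral_sub h3 h4]

theorem GMin.translate (h : GMin u K) (P : Piece K A η δ) (hw : Pot (src u η) w) {t : ℂ}
    (ht : ‖t‖ ≤ δ) {χ : ℂ → ℝ} (hχ : ContDiff ℝ ∞ χ) (hχc : HasCompactSupport χ) {ρ : ℝ}
    (hρ : ∀ z, η z ≠ 0 → ‖z‖ + δ < ρ) (hχ1 : ∀ z ∈ ball (0 : ℂ) ρ, χ z = 1)
    {ψ : ℂ → ℝ} (hψ : LocLip Aᶜ ψ) (hψ0 : ∀ z, z ∉ cthickening δ A → ψ z = 0)
    (hψi : Integrable (fun z => ‖grad ψ z‖ ^ 2)) :
    0 ≤ 2 * (HH u η w t - HH u η w 0) + (∫ z, ‖grad χ z‖ ^ 2 * (w z - w (z - t)) ^ 2)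
      + 2 * (∫ z, inner ℝ (grad w (z + t) - grad w z) (grad ψ z)) + ∫ z, ‖grad ψ z‖ ^ 2 := by
  -- the fields
  set F1 : ℂ → ℂ := grad fun z => (1 - η z) * u z with hF1
  set F0 : ℂ → ℂ := grad fun z => η z * u z with hF0
  set F2 : ℂ → ℂ := fun z => F0 (z - t) with hF2
  set c : ℂ → ℝ := fun z => χ z * (w z - w (z - t)) with hc_def
  set F3 : ℂ → ℂ := grad c with hF3
  set F4 : ℂ → ℂ := fun z => grad ψ (z - t) with hF4
  have m0 : Measurable F0 := measurable_grad _
  have m1 : Measurable F1 := measurable_grad _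
  have m2 : Measurable F2 := m0.comp (measurable_sub_const t)
  have m3 : Measurable F3 := measurable_grad _
  have m4 : Measurable F4 := (measurable_grad ψ).comp (measurable_sub_const t)
  have hwt : ContDiff ℝ ∞ fun z => w (z - t) := hw.smooth.comp (contDiff_id.sub contDiff_const)
  have hc : ContDiff ℝ ∞ c := hχ.mul (hw.smooth.sub hwt)
  have hcc : HasCompactSupport c := hχc.mul_right
  -- the big disk
  obtain ⟨R₀, hR₀⟩ := hχc.isCompact.isBounded.subset_closedBall (0 : ℂ)
  set r : ℝ := max R₀ ρ with hr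
  set R : ℝ := r + 1 with hR
  have hχr : ∀ z : ℂ, r < ‖z‖ → z ∉ tsupport χ := by
    intro z hz hz'
    have := hR₀ hz'
    rw [mem_closedBall, dist_zero_right] at this
    linarith only [hz, this, le_max_left R₀ ρ]
  have hηr : ∀ z : ℂ, r < ‖z‖ → z ∉ tsupport η := by
    intro z hz hz'
    linarith only [hz, supp_bound hρ hz', le_max_right R₀ ρ, P.pos]
  have htri : ∀ z : ℂ, ‖z‖ ≤ ‖z - t‖ + δ := by
    intro z
    calc ‖z‖ = ‖(z - t) + t‖ := by congr 1; ring
      _ ≤ ‖z - t‖ + ‖t‖ := norm_add_le _ _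
      _ ≤ _ := by linarith only [ht]
  have hηtr : ∀ z : ℂ, r < ‖z‖ → z - t ∉ tsupport η := by
    intro z hz hz'
    linarith only [hz, supp_bound hρ hz', le_max_right R₀ ρ, htri z]
  have hψtr : ∀ z : ℂ, r < ‖z‖ → z - t ∉ cthickening δ A := by
    intro z hz hz'
    have h1 := P.one (z - t) (cthickening_mono (by linarith [P.pos]) A hz')
    exact hηtr z hz (subset_tsupport _ (by rw [Function.mem_support, h1]; exact one_ne_zero))
  have z0 : ∀ z, r < ‖z‖ → F0 z = 0 := fun z hz =>
    grad_eq_zero_of_notMem fun hh => hηr z hz (tsupport_mul_subset_left hh)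
  have z2 : ∀ z, r < ‖z‖ → F2 z = 0 := fun z hz =>
    grad_eq_zero_of_notMem fun hh => hηtr z hz (tsupport_mul_subset_left hh)
  have z3 : ∀ z, r < ‖z‖ → F3 z = 0 := fun z hz =>
    grad_eq_zero_of_notMem fun hh => hχr z hz (tsupport_mul_subset_left hh)
  have z4 : ∀ z, r < ‖z‖ → F4 z = 0 := fun z hz => grad_psi hψ0 (hψtr z hz)
  have hA_R : A ⊆ ball 0 R := by
    intro z hz
    rw [mem_ball, dist_zero_right]
    by_contra hh
    have : r < ‖z‖ := by linarith
    refine hηr z this (subset_tsupport _ ?_)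
    rw [Function.mem_support, P.one z (self_subset_cthickening _ hz)]
    exact one_ne_zero
  -- the competitor
  set L : Set ℂ := (K \ A) ∪ (fun z => z - t) ⁻¹' A with hL
  have hLc : IsClosed L := P.out.union (P.cpt.isClosed.preimage (by fun_prop))
  set v : ℂ → ℝ := fun z => (1 - η z) * u z + (η (z - t) * u (z - t) + ψ (z - t)) + c z with hv
  have hL1 : Lᶜ ⊆ (K \ A)ᶜ := compl_subset_compl.2 subset_union_left
  have hL2 : Lᶜ ⊆ (fun z => z - t) ⁻¹' Aᶜ := compl_subset_compl.2 subset_union_right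
  have la : LocLip Lᶜ fun z => (1 - η z) * u z := (P.a_lip h).mono hLc.isOpen_compl hL1
  have lb : LocLip Lᶜ fun z => η (z - t) * u (z - t) :=
    ((P.b_lip h).translate t).mono hLc.isOpen_compl hL2
  have lp : LocLip Lᶜ fun z => ψ (z - t) := (hψ.translate t).mono hLc.isOpen_compl hL2
  have lc : LocLip Lᶜ c := LocLip.of_contDiff hc hLc.isOpen_compl
  have lv : LocLip Lᶜ v := (la.add (lb.add lp)).add lc
  have hA0 : volume A = 0 := measure_mono_null P.sub h.vol_zero
  have hLn : volume L = 0 := by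
    refine measure_union_null (measure_mono_null sdiff_subset h.vol_zero) ?_
    rw [(measurePreserving_sub_right volume t).measure_preimage
      P.cpt.measurableSet.nullMeasurableSet]
    exact hA0
  have hgv : ∀ᵐ z : ℂ, grad v z = F1 z + F2 z + F3 z + F4 z := by
    have hp := hψ.ae_diff P.cpt.isClosed.isOpen_compl
    have hp' : ∀ᵐ z : ℂ, z - t ∈ Aᶜ → DifferentiableAt ℝ ψ (z - t) :=
      (measurePreserving_sub_right volume t).quasiMeasurePreserving.ae hp
    filter_upwards [measure_eq_zero_iff_ae_notMem.1 hLn, hp'] with z hz hpz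
    have hz1 : z ∈ (K \ A)ᶜ := hL1 hz
    have hz2 : z - t ∈ Aᶜ := hL2 hz
    have da : DifferentiableAt ℝ (fun z => (1 - η z) * u z) z :=
      ((a_smooth h P).contDiffAt (P.out.isOpen_compl.mem_nhds hz1)).differentiableAt (by simp)
    have db0 : DifferentiableAt ℝ (fun z => η z * u z) (z - t) :=
      ((b_smooth h P).contDiffAt (P.cpt.isClosed.isOpen_compl.mem_nhds hz2)).differentiableAt
        (by simp)
    have db : DifferentiableAt ℝ (fun z => η (z - t) * u (z - t)) z :=
      db0.comp (f := fun z => z - t) z (by fun_prop)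
    have dp : DifferentiableAt ℝ (fun z => ψ (z - t)) z :=
      (hpz hz2).comp (f := fun z => z - t) z (by fun_prop)
    have dc : DifferentiableAt ℝ c z := hc.differentiable (by simp) z
    have e1 : grad (fun z => η (z - t) * u (z - t)) z = F2 z :=
      grad_translate (fun z => η z * u z) t z
    have e2 : grad (fun z => ψ (z - t)) z = F4 z := grad_translate ψ t z
    have dbp : DifferentiableAt ℝ (fun z => η (z - t) * u (z - t) + ψ (z - t)) z := db.add dp
    have dabp : DifferentiableAt ℝ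
        (fun z => (1 - η z) * u z + (η (z - t) * u (z - t) + ψ (z - t))) z := da.add dbp
    rw [hv, grad_add dabp dc, grad_add da dbp, grad_add db dp, e1, e2]
    ring
  have hgu : ∀ᵐ z : ℂ, grad u z = F1 z + F0 z := by
    filter_upwards [measure_eq_zero_iff_ae_notMem.1 h.vol_zero] with z hz
    exact P.grad_add h hz
  -- square integrability
  set μ : Measure ℂ := volume.restrict (ball (0 : ℂ) R) with hμ
  have s1 : Integrable (fun z => ‖F1 z‖ ^ 2) μ := P.a_sq h R
  have s0' : Integrable (fun z => ‖F0 z‖ ^ 2) := P.b_sq h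
  have s2' : Integrable (fun z => ‖F2 z‖ ^ 2) := s0'.comp_sub_right t
  have s3' : Integrable (fun z => ‖F3 z‖ ^ 2) := integrable_grad_sq_cc hc hcc
  have s4' : Integrable (fun z => ‖F4 z‖ ^ 2) := hψi.comp_sub_right t
  have s0 : Integrable (fun z => ‖F0 z‖ ^ 2) μ := s0'.integrableOn
  have s2 : Integrable (fun z => ‖F2 z‖ ^ 2) μ := s2'.integrableOn
  have s3 : Integrable (fun z => ‖F3 z‖ ^ 2) μ := s3'.integrableOn
  have s4 : Integrable (fun z => ‖F4 z‖ ^ 2) μ := s4'.integrableOn
  have s10 := integrable_add_sq m1 m0 s1 s0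
  have sv : Integrable (fun z => ‖grad v z‖ ^ 2) μ := by
    have h12 := integrable_add_sq m1 m2 s1 s2
    have h123 := integrable_add_sq (m1.add m2) m3 h12 s3
    have h1234 := integrable_add_sq ((m1.add m2).add m3) m4 h123 s4
    refine h1234.congr ?_
    filter_upwards [ae_restrict_of_ae hgv] with z hz
    rw [hz]
    rfl
  have hlen := P.len_le t hA_R
  have cmp := h.compare (R := R) (v := v) hLc lv sv (hlen.trans_lt (h.len_lt R)) (by
    refine ⟨closedBall 0 r, isCompact_closedBall _ _, closedBall_subset_ball (by linarith only []), ?_, ?_⟩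
    · intro z hz
      rw [mem_closedBall, dist_zero_right]
      by_contra hh
      push Not at hh
      have hA1 : z ∉ A := fun hzA => by
        refine hηr z hh (subset_tsupport _ ?_)
        rw [Function.mem_support, P.one z (self_subset_cthickening _ hzA)]
        exact one_ne_zero
      have hA2 : z - t ∉ A := fun hzA => hψtr z hh (self_subset_cthickening _ hzA)
      rcases hz with hz | hz
      · rcases hz.1 with h1 | h1
        · exact hz.2 h1.1
        · exact hA2 h1
      · exact hz.2 (Or.inl ⟨hz.1, hA1⟩)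
    · intro z hz _
      rw [mem_closedBall, dist_zero_right] at hz
      push Not at hz
      have e1 : η z = 0 := image_eq_zero_of_notMem_tsupport (hηr z hz)
      have e2 : η (z - t) = 0 := image_eq_zero_of_notMem_tsupport (hηtr z hz)
      have e3 : ψ (z - t) = 0 := hψ0 _ (hψtr z hz)
      have e4 : χ z = 0 := image_eq_zero_of_notMem_tsupport (hχr z hz)
      simp only [hv, hc_def, e1, e2, e3, e4]
      ring)
  have hlen' : Len L R ≤ Len K R := ENNReal.toReal_mono (h.len_lt R).ne hlen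
  have hEn : En u R ≤ En v R := by linarith only [cmp, hlen']
  -- expansion
  have iab' := integrable_inner_of m1 m2 s1 s2
  have iab := integrable_inner_of m1 m0 s1 s0
  have iac := integrable_inner_of m1 m3 s1 s3
  have ibc := integrable_inner_of m2 m3 s2 s3
  have iap := integrable_inner_of m1 m4 s1 s4
  have ibp := integrable_inner_of m2 m4 s2 s4
  have icp := integrable_inner_of m3 m4 s3 s4
  have hu : En u R = ∫ z, ‖F1 z + F0 z‖ ^ 2 ∂μ := by
    refine integral_congr_ae ?_
    filter_upwards [ae_restrict_of_ae hgu] with z hz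
    rw [hz]
  have hvv : En v R = (∫ z, ‖F1 z + F0 z‖ ^ 2 ∂μ) + ((∫ z, ‖F2 z‖ ^ 2 ∂μ) - ∫ z, ‖F0 z‖ ^ 2 ∂μ)
      + 2 * ((∫ z, inner ℝ (F1 z) (F2 z) ∂μ) - ∫ z, inner ℝ (F1 z) (F0 z) ∂μ)
      + 2 * (∫ z, inner ℝ (F1 z) (F3 z) ∂μ) + 2 * (∫ z, inner ℝ (F2 z) (F3 z) ∂μ)
      + (∫ z, ‖F3 z‖ ^ 2 ∂μ)
      + 2 * (∫ z, inner ℝ (F1 z) (F4 z) ∂μ) + 2 * (∫ z, inner ℝ (F2 z) (F4 z) ∂μ)
      + 2 * (∫ z, inner ℝ (F3 z) (F4 z) ∂μ) + ∫ z, ‖F4 z‖ ^ 2 ∂μ := by
    have e0 : En v R = ∫ z, (‖F1 z + F0 z‖ ^ 2 + (‖F2 z‖ ^ 2 - ‖F0 z‖ ^ 2)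
        + 2 * (inner ℝ (F1 z) (F2 z) - inner ℝ (F1 z) (F0 z)) + 2 * inner ℝ (F1 z) (F3 z)
        + 2 * inner ℝ (F2 z) (F3 z) + ‖F3 z‖ ^ 2 + 2 * inner ℝ (F1 z) (F4 z)
        + 2 * inner ℝ (F2 z) (F4 z) + 2 * inner ℝ (F3 z) (F4 z) + ‖F4 z‖ ^ 2) ∂μ := by
      refine integral_congr_ae ?_
      filter_upwards [ae_restrict_of_ae hgv] with z hz
      rw [hz, norm_expand (F1 z) (F0 z) (F2 z) (F3 z) (F4 z)]
    rw [e0]
    exact integral_sum12 s10 s2 s0 iab' iab iac ibc s3 iap ibp icp s4
  -- integrals over the plane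
  have full : ∀ f : ℂ → ℝ, (∀ z, r < ‖z‖ → f z = 0) → ∫ z, f z ∂μ = ∫ z, f z := by
    intro f hf
    refine setIntegral_eq_integral_of_forall_compl_eq_zero fun z hz => hf z ?_
    rw [mem_ball, dist_zero_right] at hz
    linarith only [hz]
  have q2 : ∫ z, ‖F2 z‖ ^ 2 ∂μ = ∫ z, ‖F0 z‖ ^ 2 := by
    rw [full _ fun z hz => by rw [z2 z hz]; simp]
    exact integral_sub_right_eq_self (fun z => ‖F0 z‖ ^ 2) t
  have q0 : ∫ z, ‖F0 z‖ ^ 2 ∂μ = ∫ z, ‖F0 z‖ ^ 2 := full _ fun z hz => by rw [z0 z hz]; simp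
  have q12 : ∫ z, inner ℝ (F1 z) (F2 z) ∂μ = ∫ z, src u η z * (η (z - t) * u (z - t)) := by
    rw [full _ fun z hz => by rw [z2 z hz, inner_zero_right]]
    exact P.cross h ht
  have q10 : ∫ z, inner ℝ (F1 z) (F0 z) ∂μ = ∫ z, src u η z * (η z * u z) := by
    rw [full _ fun z hz => by rw [z0 z hz, inner_zero_right]]
    have := P.cross h (t := 0) (by simpa only [norm_zero] using P.pos.le)
    simpa only [Complex.inner, Complex.mul_re, Complex.conj_re, Complex.conj_im, mul_neg, sub_neg_eq_add,     sub_zero] using this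
  have q13 : ∫ z, inner ℝ (F1 z) (F3 z) ∂μ = ∫ z, inner ℝ (F1 z) (F3 z) :=
    full _ fun z hz => by rw [z3 z hz, inner_zero_right]
  have q23 : ∫ z, inner ℝ (F2 z) (F3 z) ∂μ = ∫ z, inner ℝ (F2 z) (F3 z) :=
    full _ fun z hz => by rw [z3 z hz, inner_zero_right]
  have q3 : ∫ z, ‖F3 z‖ ^ 2 ∂μ = ∫ z, ‖F3 z‖ ^ 2 := full _ fun z hz => by rw [z3 z hz]; simp
  have q14 : ∫ z, inner ℝ (F1 z) (F4 z) ∂μ = 0 := by
    rw [integral_congr_ae (Eventually.of_forall fun z => P.psi_a h ht hψ0 z), integral_zero]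
  have q24 : ∫ z, inner ℝ (F2 z) (F4 z) ∂μ = 0 := by
    rw [full _ fun z hz => by rw [z4 z hz, inner_zero_right]]
    exact P.psi_b h hψ hψ0 hψi
  have q34 : ∫ z, inner ℝ (F3 z) (F4 z) ∂μ
      = ∫ z, inner ℝ (grad w (z + t) - grad w z) (grad ψ z) := by
    rw [full _ fun z hz => by rw [z4 z hz, inner_zero_right]]
    exact P.psi_c hw ht hρ hχ1 hψ0
  have q4 : ∫ z, ‖F4 z‖ ^ 2 ∂μ = ∫ z, ‖grad ψ z‖ ^ 2 := by
    rw [full _ fun z hz => by rw [z4 z hz]; simp]
    exact integral_sub_right_eq_self (fun z => ‖grad ψ z‖ ^ 2) t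
  have corr := P.corr h hw ht hχ hχc hρ hχ1
  have HHt := P.HH_eq h hw ht
  have HH0 := P.HH_eq h hw (t := 0) (by simpa only [norm_zero] using P.pos.le)
  simp only [sub_zero] at HH0
  rw [hu, hvv, q2, q0, q12, q10, q13, q23, q3, q14, q24, q34, q4] at hEn
  rw [HHt, HH0]
  linarith only [corr, hEn]

end Vale.Agent.P128.GM
end

section

set_option linter.all false

open MeasureTheory Set Metric Filter InnerProductSpace
open scoped ENNReal NNReal ContDiff Topology Real

namespace Vale.Agent.P128.GM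

open Vale.Agent.P128

variable {u : ℂ → ℝ} {K A : Set ℂ} {η w : ℂ → ℝ} {δ : ℝ}

theorem sh_lap_sub {f g : ℂ → ℝ} {z : ℂ} (hf : ContDiffAt ℝ 2 f z) (hg : ContDiffAt ℝ 2 g z) :
    lap (fun z => f z - g z) z = lap f z - lap g z := by
  have key : ∀ v : ℂ, fderiv ℝ (fun w => fderiv ℝ (fun z => f z - g z) w v) z v
      = fderiv ℝ (fun w => fderiv ℝ f w v) z v - fderiv ℝ (fun w => fderiv ℝ g w v) z v := by
    intro v
    have h1 : (fun w => fderiv ℝ (fun z => f z - g z) w v)
        =ᶠ[𝓝 z] fun w => fderiv ℝ f w v - fderiv ℝ g w v := by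
      filter_upwards [hf.eventually (by simp), hg.eventually (by simp)] with y hy1 hy2
      rw [fderiv_fun_sub (hy1.differentiableAt (by norm_num)) (hy2.differentiableAt (by norm_num))]
      rfl
    have hd : ∀ {F : ℂ → ℝ}, ContDiffAt ℝ 2 F z → DifferentiableAt ℝ (fun w => fderiv ℝ F w v) z := by
      intro F hF
      have h2 : DifferentiableAt ℝ (fderiv ℝ F) z :=
        (hF.fderiv_right (m := 1) (by norm_num)).differentiableAt (by norm_num)
      exact h2.clm_apply (differentiableAt_const v)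
    rw [h1.fderiv_eq, fderiv_fun_sub (hd hf) (hd hg)]
    rfl
  unfold lap
  rw [key, key]
  ring

/-- `q = ηu - w` is harmonic off `A`. -/
theorem sh_harm (h : GMin u K) (P : Piece K A η δ) (hw : Pot (src u η) w) :
    HarmonicOnNhd (fun z => η z * u z - w z) Aᶜ := by
  have hb : ContDiffOn ℝ 2 (fun z => η z * u z) Aᶜ := (b_smooth h P).of_le (by norm_cast)
  have hw2 : ContDiff ℝ 2 w := hw.smooth.of_le (by norm_cast)
  have hAo : IsOpen Aᶜ := P.cpt.isClosed.isOpen_compl
  refine harmonicOnNhd_of_lap hAo (hb.sub hw2.contDiffOn) fun z hz => ?_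
  have := sh_lap_sub (hb.contDiffAt (hAo.mem_nhds hz)) (hw2.contDiffAt (x := z))
  rw [this, lap_b h P hz, hw.eqn, sub_self]

theorem sh_grad_zero (z : ℂ) : grad (fun _ : ℂ => (0 : ℝ)) z = 0 := by
  unfold grad; simp only [fderiv_fun_const, Pi.zero_apply, zero_apply, Complex.ext_iff, Complex.zero_re, Complex.zero_im, and_self]

/-- The cut-off error can be made arbitrarily small. -/
theorem sh_cut (h : GMin u K) (P : Piece K A η δ) (hw : Pot (src u η) w) (t : ℂ) {ε : ℝ}
    (hε : 0 < ε) : ∃ (χ : ℂ → ℝ) (ρ : ℝ), ContDiff ℝ ∞ χ ∧ HasCompactSupport χ ∧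
      (∀ z, η z ≠ 0 → ‖z‖ + δ < ρ) ∧ (∀ z ∈ ball (0 : ℂ) ρ, χ z = 1) ∧
      ∫ z, ‖grad χ z‖ ^ 2 * (w z - w (z - t)) ^ 2 < ε := by
  obtain ⟨R, hR⟩ := P.supp.isCompact.isBounded.subset_ball (0 : ℂ)
  have hc : Continuous fun z => w z - w (z - t) :=
    hw.smooth.continuous.sub (hw.smooth.continuous.comp (continuous_id.sub continuous_const))
  have h0 : Tendsto (fun z => w z - w (z - t)) (cocompact ℂ) (𝓝 0) := by
    have h1 : Tendsto (fun z : ℂ => z - t) (cocompact ℂ) (cocompact ℂ) := by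
      have := (Homeomorph.addRight (-t)).isClosedEmbedding.tendsto_cocompact
      simpa only [sub_eq_add_neg, Homeomorph.coe_addRight] using this
    have := hw.lim.sub (hw.lim.comp h1)
    simpa only [Function.comp_apply, sub_self] using this
  obtain ⟨χ, c1, c2, c3, c4, c5⟩ := exists_cutoff hc h0 (R + δ) hε
  refine ⟨χ, R + δ, c1, c2, fun z hz => ?_, c3, c5⟩
  have : z ∈ ball (0 : ℂ) R := hR (subset_tsupport _ hz)
  rw [mem_ball_zero_iff] at this
  linarith only [this]

theorem GMin.H_const (h : GMin u K) (P : Piece K A η δ) (hw : Pot (src u η) w) {t : ℂ}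
    (ht : ‖t‖ ≤ δ) : HH u η w t = HH u η w 0 := by
  have e0 : HH u η w 0 = ∫ x, src u η x * (η x * u x - w x) := by
    unfold HH; simp
  rw [e0]
  refine const_of_min P.cpt (q := fun z => η z * u z - w z) (sh_harm h P hw)
    (src_smooth h P).continuous (src_supp P) (δ := δ) (fun z hz => src_near P hz) ?_ t ht
  intro s hs
  rw [← e0]
  show HH u η w 0 ≤ HH u η w s
  refine le_of_forall_pos_le_add fun ε hε => ?_
  obtain ⟨χ, ρ, c1, c2, c3, c4, c5⟩ := sh_cut h P hw s hε
  have hz : LocLip Aᶜ (fun _ : ℂ => (0 : ℝ)) := by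
    intro z hz
    obtain ⟨r, hr, hr2⟩ := Metric.isOpen_iff.1 P.cpt.isClosed.isOpen_compl z hz
    exact ⟨0, r, hr, hr2, (LipschitzWith.const 0).lipschitzOnWith⟩
  have := h.translate P hw hs c1 c2 c3 c4 (ψ := fun _ => 0) hz (fun _ _ => rfl)
    (by simp only [sh_grad_zero, norm_zero, ne_eq, OfNat.ofNat_ne_zero, not_false_eq_true, zero_pow, integrable_fun_zero])
  simp only [sh_grad_zero, inner_zero_right, integral_zero, norm_zero] at this
  norm_num at this
  linarith only [hε, c5, this]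

theorem sh_grad_smul (c : ℝ) (ψ : ℂ → ℝ) (z : ℂ) :
    grad (fun z => c * ψ z) z = c • grad ψ z := by
  have h1 : fderiv ℝ (fun z => c * ψ z) z = c • fderiv ℝ ψ z := by
    have := congrFun (fderiv_const_smul_field (𝕜 := ℝ) (f := ψ) c) z
    simpa only [Pi.smul_def, smul_eq_mul, Pi.smul_apply] using this
  unfold grad
  rw [h1]
  apply Complex.ext <;> simp

theorem GMin.shifted (h : GMin u K) (P : Piece K A η δ) (hw : Pot (src u η) w) {t : ℂ}
    (ht : ‖t‖ ≤ δ) {ψ : ℂ → ℝ} (hψ : LocLip Aᶜ ψ) (hψ0 : ∀ z, z ∉ cthickening δ A → ψ z = 0)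
    (hψi : Integrable (fun z => ‖grad ψ z‖ ^ 2)) :
    ∫ z, inner ℝ (grad w (z + t) - grad w z) (grad ψ z) = 0 := by
  set I := ∫ z, inner ℝ (grad w (z + t) - grad w z) (grad ψ z) with hI
  set J := ∫ z, ‖grad ψ z‖ ^ 2 with hJ
  have hJ0 : 0 ≤ J := integral_nonneg fun _ => by (clear * -; positivity)
  have key : ∀ c : ℝ, 0 ≤ 2 * (c * I) + c ^ 2 * J := by
    intro c
    refine le_of_forall_pos_le_add fun ε hε => ?_
    obtain ⟨χ, ρ, c1, c2, c3, c4, c5⟩ := sh_cut h P hw t hε
    have hz : LocLip Aᶜ (fun z : ℂ => c * ψ z) := by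
      intro z hz
      obtain ⟨M, r, hr, hr2, hM⟩ := hψ z hz
      refine ⟨‖c‖₊ * M, r, hr, hr2, ?_⟩
      refine LipschitzOnWith.of_dist_le_mul fun x hx y hy => ?_
      have := hM.dist_le_mul x hx y hy
      rw [Real.dist_eq, ← mul_sub, abs_mul, NNReal.coe_mul, coe_nnnorm, Real.norm_eq_abs, mul_assoc]
      rw [Real.dist_eq] at this
      exact mul_le_mul_of_nonneg_left this (abs_nonneg c)
    have hi2 : Integrable (fun z => ‖grad (fun z => c * ψ z) z‖ ^ 2) := by
      have : (fun z => ‖grad (fun z => c * ψ z) z‖ ^ 2) = fun z => c ^ 2 * ‖grad ψ z‖ ^ 2 := by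
        funext z
        rw [sh_grad_smul, norm_smul, mul_pow, Real.norm_eq_abs, sq_abs]
      rw [this]
      exact hψi.const_mul _
    have := h.translate P hw ht c1 c2 c3 c4 hz (fun z hz => by rw [hψ0 z hz, mul_zero]) hi2
    rw [h.H_const P hw ht, sub_self, mul_zero, zero_add] at this
    have e1 : ∫ z, inner ℝ (grad w (z + t) - grad w z) (grad (fun z => c * ψ z) z) = c * I := by
      rw [hI, ← integral_const_mul]
      refine integral_congr_ae (Eventually.of_forall fun z => ?_)
      simp only [sh_grad_smul, inner_smul_right]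
    have e2 : ∫ z, ‖grad (fun z => c * ψ z) z‖ ^ 2 = c ^ 2 * J := by
      rw [hJ, ← integral_const_mul]
      refine integral_congr_ae (Eventually.of_forall fun z => ?_)
      simp only [sh_grad_smul, norm_smul, mul_pow, Real.norm_eq_abs, sq_abs]
    rw [e1, e2] at this
    linarith only [c5, this]
  have h1 := key (-I / (J + 1))
  have hJ1 : 0 < J + 1 := by linarith only [hJ0]
  have h2 : 2 * (-I / (J + 1) * I) + (-I / (J + 1)) ^ 2 * J
      = -(I ^ 2 * (J + 2)) / (J + 1) ^ 2 := by
    field_simp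
    ring
  rw [h2, div_nonneg_iff] at h1
  rcases h1 with ⟨h1, _⟩ | ⟨_, h1⟩
  · have h3 : I ^ 2 * (J + 2) ≤ 0 := by linarith only [h1]
    have h4 : I ^ 2 ≤ 0 := by
      by_contra hh
      push Not at hh
      have : 0 < I ^ 2 * (J + 2) := mul_pos hh (by linarith only [hJ0])
      linarith only [h1, this]
    exact pow_eq_zero_iff (two_ne_zero) |>.1 (le_antisymm h4 (sq_nonneg I))
  · have : 0 < (J + 1) ^ 2 := by (clear * -; positivity)
    linarith only [h1, this]

end Vale.Agent.P128.GM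
end

section

/-! Removing a dangling piece on which `u` hardly oscillates is profitable. -/

open MeasureTheory Set Metric Filter InnerProductSpace
open scoped ENNReal NNReal ContDiff Topology Real

namespace Vale.Agent.P128.GM

open Vale.Agent.P128

variable {u : ℂ → ℝ} {K : Set ℂ}

/-- The trivial energy bound, arbitrary centre. -/
theorem GMin.rp_growth (h : GMin u K) (x : ℂ) {R : ℝ} (hR : 0 < R) :
    ∫ z in ball x R, ‖grad u z‖ ^ 2 ≤ 2 * π * R := by
  set L : Set ℂ := (K \ ball x R) ∪ sphere x R with hL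
  set v : ℂ → ℝ := fun z => if dist z x < R then 0 else u z with hv
  have hLc : IsClosed L := (h.closed.sdiff isOpen_ball).union isClosed_sphere
  have hv1 : ∀ z ∈ ball x R, v z = 0 := fun z hz => by
    rw [mem_ball] at hz
    simp only [hv, if_pos hz]
  have hv2 : ∀ z, R ≤ dist z x → v z = u z := fun z hz => by
    simp only [hv, if_neg (not_lt.2 hz)]
  have hLip : LocLip Lᶜ v := by
    have h1 : LocLip (ball x R) v :=
      (LocLip.const isOpen_ball 0).congr fun z hz => (hv1 z hz).symm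
    have h2 : LocLip (Kᶜ ∩ (closedBall x R)ᶜ) v := by
      refine (h.locLip.mono (h.isOpen_compl.inter isClosed_closedBall.isOpen_compl)
        inter_subset_left).congr fun z hz => ?_
      have := hz.2
      rw [mem_compl_iff, mem_closedBall, not_le] at this
      exact (hv2 z this.le).symm
    refine (h1.union h2).mono hLc.isOpen_compl fun z hz => ?_
    rw [hL, mem_compl_iff, mem_union, not_or] at hz
    by_cases hzb : z ∈ ball x R
    · exact Or.inl hzb
    · refine Or.inr ⟨fun hzK => hz.1 ⟨hzK, hzb⟩, fun hzc => hz.2 ?_⟩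
      rw [mem_ball, not_lt] at hzb
      rw [mem_closedBall] at hzc
      rw [mem_sphere]
      exact le_antisymm hzc hzb
  have hg1 : ∀ z ∈ ball x R, grad v z = 0 := fun z hz => by
    have : v =ᶠ[𝓝 z] fun _ => (0 : ℝ) := by
      filter_upwards [isOpen_ball.mem_nhds hz] with w hw using hv1 w hw
    rw [grad_congr this, grad_const]
  have hg2 : ∀ z, R < dist z x → grad v z = grad u z := fun z hz => by
    have : v =ᶠ[𝓝 z] u := by
      filter_upwards [(isOpen_lt continuous_const (continuous_id.dist continuous_const)).mem_nhds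
        hz] with w hw
      exact hv2 w (le_of_lt hw)
    exact grad_congr this
  set B : Set ℂ := ball x (R + 1) with hB
  have hbB : ball x R ⊆ B := ball_subset_ball (by linarith)
  have hsph : ∀ᵐ z : ℂ, z ∉ sphere x R := by
    have h0 : {z : ℂ | ¬ z ∉ sphere x R} = sphere x R := by
      ext z
      simp only [mem_ofPred_eq, not_not]
    rw [ae_iff, h0]
    exact Measure.addHaar_sphere (volume : Measure ℂ) x R
  have hae : ∀ᵐ z : ℂ, ‖grad v z‖ ^ 2 = (ball x R)ᶜ.indicator (fun z => ‖grad u z‖ ^ 2) z := by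
    filter_upwards [hsph] with z hz
    by_cases hzb : z ∈ ball x R
    · rw [indicator_of_notMem (by simpa using hzb), hg1 z hzb]
      simp
    · rw [indicator_of_mem (by simpa using hzb), hg2 z]
      rw [mem_ball, not_lt] at hzb
      rw [mem_sphere] at hz
      exact lt_of_le_of_ne hzb (Ne.symm hz)
  have iu : IntegrableOn (fun z => ‖grad u z‖ ^ 2) B := h.integrableOn' x (R + 1)
  have iv : IntegrableOn (fun z => ‖grad v z‖ ^ 2) B := by
    have h1 : IntegrableOn ((ball x R)ᶜ.indicator (fun z => ‖grad u z‖ ^ 2)) B :=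
      Integrable.indicator iu measurableSet_ball.compl
    exact h1.congr (ae_restrict_of_ae (hae.mono fun z hz => hz.symm))
  have hKd : μH[1] ((K ∩ B) \ ball x R) ≠ ⊤ :=
    (lt_of_le_of_lt (measure_mono sdiff_subset) (lt_top_iff_ne_top.2 (h.len_fin x (R + 1)))).ne
  have hLle : μH[1] (L ∩ B) ≤ μH[1] ((K ∩ B) \ ball x R) + ENNReal.ofReal (2 * π * R) := by
    refine (measure_mono (union_inter_distrib_right _ _ _).subset).trans
      ((measure_union_le _ _).trans (add_le_add (measure_mono ?_) ?_))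
    · rintro z ⟨⟨h1, h2⟩, h3⟩
      exact ⟨⟨h1, h3⟩, h2⟩
    · exact (measure_mono inter_subset_left).trans (hausdorff_sphere_le x hR.le)
  have hLfin : μH[1] (L ∩ B) ≠ ⊤ :=
    (lt_of_le_of_lt hLle (ENNReal.add_lt_top.2 ⟨lt_top_iff_ne_top.2 hKd,
      ENNReal.ofReal_lt_top⟩)).ne
  have hcmp := h.compare_real (x := x) (r := R + 1) hLc hLip (isCompact_closedBall x R)
    (closedBall_subset_ball (by linarith)) (by
      intro z hz
      rcases hz with hz | hz
      · rcases hz.1 with h1 | h1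
        · exact (hz.2 h1.1).elim
        · exact sphere_subset_closedBall h1
      · by_contra hzb
        exact hz.2 (Or.inl ⟨hz.1, fun h1 => hzb (ball_subset_closedBall h1)⟩)) (fun z hz hzK => by
        rw [mem_closedBall, not_le] at hz
        exact hv2 z hz.le) iv hLfin
  have hEv : ∫ z in B, ‖grad v z‖ ^ 2 =
      (∫ z in B, ‖grad u z‖ ^ 2) - ∫ z in ball x R, ‖grad u z‖ ^ 2 := by
    rw [integral_congr_ae (ae_restrict_of_ae hae),
      setIntegral_indicator measurableSet_ball.compl, ← Set.sdiff_eq,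
      setIntegral_sdiff measurableSet_ball iu hbB]
  have hK1 : μH[1] ((K ∩ B) \ ball x R) ≤ μH[1] (K ∩ B) := measure_mono sdiff_subset
  have hLL : (μH[1] (L ∩ B)).toReal ≤ (μH[1] (K ∩ B)).toReal + 2 * π * R := by
    rw [← ENNReal.toReal_ofReal (show 0 ≤ 2 * π * R by positivity),
      ← ENNReal.toReal_add (h.len_fin x (R + 1)) ENNReal.ofReal_ne_top]
    exact ENNReal.toReal_mono (ENNReal.add_ne_top.2 ⟨h.len_fin x (R + 1),
      ENNReal.ofReal_ne_top⟩) (hLle.trans (add_le_add_left hK1 _))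
  rw [hEv] at hcmp
  linarith

/-- the cut-off function -/
noncomputable def rpChi (x : ℂ) (d : ℝ) (z : ℂ) : ℝ :=
  max 0 (min 1 ((dist z x - 3 * d / 2) * (2 / d)))

theorem rpChi_nonneg (x : ℂ) (d : ℝ) (z : ℂ) : 0 ≤ rpChi x d z := le_max_left _ _

theorem rpChi_le_one (x : ℂ) (d : ℝ) (z : ℂ) : rpChi x d z ≤ 1 :=
  max_le zero_le_one (min_le_left _ _)

theorem rpChi_zero {x : ℂ} {d : ℝ} (hd : 0 < d) {z : ℂ} (hz : dist z x ≤ 3 * d / 2) :
    rpChi x d z = 0 := by
  refine max_eq_left ((min_le_right _ _).trans ?_)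
  exact mul_nonpos_of_nonpos_of_nonneg (by linarith) (by positivity)

theorem rpChi_one {x : ℂ} {d : ℝ} (hd : 0 < d) {z : ℂ} (hz : 2 * d ≤ dist z x) :
    rpChi x d z = 1 := by
  have h1 : 1 ≤ (dist z x - 3 * d / 2) * (2 / d) := by
    rw [mul_div_assoc', le_div_iff₀ hd]
    linarith
  unfold rpChi
  rw [min_eq_left h1, max_eq_right zero_le_one]

theorem rp_clamp (a b : ℝ) : |max 0 (min 1 a) - max 0 (min 1 b)| ≤ |a - b| := by
  have h1 := abs_max_sub_max_le_max (0 : ℝ) (min 1 a) 0 (min 1 b)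
  have h2 := abs_min_sub_min_le_max (1 : ℝ) a 1 b
  have e1 : max |(0 : ℝ) - 0| |min 1 a - min 1 b| = |min 1 a - min 1 b| := by
    rw [sub_self, abs_zero]
    exact max_eq_right (abs_nonneg _)
  have e2 : max |(1 : ℝ) - 1| |a - b| = |a - b| := by
    rw [sub_self, abs_zero]
    exact max_eq_right (abs_nonneg _)
  rw [e1] at h1
  rw [e2] at h2
  exact h1.trans h2

theorem rpChi_lip {x : ℂ} {d : ℝ} (hd : 0 < d) : LipschitzWith (Real.toNNReal (2 / d)) (rpChi x d) := by
  refine LipschitzWith.of_dist_le_mul fun z w => ?_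
  rw [Real.coe_toNNReal _ (by positivity), Real.dist_eq]
  unfold rpChi
  refine (rp_clamp _ _).trans ?_
  rw [← sub_mul, abs_mul, abs_of_pos (show (0 : ℝ) < 2 / d by positivity), mul_comm]
  refine mul_le_mul_of_nonneg_left ?_ (by positivity)
  have h3 : dist z x - 3 * d / 2 - (dist w x - 3 * d / 2) = dist z x - dist w x := by ring
  rw [h3]
  exact abs_dist_sub_le z w x

theorem rp_locLip {f : ℂ → ℝ} {M : ℝ≥0} (hf : LipschitzWith M f) {V : Set ℂ} (hV : IsOpen V) :
    LocLip V f := by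
  intro z hz
  obtain ⟨r, hr, hb⟩ := Metric.isOpen_iff.1 hV z hz
  exact ⟨M, r, hr, hb, hf.lipschitzOnWith⟩

theorem rpChi_grad {x : ℂ} {d : ℝ} (hd : 0 < d) (z : ℂ) : ‖grad (rpChi x d) z‖ ≤ 2 / d := by
  rw [norm_grad]
  have := norm_fderiv_le_of_lipschitz ℝ (rpChi_lip (x := x) hd) (x₀ := z)
  rwa [Real.coe_toNNReal _ (by positivity)] at this

/-- the components of `(K \ U)ᶜ ∩ ball x r` -/
def rpD (K U : Set ℂ) (x : ℂ) (r : ℝ) (z : ℂ) : Set ℂ :=
  connectedComponentIn ((K \ U)ᶜ ∩ ball x r) z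

open Classical in
/-- a point of `S` off `K` -/
noncomputable def rpQ (K S : Set ℂ) : ℂ := if h : (S \ K).Nonempty then h.some else 0

/-- the locally constant function -/
noncomputable def rpM (u : ℂ → ℝ) (K U : Set ℂ) (x : ℂ) (r : ℝ) (z : ℂ) : ℝ :=
  u (rpQ K (rpD K U x r z))

section

variable {U : Set ℂ} {x : ℂ} {d r J : ℝ}

theorem rp_open (hout : IsClosed (K \ U)) (x : ℂ) (r : ℝ) : IsOpen ((K \ U)ᶜ ∩ ball x r) :=
  hout.isOpen_compl.inter isOpen_ball

theorem rpD_open (hout : IsClosed (K \ U)) (x : ℂ) (r : ℝ) (z : ℂ) : IsOpen (rpD K U x r z) :=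
  (rp_open hout x r).connectedComponentIn

theorem rpD_mem {z : ℂ} (hz : z ∈ (K \ U)ᶜ ∩ ball x r) : z ∈ rpD K U x r z :=
  mem_connectedComponentIn hz

theorem rpD_sub (z : ℂ) : rpD K U x r z ⊆ (K \ U)ᶜ ∩ ball x r :=
  connectedComponentIn_subset _ _

theorem rpD_eq {z w : ℂ} (hw : w ∈ rpD K U x r z) : rpD K U x r w = rpD K U x r z :=
  (connectedComponentIn_eq hw).symm

theorem rpM_eq {z w : ℂ} (hw : w ∈ rpD K U x r z) : rpM u K U x r w = rpM u K U x r z := by
  unfold rpM
  rw [rpD_eq hw]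

theorem GMin.rpQ_mem (h : GMin u K) (hout : IsClosed (K \ U)) {z : ℂ}
    (hz : z ∈ (K \ U)ᶜ ∩ ball x r) :
    rpQ K (rpD K U x r z) ∈ rpD K U x r z \ K := by
  have hne : (rpD K U x r z \ K).Nonempty := by
    by_contra hcon
    rw [not_nonempty_iff_eq_empty, sdiff_eq_empty] at hcon
    have h1 : 0 < volume (rpD K U x r z) :=
      (rpD_open hout x r z).measure_pos volume ⟨z, rpD_mem hz⟩
    have h2 : volume (rpD K U x r z) ≤ volume K := measure_mono hcon
    rw [h.volume_zero] at h2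
    exact absurd h1 (not_lt.2 h2)
  unfold rpQ
  rw [dif_pos hne]
  exact hne.some_mem

theorem rpM_locLip (hout : IsClosed (K \ U)) :
    LocLip ((K \ U)ᶜ ∩ ball x r) (rpM u K U x r) := by
  refine LocLip.of_local fun z hz => ⟨rpD K U x r z, fun _ => rpM u K U x r z,
    rpD_open hout x r z, rpD_mem hz, rpD_sub z, LocLip.const (rpD_open hout x r z) _, ?_⟩
  intro w hw
  exact rpM_eq hw

open Classical in
/-- the competitor -/
noncomputable def rpW (u : ℂ → ℝ) (K U : Set ℂ) (x : ℂ) (d r : ℝ) (z : ℂ) : ℝ :=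
  if dist z x < 2 * d then rpM u K U x r z + rpChi x d z * (u z - rpM u K U x r z) else u z

theorem rpW_eq (hd : 0 < d) (z : ℂ) :
    rpW u K U x d r z = rpM u K U x r z + rpChi x d z * (u z - rpM u K U x r z) := by
  unfold rpW
  split_ifs with h1
  · rfl
  · rw [rpChi_one hd (not_lt.1 h1)]
    ring

theorem GMin.rpW_locLip (h : GMin u K) (hout : IsClosed (K \ U)) (hd : 0 < d) (hdr : 2 * d < r)
    (hUd : U ⊆ closedBall x d) : LocLip (K \ U)ᶜ (rpW u K U x d r) := by
  have hO := rp_open hout x r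
  have hM := rpM_locLip (u := u) (x := x) (r := r) hout
  have hA : LocLip (((K \ U)ᶜ ∩ ball x r) ∩ ball x (3 * d / 2)) (rpW u K U x d r) := by
    refine (hM.mono (hO.inter isOpen_ball) inter_subset_left).congr fun z hz => ?_
    rw [rpW_eq hd, rpChi_zero hd (le_of_lt (mem_ball.1 hz.2))]
    ring
  have hB : LocLip (Kᶜ ∩ ball x r) (rpW u K U x d r) := by
    have hBo : IsOpen (Kᶜ ∩ ball x r) := h.isOpen_compl.inter isOpen_ball
    have hM' := hM.mono hBo (inter_subset_inter_left _ (compl_subset_compl.2 sdiff_subset))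
    have hu' := h.locLip.mono hBo inter_subset_left
    refine (hM'.add ((rp_locLip (rpChi_lip (x := x) hd) hBo).mul (hu'.sub hM'))).congr
      fun z _ => ?_
    exact (rpW_eq hd z).symm
  have hC : LocLip (Kᶜ ∩ (closedBall x (2 * d))ᶜ) (rpW u K U x d r) := by
    refine (h.locLip.mono (h.isOpen_compl.inter isClosed_closedBall.isOpen_compl)
      inter_subset_left).congr fun z hz => ?_
    have := hz.2
    rw [mem_compl_iff, mem_closedBall, not_le] at this
    unfold rpW
    rw [if_neg (not_lt.2 this.le)]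
  refine ((hA.union hB).union hC).mono hout.isOpen_compl fun z hz => ?_
  by_cases hzK : z ∈ K
  · have hzU : z ∈ U := by
      by_contra hcon
      exact hz ⟨hzK, hcon⟩
    have h1 := mem_closedBall.1 (hUd hzU)
    refine Or.inl (Or.inl ⟨⟨hz, mem_ball.2 (by linarith)⟩, mem_ball.2 (by linarith)⟩)
  · by_cases hzr : dist z x < r
    · exact Or.inl (Or.inr ⟨hzK, hzr⟩)
    · refine Or.inr ⟨hzK, ?_⟩
      rw [mem_compl_iff, mem_closedBall, not_le]
      linarith [not_lt.1 hzr]

theorem GMin.rpW_grad (h : GMin u K) (hout : IsClosed (K \ U)) (hd : 0 < d) (hdr : 2 * d < r)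
    (hosc : ∀ z z' : ℂ, z ∉ K → z' ∉ K →
      z' ∈ connectedComponentIn ((K \ U)ᶜ ∩ ball x r) z → |u z - u z'| ≤ J) {δ : ℝ} (hδ : 0 < δ) :
    ∀ᵐ z : ℂ, ‖grad (rpW u K U x d r) z‖ ^ 2 ≤ ‖grad u z‖ ^ 2 +
      (ball x (2 * d)).indicator
        (fun z => δ * ‖grad u z‖ ^ 2 + (1 + 1 / δ) * (J ^ 2 * (2 / d) ^ 2)) z := by
  have hsph : ∀ᵐ z : ℂ, z ∉ sphere x (2 * d) := by
    have h0 : {z : ℂ | ¬ z ∉ sphere x (2 * d)} = sphere x (2 * d) := by
      ext z
      simp only [mem_ofPred_eq, not_not]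
    rw [ae_iff, h0]
    exact Measure.addHaar_sphere (volume : Measure ℂ) x (2 * d)
  filter_upwards [hsph, h.ae_compl, h.locLip.ae_diff h.isOpen_compl,
    (rp_locLip (rpChi_lip (x := x) hd) isOpen_univ).ae_diff isOpen_univ] with z hz hzK hu hchi
  by_cases hzb : z ∈ ball x (2 * d)
  · rw [indicator_of_mem hzb]
    have hzW : z ∈ (K \ U)ᶜ ∩ ball x r :=
      ⟨fun hc => hzK hc.1, mem_ball.2 ((mem_ball.1 hzb).trans hdr)⟩
    set c : ℝ := rpM u K U x r z with hc
    have hev : rpW u K U x d r =ᶠ[𝓝 z] fun y => c + rpChi x d y * (u y - c) := by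
      filter_upwards [(rpD_open hout x r z).mem_nhds (rpD_mem hzW)] with y hy
      rw [rpW_eq hd, rpM_eq hy]
    have hduc : DifferentiableAt ℝ (fun y => u y - c) z := (hu hzK).sub_const c
    have hchi' := hchi (mem_univ z)
    have hgr : grad (rpW u K U x d r) z =
        rpChi x d z • grad u z + (u z - c) • grad (rpChi x d) z := by
      have e1 : grad (fun y => c + rpChi x d y * (u y - c)) z =
          grad (fun _ => c) z + grad (fun y => rpChi x d y * (u y - c)) z :=
        grad_add (differentiableAt_const c) (hchi'.mul hduc)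
      have e2 : grad (fun y => rpChi x d y * (u y - c)) z =
          rpChi x d z • grad (fun y => u y - c) z + (u z - c) • grad (rpChi x d) z :=
        grad_mul hchi' hduc
      have e3 : grad (fun y => u y - c) z = grad u z - grad (fun _ => c) z :=
        grad_sub (hu hzK) (differentiableAt_const c)
      rw [grad_congr hev, e1, e2, e3, grad_const, zero_add, sub_zero]
    have hQ := h.rpQ_mem hout hzW
    have hJ : |u z - c| ≤ J := hosc z _ hzK hQ.2 hQ.1
    have h1 : ‖grad (rpW u K U x d r) z‖ ≤ ‖grad u z‖ + J * (2 / d) := by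
      rw [hgr]
      refine (norm_add_le _ _).trans (add_le_add ?_ ?_)
      · rw [norm_smul, Real.norm_of_nonneg (rpChi_nonneg _ _ _)]
        exact mul_le_of_le_one_left (norm_nonneg _) (rpChi_le_one _ _ _)
      · rw [norm_smul, Real.norm_eq_abs]
        exact mul_le_mul hJ (rpChi_grad hd z) (norm_nonneg _) ((abs_nonneg _).trans hJ)
    have h2 : 0 ≤ J * (2 / d) := mul_nonneg ((abs_nonneg _).trans hJ) (by positivity)
    have h3 : ‖grad (rpW u K U x d r) z‖ ^ 2 ≤ (‖grad u z‖ + J * (2 / d)) ^ 2 :=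
      pow_le_pow_left₀ (norm_nonneg _) h1 2
    refine h3.trans ?_
    have h4 : (δ * ‖grad u z‖ - J * (2 / d)) ^ 2 / δ ≥ 0 := by (clear * - hδ; positivity)
    have h5 : (δ * ‖grad u z‖ - J * (2 / d)) ^ 2 / δ = δ * ‖grad u z‖ ^ 2
        - 2 * ‖grad u z‖ * (J * (2 / d)) + (1 / δ) * (J ^ 2 * (2 / d) ^ 2) := by
      field_simp
      ring
    rw [h5] at h4
    linarith only [h4]
  · rw [indicator_of_notMem hzb, add_zero]
    have h1 : 2 * d < dist z x := by
      rw [mem_ball, not_lt] at hzb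
      rw [mem_sphere] at hz
      exact lt_of_le_of_ne hzb (Ne.symm hz)
    have hev : rpW u K U x d r =ᶠ[𝓝 z] u := by
      filter_upwards [(isOpen_lt continuous_const (continuous_id.dist continuous_const)).mem_nhds
        h1] with y hy
      have hy' : 2 * d < dist y x := hy
      unfold rpW
      rw [if_neg (not_lt.2 (le_of_lt hy'))]
    rw [grad_congr hev]

end

/-- removing a piece on which `u` hardly oscillates is profitable -/
theorem GMin.remove_piece (h : GMin u K) {U : Set ℂ} {x : ℂ} (hU : IsPiece K x U) {d r J : ℝ}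
    (hd : 0 < d) (hdr : 2 * d < r) (hUd : U ⊆ closedBall x d)
    (hosc : ∀ z z' : ℂ, z ∉ K → z' ∉ K →
      z' ∈ connectedComponentIn ((K \ U)ᶜ ∩ ball x r) z → |u z - u z'| ≤ J)
    (hlen : ENNReal.ofReal d ≤ μH[1] U) : d ≤ 10000 * J ^ 2 := by
  have hout := hU.out
  have hpi := Real.pi_pos
  have hpi4 := Real.pi_le_four
  set δ : ℝ := 1 / (8 * π) with hδ
  have hδ0 : 0 < δ := by positivity
  set cst : ℝ := (1 + 1 / δ) * (J ^ 2 * (2 / d) ^ 2) with hcst
  have hae := h.rpW_grad hout hd hdr hosc hδ0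
  rw [← hcst] at hae
  have hb2 : ball x (2 * d) ⊆ ball x r := ball_subset_ball hdr.le
  have iu : IntegrableOn (fun z => ‖grad u z‖ ^ 2) (ball x r) := h.integrableOn' x r
  have iu2 : IntegrableOn (fun z => ‖grad u z‖ ^ 2) (ball x (2 * d)) := h.integrableOn' x (2 * d)
  have ic : IntegrableOn (fun _ : ℂ => cst) (ball x (2 * d)) :=
    integrableOn_const measure_ball_lt_top.ne
  have i2 : IntegrableOn (fun z => δ * ‖grad u z‖ ^ 2 + cst) (ball x (2 * d)) :=
    (iu2.const_mul δ).add ic
  have i3 : IntegrableOn ((ball x (2 * d)).indicator fun z => δ * ‖grad u z‖ ^ 2 + cst)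
      (ball x r) := ((integrable_indicator_iff measurableSet_ball).2 i2).integrableOn
  have i4 : IntegrableOn (fun z => ‖grad u z‖ ^ 2 +
      (ball x (2 * d)).indicator (fun z => δ * ‖grad u z‖ ^ 2 + cst) z) (ball x r) := iu.add i3
  have iw : IntegrableOn (fun z => ‖grad (rpW u K U x d r) z‖ ^ 2) (ball x r) := by
    refine Integrable.mono' i4
      ((measurable_grad _).norm.pow_const 2).aestronglyMeasurable ?_
    filter_upwards [ae_restrict_of_ae hae] with z hz
    rw [Real.norm_of_nonneg (by positivity)]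
    exact hz
  have hsubK : (K \ U) ∩ ball x r ⊆ K ∩ ball x r := inter_subset_inter_left _ sdiff_subset
  have hlenK' : μH[1] ((K \ U) ∩ ball x r) ≠ ⊤ :=
    (lt_of_le_of_lt (measure_mono hsubK) (lt_top_iff_ne_top.2 (h.len_fin x r))).ne
  have hcmp := h.compare_real (x := x) (r := r) hout (h.rpW_locLip hout hd hdr hUd)
    (isCompact_closedBall x (2 * d)) (closedBall_subset_ball hdr) (by
      intro z hz
      rcases hz with hz | hz
      · exact (hz.2 hz.1.1).elim
      · have hzU : z ∈ U := by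
          by_contra hcon
          exact hz.2 ⟨hz.1, hcon⟩
        exact closedBall_subset_closedBall (by linarith only [hd]) (hUd hzU)) (fun z hz _ => by
        rw [mem_closedBall, not_le] at hz
        unfold rpW
        rw [if_neg (not_lt.2 hz.le)]) iw hlenK'
  -- lengths
  have hUball : U ⊆ K ∩ ball x r := fun z hz =>
    ⟨hU.sub hz, closedBall_subset_ball (by linarith only [hdr, hd]) (hUd hz)⟩
  have hUfin : μH[1] U ≠ ⊤ :=
    (lt_of_le_of_lt (measure_mono hUball) (lt_top_iff_ne_top.2 (h.len_fin x r))).ne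
  have hsplit : μH[1] (K ∩ ball x r) = μH[1] U + μH[1] ((K \ U) ∩ ball x r) := by
    have hm : MeasurableSet (K \ U) := hout.measurableSet
    rw [← measure_inter_add_sdiff (μ := μH[1]) (K ∩ ball x r) hm, add_comm]
    congr 2
    · ext z
      constructor
      · rintro ⟨⟨h1, h2⟩, h3⟩
        by_contra hcon
        exact h3 ⟨h1, hcon⟩
      · intro hz
        exact ⟨hUball hz, fun hc => hc.2 hz⟩
    · ext z
      constructor
      · rintro ⟨⟨h1, h2⟩, h3⟩
        exact ⟨h3, h2⟩
      · rintro ⟨h1, h2⟩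
        exact ⟨⟨h1.1, h2⟩, h1⟩
  have hlenR : (μH[1] (K ∩ ball x r)).toReal =
      (μH[1] U).toReal + (μH[1] ((K \ U) ∩ ball x r)).toReal := by
    rw [hsplit, ENNReal.toReal_add hUfin hlenK']
  have hdU : d ≤ (μH[1] U).toReal := by
    rw [← ENNReal.toReal_ofReal hd.le]
    exact ENNReal.toReal_mono hUfin hlen
  -- energies
  have hE : ∫ z in ball x r, ‖grad (rpW u K U x d r) z‖ ^ 2 ≤
      (∫ z in ball x r, ‖grad u z‖ ^ 2) + (δ * (∫ z in ball x (2 * d), ‖grad u z‖ ^ 2)
        + cst * (π * (2 * d) ^ 2)) := by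
    refine (integral_mono_ae iw i4 (ae_restrict_of_ae hae)).trans (le_of_eq ?_)
    rw [integral_add iu i3, setIntegral_indicator measurableSet_ball,
      inter_eq_self_of_subset_right hb2, integral_add (iu2.const_mul δ) ic,
      integral_const_mul, setIntegral_const]
    congr 2
    rw [smul_eq_mul, measureReal_def, Complex.volume_ball, ENNReal.toReal_mul,
      ENNReal.toReal_pow, ENNReal.toReal_ofReal (by positivity)]
    simp only [ENNReal.coe_toReal, NNReal.coe_real_pi]
    ring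
  have hgr := h.rp_growth x (show 0 < 2 * d by positivity)
  have h6 : δ * (∫ z in ball x (2 * d), ‖grad u z‖ ^ 2) ≤ d / 2 := by
    refine (mul_le_mul_of_nonneg_left hgr hδ0.le).trans (le_of_eq ?_)
    rw [hδ]
    field_simp
    ring
  have h7 : cst * (π * (2 * d) ^ 2) = (1 + 8 * π) * (16 * π) * J ^ 2 := by
    rw [hcst, hδ]
    field_simp
    ring
  have h8 : (1 + 8 * π) * (16 * π) ≤ 5000 := by (by_contra nlg; linarith only [nlg, mul_nonneg (sub_nonneg.2 hpi4) (sub_nonneg.2 hpi4), mul_nonneg (le_of_lt (sub_pos.2 hpi)) (sub_nonneg.2 hpi4), mul_nonneg (le_of_lt (sub_pos.2 (not_le.1 nlg))) (sub_nonneg.2 hpi4), mul_pos (sub_pos.2 (not_le.1 nlg)) (sub_pos.2 hpi)])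
  have h9 : (1 + 8 * π) * (16 * π) * J ^ 2 ≤ 5000 * J ^ 2 :=
    mul_le_mul_of_nonneg_right h8 (sq_nonneg J)
  rw [h7] at hE
  linarith only [h9, h6, hE, hdU, hlenR, hcmp]

end Vale.Agent.P128.GM
end
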