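import Vale.Agent.P128.MathlibUsed
import Vale.Agent.P128.Bdl.B4
import Vale.Agent.P128.Bdl.B6
import Vale.Agent.P128.Bdl.B8
import Vale.Agent.P128.Bdl.B9
import Vale.Agent.P128.Bdl.B5
import Vale.Agent.P128.Bdl.B3

set_option linter.all false

section

open MeasureTheory Set Metric Filter
open scoped ENNReal NNReal Topology Real ContDiff

namespace Vale.Agent.P128

end Vale.Agent.P128
end

section

open MeasureTheory Set Metric Filter
open scoped ENNReal NNReal Topology Real ContDiff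

namespace Vale.Agent.P128

theorem restrict_ball_real (x : ℂ) {s : ℝ} (hs : 0 < s) :
    (volume.restrict (ball x s)).real univ = π * s ^ 2 := by
  rw [Measure.real, Measure.restrict_apply_univ, Complex.volume_ball]
  simp only [ENNReal.toReal_mul, ENNReal.toReal_pow, ENNReal.toReal_ofReal hs.le, ENNReal.coe_toReal, NNReal.coe_real_pi]
  ring

end Vale.Agent.P128
end

section

open MeasureTheory Set Metric Filter
open scoped ENNReal NNReal Topology Real ContDiff

namespace Vale.Agent.P128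

end Vale.Agent.P128
end

section

open MeasureTheory Set Metric Filter
open scoped ENNReal NNReal Topology Real ContDiff

namespace Vale.Agent.P128

/-- The fidelity term in a disk where `u` is bounded. -/
theorem Nice.Un_diff_le {Ω K : Set ℂ} {g u : ℂ → ℝ} {G : ℂ → ℂ} {M : ℝ}
    (N : Nice Ω g u G K M) {x : ℂ} {R M₁ : ℝ}
    (hb : ∀ᵐ z ∂(volume.restrict (ball x R)), |u z| ≤ M₁) (hMM : M ≤ M₁) {s t : ℝ} (hs : 0 ≤ s)
    (hst : s ≤ t) (ht : t ≤ R) :
    Un g u x t - Un g u x s ≤ 4 * π * M₁ ^ 2 * (t ^ 2 - s ^ 2) := by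
  have hM₁ : 0 ≤ M₁ := N.M_nonneg.trans hMM
  have i1 : IntegrableOn (fun z => (u z - g z) ^ 2) (ball x t) :=
    N.ug_integrableOn measure_ball_lt_top.ne
  have hsub : ball x s ⊆ ball x t := ball_subset_ball hst
  have e1 : Un g u x t - Un g u x s = ∫ z in ball x t \ ball x s, (u z - g z) ^ 2 := by
    unfold Un
    rw [setIntegral_sdiff measurableSet_ball i1 hsub]
  have hv : volume.real (ball x t \ ball x s) = π * (t ^ 2 - s ^ 2) := by
    rw [measureReal_sdiff hsub measurableSet_ball measure_ball_lt_top.ne]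
    rw [Measure.real, Measure.real, Complex.volume_ball, Complex.volume_ball]
    simp only [ENNReal.toReal_mul, ENNReal.toReal_pow, ENNReal.toReal_ofReal (hs.trans hst),
      ENNReal.toReal_ofReal hs, ENNReal.coe_toReal, NNReal.coe_real_pi]
    ring
  rw [e1]
  have h1 : ∫ z in ball x t \ ball x s, (u z - g z) ^ 2 ≤
      ∫ z in ball x t \ ball x s, (4 * M₁ ^ 2 : ℝ) := by
    refine integral_mono_ae (i1.mono_set sdiff_subset) (integrable_const_iff.mpr (Or.inr ?_)) ?_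
    · exact ⟨by
        rw [Measure.restrict_apply_univ]
        exact (measure_mono sdiff_subset).trans_lt measure_ball_lt_top⟩
    · have h2 : ball x t \ ball x s ⊆ ball x R := sdiff_subset.trans (ball_subset_ball ht)
      filter_upwards [ae_mono (Measure.restrict_mono h2 le_rfl) hb] with z hz
      have h3 := abs_le.mp hz
      have h4 := abs_le.mp ((N.gb z).trans hMM)
      nlinarith only [h3, h4]
  refine h1.trans (le_of_eq ?_)
  rw [setIntegral_const, hv, smul_eq_mul]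
  ring

theorem Nice.Un_le {Ω K : Set ℂ} {g u : ℂ → ℝ} {G : ℂ → ℂ} {M : ℝ}
    (N : Nice Ω g u G K M) {x : ℂ} {R M₁ : ℝ}
    (hb : ∀ᵐ z ∂(volume.restrict (ball x R)), |u z| ≤ M₁) (hMM : M ≤ M₁) {t : ℝ} (ht0 : 0 ≤ t)
    (ht : t ≤ R) : Un g u x t ≤ 4 * π * M₁ ^ 2 * t ^ 2 := by
  have := N.Un_diff_le hb hMM le_rfl ht0 ht
  have h0 : Un g u x 0 = 0 := by simp only [Un, ball_zero, Measure.restrict_empty, integral_zero_measure]
  rw [h0] at this
  simpa only [ge_iff_le, sub_zero, ne_eq, OfNat.ofNat_ne_zero, not_false_eq_true, zero_pow] using this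

theorem Nice.ae_eU_le {Ω K : Set ℂ} {g u : ℂ → ℝ} {G : ℂ → ℂ} {M : ℝ}
    (N : Nice Ω g u G K M) {x : ℂ} {R M₁ : ℝ}
    (hb : ∀ᵐ z ∂(volume.restrict (ball x R)), |u z| ≤ M₁) (hMM : M ≤ M₁) :
    ∀ᵐ s, s ∈ Ioo 0 R → eU g u x s ≤ 8 * π * M₁ ^ 2 * s := by
  have key : ∀ᵐ s : ℝ, ∀ k : ℕ, s ∈ Ioo (1 / ((k : ℝ) + 1)) R →
      eU g u x s ≤ 8 * π * M₁ ^ 2 * s := by
    rw [ae_all_iff]
    intro k
    rcases lt_or_ge (1 / ((k : ℝ) + 1)) R with hk | hk
    · have hk0 : 0 < 1 / ((k : ℝ) + 1) := by (clear * -; positivity)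
      have h1 := ae_le_deriv (f := fun t => 4 * π * M₁ ^ 2 * t ^ 2) (p := eU g u x) hk
        (N.incr_U x hk0 hk.le).1 (fun s t hs hst ht => by
          have hs0 : 0 < s := lt_of_lt_of_le hk0 hs
          rw [(N.incr_U x hs0 hst).2]
          have := N.Un_diff_le hb hMM hs0.le hst ht
          linarith only [this])
      filter_upwards [h1] with s h2 hs
      have h3 := (h2 hs).2
      have hd : HasDerivAt (fun t : ℝ => 4 * π * M₁ ^ 2 * t ^ 2)
          (4 * π * M₁ ^ 2 * (2 * s)) s := by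
        have := (hasDerivAt_pow 2 s).const_mul (4 * π * M₁ ^ 2)
        simpa only [Nat.cast_ofNat, Nat.add_one_sub_one, pow_one] using this
      rw [hd.deriv] at h3
      linarith only [h3]
    · exact Eventually.of_forall fun s hs => absurd (hs.1.trans hs.2) (not_lt.mpr hk)
  filter_upwards [key] with s hs hs'
  obtain ⟨k, hk⟩ := exists_nat_one_div_lt hs'.1
  exact hs k ⟨hk, hs'.2⟩

end Vale.Agent.P128
end

section

/-! Sequences of almost minimizers and their limits. -/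

open MeasureTheory Set Metric Filter
open scoped ENNReal NNReal ContDiff Topology Real

namespace Vale.Agent.P128.Q

open Vale.Agent.P128

/-- a sequence of almost minimizers with errors tending to zero on larger and larger disks -/
structure Seq (c₁ : ℝ) (R κ : ℕ → ℝ) (v : ℕ → ℂ → ℝ) (K : ℕ → Set ℂ) : Prop where
  c₁_pos : 0 < c₁
  am : ∀ j, AMin c₁ (R j) (κ j) (v j) (K j)
  Rinf : Tendsto R atTop atTop
  κ0 : Tendsto κ atTop (𝓝 0)
  zero : ∀ j, (0 : ℂ) ∈ K j

/-- convergence of a sequence of pairs -/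
structure Lim (v : ℕ → ℂ → ℝ) (K : ℕ → Set ℂ) (u₀ : ℂ → ℝ) (K₀ : Set ℂ) (c : ℕ → ℂ → ℝ) :
    Prop where
  closed : IsClosed K₀
  near : ∀ z ∈ K₀, ∀ ε > 0, ∀ᶠ j in atTop, ∃ y ∈ K j, dist y z < ε
  far : ∀ C : Set ℂ, IsCompact C → C ⊆ K₀ᶜ → ∀ᶠ j in atTop, Disjoint C (K j)
  smooth : ContDiffOn ℝ 1 u₀ K₀ᶜ
  cc : ∀ (j : ℕ) (z : ℂ), ∀ w ∈ connectedComponentIn K₀ᶜ z, c j w = c j z
  conv : ∀ C : Set ℂ, IsCompact C → C ⊆ K₀ᶜ →
    TendstoUniformlyOn (fun j z => v j z - c j z) u₀ atTop C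
  gconv : ∀ C : Set ℂ, IsCompact C → C ⊆ K₀ᶜ →
    TendstoUniformlyOn (fun j => grad (v j)) (grad u₀) atTop C

end Vale.Agent.P128.Q
end

section

/-! Subsequences and the trivial upper bound for almost minimizers. -/

open MeasureTheory Set Metric Filter
open scoped ENNReal NNReal ContDiff Topology Real

namespace Vale.Agent.P128.Q

open Vale.Agent.P128
open Vale.Agent.P128.GM (LocLip)

variable {c₁ : ℝ} {R κ : ℕ → ℝ} {v : ℕ → ℂ → ℝ} {Kj : ℕ → Set ℂ} {u₀ : ℂ → ℝ} {K₀ : Set ℂ}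
  {c : ℕ → ℂ → ℝ}

theorem Seq.comp (h : Seq c₁ R κ v Kj) {φ : ℕ → ℕ} (hφ : StrictMono φ) :
    Seq c₁ (R ∘ φ) (κ ∘ φ) (v ∘ φ) (Kj ∘ φ) where
  c₁_pos := h.c₁_pos
  am j := h.am (φ j)
  Rinf := h.Rinf.comp hφ.tendsto_atTop
  κ0 := h.κ0.comp hφ.tendsto_atTop
  zero j := h.zero (φ j)

/-- the complement of `K` in the disk is open -/
theorem AMin.isOpen {R κ : ℝ} {v : ℂ → ℝ} {K : Set ℂ} (h : AMin c₁ R κ v K) :
    IsOpen (ball (0 : ℂ) R \ K) := by
  have : ball (0 : ℂ) R \ K = ball (0 : ℂ) R \ closure K := by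
    ext z
    constructor
    · rintro ⟨h1, h2⟩
      exact ⟨h1, fun h3 => h2 (h.closed z h3 (by simpa using h1))⟩
    · rintro ⟨h1, h2⟩
      exact ⟨h1, fun h3 => h2 (subset_closure h3)⟩
  rw [this]
  exact isOpen_ball.sdiff isClosed_closure

theorem AMin.sub {R : ℝ} {x : ℂ} {s : ℝ} (hx : ‖x‖ + s ≤ R) : ball x s ⊆ ball (0 : ℂ) R := by
  intro z hz
  rw [mem_ball, dist_eq_norm] at hz
  rw [mem_ball_zero_iff]
  calc ‖z‖ = ‖(z - x) + x‖ := by rw [sub_add_cancel]
    _ ≤ ‖z - x‖ + ‖x‖ := norm_add_le _ _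
    _ < R := by linarith

/-- the function which vanishes in the disk -/
noncomputable def cutw (v : ℂ → ℝ) (x : ℂ) (s : ℝ) : ℂ → ℝ := by
  classical exact fun z => if z ∈ ball x s then 0 else v z

theorem cutw_in {v : ℂ → ℝ} {x z : ℂ} {s : ℝ} (h : z ∈ ball x s) : cutw v x s z = 0 := by
  simp only [cutw, h, if_true]

theorem cutw_out {v : ℂ → ℝ} {x z : ℂ} {s : ℝ} (h : z ∉ ball x s) : cutw v x s z = v z := by
  simp only [cutw, h, if_false]

theorem grad_cutw_in {v : ℂ → ℝ} {x z : ℂ} {s : ℝ} (h : z ∈ ball x s) :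
    grad (cutw v x s) z = 0 := by
  rw [← GM.grad_const 0 z]
  refine GM.grad_congr ?_
  filter_upwards [isOpen_ball.mem_nhds h] with w hw
  exact cutw_in hw

theorem grad_cutw_out {v : ℂ → ℝ} {x z : ℂ} {s : ℝ} (h : z ∉ closedBall x s) :
    grad (cutw v x s) z = grad v z := by
  refine GM.grad_congr ?_
  filter_upwards [isClosed_closedBall.isOpen_compl.mem_nhds h] with w hw
  exact cutw_out fun h => hw (ball_subset_closedBall h)

theorem volume_sphere_zero (x : ℂ) {s : ℝ} (hs : 0 < s) : volume (sphere x s) = 0 :=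
  Measure.addHaar_sphere_of_ne_zero _ _ hs.ne'

theorem AMin.up {R κ : ℝ} {v : ℂ → ℝ} {K : Set ℂ} (h : AMin c₁ R κ v K) {x : ℂ} {s : ℝ}
    (hs : 0 < s) (hx : ‖x‖ + s < R) : dir v x s + len K x s ≤ 2 * π * s + κ * (2 * s) ^ 2 := by
  obtain ⟨s', h1, h2⟩ : ∃ s', s < s' ∧ s' < Min.min (2 * s) (R - ‖x‖) :=
    exists_between (lt_min (by linarith) (by linarith))
  have h3 : s' < 2 * s := h2.trans_le (min_le_left _ _)
  have h4 : ‖x‖ + s' < R := by linarith [h2.trans_le (min_le_right _ _)]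
  have hbR : ball x s' ⊆ ball (0 : ℂ) R := AMin.sub h4.le
  have hsub : ball x s ⊆ ball x s' := ball_subset_ball h1.le
  have hcb : closedBall x s ⊆ ball x s' := closedBall_subset_ball h1
  set L : Set ℂ := (K \ ball x s) ∪ sphere x s with hL
  set w := cutw v x s with hw
  have hπ : (0 : ℝ) ≤ 2 * π * s := by positivity
  have hsph : μH[1] (sphere x s) ≤ ENNReal.ofReal (2 * π * s) := hausdorff_sphere_le x hs.le
  have hv2 : IntegrableOn (fun z => ‖grad v z‖ ^ 2) (ball x s') := h.int.mono_set hbR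
  -- the gradient of the competitor
  have hae : ∀ᵐ z : ℂ, z ∉ sphere x s := by
    have : {a : ℂ | ¬ a ∉ sphere x s} = sphere x s := by ext; simp
    rw [ae_iff, this]
    exact volume_sphere_zero x hs
  have hg : (fun z => ‖grad w z‖ ^ 2) =ᵐ[volume]
      (ball x s)ᶜ.indicator (fun z => ‖grad v z‖ ^ 2) := by
    filter_upwards [hae] with z hz
    by_cases hzb : z ∈ ball x s
    · rw [indicator_of_notMem (by simpa using hzb), hw, grad_cutw_in hzb]; simp
    · have : z ∉ closedBall x s := fun h5 => by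
        rcases ball_union_sphere (x := x) (ε := s) ▸ h5 with h6 | h6
        · exact hzb h6
        · exact hz h6
      rw [indicator_of_mem (by simpa using hzb), hw, grad_cutw_out this]
  have hwi : IntegrableOn (fun z => ‖grad w z‖ ^ 2) (ball x s') := by
    refine (hv2.indicator (measurableSet_ball (x := x) (ε := s)).compl).congr ?_
    exact Filter.EventuallyEq.symm (ae_restrict_of_ae hg)
  have hdw : dir v x s + dir w x s' = dir v x s' := by
    unfold dir
    rw [setIntegral_congr_ae measurableSet_ball (hg.mono fun z hz _ => hz),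
      setIntegral_indicator measurableSet_ball.compl,
      ← setIntegral_union (s := ball x s) ?_ (measurableSet_ball.inter measurableSet_ball.compl)
        (hv2.mono_set hsub) (hv2.mono_set inter_subset_left)]
    · congr 2
      ext z
      simp only [mem_union, mem_inter_iff, mem_compl_iff]
      constructor
      · rintro (h | h)
        · exact hsub h
        · exact h.1
      · intro h
        by_cases h' : z ∈ ball x s
        · exact Or.inl h'
        · exact Or.inr ⟨h, h'⟩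
    · rw [disjoint_left]
      intro z h1 h2
      exact h2.2 h1
  -- the length of the competitor
  have hKf : μH[1] (K ∩ ball x s') < ⊤ :=
    (measure_mono (inter_subset_inter_right _ hbR)).trans_lt h.fin
  have hsplit : μH[1] (K ∩ ball x s) + μH[1] ((K ∩ ball x s') \ ball x s) =
      μH[1] (K ∩ ball x s') := by
    have := measure_inter_add_sdiff (μ := μH[1]) (K ∩ ball x s')
      (measurableSet_ball (x := x) (ε := s))
    rwa [inter_assoc, inter_eq_self_of_subset_right hsub] at this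
  have hLle : μH[1] (L ∩ ball x s') ≤
      μH[1] ((K ∩ ball x s') \ ball x s) + ENNReal.ofReal (2 * π * s) := by
    have : L ∩ ball x s' ⊆ ((K ∩ ball x s') \ ball x s) ∪ sphere x s := by
      rintro z ⟨h5 | h5, h6⟩
      · exact Or.inl ⟨⟨h5.1, h6⟩, h5.2⟩
      · exact Or.inr h5
    exact (measure_mono this).trans ((measure_union_le _ _).trans (by gcongr))
  have hdf : μH[1] ((K ∩ ball x s') \ ball x s) < ⊤ :=
    (measure_mono sdiff_subset).trans_lt hKf
  have hLf : μH[1] (L ∩ ball x s') < ⊤ :=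
    hLle.trans_lt (ENNReal.add_lt_top.2 ⟨hdf, ENNReal.ofReal_lt_top⟩)
  have hlen : len L x s' + len K x s ≤ len K x s' + 2 * π * s := by
    have e1 : len L x s' ≤ (μH[1] ((K ∩ ball x s') \ ball x s)).toReal + 2 * π * s := by
      unfold len
      refine (ENNReal.toReal_mono (ENNReal.add_lt_top.2 ⟨hdf, ENNReal.ofReal_lt_top⟩).ne
        hLle).trans (le_of_eq ?_)
      rw [ENNReal.toReal_add hdf.ne ENNReal.ofReal_ne_top, ENNReal.toReal_ofReal hπ]
    have e2 : len K x s' = len K x s + (μH[1] ((K ∩ ball x s') \ ball x s)).toReal := by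
      unfold len
      rw [← hsplit, ENNReal.toReal_add _ hdf.ne]
      exact ((measure_mono (inter_subset_inter_right _ hsub)).trans_lt hKf).ne
    linarith only [e2, e1]
  -- comparison
  have hopen := h.isOpen
  have hcmp := h.min x s' (hs.trans h1) h4 w L ?_ ?_ hwi hLf
    ⟨closedBall x s, isCompact_closedBall x s, hcb, ?_, ?_⟩
  · have e3 : κ * s' ^ 2 ≤ κ * (2 * s) ^ 2 := by
      refine mul_le_mul_of_nonneg_left ?_ h.κ0
      exact pow_le_pow_left₀ (hs.trans h1).le h3.le 2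
    linarith
  · intro z hz hzR
    rw [hL, closure_union, isClosed_sphere.closure_eq] at hz
    rcases hz with hz | hz
    · left
      refine ⟨h.closed z (closure_mono sdiff_subset hz) hzR, ?_⟩
      have : closure (K \ ball x s) ⊆ (ball x s)ᶜ :=
        closure_minimal (fun y hy => hy.2) isOpen_ball.isClosed_compl
      exact this hz
    · exact Or.inr hz
  · have hU1 : LocLip (ball x s) w :=
      (LocLip.const isOpen_ball 0).congr fun z hz => (cutw_in hz).symm
    have hU2 : LocLip ((ball (0 : ℂ) R \ K) \ closedBall x s) w := by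
      refine ((LocLip.of_contDiffOn hopen h.smooth).mono
        (hopen.sdiff isClosed_closedBall) sdiff_subset).congr fun z hz => ?_
      exact (cutw_out fun h5 => hz.2 (ball_subset_closedBall h5)).symm
    have : ball (0 : ℂ) R \ L = ball x s ∪ ((ball (0 : ℂ) R \ K) \ closedBall x s) := by
      ext z
      simp only [hL, Set.mem_sdiff, mem_union, not_or]
      constructor
      · rintro ⟨h5, h6, h7⟩
        by_cases h8 : z ∈ ball x s
        · exact Or.inl h8
        · refine Or.inr ⟨⟨h5, fun h9 => h6 ⟨h9, h8⟩⟩, fun h9 => ?_⟩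
          rcases ball_union_sphere (x := x) (ε := s) ▸ h9 with h6 | h6
          · exact h8 h6
          · exact h7 h6
      · rintro (h5 | ⟨⟨h5, h6⟩, h7⟩)
        · refine ⟨hbR (hsub h5), fun h6 => h6.2 h5, fun h6 => ?_⟩
          rw [mem_sphere] at h6
          rw [mem_ball] at h5
          exact h5.ne h6
        · exact ⟨h5, fun h8 => h6 h8.1, fun h8 => h7 (sphere_subset_closedBall h8)⟩
    rw [this]
    exact hU1.union hU2
  · intro z hz
    constructor
    · rintro (h5 | h5)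
      · exact h5.1
      · exact absurd (sphere_subset_closedBall h5) hz
    · intro h5
      exact Or.inl ⟨h5, fun h6 => hz (ball_subset_closedBall h6)⟩
  · intro z hz _
    exact cutw_out fun h6 => hz (ball_subset_closedBall h6)

end Vale.Agent.P128.Q
end

section

/-! Existence of limits of sequences of almost minimizers. -/

open MeasureTheory Set Metric Filter
open scoped ENNReal NNReal ContDiff Topology Real

namespace Vale.Agent.P128.Q

open Vale.Agent.P128
open Vale.Agent.P128.GM (LocLip)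

variable {c₁ : ℝ} {R κ : ℕ → ℝ} {v : ℕ → ℂ → ℝ} {Kj : ℕ → Set ℂ} {u₀ : ℂ → ℝ} {K₀ : Set ℂ}
  {c : ℕ → ℂ → ℝ}

/-- eventual local bounds for the gradients -/
theorem Seq.grad_bd (h : Seq c₁ R κ v Kj)
    (far : ∀ C : Set ℂ, IsCompact C → C ⊆ K₀ᶜ → ∀ᶠ j in atTop, Disjoint C (Kj j))
    {z : ℂ} {d : ℝ} (hd : 0 < d) (hz : closedBall z (2 * d) ⊆ K₀ᶜ) :
    ∃ B : ℝ, 0 < B ∧ ∀ᶠ j in atTop, ball z (2 * d) ⊆ ball 0 (R j) \ Kj j ∧
      (∀ a ∈ ball z d, ‖grad (v j) a‖ ≤ B) ∧
      ∀ a ∈ ball z d, ∀ b ∈ ball z d, ‖grad (v j) a - grad (v j) b‖ ≤ B * ‖a - b‖ + B * κ j := by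
  set E : ℝ := 2 * π * (2 * d) + (2 * (2 * d)) ^ 2 with hE
  have hE0 : 0 < E := by positivity
  have hc := h.c₁_pos
  set B : ℝ := c₁ * (√E / d + d) + c₁ * (√E / d ^ 2) + c₁ * d + 1 with hB
  have b1 : 0 ≤ c₁ * (√E / d + d) := by positivity
  have b2 : 0 ≤ c₁ * (√E / d ^ 2) := by positivity
  have b3 : 0 ≤ c₁ * d := by positivity
  refine ⟨B, by positivity, ?_⟩
  have e1 : ∀ᶠ j in atTop, κ j < 1 := h.κ0.eventually (gt_mem_nhds zero_lt_one)
  have e2 : ∀ᶠ j in atTop, ‖z‖ + 2 * d < R j := h.Rinf.eventually (eventually_gt_atTop _)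
  have e3 := far _ (isCompact_closedBall z (2 * d)) hz
  filter_upwards [e1, e2, e3] with j h1 h2 h3
  have hκ := (h.am j).κ0
  have hK : ball z (2 * d) ∩ Kj j = ∅ :=
    (h3.mono_left ball_subset_closedBall).inter_eq
  have hdir : dir (v j) z (2 * d) ≤ E := by
    have := (h.am j).up (x := z) (s := 2 * d) (by positivity) h2
    have hl : 0 ≤ len (Kj j) z (2 * d) := ENNReal.toReal_nonneg
    have : κ j * (2 * (2 * d)) ^ 2 ≤ 1 * (2 * (2 * d)) ^ 2 :=
      mul_le_mul_of_nonneg_right h1.le (by positivity)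
    linarith
  have hs : √(dir (v j) z (2 * d)) ≤ √E := Real.sqrt_le_sqrt hdir
  refine ⟨fun w hw => ⟨AMin.sub h2.le hw, fun hwK => ?_⟩, fun a ha => ?_, fun a ha b hb => ?_⟩
  · exact (hK ▸ (⟨hw, hwK⟩ : w ∈ ball z (2 * d) ∩ Kj j) : w ∈ (∅ : Set ℂ))
  · refine ((h.am j).reg z d hd h2 hK a ha a ha).1.trans ?_
    have : c₁ * (√(dir (v j) z (2 * d)) / d + κ j * d) ≤ c₁ * (√E / d + d) := by
      have : κ j * d ≤ d := by (by_contra nlg; linarith only [nlg, mul_pos (sub_pos.2 hd) (sub_pos.2 h1), mul_nonneg (le_of_lt (sub_pos.2 (not_le.1 nlg))) (sub_nonneg.2 hκ), mul_pos (sub_pos.2 (not_le.1 nlg)) (sub_pos.2 h1)])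
      gcongr
    linarith only [this, b3, b2]
  · refine ((h.am j).reg z d hd h2 hK a ha b hb).2.trans ?_
    have t1 : √(dir (v j) z (2 * d)) / d ^ 2 * ‖a - b‖ ≤ √E / d ^ 2 * ‖a - b‖ := by gcongr
    have t2 : c₁ * (√(dir (v j) z (2 * d)) / d ^ 2 * ‖a - b‖ + κ j * d) ≤
        c₁ * (√E / d ^ 2) * ‖a - b‖ + c₁ * d * κ j := by
      (by_contra nlg; linarith only [nlg, mul_nonneg (le_of_lt (sub_pos.2 hc)) (sub_nonneg.2 t1), mul_nonneg (le_of_lt (sub_pos.2 (not_le.1 nlg))) (sub_nonneg.2 hκ), mul_pos (sub_pos.2 (not_le.1 nlg)) (sub_pos.2 h1)])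
    have t3 : c₁ * (√E / d ^ 2) * ‖a - b‖ ≤ B * ‖a - b‖ := by
      refine mul_le_mul_of_nonneg_right ?_ (norm_nonneg _)
      linarith only [b3, b1]
    have t4 : c₁ * d * κ j ≤ B * κ j := mul_le_mul_of_nonneg_right (by linarith only [b2, b1]) hκ
    linarith

/-- around each point of the complement there is a good disk -/
theorem exists_disk (hK : IsClosed K₀) {z : ℂ} (hz : z ∈ K₀ᶜ) :
    ∃ d : ℝ, 0 < d ∧ closedBall z (2 * d) ⊆ K₀ᶜ := by
  obtain ⟨r, hr, h⟩ := Metric.nhds_basis_closedBall.mem_iff.1 (hK.isOpen_compl.mem_nhds hz)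
  exact ⟨r / 2, by positivity, by rwa [mul_div_cancel₀ r two_ne_zero]⟩

/-- extraction: convergence of the gradients on a countable dense set -/
theorem Seq.extract (h : Seq c₁ R κ v Kj) (hK : IsClosed K₀)
    (far : ∀ C : Set ℂ, IsCompact C → C ⊆ K₀ᶜ → ∀ᶠ j in atTop, Disjoint C (Kj j))
    (q : ℕ → ℂ) : ∃ φ : ℕ → ℕ, StrictMono φ ∧ ∀ k, q k ∈ K₀ᶜ →
      ∃ l, Tendsto (fun j => grad (v (φ j)) (q k)) atTop (𝓝 l) := by
  classical
  have hb : ∀ k, ∃ B : ℝ, ∀ᶠ j in atTop, q k ∈ K₀ᶜ → ‖grad (v j) (q k)‖ ≤ B := by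
    intro k
    by_cases hk : q k ∈ K₀ᶜ
    · obtain ⟨d, hd, hz⟩ := exists_disk hK hk
      obtain ⟨B, -, h1⟩ := h.grad_bd far hd hz
      refine ⟨B, h1.mono fun j hj _ => hj.2.1 _ (mem_ball_self hd)⟩
    · exact ⟨0, Eventually.of_forall fun j hj => absurd hj hk⟩
  choose B hB using hb
  obtain ⟨φ, hφ, h1⟩ := exists_subseq_of_bdd
    (a := fun k j => if q k ∈ K₀ᶜ then (grad (v j) (q k)).re else 0) (B := fun k => |B k|) (by
      intro k
      filter_upwards [hB k] with j hj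
      split_ifs with hk
      · exact (Complex.abs_re_le_norm _).trans ((hj hk).trans (le_abs_self _))
      · simp)
  obtain ⟨ψ, hψ, h2⟩ := exists_subseq_of_bdd
    (a := fun k j => if q k ∈ K₀ᶜ then (grad (v (φ j)) (q k)).im else 0) (B := fun k => |B k|) (by
      intro k
      filter_upwards [hφ.tendsto_atTop.eventually (hB k)] with j hj
      split_ifs with hk
      · exact (Complex.abs_im_le_norm _).trans ((hj hk).trans (le_abs_self _))
      · simp)
  refine ⟨φ ∘ ψ, hφ.comp hψ, fun k hk => ?_⟩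
  obtain ⟨l1, hl1⟩ := h1 k
  obtain ⟨l2, hl2⟩ := h2 k
  simp only [hk, if_true] at hl1 hl2
  have hl1' := hl1.comp hψ.tendsto_atTop
  refine ⟨⟨l1, l2⟩, ?_⟩
  have h3 : Tendsto (fun j => ((grad (v (φ (ψ j))) (q k)).re : ℂ) +
      ((grad (v (φ (ψ j))) (q k)).im : ℂ) * Complex.I) atTop (𝓝 ((l1 : ℂ) + (l2 : ℂ) * Complex.I)) :=
    ((Complex.continuous_ofReal.tendsto _).comp hl1').add
      (((Complex.continuous_ofReal.tendsto _).comp hl2).mul_const _)
  simp only [Complex.re_add_im] at h3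
  have h4 : ((l1 : ℂ) + (l2 : ℂ) * Complex.I) = ⟨l1, l2⟩ := by
    apply Complex.ext <;> simp
  rw [h4] at h3
  exact h3

/-- local uniform convergence of the gradients -/
theorem Seq.cauchy (h : Seq c₁ R κ v Kj) (hK : IsClosed K₀)
    (far : ∀ C : Set ℂ, IsCompact C → C ⊆ K₀ᶜ → ∀ᶠ j in atTop, Disjoint C (Kj j))
    (hq : ∀ k, TopologicalSpace.denseSeq ℂ k ∈ K₀ᶜ →
      ∃ l, Tendsto (fun j => grad (v j) (TopologicalSpace.denseSeq ℂ k)) atTop (𝓝 l))
    {z : ℂ} (hz : z ∈ K₀ᶜ) : ∃ ρ : ℝ, 0 < ρ ∧ ball z ρ ⊆ K₀ᶜ ∧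
      (∀ᶠ j in atTop, ball z ρ ⊆ ball 0 (R j) \ Kj j) ∧
      UniformCauchySeqOn (fun j => grad (v j)) atTop (ball z ρ) := by
  obtain ⟨d, hd, hzd⟩ := exists_disk hK hz
  obtain ⟨B, hB, hev⟩ := h.grad_bd far hd hzd
  have hbd : ball z (d / 2) ⊆ ball z (2 * d) := ball_subset_ball (by linarith only [hd])
  refine ⟨d / 2, by positivity, (hbd.trans ball_subset_closedBall).trans hzd,
    hev.mono fun j hj => hbd.trans hj.1, ?_⟩
  intro u hu
  obtain ⟨ε, hε, hεu⟩ := Metric.mem_uniformity_dist.1 hu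
  set η : ℝ := ε / (16 * B) with hη
  have hη0 : 0 < η := by positivity
  have hηB : B * η = ε / 16 := by rw [hη]; field_simp
  obtain ⟨t, ht, hcov⟩ := (isCompact_closedBall z (d / 2)).elim_nhds_subcover
    (fun y => ball y (η / 2)) fun y _ => ball_mem_nhds y (by positivity)
  have hk : ∀ y ∈ closedBall z (d / 2), ∃ k : ℕ,
      dist (TopologicalSpace.denseSeq ℂ k) y < Min.min (η / 2) (d / 2) := by
    intro y _
    obtain ⟨k, hk⟩ := (TopologicalSpace.denseRange_denseSeq ℂ).exists_dist_lt y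
      (ε := Min.min (η / 2) (d / 2)) (lt_min (by positivity) (by positivity))
    exact ⟨k, by rwa [dist_comm]⟩
  choose! k hk using hk
  have hkd : ∀ y ∈ t, TopologicalSpace.denseSeq ℂ (k y) ∈ ball z d := by
    intro y hy
    have h1 := (hk y (ht y hy)).trans_le (min_le_right _ _)
    have h2 := mem_closedBall.1 (ht y hy)
    rw [mem_ball]
    linarith only [dist_triangle (TopologicalSpace.denseSeq ℂ (k y)) y z, h2, h1]
  have hT : ∀ᶠ m : ℕ × ℕ in atTop ×ˢ atTop, ∀ y ∈ t,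
      dist (grad (v m.1) (TopologicalSpace.denseSeq ℂ (k y)))
        (grad (v m.2) (TopologicalSpace.denseSeq ℂ (k y))) < ε / 4 := by
    rw [Finset.eventually_all]
    intro y hy
    obtain ⟨l, hl⟩ := hq (k y) (hzd (ball_subset_closedBall
      (ball_subset_ball (by linarith) (hkd y hy))))
    have h1 := (hl.comp (tendsto_fst (f := (atTop : Filter ℕ)) (g := (atTop : Filter ℕ)))).dist
      (hl.comp (tendsto_snd (f := (atTop : Filter ℕ)) (g := (atTop : Filter ℕ))))
    rw [dist_self] at h1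
    exact h1.eventually (gt_mem_nhds (by positivity))
  have hκ : ∀ᶠ j in atTop, κ j < η := h.κ0.eventually (gt_mem_nhds hη0)
  have hone : ∀ᶠ j in atTop, ∀ y ∈ t, ∀ a ∈ closedBall z (d / 2), a ∈ ball y (η / 2) →
      dist (grad (v j) a) (grad (v j) (TopologicalSpace.denseSeq ℂ (k y))) < ε / 4 := by
    filter_upwards [hev, hκ] with j hj hκj y hy a ha hay
    rw [dist_eq_norm]
    refine (hj.2.2 a ?_ _ (hkd y hy)).trans_lt ?_
    · exact closedBall_subset_ball (by linarith only [hd]) ha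
    · have h1 : ‖a - TopologicalSpace.denseSeq ℂ (k y)‖ < η := by
        rw [← dist_eq_norm]
        have h1 := (hk y (ht y hy)).trans_le (min_le_left _ _)
        rw [mem_ball] at hay
        rw [dist_comm] at h1
        linarith only [dist_triangle a y (TopologicalSpace.denseSeq ℂ (k y)), h1, hay]
      have h2 : B * ‖a - TopologicalSpace.denseSeq ℂ (k y)‖ < B * η :=
        mul_lt_mul_of_pos_left h1 hB
      have h3 : B * κ j < B * η := mul_lt_mul_of_pos_left hκj hB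
      linarith
  filter_upwards [hT, tendsto_fst.eventually hone, tendsto_snd.eventually hone] with m hm h1 h2 a ha
  have ha' := ball_subset_closedBall ha
  obtain ⟨y, hy, hay⟩ := mem_iUnion₂.1 (hcov ha')
  apply hεu
  have t1 := h1 y hy a ha' hay
  have t2 := h2 y hy a ha' hay
  have t3 := hm y hy
  have t4 := dist_triangle4 (grad (v m.1) a) (grad (v m.1) (TopologicalSpace.denseSeq ℂ (k y)))
    (grad (v m.2) (TopologicalSpace.denseSeq ℂ (k y))) (grad (v m.2) a)
  rw [dist_comm (grad (v m.2) a)] at t2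
  linarith only [t4, t3, t2, t1, hε]

/-- the derivative as a functional -/
theorem fderiv_eq (f : ℂ → ℝ) (z : ℂ) : fderiv ℝ f z = InnerProductSpace.toDual ℝ ℂ (grad f z) := by
  ext v
  rw [InnerProductSpace.toDual_apply_apply, inner_grad]

/-- uniform convergence of the increments -/
theorem incr_cauchy {z : ℂ} {ρ : ℝ} (hρ : 0 < ρ) {U : ℕ → Set ℂ} (hU : ∀ j, IsOpen (U j))
    (hs : ∀ j, ContDiffOn ℝ 1 (v j) (U j)) (hev : ∀ᶠ j in atTop, ball z ρ ⊆ U j)
    (hC : UniformCauchySeqOn (fun j => grad (v j)) atTop (ball z ρ)) :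
    UniformCauchySeqOn (fun j w => v j w - v j z) atTop (ball z ρ) := by
  intro u hu
  obtain ⟨ε, hε, hεu⟩ := Metric.mem_uniformity_dist.1 hu
  have h1 := hC _ (Metric.dist_mem_uniformity (show 0 < ε / (2 * ρ) by positivity))
  filter_upwards [h1, tendsto_fst.eventually hev, tendsto_snd.eventually hev] with m hm hm1 hm2 w hw
  apply hεu
  have hd : ∀ (j : ℕ), ball z ρ ⊆ U j → ∀ x ∈ ball z ρ,
      HasFDerivAt (v j) (InnerProductSpace.toDual ℝ ℂ (grad (v j) x)) x := by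
    intro j hj x hx
    rw [← fderiv_eq]
    exact (((hs j).differentiableOn one_ne_zero x (hj hx)).differentiableAt
      ((hU j).mem_nhds (hj hx))).hasFDerivAt
  have h2 := (convex_ball z ρ).norm_image_sub_le_of_norm_hasFDerivWithin_le
    (f := fun x => v m.1 x - v m.2 x)
    (f' := fun x => InnerProductSpace.toDual ℝ ℂ (grad (v m.1) x) -
      InnerProductSpace.toDual ℝ ℂ (grad (v m.2) x)) (C := ε / (2 * ρ))
    (fun x hx => ((hd _ hm1 x hx).sub (hd _ hm2 x hx)).hasFDerivWithinAt)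
    (fun x hx => by
      rw [← map_sub, LinearIsometryEquiv.norm_map, ← dist_eq_norm]
      exact (hm x hx).le) (mem_ball_self hρ) hw
  rw [Real.dist_eq]
  have h3 : v m.1 w - v m.1 z - (v m.2 w - v m.2 z) = v m.1 w - v m.2 w - (v m.1 z - v m.2 z) := by
    ring
  rw [h3]
  refine lt_of_le_of_lt h2 ?_
  have h4 : ‖w - z‖ < ρ := by rwa [← dist_eq_norm]
  calc ε / (2 * ρ) * ‖w - z‖ ≤ ε / (2 * ρ) * ρ := by gcongr
    _ = ε / 2 := by field_simp
    _ < ε := by linarith only [hε]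

/-- a base point of a set -/
noncomputable def bpt (S : Set ℂ) : ℂ := by
  classical exact if h : S.Nonempty then h.some else 0

theorem bpt_mem {S : Set ℂ} (h : S.Nonempty) : bpt S ∈ S := by
  unfold bpt
  rw [dif_pos h]
  exact h.some_mem

theorem lim_of_cauchy {U : ℕ → Set ℂ} (hU : ∀ j, IsOpen (U j))
    (hs : ∀ j, ContDiffOn ℝ 1 (v j) (U j)) (hK : IsClosed K₀)
    (hC : ∀ z ∈ K₀ᶜ, ∃ ρ : ℝ, 0 < ρ ∧ ball z ρ ⊆ K₀ᶜ ∧ (∀ᶠ j in atTop, ball z ρ ⊆ U j) ∧
      UniformCauchySeqOn (fun j => grad (v j)) atTop (ball z ρ)) :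
    ∃ (u₀ : ℂ → ℝ) (c : ℕ → ℂ → ℝ), ContDiffOn ℝ 1 u₀ K₀ᶜ ∧
      (∀ (j : ℕ) (z : ℂ), ∀ w ∈ connectedComponentIn K₀ᶜ z, c j w = c j z) ∧
      (∀ C : Set ℂ, IsCompact C → C ⊆ K₀ᶜ →
        TendstoUniformlyOn (fun j z => v j z - c j z) u₀ atTop C) ∧
      ∀ C : Set ℂ, IsCompact C → C ⊆ K₀ᶜ →
        TendstoUniformlyOn (fun j => grad (v j)) (grad u₀) atTop C := by
  have hO := hK.isOpen_compl
  set c : ℕ → ℂ → ℝ := fun j z => v j (bpt (connectedComponentIn K₀ᶜ z)) with hc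
  have hcc : ∀ (j : ℕ) (z : ℂ), ∀ w ∈ connectedComponentIn K₀ᶜ z, c j w = c j z := by
    intro j z w hw
    simp only [hc]
    rw [connectedComponentIn_eq hw]
  -- convergence of differences in a component
  have hP : ∀ z ∈ K₀ᶜ, ∀ x ∈ connectedComponentIn K₀ᶜ z, ∀ y ∈ connectedComponentIn K₀ᶜ z,
      ∃ l, Tendsto (fun j => v j x - v j y) atTop (𝓝 l) := by
    intro z hz x hx y hy
    refine isPreconnected_connectedComponentIn.induction₂
      (fun x y => ∃ l, Tendsto (fun j => v j x - v j y) atTop (𝓝 l)) ?_ ?_ ?_ hx hy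
    · intro x hx
      obtain ⟨ρ, hρ, h1, h2, h3⟩ := hC x (connectedComponentIn_subset _ _ hx)
      filter_upwards [mem_nhdsWithin_of_mem_nhds (ball_mem_nhds x hρ)] with y hy
      obtain ⟨l, hl⟩ := cauchySeq_tendsto_of_complete
        ((incr_cauchy hρ hU hs h2 h3).cauchySeq hy)
      refine ⟨-l, ?_⟩
      have := hl.neg
      simpa only [neg_sub] using this
    · rintro x y z' - - - ⟨l, hl⟩ ⟨m, hm⟩
      refine ⟨l + m, ?_⟩
      have := hl.add hm
      simpa only [sub_add_sub_cancel] using this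
    · rintro x y - - ⟨l, hl⟩
      refine ⟨-l, ?_⟩
      have := hl.neg
      simpa only [neg_sub] using this
  have hu : ∀ z, ∃ l, z ∈ K₀ᶜ → Tendsto (fun j => v j z - c j z) atTop (𝓝 l) := by
    intro z
    by_cases hz : z ∈ K₀ᶜ
    · have h1 := mem_connectedComponentIn hz
      obtain ⟨l, hl⟩ := hP z hz z h1 _ (bpt_mem ⟨z, h1⟩)
      exact ⟨l, fun _ => hl⟩
    · exact ⟨0, fun h => absurd h hz⟩
  choose u₀ hu₀ using hu
  have hV : ∀ z, ∃ l, z ∈ K₀ᶜ → Tendsto (fun j => grad (v j) z) atTop (𝓝 l) := by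
    intro z
    by_cases hz : z ∈ K₀ᶜ
    · obtain ⟨ρ, hρ, h1, h2, h3⟩ := hC z hz
      obtain ⟨l, hl⟩ := cauchySeq_tendsto_of_complete (h3.cauchySeq (mem_ball_self hρ))
      exact ⟨l, fun _ => hl⟩
    · exact ⟨0, fun h => absurd h hz⟩
  choose V hV using hV
  have hcomp : ∀ {z : ℂ} {ρ : ℝ}, 0 < ρ → ball z ρ ⊆ K₀ᶜ → ∀ w ∈ ball z ρ, ∀ j, c j w = c j z := by
    intro z ρ hρ h1 w hw j
    exact hcc j z w ((convex_ball z ρ).isPreconnected.subset_connectedComponentIn
      (mem_ball_self hρ) h1 hw)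
  have hgu : ∀ z ∈ K₀ᶜ, ∃ ρ : ℝ, 0 < ρ ∧ ball z ρ ⊆ K₀ᶜ ∧ (∀ᶠ j in atTop, ball z ρ ⊆ U j) ∧
      TendstoUniformlyOn (fun j => grad (v j)) V atTop (ball z ρ) ∧
      TendstoUniformlyOn (fun j z => v j z - c j z) u₀ atTop (ball z ρ) := by
    intro z hz
    obtain ⟨ρ, hρ, h1, h2, h3⟩ := hC z hz
    refine ⟨ρ, hρ, h1, h2, h3.tendstoUniformlyOn_of_tendsto fun x hx => hV x (h1 hx), ?_⟩
    have h4 : TendstoUniformlyOn (fun j w => v j w - v j z) (fun w => u₀ w - u₀ z) atTop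
        (ball z ρ) := by
      refine (incr_cauchy hρ hU hs h2 h3).tendstoUniformlyOn_of_tendsto fun x hx => ?_
      have h5 := (hu₀ x (h1 hx)).sub (hu₀ z hz)
      refine h5.congr fun j => ?_
      rw [hcomp hρ h1 x hx j]
      ring
    have h5 := h4.add ((hu₀ z hz).tendstoUniformlyOn_const (ball z ρ))
    have h6 : (fun w => u₀ w - u₀ z) + (fun _ => u₀ z) = u₀ := by
      funext w; simp
    rw [h6] at h5
    refine h5.congr (Eventually.of_forall fun j w hw => ?_)
    simp only [Pi.add_apply]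
    rw [hcomp hρ h1 w hw j]
    ring
  have hder : ∀ z ∈ K₀ᶜ, HasFDerivAt u₀ (InnerProductSpace.toDual ℝ ℂ (V z)) z := by
    intro z hz
    obtain ⟨ρ, hρ, h1, h2, h3, -⟩ := hgu z hz
    refine hasFDerivAt_of_tendstoUniformlyOnFilter (l := atTop)
      (f := fun j w => v j w - c j z)
      (f' := fun j w => InnerProductSpace.toDual ℝ ℂ (grad (v j) w))
      (g' := fun w => InnerProductSpace.toDual ℝ ℂ (V w)) ?_ ?_ ?_
    · have h4 := (InnerProductSpace.toDual ℝ ℂ).isometry.uniformContinuous.comp_tendstoUniformlyOn h3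
      exact h4.tendstoUniformlyOnFilter.mono_right (le_principal_iff.2 (ball_mem_nhds z hρ))
    · filter_upwards [(h2.prod_inl (𝓝 z)).and
        (Filter.Eventually.prod_inr (ball_mem_nhds z hρ) atTop)] with m hm
      rw [← fderiv_eq]
      exact ((((hs m.1).differentiableOn one_ne_zero m.2 (hm.1 hm.2)).differentiableAt
        ((hU m.1).mem_nhds (hm.1 hm.2))).hasFDerivAt).sub_const _
    · filter_upwards [ball_mem_nhds z hρ] with w hw
      refine (hu₀ w (h1 hw)).congr fun j => ?_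
      rw [hcomp hρ h1 w hw j]
  have hgr : ∀ z ∈ K₀ᶜ, grad u₀ z = V z := by
    intro z hz
    apply (InnerProductSpace.toDual ℝ ℂ).injective
    rw [← fderiv_eq, (hder z hz).fderiv]
  have hVc : ContinuousOn V K₀ᶜ := by
    intro z hz
    obtain ⟨ρ, hρ, h1, h2, h3, -⟩ := hgu z hz
    have h4 : ContinuousOn V (ball z ρ) := by
      refine h3.continuousOn (h2.mono fun j hj => ?_).frequently
      have h5 := ((hs j).continuousOn_fderiv_of_isOpen (hU j) le_rfl).mono hj
      have h6 : grad (v j) = (InnerProductSpace.toDual ℝ ℂ).symm ∘ fderiv ℝ (v j) := by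
        funext w
        simp [fderiv_eq]
      rw [h6]
      exact (InnerProductSpace.toDual ℝ ℂ).symm.continuous.comp_continuousOn h5
    exact ((h4 z (mem_ball_self hρ)).continuousAt (ball_mem_nhds z hρ)).continuousWithinAt
  refine ⟨u₀, c, ?_, hcc, ?_, ?_⟩
  · have h1 : ContDiffOn ℝ (0 + 1) u₀ K₀ᶜ := by
      rw [contDiffOn_succ_iff_fderiv_of_isOpen hO]
      refine ⟨fun z hz => (hder z hz).differentiableAt.differentiableWithinAt, by simp, ?_⟩
      rw [contDiffOn_zero]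
      have h2 : ContinuousOn (fun z => InnerProductSpace.toDual ℝ ℂ (V z)) K₀ᶜ :=
        (InnerProductSpace.toDual ℝ ℂ).continuous.comp_continuousOn hVc
      exact h2.congr fun z hz => (hder z hz).fderiv
    simpa using h1
  · intro C hCc hCK
    refine (tendstoLocallyUniformlyOn_iff_forall_isCompact hO).1 ?_ C hCK hCc
    intro u hu x hx
    obtain ⟨ρ, hρ, h1, h2, h3, h4⟩ := hgu x hx
    exact ⟨ball x ρ, mem_nhdsWithin_of_mem_nhds (ball_mem_nhds x hρ), h4 u hu⟩
  · intro C hCc hCK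
    have h5 : TendstoUniformlyOn (fun j => grad (v j)) V atTop C := by
      refine (tendstoLocallyUniformlyOn_iff_forall_isCompact hO).1 ?_ C hCK hCc
      intro u hu x hx
      obtain ⟨ρ, hρ, h1, h2, h3, h4⟩ := hgu x hx
      exact ⟨ball x ρ, mem_nhdsWithin_of_mem_nhds (ball_mem_nhds x hρ), h3 u hu⟩
    exact h5.congr_right fun z hz => (hgr z (hCK hz)).symm

theorem Seq.exists_lim (h : Seq c₁ R κ v Kj) : ∃ φ : ℕ → ℕ, StrictMono φ ∧
    ∃ (u₀ : ℂ → ℝ) (K₀ : Set ℂ) (c : ℕ → ℂ → ℝ), Lim (v ∘ φ) (Kj ∘ φ) u₀ K₀ c := by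
  obtain ⟨φ, hφ, K₀, hK, -, hnear, hfar⟩ := exists_haus_lim Kj h.zero
  have h1 := h.comp hφ
  obtain ⟨ψ, hψ, h2⟩ := h1.extract hK hfar (TopologicalSpace.denseSeq ℂ)
  have h3 := h1.comp hψ
  have hfar' : ∀ C : Set ℂ, IsCompact C → C ⊆ K₀ᶜ →
      ∀ᶠ j in atTop, Disjoint C (((Kj ∘ φ) ∘ ψ) j) := fun C hC hCK =>
    hψ.tendsto_atTop.eventually (hfar C hC hCK)
  obtain ⟨u₀, c, a1, a2, a3, a4⟩ := lim_of_cauchy (v := (v ∘ φ) ∘ ψ)
    (U := fun j => ball 0 (((R ∘ φ) ∘ ψ) j) \ ((Kj ∘ φ) ∘ ψ) j)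
    (fun j => (h3.am j).isOpen) (fun j => (h3.am j).smooth) hK
    fun z hz => h3.cauchy hK hfar' h2 hz
  exact ⟨φ ∘ ψ, hφ.comp hψ, u₀, K₀, c, hK,
    fun z hz ε hε => hψ.tendsto_atTop.eventually (hnear z hz ε hε), hfar', a1, a2, a3, a4⟩

end Vale.Agent.P128.Q
end

section

/-! Upper bound by gluing competitors on circles (C4). -/

open MeasureTheory Set Metric Filter
open scoped ENNReal NNReal ContDiff Topology Real

namespace Vale.Agent.P128.Q

open Vale.Agent.P128
open Vale.Agent.P128.GM (LocLip genergy IsGlobalMin W12loc)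

namespace Up

/-! ### Gluing along a circle -/

theorem cross {x a b : ℂ} {s : ℝ} (ha : ‖a - x‖ < s) (hb : s ≤ ‖b - x‖) {V : Set ℂ}
    (hV : Convex ℝ V) (haV : a ∈ V) (hbV : b ∈ V) :
    ∃ p ∈ V, ‖p - x‖ = s ∧ dist a p + dist p b = dist a b := by
  have hc : ContinuousOn (fun t : ℝ => ‖AffineMap.lineMap a b t - x‖) (Icc 0 1) := by
    have : Continuous fun t : ℝ => (AffineMap.lineMap a b t : ℂ) := AffineMap.lineMap_continuous
    exact (this.sub continuous_const).norm.continuousOn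
  have h1 : s ∈ (fun t : ℝ => ‖AffineMap.lineMap a b t - x‖) '' Icc 0 1 := by
    refine intermediate_value_Icc zero_le_one hc ⟨?_, ?_⟩
    · simpa using ha.le
    · simpa using hb
  obtain ⟨t, ht, hts⟩ := h1
  refine ⟨AffineMap.lineMap a b t, hV.lineMap_mem haV hbV ht, hts, ?_⟩
  rw [dist_left_lineMap, dist_lineMap_right, Real.norm_of_nonneg ht.1,
    Real.norm_of_nonneg (by linarith [ht.2])]
  ring

theorem glue {U : Set ℂ} {f g : ℂ → ℝ} (hf : LocLip U f) (hg : LocLip U g) {x : ℂ} {s : ℝ}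
    (he : ∀ z ∈ U, ‖z - x‖ = s → f z = g z) :
    LocLip U (fun z => if ‖z - x‖ < s then f z else g z) := by
  intro z hz
  obtain ⟨M, r, hr, hrU, hL⟩ := hf z hz
  obtain ⟨N, t, ht, htU, hN⟩ := hg z hz
  have hbr : ball z (min r t) ⊆ ball z r := ball_subset_ball (min_le_left _ _)
  have hbt : ball z (min r t) ⊆ ball z t := ball_subset_ball (min_le_right _ _)
  refine ⟨max M N, min r t, lt_min hr ht, hbr.trans hrU, ?_⟩
  have hM : (M : ℝ) ≤ (max M N : ℝ≥0) := NNReal.coe_le_coe.2 (le_max_left _ _)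
  have hN' : (N : ℝ) ≤ (max M N : ℝ≥0) := NNReal.coe_le_coe.2 (le_max_right _ _)
  have key : ∀ a ∈ ball z (min r t), ∀ b ∈ ball z (min r t), ‖a - x‖ < s → s ≤ ‖b - x‖ →
      dist (f a) (g b) ≤ (max M N : ℝ≥0) * dist a b := by
    intro a ha b hb has hbs
    obtain ⟨p, hp, hps, hd⟩ := cross has hbs (convex_ball z (min r t)) ha hb
    have h1 := hL.dist_le_mul a (hbr ha) p (hbr hp)
    have h2 := hN.dist_le_mul p (hbt hp) b (hbt hb)
    have h3 : f p = g p := he p (hrU (hbr hp)) hps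
    calc dist (f a) (g b) ≤ dist (f a) (f p) + dist (f p) (g b) := dist_triangle _ _ _
      _ ≤ M * dist a p + N * dist p b := by rw [h3] at h1 ⊢; exact add_le_add h1 h2
      _ ≤ (max M N : ℝ≥0) * dist a p + (max M N : ℝ≥0) * dist p b := by gcongr
      _ = _ := by rw [← mul_add, hd]
  refine LipschitzOnWith.of_dist_le_mul fun a ha b hb => ?_
  by_cases has : ‖a - x‖ < s <;> by_cases hbs : ‖b - x‖ < s
  · simp only [has, hbs, if_true]
    refine (hL.dist_le_mul a (hbr ha) b (hbr hb)).trans ?_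
    gcongr
  · simp only [has, hbs, if_true, if_false]
    exact key a ha b hb has (not_lt.1 hbs)
  · simp only [has, hbs, if_true, if_false]
    rw [dist_comm, dist_comm a b]
    exact key b hb a ha hbs (not_lt.1 has)
  · simp only [has, hbs, if_false]
    refine (hN.dist_le_mul a (hbt ha) b (hbt hb)).trans ?_
    gcongr

/-! ### Walls -/

theorem finite_null {P : Set ℂ} (hP : P.Finite) : μH[1] P = 0 := by
  have := Measure.nullSingletonClass_hausdorff (X := ℂ) (d := 1) one_pos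
  exact hP.measure_zero _

theorem exists_wall {x : ℂ} {s : ℝ} (hs : 0 ≤ s) {P : Set ℂ} (hP : P.Finite) {ε : ℝ}
    (hε : 0 < ε) : ∃ η : ℝ, 0 < η ∧ μH[1] (sphere x s ∩ cthickening η P) < ENNReal.ofReal ε := by
  have hfin : IsFiniteMeasure (μH[1].restrict (sphere x s) : Measure ℂ) := by
    refine ⟨?_⟩
    rw [Measure.restrict_apply_univ]
    exact (hausdorff_sphere_le x hs).trans_lt ENNReal.ofReal_lt_top
  have h1 := tendsto_measure_cthickening_of_isClosed
    (μ := (μH[1].restrict (sphere x s) : Measure ℂ)) (s := P)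
    ⟨1, one_pos, measure_ne_top _ _⟩ hP.isClosed
  have h2 : (μH[1].restrict (sphere x s) : Measure ℂ) P = 0 :=
    le_antisymm ((Measure.restrict_apply_le _ _).trans (finite_null hP).le) bot_le
  rw [h2] at h1
  have h3 := (h1.mono_left (nhdsWithin_le_nhds (s := Ioi 0))).eventually_lt_const
    (ENNReal.ofReal_pos.2 hε)
  obtain ⟨η, hη1, hη2⟩ := (h3.and self_mem_nhdsWithin).exists
  refine ⟨η, hη2, ?_⟩
  rwa [Measure.restrict_apply isClosed_cthickening.measurableSet, inter_comm] at hη1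

/-! ### Extension of the constants -/

section ext
variable {K₀ L C : Set ℂ} {x : ℂ} {r : ℝ} {c : ℂ → ℝ}

open Classical in
/-- the constants on the complement of `L` -/
noncomputable def chat (K₀ L : Set ℂ) (x : ℂ) (r : ℝ) (c : ℂ → ℝ) (z : ℂ) : ℝ :=
  if h : ∃ p ∈ connectedComponentIn Lᶜ z, p ∉ ball x r ∪ K₀ then c h.choose else 0

theorem chat_eq (hcc : ∀ z, ∀ w ∈ connectedComponentIn K₀ᶜ z, c w = c z)
    (hsep : ∀ p q : ℂ, p ∉ ball x r ∪ K₀ → q ∉ ball x r ∪ K₀ →
      q ∉ connectedComponentIn K₀ᶜ p → q ∉ connectedComponentIn Lᶜ p)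
    {z p : ℂ} (hp : p ∈ connectedComponentIn Lᶜ z) (hpb : p ∉ ball x r ∪ K₀) :
    chat K₀ L x r c z = c p := by
  have h : ∃ p ∈ connectedComponentIn Lᶜ z, p ∉ ball x r ∪ K₀ := ⟨p, hp, hpb⟩
  rw [chat, dif_pos h]
  have h1 := h.choose_spec
  have h2 : h.choose ∈ connectedComponentIn Lᶜ p := by
    rw [← connectedComponentIn_eq hp]; exact h1.1
  by_contra hne
  exact hsep p h.choose hpb h1.2 (fun h3 => hne (hcc p _ h3)) h2

theorem chat_self (hcc : ∀ z, ∀ w ∈ connectedComponentIn K₀ᶜ z, c w = c z)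
    (hsep : ∀ p q : ℂ, p ∉ ball x r ∪ K₀ → q ∉ ball x r ∪ K₀ →
      q ∉ connectedComponentIn K₀ᶜ p → q ∉ connectedComponentIn Lᶜ p)
    {z : ℂ} (hz : z ∉ L) (hzb : z ∉ ball x r ∪ K₀) : chat K₀ L x r c z = c z :=
  chat_eq hcc hsep (mem_connectedComponentIn (F := Lᶜ) hz) hzb

theorem chat_const {z w : ℂ} (hw : w ∈ connectedComponentIn Lᶜ z) :
    chat K₀ L x r c w = chat K₀ L x r c z := by
  unfold chat
  rw [connectedComponentIn_eq hw]

theorem chat_nhds (hL : IsClosed L) {z : ℂ} (hz : z ∉ L) :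
    ∃ ρ : ℝ, 0 < ρ ∧ ball z ρ ⊆ Lᶜ ∧ ∀ w ∈ ball z ρ, chat K₀ L x r c w = chat K₀ L x r c z := by
  obtain ⟨ρ, hρ, hb⟩ := Metric.isOpen_iff.1 hL.isOpen_compl z hz
  refine ⟨ρ, hρ, hb, fun w hw => chat_const ?_⟩
  exact (convex_ball z ρ).isPreconnected.subset_connectedComponentIn (mem_ball_self hρ) hb hw

end ext

/-! ### The small Lipschitz correction -/

theorem exists_corr {c₁ : ℝ} {R κ : ℕ → ℝ} {v : ℕ → ℂ → ℝ} {Kj : ℕ → Set ℂ} {u₀ : ℂ → ℝ}
    {K₀ : Set ℂ} {c : ℕ → ℂ → ℝ} (hS : Seq c₁ R κ v Kj) (h : Lim v Kj u₀ K₀ c) {S : Set ℂ}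
    (hSc : IsCompact S) (hSK : S ⊆ K₀ᶜ) {τ : ℝ≥0} (hτ : 0 < τ) :
    ∀ᶠ j in atTop, ∃ D : ℂ → ℝ, LipschitzWith τ D ∧ ∀ z ∈ S, D z = v j z - c j z - u₀ z := by
  obtain ⟨η, hη, hN⟩ := hSc.exists_cthickening_subset_open h.closed.isOpen_compl hSK
  have hNc : IsCompact (cthickening η S) := hSc.cthickening
  have hτ' : (0 : ℝ) < τ := by exact_mod_cast hτ
  obtain ⟨ρ, hρ⟩ := hNc.isBounded.subset_ball (0 : ℂ)
  have e1 := Metric.tendstoUniformlyOn_iff.1 (h.gconv _ hNc hN) τ hτ'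
  have e2 := Metric.tendstoUniformlyOn_iff.1 (h.conv S hSc hSK) (τ * η / 2) (by positivity)
  filter_upwards [e1, e2, h.far _ hNc hN, hS.Rinf.eventually_gt_atTop ρ] with j h1 h2 h3 h4
  have hopen : IsOpen (ball (0 : ℂ) (R j) \ Kj j) := by
    have : ball (0 : ℂ) (R j) \ Kj j = ball (0 : ℂ) (R j) \ closure (Kj j) := by
      ext z
      constructor
      · rintro ⟨hz, hzK⟩
        exact ⟨hz, fun hc => hzK ((hS.am j).closed z hc (mem_ball_zero_iff.1 hz))⟩
      · rintro ⟨hz, hzK⟩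
        exact ⟨hz, fun hc => hzK (subset_closure hc)⟩
    rw [this]
    exact isOpen_ball.sdiff isClosed_closure
  have hmem : ∀ z ∈ cthickening η S, z ∈ ball (0 : ℂ) (R j) \ Kj j := by
    intro z hz
    refine ⟨?_, Set.disjoint_left.1 h3 hz⟩
    exact ball_subset_ball h4.le (hρ hz)
  have hdv : ∀ z ∈ cthickening η S, DifferentiableAt ℝ (v j) z := by
    intro z hz
    exact ((hS.am j).smooth.contDiffAt (hopen.mem_nhds (hmem z hz))).differentiableAt (by simp)
  have hdu : ∀ z ∈ cthickening η S, DifferentiableAt ℝ u₀ z := by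
    intro z hz
    exact (h.smooth.contDiffAt (h.closed.isOpen_compl.mem_nhds (hN hz))).differentiableAt (by simp)
  have hlip : LipschitzOnWith τ (fun z => v j z - c j z - u₀ z) S := by
    refine LipschitzOnWith.of_dist_le_mul fun a ha b hb => ?_
    by_cases hab : dist a b < η
    · have hball : ball a η ⊆ cthickening η S := by
        refine Subset.trans ?_ (thickening_subset_cthickening η S)
        intro z hz
        rw [mem_thickening_iff]
        exact ⟨a, ha, mem_ball.1 hz⟩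
      have hbb : b ∈ ball a η := by rw [mem_ball, dist_comm]; exact hab
      have hca : c j b = c j a := by
        refine h.cc j a b ?_
        exact (convex_ball a η).isPreconnected.subset_connectedComponentIn (mem_ball_self hη)
          (hball.trans hN) hbb
      have hgr : ∀ z ∈ ball a η, ‖fderiv ℝ (fun z => v j z - u₀ z) z‖ ≤ τ := by
        intro z hz
        rw [← GM.norm_grad, GM.grad_sub (hdv z (hball hz)) (hdu z (hball hz))]
        have := h1 z (hball hz)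
        rw [dist_comm, dist_eq_norm] at this
        exact this.le
      have := (convex_ball a η).norm_image_sub_le_of_norm_fderiv_le (𝕜 := ℝ)
        (fun z hz => (hdv z (hball hz)).sub (hdu z (hball hz))) hgr hbb (mem_ball_self hη)
      rw [Real.dist_eq, dist_eq_norm]
      have e : v j a - c j a - u₀ a - (v j b - c j b - u₀ b) =
          (v j a - u₀ a) - (v j b - u₀ b) := by rw [hca]; ring
      rw [e]
      exact this
    · rw [not_lt] at hab
      have ha2 := h2 a ha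
      have hb2 := h2 b hb
      rw [Real.dist_eq, abs_sub_comm] at ha2 hb2
      rw [Real.dist_eq]
      have h5 : |v j a - c j a - u₀ a - (v j b - c j b - u₀ b)| ≤
          |v j a - c j a - u₀ a| + |v j b - c j b - u₀ b| := abs_sub _ _
      have h6 : (τ : ℝ) * η ≤ τ * dist a b := mul_le_mul_of_nonneg_left hab hτ'.le
      linarith
  obtain ⟨D, hD, he⟩ := hlip.extend_real
  exact ⟨D, hD, fun z hz => (he hz).symm⟩

theorem vol_zero' {L : Set ℂ} (hl : ∀ x s, μH[1] (L ∩ ball x s) < ⊤) : volume L = 0 := by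
  have : L = ⋃ n : ℕ, L ∩ ball 0 (n : ℝ) := by
    rw [← inter_iUnion, iUnion_ball_nat, inter_univ]
  rw [this]
  exact measure_iUnion_null fun n => GM.volume_eq_zero_of_hausdorff (hl 0 n).ne

/-- the energy inside -/
theorem inside {L : Set ℂ} (hL : IsClosed L) (hv0 : volume L = 0) {w e D f : ℂ → ℝ}
    (hw : LocLip Lᶜ w) {x : ℂ} {s : ℝ}
    (hi : IntegrableOn (fun z => ‖grad w z‖ ^ 2) (ball x s))
    (he : ∀ z ∉ L, ∃ ρ : ℝ, 0 < ρ ∧ ∀ y ∈ ball z ρ, e y = e z) {τ : ℝ≥0} (hD : LipschitzWith τ D)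
    (hf : ∀ z ∈ ball x s, f z = w z + e z + D z) :
    IntegrableOn (fun z => ‖grad f z‖ ^ 2) (ball x s) ∧
      dir f x s ≤ dir w x s + 2 * τ * ((volume (ball x s)).toReal + dir w x s) +
        τ ^ 2 * (volume (ball x s)).toReal := by
  have hpt : ∀ᵐ z ∂(volume.restrict (ball x s)), ‖grad f z‖ ^ 2 ≤
      ‖grad w z‖ ^ 2 + 2 * τ * (1 + ‖grad w z‖ ^ 2) + τ ^ 2 := by
    have h1 : ∀ᵐ z ∂(volume : Measure ℂ), z ∉ L := by rw [ae_iff]; simpa using hv0
    have h2 := hw.ae_diff hL.isOpen_compl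
    have h3 := hD.ae_differentiableAt (μ := (volume : Measure ℂ))
    filter_upwards [ae_restrict_of_ae h1, ae_restrict_of_ae h2, ae_restrict_of_ae h3,
      ae_restrict_mem isOpen_ball.measurableSet] with z h1 h2 h3 hz
    obtain ⟨ρ, hρ, hez⟩ := he z h1
    have h4 : f =ᶠ[𝓝 z] fun y => (w y + e z) + D y := by
      filter_upwards [isOpen_ball.mem_nhds hz, ball_mem_nhds z hρ] with y hy hy2
      rw [hf y hy, hez y hy2]
    have h5 : grad f z = grad w z + grad D z := by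
      rw [GM.grad_congr h4, GM.grad_add ((h2 h1).add_const _) h3,
        GM.grad_add (h2 h1) (differentiableAt_const _), GM.grad_const, add_zero]
    have h6 : ‖grad D z‖ ≤ τ := by
      rw [GM.norm_grad]; exact norm_fderiv_le_of_lipschitz ℝ hD
    have h7 : ‖grad f z‖ ≤ ‖grad w z‖ + τ := by
      rw [h5]; exact (norm_add_le _ _).trans (add_le_add le_rfl h6)
    have h8 : ‖grad f z‖ ^ 2 ≤ (‖grad w z‖ + τ) ^ 2 := by gcongr
    have h9 : (0 : ℝ) ≤ τ := τ.2
    have h10 : ‖grad w z‖ ≤ 1 + ‖grad w z‖ ^ 2 := by (by_contra nlg; linarith only [nlg, mul_nonneg (sq_nonneg (‖grad w z‖ - 1)) (sq_nonneg (‖grad w z‖ - 1)), mul_nonneg (le_of_lt (sub_pos.2 (not_le.1 nlg))) (sq_nonneg (‖grad w z‖ - 1)), mul_pos (sub_pos.2 (not_le.1 nlg)) (sub_pos.2 (not_le.1 nlg)), mul_nonneg (sq_nonneg (‖grad w z‖ : ℝ)) (sq_nonneg (‖grad w z‖ - 1)), mul_nonneg (sq_nonneg (‖grad w z‖ : ℝ)) (le_of_lt (sub_pos.2 (not_le.1 nlg))), mul_nonneg (sq_nonneg (‖grad w z‖ :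 ℝ)) (sq_nonneg (‖grad w z‖ : ℝ))])
    linarith only [mul_le_mul_of_nonneg_left h10 h9, h8]
  have hfin : volume (ball x s) ≠ ⊤ := measure_ball_lt_top.ne
  have hi1 : IntegrableOn (fun _ : ℂ => (1 : ℝ)) (ball x s) := integrableOn_const hfin
  have hi2 : IntegrableOn (fun z => ‖grad w z‖ ^ 2 + 2 * τ * (1 + ‖grad w z‖ ^ 2) + τ ^ 2)
      (ball x s) := (hi.add ((hi1.add hi).const_mul _)).add (integrableOn_const hfin)
  have hif : IntegrableOn (fun z => ‖grad f z‖ ^ 2) (ball x s) := by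
    refine Integrable.mono' hi2 ?_ ?_
    · exact ((GM.measurable_grad f).norm.pow_const 2).aestronglyMeasurable
    · filter_upwards [hpt] with z hz
      rwa [Real.norm_of_nonneg (by positivity)]
  refine ⟨hif, ?_⟩
  have h1 := integral_mono_ae hif hi2 hpt
  refine h1.trans (le_of_eq ?_)
  have e1 : ∫ z in ball x s, (‖grad w z‖ ^ 2 + 2 * τ * (1 + ‖grad w z‖ ^ 2) + (τ : ℝ) ^ 2) =
      (1 + 2 * τ) * (∫ z in ball x s, ‖grad w z‖ ^ 2) +
        (volume (ball x s)).toReal * (2 * τ + (τ : ℝ) ^ 2) := by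
    have e2 : ∀ z, ‖grad w z‖ ^ 2 + 2 * τ * (1 + ‖grad w z‖ ^ 2) + (τ : ℝ) ^ 2 =
        (1 + 2 * τ) * ‖grad w z‖ ^ 2 + (2 * τ + (τ : ℝ) ^ 2) := fun z => by ring
    simp only [e2]
    rw [integral_add (hi.const_mul _) (integrableOn_const hfin), integral_const_mul,
      setIntegral_const, Measure.real, smul_eq_mul]
  simp only [dir]
  rw [e1]
  ring

theorem isOpen_diff {R : ℝ} {K : Set ℂ} (h : ∀ z ∈ closure K, ‖z‖ < R → z ∈ K) :
    IsOpen (ball (0 : ℂ) R \ K) := by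
  have : ball (0 : ℂ) R \ K = ball (0 : ℂ) R \ closure K := by
    ext z
    constructor
    · rintro ⟨hz, hzK⟩
      exact ⟨hz, fun hc => hzK (h z hc (mem_ball_zero_iff.1 hz))⟩
    · rintro ⟨hz, hzK⟩
      exact ⟨hz, fun hc => hzK (subset_closure hc)⟩
  rw [this]
  exact isOpen_ball.sdiff isClosed_closure

/-- one step: comparison for a fixed `j` -/
theorem step {c₁ R κ : ℝ} {v : ℂ → ℝ} {K : Set ℂ} (hA : AMin c₁ R κ v K) {u₀ : ℂ → ℝ}
    {K₀ : Set ℂ} {c : ℂ → ℝ} {x : ℂ} {r : ℝ} {w : ℂ → ℝ} {L C : Set ℂ} (hL : IsClosed L)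
    (hw : LocLip Lᶜ w) (hi : ∀ s, IntegrableOn (fun z => ‖grad w z‖ ^ 2) (ball x s))
    (hl : ∀ s, μH[1] (L ∩ ball x s) < ⊤) (hv0 : volume L = 0)
    (hCr : C ⊆ ball x r) (hLK : ∀ z, z ∉ C → (z ∈ L ↔ z ∈ K₀))
    (hwu : ∀ z, z ∉ C → z ∉ K₀ → w z = u₀ z) {e : ℂ → ℝ}
    (heL : ∀ z ∉ L, ∃ ρ : ℝ, 0 < ρ ∧ ball z ρ ⊆ Lᶜ ∧ ∀ y ∈ ball z ρ, e y = e z)
    (heq : ∀ z, z ∉ ball x r ∪ K₀ → e z = c z) {s : ℝ} (hr : 0 ≤ r) (hs : r < s)
    {η : ℝ} (hη : 0 < η) {P : Set ℂ} (hP : P = K₀ ∩ sphere x s) (hPf : P.Finite)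
    (hR : ‖x‖ + (s + 1) < R) (hdis : Disjoint (sphere x s \ thickening η P) K) {τ : ℝ≥0}
    {D : ℂ → ℝ} (hD : LipschitzWith τ D)
    (hDe : ∀ z ∈ sphere x s \ thickening η P, D z = v z - c z - u₀ z) :
    dir v x s + len K x s ≤ dir w x s + 2 * τ * ((volume (ball x s)).toReal + dir w x s) +
        τ ^ 2 * (volume (ball x s)).toReal + len L x s +
        (μH[1] (sphere x s ∩ cthickening η P)).toReal + κ * (s + 1) ^ 2 := by
  have hs0 : 0 < s := lt_of_le_of_lt hr hs
  set v' : ℂ → ℝ := fun z => if ‖z - x‖ < s then w z + e z + D z else v z with hv'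
  set σ : Set ℂ := sphere x s ∩ cthickening η P with hσ
  set L' : Set ℂ := (K \ ball x s) ∪ (L ∩ closedBall x s) ∪ σ with hL'
  have hopen := isOpen_diff hA.closed
  have hσc : IsClosed σ := isClosed_sphere.inter isClosed_cthickening
  have hLeC : LocLip Lᶜ e := by
    intro z hz
    obtain ⟨ρ, hρ, hb, hez⟩ := heL z hz
    refine ⟨0, ρ, hρ, hb, fun a ha b hb' => ?_⟩
    rw [hez a ha, hez b hb', edist_self]
    exact bot_le
  have hDL : ∀ U : Set ℂ, IsOpen U → LocLip U D := by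
    intro U hU z hz
    obtain ⟨ρ, hρ, hb⟩ := Metric.isOpen_iff.1 hU z hz
    exact ⟨τ, ρ, hρ, hb, hD.lipschitzOnWith⟩
  have hwin : LocLip Lᶜ (fun z => w z + e z + D z) := (hw.add hLeC).add (hDL _ hL.isOpen_compl)
  have hvout : LocLip (ball (0 : ℂ) R \ K) v := LocLip.of_contDiffOn hopen hA.smooth
  have hbig : ball x (s + 1) ⊆ ball (0 : ℂ) R := by
    intro z hz
    rw [mem_ball_zero_iff]
    rw [mem_ball, dist_eq_norm] at hz
    have : ‖z‖ ≤ ‖z - x‖ + ‖x‖ := by simpa using norm_add_le (z - x) x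
    linarith
  have hmemb : ∀ z, z ∈ ball x s ↔ ‖z - x‖ < s := fun z => by rw [mem_ball, dist_eq_norm]
  have hmems : ∀ z, z ∈ sphere x s ↔ ‖z - x‖ = s := fun z => by rw [mem_sphere, dist_eq_norm]
  have hmemc : ∀ z, z ∈ closedBall x s ↔ ‖z - x‖ ≤ s := fun z => by
    rw [mem_closedBall, dist_eq_norm]
  -- good points of the circle
  have hgood : ∀ z ∈ sphere x s, z ∉ cthickening η P →
      z ∉ L ∧ z ∉ K ∧ w z + e z + D z = v z := by
    intro z hz hzc
    have hzt : z ∈ sphere x s \ thickening η P :=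
      ⟨hz, fun h => hzc (thickening_subset_cthickening η P h)⟩
    have hzK0 : z ∉ K₀ := by
      intro h
      exact hzt.2 (self_subset_thickening hη P (by rw [hP]; exact ⟨h, hz⟩))
    have hzr : z ∉ ball x r := by
      rw [mem_ball, dist_eq_norm, not_lt, (hmems z).1 hz]; exact hs.le
    have hzC : z ∉ C := fun h => hzr (hCr h)
    refine ⟨fun h => hzK0 ((hLK z hzC).1 h), Set.disjoint_left.1 hdis hzt, ?_⟩
    rw [hwu z hzC hzK0, heq z (fun h => h.elim hzr hzK0), hDe z hzt]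
    ring
  -- the competitor is admissible
  have hLip : LocLip (ball (0 : ℂ) R \ L') v' := by
    refine LocLip.of_local fun z hz => ?_
    obtain ⟨hzR, hzL⟩ := hz
    rcases lt_trichotomy ‖z - x‖ s with hzs | hzs | hzs
    · refine ⟨ball (0 : ℂ) R ∩ ball x s ∩ Lᶜ, fun z => w z + e z + D z,
        (isOpen_ball.inter isOpen_ball).inter hL.isOpen_compl,
        ⟨⟨hzR, (hmemb z).2 hzs⟩, fun h => hzL (Or.inl (Or.inr ⟨h, (hmemc z).2 hzs.le⟩))⟩, ?_,
        hwin.mono ((isOpen_ball.inter isOpen_ball).inter hL.isOpen_compl) inter_subset_right, ?_⟩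
      · rintro y ⟨⟨hyR, hys⟩, hyL⟩
        refine ⟨hyR, ?_⟩
        rintro ((h | h) | h)
        · exact h.2 hys
        · exact hyL h.1
        · have h1 := (hmems y).1 h.1
          have h2 := (hmemb y).1 hys
          linarith
      · rintro y ⟨⟨_, hys⟩, _⟩
        simp only [hv', if_pos ((hmemb y).1 hys)]
    · have hzc : z ∉ cthickening η P := fun h => hzL (Or.inr ⟨(hmems z).2 hzs, h⟩)
      have hg := hgood z ((hmems z).2 hzs) hzc
      have hVo : IsOpen ((ball (0 : ℂ) R \ K) ∩ Lᶜ ∩ (cthickening η P)ᶜ) :=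
        (hopen.inter hL.isOpen_compl).inter isClosed_cthickening.isOpen_compl
      refine ⟨(ball (0 : ℂ) R \ K) ∩ Lᶜ ∩ (cthickening η P)ᶜ, v', hVo,
        ⟨⟨⟨hzR, hg.2.1⟩, hg.1⟩, hzc⟩, ?_, ?_, fun _ _ => rfl⟩
      · rintro y ⟨⟨⟨hyR, hyK⟩, hyL⟩, hyc⟩
        refine ⟨hyR, ?_⟩
        rintro ((h | h) | h)
        · exact hyK h.1
        · exact hyL h.1
        · exact hyc h.2
      · refine glue (hwin.mono hVo ?_) (hvout.mono hVo ?_) ?_
        · rintro y ⟨⟨_, hyL⟩, _⟩; exact hyL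
        · rintro y ⟨⟨hy, _⟩, _⟩; exact hy
        · rintro y ⟨_, hyc⟩ hys
          exact (hgood y ((hmems y).2 hys) hyc).2.2
    · refine ⟨(ball (0 : ℂ) R \ K) ∩ (closedBall x s)ᶜ, v,
        hopen.inter isClosed_closedBall.isOpen_compl, ⟨⟨hzR, ?_⟩, ?_⟩, ?_,
        hvout.mono (hopen.inter isClosed_closedBall.isOpen_compl) inter_subset_left, ?_⟩
      · intro h
        exact hzL (Or.inl (Or.inl ⟨h, fun h2 => by have := (hmemb z).1 h2; linarith⟩))
      · intro h
        have := (hmemc z).1 h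
        linarith
      · rintro y ⟨⟨hyR, hyK⟩, hyc⟩
        refine ⟨hyR, ?_⟩
        rintro ((h | h) | h)
        · exact hyK h.1
        · exact hyc h.2
        · exact hyc (sphere_subset_closedBall h.1)
      · rintro y ⟨_, hyc⟩
        have : ¬ ‖y - x‖ < s := fun h => hyc ((hmemc y).2 h.le)
        simp only [hv', if_neg this]
  have hcl : ∀ z ∈ closure L', ‖z‖ < R → z ∈ L' := by
    intro z hz hzR
    rw [hL', closure_union, closure_union, hσc.closure_eq,
      (hL.inter isClosed_closedBall).closure_eq] at hz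
    rcases hz with (hz | hz) | hz
    · refine Or.inl (Or.inl ⟨hA.closed z (closure_mono sdiff_subset hz) hzR, ?_⟩)
      have : closure (K \ ball x s) ⊆ (ball x s)ᶜ :=
        closure_minimal (fun y hy => hy.2) isOpen_ball.isClosed_compl
      exact this hz
    · exact Or.inl (Or.inr hz)
    · exact Or.inr hz
  obtain ⟨hin1, hin2⟩ := inside hL hv0 hw (hi s) (fun z hz => by
    obtain ⟨ρ, h1, -, h3⟩ := heL z hz
    exact ⟨ρ, h1, h3⟩) hD (f := v') (x := x) (s := s) (fun z hz => by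
      simp only [hv', if_pos ((hmemb z).1 hz)])
  have hsph : volume (sphere x s) = 0 := Measure.addHaar_sphere _ _ _
  -- outside the circle
  have hout : ∀ z, s < ‖z - x‖ → grad v' z = grad v z := by
    intro z hz
    apply GM.grad_congr
    have : (closedBall x s)ᶜ ∈ 𝓝 z := isClosed_closedBall.isOpen_compl.mem_nhds (by
      intro h; have := (hmemc z).1 h; linarith)
    filter_upwards [this] with y hy
    have : ¬ ‖y - x‖ < s := fun h => hy ((hmemc y).2 h.le)
    simp only [hv', if_neg this]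
  have haeout : ∀ᵐ z ∂(volume.restrict (ball x (s + 1) \ ball x s)),
      ‖grad v' z‖ ^ 2 = ‖grad v z‖ ^ 2 := by
    have h1 : ∀ᵐ z ∂(volume : Measure ℂ), z ∉ sphere x s := measure_eq_zero_iff_ae_notMem.1 hsph
    filter_upwards [ae_restrict_of_ae h1,
      ae_restrict_mem (isOpen_ball.measurableSet.diff isOpen_ball.measurableSet)] with z h1 hz
    rw [hout z]
    have h2 : ¬ ‖z - x‖ < s := fun h => hz.2 ((hmemb z).2 h)
    have h3 : ‖z - x‖ ≠ s := fun h => h1 ((hmems z).2 h)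
    exact lt_of_le_of_ne (not_lt.1 h2) (Ne.symm h3)
  have hiv : IntegrableOn (fun z => ‖grad v z‖ ^ 2) (ball x (s + 1)) := hA.int.mono_set hbig
  have hsub : ball x s ⊆ ball x (s + 1) := ball_subset_ball (by linarith)
  have hiv2 : IntegrableOn (fun z => ‖grad v' z‖ ^ 2) (ball x (s + 1) \ ball x s) :=
    (hiv.mono_set sdiff_subset).congr (haeout.mono fun z hz => hz.symm)
  have hiv' : IntegrableOn (fun z => ‖grad v' z‖ ^ 2) (ball x (s + 1)) := by
    rw [← union_sdiff_cancel hsub]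
    exact hin1.union hiv2
  have hKfin : μH[1] (K ∩ ball x (s + 1)) < ⊤ :=
    (measure_mono (inter_subset_inter_right _ hbig)).trans_lt hA.fin
  have hσfin : μH[1] σ < ⊤ :=
    ((measure_mono inter_subset_left).trans (hausdorff_sphere_le x hs0.le)).trans_lt
      ENNReal.ofReal_lt_top
  have hPnull : μH[1] (L ∩ closedBall x s) ≤ μH[1] (L ∩ ball x s) := by
    have h1 : L ∩ closedBall x s ⊆ (L ∩ ball x s) ∪ P := by
      rintro z ⟨hzL, hzc⟩
      rcases lt_or_eq_of_le ((hmemc z).1 hzc) with h | h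
      · exact Or.inl ⟨hzL, (hmemb z).2 h⟩
      · refine Or.inr ?_
        rw [hP]
        have hzr : z ∉ ball x r := by
          rw [mem_ball, dist_eq_norm, not_lt, h]; exact hs.le
        exact ⟨(hLK z (fun hc => hzr (hCr hc))).1 hzL, (hmems z).2 h⟩
    refine (measure_mono h1).trans ((measure_union_le _ _).trans ?_)
    rw [finite_null hPf, add_zero]
  have hL'sub : L' ∩ ball x (s + 1) ⊆
      ((K ∩ ball x (s + 1)) \ ball x s) ∪ (L ∩ closedBall x s) ∪ σ := by
    rintro z ⟨(h | h) | h, hzb⟩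
    · exact Or.inl (Or.inl ⟨⟨h.1, hzb⟩, h.2⟩)
    · exact Or.inl (Or.inr h)
    · exact Or.inr h
  have hlenL' : μH[1] (L' ∩ ball x (s + 1)) ≤
      μH[1] ((K ∩ ball x (s + 1)) \ ball x s) + μH[1] (L ∩ ball x s) + μH[1] σ := by
    refine (measure_mono hL'sub).trans ((measure_union_le _ _).trans ?_)
    refine add_le_add ((measure_union_le _ _).trans (add_le_add le_rfl hPnull)) le_rfl
  have hKdiff : μH[1] ((K ∩ ball x (s + 1)) \ ball x s) < ⊤ :=
    (measure_mono sdiff_subset).trans_lt hKfin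
  have hLfin : μH[1] (L ∩ ball x s) < ⊤ := hl s
  have hL'fin : μH[1] (L' ∩ ball x (s + 1)) < ⊤ :=
    hlenL'.trans_lt (ENNReal.add_lt_top.2 ⟨ENNReal.add_lt_top.2 ⟨hKdiff, hLfin⟩, hσfin⟩)
  have hmin := hA.min x (s + 1) (by linarith) hR v' L' hcl hLip hiv' hL'fin
    ⟨closedBall x s, isCompact_closedBall x s, closedBall_subset_ball (by linarith), by
      intro z hz
      constructor
      · rintro ((h | h) | h)
        · exact h.1
        · exact absurd h.2 hz
        · exact absurd (sphere_subset_closedBall h.1) hz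
      · intro h
        exact Or.inl (Or.inl ⟨h, fun h2 => hz (ball_subset_closedBall h2)⟩), by
      intro z hz _
      have : ¬ ‖z - x‖ < s := fun h => hz ((hmemc z).2 h.le)
      simp only [hv', if_neg this]⟩
  -- split
  have hsplit : ∀ f : ℂ → ℝ, IntegrableOn f (ball x (s + 1)) →
      ∫ z in ball x (s + 1), f z = (∫ z in ball x s, f z) + ∫ z in ball x (s + 1) \ ball x s, f z := by
    intro f hf
    rw [← setIntegral_union disjoint_sdiff_right
      (isOpen_ball.measurableSet.diff isOpen_ball.measurableSet) (hf.mono_set hsub)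
      (hf.mono_set sdiff_subset), union_sdiff_cancel hsub]
  have hd1 : dir v x (s + 1) = dir v x s +
      ∫ z in ball x (s + 1) \ ball x s, ‖grad v z‖ ^ 2 := hsplit _ hiv
  have hd2 : dir v' x (s + 1) = dir v' x s +
      ∫ z in ball x (s + 1) \ ball x s, ‖grad v z‖ ^ 2 := by
    rw [← integral_congr_ae haeout]
    exact hsplit _ hiv'
  have hl1 : len K x (s + 1) = len K x s + (μH[1] ((K ∩ ball x (s + 1)) \ ball x s)).toReal := by
    unfold len
    rw [← measure_inter_add_sdiff (K ∩ ball x (s + 1)) (isOpen_ball (x := x) (ε := s)).measurableSet,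
      inter_assoc, inter_eq_self_of_subset_right hsub, ENNReal.toReal_add _ hKdiff.ne]
    exact ((measure_mono (inter_subset_inter_right _ hsub)).trans_lt hKfin).ne
  have hl2 : len L' x (s + 1) ≤ (μH[1] ((K ∩ ball x (s + 1)) \ ball x s)).toReal +
      len L x s + (μH[1] σ).toReal := by
    unfold len
    refine (ENNReal.toReal_mono (ENNReal.add_lt_top.2
      ⟨ENNReal.add_lt_top.2 ⟨hKdiff, hLfin⟩, hσfin⟩).ne hlenL').trans (le_of_eq ?_)
    rw [ENNReal.toReal_add (ENNReal.add_lt_top.2 ⟨hKdiff, hLfin⟩).ne hσfin.ne,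
      ENNReal.toReal_add hKdiff.ne hLfin.ne]
  rw [hd1, hd2, hl1] at hmin
  linarith only [hl2, hmin, hin2]

end Up

open Up in
/-- C4 -/
theorem Lim.upper {c₁ : ℝ} {R κ : ℕ → ℝ} {v : ℕ → ℂ → ℝ} {Kj : ℕ → Set ℂ} {u₀ : ℂ → ℝ}
    {K₀ : Set ℂ} {c : ℕ → ℂ → ℝ} (hS : Seq c₁ R κ v Kj) (h : Lim v Kj u₀ K₀ c) {x : ℂ} {r : ℝ}
    (hr : 0 ≤ r)
    {w : ℂ → ℝ} {L C : Set ℂ} (hL : IsClosed L) (hw : LocLip Lᶜ w)
    (hi : ∀ s, IntegrableOn (fun z => ‖grad w z‖ ^ 2) (ball x s))
    (hl : ∀ s, μH[1] (L ∩ ball x s) < ⊤)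
    (hC : IsCompact C) (hCr : C ⊆ ball x r) (hLK : ∀ z, z ∉ C → (z ∈ L ↔ z ∈ K₀))
    (hwu : ∀ z, z ∉ C → z ∉ K₀ → w z = u₀ z)
    (hsep : ∀ p q : ℂ, p ∉ ball x r ∪ K₀ → q ∉ ball x r ∪ K₀ →
      q ∉ connectedComponentIn K₀ᶜ p → q ∉ connectedComponentIn Lᶜ p)
    {s : ℝ} (hs : r < s) (hfin : (K₀ ∩ sphere x s).Finite) {ε : ℝ} (hε : 0 < ε) :
    ∀ᶠ j in atTop, dir (v j) x s + len (Kj j) x s ≤ dir w x s + len L x s + ε := by
  have hs0 : 0 < s := lt_of_le_of_lt hr hs
  have hv0 : volume L = 0 := by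
    refine vol_zero' fun y t => ?_
    refine (measure_mono (inter_subset_inter_right _ ?_)).trans_lt (hl (dist y x + |t| + 1))
    intro z hz
    rw [mem_ball] at hz ⊢
    have := dist_triangle z y x
    have := le_abs_self t
    linarith
  obtain ⟨η, hη, hwall⟩ := exists_wall hs0.le hfin (ε := ε / 4) (by positivity)
  set S : Set ℂ := sphere x s \ thickening η (K₀ ∩ sphere x s) with hSdef
  have hSc : IsCompact S := (isCompact_sphere x s).diff isOpen_thickening
  have hSK : S ⊆ K₀ᶜ := by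
    intro z hz hzK
    exact hz.2 (self_subset_thickening hη _ ⟨hzK, hz.1⟩)
  set A : ℝ := (volume (ball x s)).toReal with hA
  have hA0 : 0 ≤ A := ENNReal.toReal_nonneg
  have hE0 : 0 ≤ dir w x s := integral_nonneg fun z => by (clear * -; positivity)
  obtain ⟨τ, hτ, hτε⟩ : ∃ τ : ℝ≥0, 0 < τ ∧
      2 * τ * (A + dir w x s) + (τ : ℝ) ^ 2 * A ≤ ε / 4 := by
    have hB : 0 < ε / (4 * (3 * A + 2 * dir w x s + 1)) := by (clear * - hε hE0; positivity)
    refine ⟨⟨min 1 (ε / (4 * (3 * A + 2 * dir w x s + 1))), le_min zero_le_one hB.le⟩, ?_, ?_⟩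
    · exact lt_min one_pos hB
    · set t : ℝ := min 1 (ε / (4 * (3 * A + 2 * dir w x s + 1))) with ht
      change 2 * t * (A + dir w x s) + t ^ 2 * A ≤ ε / 4
      have ht0 : 0 ≤ t := le_min zero_le_one hB.le
      have ht1 : t ≤ 1 := min_le_left _ _
      have ht2 : t * (4 * (3 * A + 2 * dir w x s + 1)) ≤ ε := by
        rw [← le_div_iff₀ (by (clear * - hE0; positivity))]; exact min_le_right _ _
      have ht3 : t ^ 2 * A ≤ t * A := by
        have : t ^ 2 ≤ t := by linarith only [mul_nonneg (sub_nonneg.2 ht0) (sub_nonneg.2 ht1)]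
        exact mul_le_mul_of_nonneg_right this hA0
      linarith only [ht3, ht2, ht0]
  have hκ : ∀ᶠ j in atTop, κ j * (s + 1) ^ 2 < ε / 4 := by
    have h1 := hS.κ0.mul_const ((s + 1) ^ 2)
    rw [zero_mul] at h1
    exact h1.eventually_lt_const (by positivity)
  filter_upwards [exists_corr hS h hSc hSK hτ, hκ, h.far S hSc hSK,
    hS.Rinf.eventually_gt_atTop (‖x‖ + (s + 1))] with j hD hκj hdis hRj
  obtain ⟨D, hD, hDe⟩ := hD
  have hkey := step (hS.am j) (u₀ := u₀) (K₀ := K₀) (c := c j) hL hw hi hl hv0 hCr hLK hwu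
    (e := chat K₀ L x r (c j)) (fun z hz => chat_nhds hL hz) (fun z hz => by
      have hzK : z ∉ K₀ := fun h => hz (Or.inr h)
      have hzC : z ∉ C := fun h => hz (Or.inl (hCr h))
      exact chat_self (h.cc j) hsep (fun h => hzK ((hLK z hzC).1 h)) hz) hr hs hη rfl hfin hRj
    hdis hD hDe
  have hwall' : (μH[1] (sphere x s ∩ cthickening η (K₀ ∩ sphere x s))).toReal ≤ ε / 4 := by
    rw [← ENNReal.toReal_ofReal (by positivity : 0 ≤ ε / 4)]
    exact ENNReal.toReal_mono ENNReal.ofReal_ne_top hwall.le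
  linarith

end Vale.Agent.P128.Q
end
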