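import Vale.Agent.P128.MathlibUsed
import Vale.Agent.P128.Bdl.B5
import Vale.Agent.P128.Bdl.B1
import Vale.Agent.P128.Bdl.K_GM_D_NetDefs
import Vale.Agent.P128.Bdl.B7

set_option linter.all false

section

set_option linter.all false

/-! The half-power competitor. -/

open MeasureTheory Set Metric Filter InnerProductSpace
open scoped ENNReal NNReal ContDiff Topology Real

namespace Vale.Agent.P128.GM

open Vale.Agent.P128

/-! ### The angle -/

/-- `-z` rotated by the angle `-a`. -/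
noncomputable def rotA (a : ℝ) (z : ℂ) : ℂ := -(z * Complex.exp (-(a * Complex.I)))

/-- Branch of the angle with values in `(a, a + 2π)` off the ray of angle `a`. -/
noncomputable def brA (a : ℝ) (z : ℂ) : ℝ := a + π + Complex.arg (rotA a z)

/-- The closed ray of angle `a`. -/
def rayA (a : ℝ) : Set ℂ := {z | rotA a z ∉ Complex.slitPlane}

theorem contDiff_rotA (a : ℝ) : ContDiff ℝ ∞ (rotA a) := by
  unfold rotA; (clear * -; fun_prop)

theorem continuous_rotA (a : ℝ) : Continuous (rotA a) := (contDiff_rotA a).continuous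

theorem isClosed_rayA (a : ℝ) : IsClosed (rayA a) := by
  have : rayA a = (rotA a ⁻¹' Complex.slitPlane)ᶜ := rfl
  rw [this]
  exact (Complex.isOpen_slitPlane.preimage (continuous_rotA a)).isClosed_compl

theorem rotA_circleMap (a r t : ℝ) :
    rotA a (circleMap 0 r t) = r * Complex.exp ((t - a - π : ℝ) * Complex.I) := by
  unfold rotA circleMap
  have : ((t - a - π : ℝ) : ℂ) * Complex.I = t * Complex.I + (-(a * Complex.I)) -
    π * Complex.I := by push_cast; ring
  rw [this, Complex.exp_sub, Complex.exp_pi_mul_I, Complex.exp_add]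
  ring

theorem brA_circleMap {a r t : ℝ} (hr : 0 < r) (ht : t ∈ Ioc a (a + 2 * π)) :
    brA a (circleMap 0 r t) = t := by
  unfold brA
  rw [rotA_circleMap, Complex.arg_real_mul _ hr, Complex.arg_exp_mul_I,
    (toIocMod_eq_self Real.two_pi_pos).2]
  · ring
  · have h1 := ht.1
    have h2 := ht.2
    constructor
    · linarith only [h1]
    · linarith only [h2]

theorem brA_mem {a : ℝ} {z : ℂ} (hz : z ∉ rayA a) : brA a z ∈ Ioo a (a + 2 * π) := by
  have h1 : rotA a z ∈ Complex.slitPlane := not_not.1 hz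
  rw [Complex.mem_slitPlane_iff_arg] at h1
  have h2 := Complex.neg_pi_lt_arg (rotA a z)
  have h3 := lt_of_le_of_ne (Complex.arg_le_pi (rotA a z)) h1.1
  unfold brA
  constructor <;> linarith only [h2, h3]

theorem brA_mem' (a : ℝ) (z : ℂ) : brA a z ∈ Icc a (a + 2 * π) := by
  have h2 := Complex.neg_pi_lt_arg (rotA a z)
  have h3 := Complex.arg_le_pi (rotA a z)
  unfold brA
  constructor <;> linarith only [h2, h3]

theorem circleMap_brA (a : ℝ) (z : ℂ) : circleMap 0 ‖z‖ (brA a z) = z := by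
  have h : rotA a z = -(z * Complex.exp (-(a * Complex.I))) := rfl
  have hn : ‖rotA a z‖ = ‖z‖ := by
    rw [h, norm_neg, norm_mul]
    have : ‖Complex.exp (-(a * Complex.I))‖ = 1 := by
      have := Complex.norm_exp_ofReal_mul_I (-a)
      simpa only [Complex.ofReal_neg, neg_mul] using this
    rw [this, mul_one]
  have h2 := Complex.norm_mul_exp_arg_mul_I (rotA a z)
  unfold circleMap brA
  have : (((a + π + Complex.arg (rotA a z) : ℝ)) : ℂ) * Complex.I =
      a * Complex.I + π * Complex.I + Complex.arg (rotA a z) * Complex.I := by push_cast; ring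
  rw [this, Complex.exp_add, Complex.exp_add, Complex.exp_pi_mul_I, ← hn, zero_add]
  have e : (‖rotA a z‖ : ℂ) * (Complex.exp (a * Complex.I) * -1 *
      Complex.exp (Complex.arg (rotA a z) * Complex.I)) =
      -Complex.exp (a * Complex.I) *
        (‖rotA a z‖ * Complex.exp (Complex.arg (rotA a z) * Complex.I)) := by ring
  rw [e, h2, h]
  have e2 : Complex.exp (a * Complex.I) * Complex.exp (-(a * Complex.I)) = 1 := by
    rw [← Complex.exp_add]; simp
  linear_combination z * e2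

theorem zero_mem_rayA (a : ℝ) : (0 : ℂ) ∈ rayA a := by
  simp only [rayA, Complex.slitPlane, ne_eq, rotA, mem_ofPred_eq, Complex.neg_re, Complex.mul_re, neg_sub, sub_pos, Complex.neg_im, Complex.mul_im, neg_add_rev, not_or, not_lt, Decidable.not_not, Complex.zero_im, zero_mul, Complex.zero_re, Std.le_refl, neg_zero, add_zero, and_self]

theorem contDiffAt_brA {a : ℝ} {z : ℂ} (hz : z ∉ rayA a) : ContDiffAt ℝ 1 (brA a) z := by
  have h1 : rotA a z ∈ Complex.slitPlane := not_not.1 hz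
  have h2 : ContDiffAt ℝ 1 (fun w : ℂ => (Complex.log w).im) (rotA a z) := by
    have h3 : ContDiffAt ℂ 1 Complex.log (rotA a z) := Complex.contDiffAt_log h1
    have h4 : ContDiffAt ℝ 1 Complex.log (rotA a z) := h3.restrict_scalars ℝ
    exact Complex.imCLM.contDiff.contDiffAt.comp _ h4
  have h5 : ContDiffAt ℝ 1 (fun w => (Complex.log (rotA a w)).im) z :=
    h2.comp z ((contDiff_rotA a).contDiffAt.of_le (by simp only [WithTop.one_le_coe, le_top]))
  have h6 : brA a = fun w => (a + π) + (Complex.log (rotA a w)).im := by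
    funext w; simp [brA, Complex.log_im]
  rw [h6]
  exact contDiffAt_const.add h5

theorem rayA_inter_subset {a s : ℝ} :
    rayA a ∩ closedBall 0 s ⊆ (fun r : ℝ => circleMap 0 r a) '' Icc 0 s := by
  rintro z ⟨hz, hzs⟩
  rw [mem_closedBall_zero_iff] at hzs
  refine ⟨‖z‖, ⟨norm_nonneg _, hzs⟩, ?_⟩
  have h1 : rotA a z ∉ Complex.slitPlane := hz
  rw [Complex.mem_slitPlane_iff_arg, not_and_or, not_not, not_not] at h1
  have h2 := circleMap_brA a z
  rcases h1 with h1 | h1
  · unfold brA at h2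
    rw [h1] at h2
    have : circleMap 0 ‖z‖ (a + π + π) = circleMap 0 ‖z‖ a := by
      have := (periodic_circleMap 0 ‖z‖) a
      rw [← this]; congr 1; ring
    rw [this] at h2
    exact h2
  · have : z = 0 := by
      unfold rotA at h1
      rw [neg_eq_zero, mul_eq_zero] at h1
      exact h1.resolve_right (Complex.exp_ne_zero _)
    rw [this]; simp

theorem hausdorff_rayA {a s : ℝ} (hs : 0 ≤ s) :
    μH[1] (rayA a ∩ closedBall 0 s) ≤ ENNReal.ofReal s := by
  have hl : LipschitzWith 1 (fun r : ℝ => circleMap 0 r a) := by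
    refine LipschitzWith.of_dist_le_mul fun x y => ?_
    rw [dist_eq_norm, dist_eq_norm, circleMap, circleMap]
    have : (0 + (x : ℂ) * Complex.exp (a * Complex.I)) - (0 + y * Complex.exp (a * Complex.I)) =
        ((x - y : ℝ) : ℂ) * Complex.exp (a * Complex.I) := by push_cast; ring
    rw [this, norm_mul, Complex.norm_exp_ofReal_mul_I, Complex.norm_real]
    simp
  refine (measure_mono rayA_inter_subset).trans ?_
  refine (hl.hausdorffMeasure_image_le (by norm_num) _).trans ?_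
  rw [hausdorffMeasure_real, Real.volume_Icc]
  simp only [ENNReal.coe_one, ENNReal.rpow_one, sub_zero, one_mul, Std.le_refl]

theorem hausdorff_arc {s b c : ℝ} (hs : 0 ≤ s) (hbc : b ≤ c) :
    μH[1] (circleMap 0 s '' Icc b c) ≤ ENNReal.ofReal (s * (c - b)) := by
  refine ((lipschitzWith_circleMap 0 s).hausdorffMeasure_image_le (by norm_num) _).trans ?_
  rw [hausdorffMeasure_real, Real.volume_Icc, ENNReal.ofReal_mul hs]
  simp only [ENNReal.rpow_one]
  refine mul_le_mul_left ?_ _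
  rw [ENNReal.ofReal, Real.nnabs_of_nonneg hs]

theorem volume_rayA (a : ℝ) : volume (rayA a) = 0 := by
  have : rayA a = ⋃ n : ℕ, rayA a ∩ closedBall 0 (n : ℝ) := by
    rw [← inter_iUnion, iUnion_closedBall_nat, inter_univ]
  rw [this]
  refine measure_iUnion_null fun n => volume_eq_zero_of_hausdorff ?_
  exact ((hausdorff_rayA (by (clear * -; positivity))).trans_lt ENNReal.ofReal_lt_top).ne

/-! ### Gluing along a circle -/

theorem LocLip.ind_ball {U : Set ℂ} {ψ : ℂ → ℝ} (h : LocLip U ψ) {s : ℝ}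
    (h0 : ∀ z ∈ U, ‖z‖ = s → ψ z = 0) : LocLip U ((ball (0 : ℂ) s).indicator ψ) := by
  intro z hz
  obtain ⟨M, r, hr, hrU, hL⟩ := h z hz
  refine ⟨M, r, hr, hrU, ?_⟩
  have key : ∀ x ∈ ball z r, ∀ y ∈ ball z r, ‖x‖ < s → s ≤ ‖y‖ → |ψ x| ≤ M * dist x y := by
    intro x hx y hy hxs hys
    have hc : ContinuousOn (fun t : ℝ => ‖AffineMap.lineMap x y t‖) (Icc 0 1) := by
      have : Continuous fun t : ℝ => (AffineMap.lineMap x y t : ℂ) := AffineMap.lineMap_continuous
      exact this.norm.continuousOn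
    have h1 : s ∈ (fun t : ℝ => ‖AffineMap.lineMap x y t‖) '' Icc 0 1 := by
      refine intermediate_value_Icc zero_le_one hc ⟨?_, ?_⟩
      · simpa only [AffineMap.lineMap_apply_zero] using hxs.le
      · simpa only [AffineMap.lineMap_apply_one] using hys
    obtain ⟨t, ht, hts⟩ := h1
    have hp : AffineMap.lineMap x y t ∈ ball z r := by
      have := (convex_ball z r).lineMap_mem hx hy ht
      exact this
    have h2 := hL.dist_le_mul x hx _ hp
    rw [h0 _ (hrU hp) hts, Real.dist_eq, sub_zero] at h2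
    refine h2.trans (mul_le_mul_of_nonneg_left ?_ M.2)
    rw [dist_left_lineMap, Real.norm_of_nonneg ht.1]
    exact mul_le_of_le_one_left dist_nonneg ht.2
  refine LipschitzOnWith.of_dist_le_mul fun x hx y hy => ?_
  by_cases hxs : ‖x‖ < s <;> by_cases hys : ‖y‖ < s
  · rw [indicator_of_mem (mem_ball_zero_iff.2 hxs), indicator_of_mem (mem_ball_zero_iff.2 hys)]
    exact hL.dist_le_mul x hx y hy
  · rw [indicator_of_mem (mem_ball_zero_iff.2 hxs),
      indicator_of_notMem (fun h => hys (mem_ball_zero_iff.1 h)), Real.dist_eq, sub_zero]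
    exact key x hx y hy hxs (not_lt.1 hys)
  · rw [indicator_of_mem (mem_ball_zero_iff.2 hys),
      indicator_of_notMem (fun h => hxs (mem_ball_zero_iff.1 h)), Real.dist_eq, zero_sub, abs_neg,
      dist_comm]
    exact key y hy x hx hys (not_lt.1 hxs)
  · rw [indicator_of_notMem (fun h => hys (mem_ball_zero_iff.1 h)),
      indicator_of_notMem (fun h => hxs (mem_ball_zero_iff.1 h)), dist_self]
    (clear * -; positivity)

/-! ### The half-power extension -/

/-- `c + (r/s)^{1/2} (F(θ) - c)` -/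
noncomputable def hext (a s c : ℝ) (F : ℝ → ℝ) (z : ℂ) : ℝ :=
  c + Real.sqrt (‖z‖ / s) * (F (brA a z) - c)

theorem locLip_hext {a s c : ℝ} (hs : 0 < s) {F : ℝ → ℝ} {M : ℝ≥0} (hF : LipschitzWith M F) :
    LocLip (rayA a)ᶜ (hext a s c F) := by
  have hU : IsOpen (rayA a)ᶜ := (isClosed_rayA a).isOpen_compl
  have h1 : LocLip (rayA a)ᶜ (fun z => Real.sqrt (‖z‖ / s)) := by
    refine LocLip.of_contDiffOn hU fun z hz => ContDiffAt.contDiffWithinAt ?_
    have hz0 : z ≠ 0 := by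
      rintro rfl; exact hz (zero_mem_rayA a)
    have h2 : ContDiffAt ℝ 1 (fun z : ℂ => ‖z‖ / s) z := (contDiffAt_norm ℝ hz0).div_const s
    exact h2.sqrt (by have := norm_pos_iff.2 hz0; (clear * - hz0 hs; positivity))
  have h3 : LocLip (rayA a)ᶜ (brA a) :=
    LocLip.of_contDiffOn hU fun z hz => (contDiffAt_brA hz).contDiffWithinAt
  have h4 : LocLip (rayA a)ᶜ (fun z => F (brA a z)) := h3.comp_lipschitz hF
  have h5 := (LocLip.const hU c).add (h1.mul (h4.sub (LocLip.const hU c)))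
  exact h5

theorem norm_sq_eq_inner (w e : ℂ) (he : ‖e‖ = 1) :
    ‖w‖ ^ 2 = inner ℝ w e ^ 2 + inner ℝ w (Complex.I * e) ^ 2 := by
  have h1 : e.re ^ 2 + e.im ^ 2 = 1 := by
    have := Complex.sq_norm e
    rw [he, Complex.normSq_apply] at this
    linarith
  have h2 : ‖w‖ ^ 2 = w.re ^ 2 + w.im ^ 2 := by
    rw [Complex.sq_norm, Complex.normSq_apply]; ring
  rw [h2, inner_eq, inner_eq]
  simp only [Complex.mul_re, Complex.mul_im, Complex.I_re, Complex.I_im]
  linear_combination (-(w.re ^ 2 + w.im ^ 2)) * h1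

theorem hext_circleMap {a s c r t : ℝ} (hr : 0 < r) (ht : t ∈ Ioc a (a + 2 * π)) (F : ℝ → ℝ) :
    hext a s c F (circleMap 0 r t) = c + Real.sqrt (r / s) * (F t - c) := by
  unfold hext
  rw [brA_circleMap hr ht, norm_circleMap_zero, abs_of_pos hr]

/-- The gradient of the half-power extension. -/
theorem norm_grad_hext {a s c : ℝ} (hs : 0 < s) {F : ℝ → ℝ} {z : ℂ} (hz : z ∉ rayA a)
    (hd : DifferentiableAt ℝ (hext a s c F) z) :
    ‖grad (hext a s c F) z‖ ^ 2 =
      (‖z‖ * s)⁻¹ * ((F (brA a z) - c) ^ 2 / 4 + deriv F (brA a z) ^ 2) := by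
  obtain ⟨t, ht⟩ : ∃ t, t = brA a z := ⟨_, rfl⟩
  obtain ⟨r, hr⟩ : ∃ r, r = ‖z‖ := ⟨_, rfl⟩
  have hz0 : z ≠ 0 := by
    rintro rfl; exact hz (zero_mem_rayA a)
  have hr0 : 0 < r := by rw [hr]; exact norm_pos_iff.2 hz0
  have htI : t ∈ Ioo a (a + 2 * π) := by rw [ht]; exact brA_mem hz
  have hzc : circleMap 0 r t = z := by rw [hr, ht]; exact circleMap_brA a z
  have hrs : 0 < r / s := by (clear * - hr0 hs; positivity)
  have hsq : 0 < Real.sqrt (r / s) := Real.sqrt_pos.2 hrs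
  -- radial derivative
  have hrad : fderiv ℝ (hext a s c F) z (Complex.exp (t * Complex.I)) =
      (F t - c) * (1 / s / (2 * Real.sqrt (r / s))) := by
    have e1 : HasDerivAt (fun ρ : ℝ => circleMap 0 ρ t) (Complex.exp (t * Complex.I)) r := by
      have : (fun ρ : ℝ => circleMap 0 ρ t) = fun ρ : ℝ => (ρ : ℂ) * Complex.exp (t * Complex.I) := by
        funext ρ; simp [circleMap]
      rw [this]
      simpa only [Complex.ofRealCLM_apply, Complex.ofReal_one, one_mul] using     (Complex.ofRealCLM.hasDerivAt (x := r)).mul_const (Complex.exp (t * Complex.I))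
    have e2 : HasDerivAt (fun ρ : ℝ => hext a s c F (circleMap 0 ρ t))
        (fderiv ℝ (hext a s c F) z (Complex.exp (t * Complex.I))) r := by
      have := hd.hasFDerivAt
      rw [← hzc] at this ⊢
      exact this.comp_hasDerivAt r e1
    have e3 : HasDerivAt (fun ρ : ℝ => c + Real.sqrt (ρ / s) * (F t - c))
        ((1 / s / (2 * Real.sqrt (r / s))) * (F t - c)) r := by
      have := (((hasDerivAt_id r).div_const s).sqrt hrs.ne').mul_const (F t - c)
      exact this.const_add c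
    have e4 : (fun ρ : ℝ => hext a s c F (circleMap 0 ρ t)) =ᶠ[𝓝 r]
        fun ρ : ℝ => c + Real.sqrt (ρ / s) * (F t - c) := by
      filter_upwards [lt_mem_nhds hr0] with ρ hρ
      exact hext_circleMap hρ ⟨htI.1, htI.2.le⟩ F
    rw [(e3.congr_of_eventuallyEq e4).unique e2 |>.symm]
    ring
  -- angular derivative
  have hang : fderiv ℝ (hext a s c F) z (Complex.I * Complex.exp (t * Complex.I)) =
      Real.sqrt (r / s) / r * deriv F t := by
    have e1 : HasDerivAt (fun τ : ℝ => circleMap 0 r τ) (circleMap 0 r t * Complex.I) t :=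
      hasDerivAt_circleMap 0 r t
    have e2 : HasDerivAt (fun τ : ℝ => hext a s c F (circleMap 0 r τ))
        (fderiv ℝ (hext a s c F) z (circleMap 0 r t * Complex.I)) t := by
      have := hd.hasFDerivAt
      rw [← hzc] at this ⊢
      exact this.comp_hasDerivAt t e1
    have e3 : HasDerivAt F ((Real.sqrt (r / s))⁻¹ *
        fderiv ℝ (hext a s c F) z (circleMap 0 r t * Complex.I)) t := by
      have h3 := ((e2.sub_const c).const_mul (Real.sqrt (r / s))⁻¹).add_const c
      refine h3.congr_of_eventuallyEq ?_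
      filter_upwards [Ioo_mem_nhds htI.1 htI.2] with τ hτ
      rw [hext_circleMap hr0 ⟨hτ.1, hτ.2.le⟩ F]
      field_simp
      ring
    have e4 : circleMap 0 r t * Complex.I = (r : ℝ) • (Complex.I * Complex.exp (t * Complex.I)) := by
      simp only [circleMap, zero_add, Complex.real_smul]; ring
    rw [e3.deriv, e4, map_smul, smul_eq_mul]
    field_simp
  have hn := norm_sq_eq_inner (grad (hext a s c F) z) (Complex.exp (t * Complex.I))
    (Complex.norm_exp_ofReal_mul_I t)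
  rw [hn, inner_grad, inner_grad, hrad, hang, ← ht, ← hr]
  have hss : Real.sqrt (r / s) ^ 2 = r / s := Real.sq_sqrt hrs.le
  have e5 : ((F t - c) * (1 / s / (2 * Real.sqrt (r / s)))) ^ 2 =
      (F t - c) ^ 2 * (1 / s ^ 2 / (4 * Real.sqrt (r / s) ^ 2)) := by ring
  have e6 : (Real.sqrt (r / s) / r * deriv F t) ^ 2 =
      Real.sqrt (r / s) ^ 2 / r ^ 2 * deriv F t ^ 2 := by ring
  rw [e5, e6, hss]
  (clear * - hr0 hs; field_simp)

/-! ### Polar integration -/

theorem integrableOn_inv_norm (s : ℝ) :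
    IntegrableOn (fun z : ℂ => (‖z‖)⁻¹) (ball 0 s) := by
  refine (integrableOn_fun_norm_addHaar (volume : Measure ℂ) (f := fun r : ℝ => r⁻¹)).2 ?_
  rw [Complex.finrank_real_complex]
  have h1 : IntegrableOn (fun _ : ℝ => (1 : ℝ)) (Ioo 0 s) := by
    exact integrableOn_const (by simp only [Real.volume_Ioo, sub_zero, ne_eq, ENNReal.ofReal_ne_top, not_false_eq_true])
  refine h1.congr_fun (fun y hy => ?_) measurableSet_Ioo
  have : y ≠ 0 := hy.1.ne'
  simp only [Nat.add_one_sub_one, pow_one, smul_eq_mul, ne_eq, this, not_false_eq_true, mul_inv_cancel₀]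

theorem measurable_brA (a : ℝ) : Measurable (brA a) :=
  (Complex.measurable_arg.comp (continuous_rotA a).measurable).const_add _

theorem integral_period {a r : ℝ} (hr : 0 < r) (g : ℝ → ℝ) :
    ∫ θ in ang, g (brA a (circleMap 0 r θ)) = ∫ t in Ioo a (a + 2 * π), g t := by
  have hper : Function.Periodic (fun θ => g (brA a (circleMap 0 r θ))) (2 * π) := by
    intro θ
    change g (brA a (circleMap 0 r (θ + 2 * π))) = g (brA a (circleMap 0 r θ))
    rw [periodic_circleMap 0 r θ]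
  have h1 := hper.intervalIntegral_add_eq (-π) a
  rw [intervalIntegral.integral_of_le (by linarith only [Real.pi_pos]),
    intervalIntegral.integral_of_le (by linarith only [Real.pi_pos]),
    integral_Ioc_eq_integral_Ioo, integral_Ioc_eq_integral_Ioo] at h1
  have h2 : -π + 2 * π = π := by ring
  rw [h2] at h1
  rw [h1]
  refine setIntegral_congr_fun measurableSet_Ioo fun t ht => ?_
  change g (brA a (circleMap 0 r t)) = g t
  rw [brA_circleMap hr ⟨ht.1, ht.2.le⟩]

theorem integral_brA {a s : ℝ} (hs : 0 < s) {g : ℝ → ℝ} (hg : Measurable g) {B : ℝ}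
    (hB : ∀ t, |g t| ≤ B) :
    IntegrableOn (fun z => (‖z‖ * s)⁻¹ * g (brA a z)) (ball 0 s) ∧
      ∫ z in ball (0 : ℂ) s, (‖z‖ * s)⁻¹ * g (brA a z) = ∫ t in Ioo a (a + 2 * π), g t := by
  have hm : Measurable (fun z : ℂ => (‖z‖ * s)⁻¹ * g (brA a z)) :=
    ((measurable_norm.mul_const s).inv).mul (hg.comp (measurable_brA a))
  have hi : IntegrableOn (fun z => (‖z‖ * s)⁻¹ * g (brA a z)) (ball 0 s) := by
    refine ((integrableOn_inv_norm s).const_mul (s⁻¹ * B)).mono' hm.aestronglyMeasurable ?_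
    refine Eventually.of_forall fun z => ?_
    rw [norm_mul, norm_inv, norm_mul, norm_norm, Real.norm_of_nonneg hs.le, Real.norm_eq_abs,
      mul_inv]
    have := hB (brA a z)
    have h0 : 0 ≤ (‖z‖)⁻¹ * s⁻¹ := by (clear * - hs; positivity)
    calc (‖z‖)⁻¹ * s⁻¹ * |g (brA a z)| ≤ (‖z‖)⁻¹ * s⁻¹ * B := mul_le_mul_of_nonneg_left this h0
      _ = s⁻¹ * B * (‖z‖)⁻¹ := by ring
  refine ⟨hi, ?_⟩
  have hm' : Measurable ((ball (0 : ℂ) s).indicator fun z => (‖z‖ * s)⁻¹ * g (brA a z)) :=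
    hm.indicator measurableSet_ball
  rw [← integral_indicator measurableSet_ball,
    integral_polar 0 hm' ((integrable_indicator_iff measurableSet_ball).2 hi)]
  have e1 : ∀ r ∈ Ioi (0 : ℝ), r * ∫ θ in ang,
      (ball (0 : ℂ) s).indicator (fun z => (‖z‖ * s)⁻¹ * g (brA a z)) (circleMap 0 r θ) =
      (Ioo 0 s).indicator (fun _ => s⁻¹ * ∫ t in Ioo a (a + 2 * π), g t) r := by
    intro r hr
    have hr0 : 0 < r := hr
    by_cases hrs : r < s
    · rw [indicator_of_mem (show r ∈ Ioo 0 s from ⟨hr0, hrs⟩)]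
      have : ∀ θ, (ball (0 : ℂ) s).indicator (fun z => (‖z‖ * s)⁻¹ * g (brA a z))
          (circleMap 0 r θ) = (r * s)⁻¹ * g (brA a (circleMap 0 r θ)) := by
        intro θ
        rw [indicator_of_mem (by rw [mem_ball_zero_iff, norm_circleMap_zero, abs_of_pos hr0]; exact hrs),
          norm_circleMap_zero, abs_of_pos hr0]
      simp only [this]
      rw [integral_const_mul, integral_period hr0]
      (clear * - hr0 hs; field_simp)
    · rw [indicator_of_notMem (show r ∉ Ioo 0 s from fun h => hrs h.2)]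
      have : ∀ θ, (ball (0 : ℂ) s).indicator (fun z => (‖z‖ * s)⁻¹ * g (brA a z))
          (circleMap 0 r θ) = 0 := by
        intro θ
        rw [indicator_of_notMem]
        rw [mem_ball_zero_iff, norm_circleMap_zero, abs_of_pos hr0]
        exact hrs
      simp only [this]
      simp only [integral_zero, mul_zero]
  rw [setIntegral_congr_fun measurableSet_Ioi e1, setIntegral_indicator measurableSet_Ioo]
  have e2 : Ioi (0 : ℝ) ∩ Ioo 0 s = Ioo 0 s := by
    ext r; simp only [mem_inter_iff, mem_Ioi, mem_Ioo, and_self_left]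
  rw [e2, setIntegral_const]
  simp only [measureReal_def, Real.volume_Ioo, sub_zero, ENNReal.toReal_ofReal hs.le, smul_eq_mul]
  field_simp

/-! ### Poincaré for the trace and the energy of the extension -/

theorem lip_weak {F : ℝ → ℝ} {M : ℝ≥0} (hF : LipschitzWith M F) {a b : ℝ} {φ : ℝ → ℝ}
    (h1 : ContDiff ℝ ∞ φ) (h2 : HasCompactSupport φ) (h3 : tsupport φ ⊆ Ioo a b) :
    ∫ t in Ioo a b, F t * deriv φ t = - ∫ t in Ioo a b, deriv F t * φ t := by
  obtain ⟨D, hD⟩ := (h1.of_le (m := 1) (by simp only [WithTop.one_le_coe, le_top])).lipschitzWith_of_hasCompactSupport h2 (by simp)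
  have key := hF.integral_lineDeriv_mul_eq (μ := (volume : Measure ℝ)) hD h2 (1 : ℝ)
  have e1 : ∫ t, lineDeriv ℝ φ t (-1) * F t = - ∫ t, F t * deriv φ t := by
    rw [← integral_neg]
    refine integral_congr_ae (Eventually.of_forall fun t => ?_)
    simp only
    rw [((h1.differentiable (by simp)) t).lineDeriv_eq_fderiv, map_neg, fderiv_apply_one_eq_deriv]
    ring
  have e2 : ∫ t, lineDeriv ℝ F t 1 * φ t = ∫ t, deriv F t * φ t := by
    refine integral_congr_ae ?_
    filter_upwards [hF.ae_differentiableAt (μ := (volume : Measure ℝ))] with t ht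
    rw [ht.lineDeriv_eq_fderiv, fderiv_apply_one_eq_deriv]
  have e3 : ∫ t in Ioo a b, F t * deriv φ t = ∫ t, F t * deriv φ t := by
    refine setIntegral_eq_integral_of_forall_compl_eq_zero fun t ht => ?_
    have : deriv φ t = 0 := by
      by_contra hne
      exact ht (h3 (support_deriv_subset hne))
    rw [this, mul_zero]
  have e4 : ∫ t in Ioo a b, deriv F t * φ t = ∫ t, deriv F t * φ t := by
    refine setIntegral_eq_integral_of_forall_compl_eq_zero fun t ht => ?_
    rw [image_eq_zero_of_notMem_tsupport (fun h => ht (h3 h)), mul_zero]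
  rw [e3, e4, ← e2, key, e1, neg_neg]

theorem energy_hext {a s : ℝ} (hs : 0 < s) {F : ℝ → ℝ} {M : ℝ≥0} (hF : LipschitzWith M F)
    {B : ℝ} (hB : ∀ t, |F t| ≤ B) {c : ℝ}
    (hc : c = (2 * π)⁻¹ * ∫ t in Ioo a (a + 2 * π), F t) :
    IntegrableOn (fun z => ‖grad (hext a s c F) z‖ ^ 2) (ball 0 s) ∧
      ∫ z in ball (0 : ℂ) s, ‖grad (hext a s c F) z‖ ^ 2 ≤
        2 * ∫ t in Ioo a (a + 2 * π), deriv F t ^ 2 := by
  have hπ := Real.pi_pos
  obtain ⟨g, hg⟩ : ∃ g : ℝ → ℝ, g = fun t => (F t - c) ^ 2 / 4 + deriv F t ^ 2 := ⟨_, rfl⟩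
  have hFc := hF.continuous
  have hdm : Measurable (deriv F) := measurable_deriv F
  have hdb : ∀ t, |deriv F t| ≤ M := fun t => norm_deriv_le_of_lipschitz hF
  have hgm : Measurable g := by
    rw [hg]
    exact (((hFc.measurable.sub_const c).pow_const 2).div_const 4).add (hdm.pow_const 2)
  have hgB : ∀ t, |g t| ≤ (B + |c|) ^ 2 / 4 + (M : ℝ) ^ 2 := by
    intro t
    rw [hg]
    simp only
    rw [abs_of_nonneg (by (clear * -; positivity))]
    have h1 : (F t - c) ^ 2 ≤ (B + |c|) ^ 2 := by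
      rw [← sq_abs]
      refine pow_le_pow_left₀ (abs_nonneg _) ((abs_sub _ _).trans (add_le_add_left (hB t) _)) 2
    have h2 : deriv F t ^ 2 ≤ (M : ℝ) ^ 2 := by
      rw [← sq_abs]
      exact pow_le_pow_left₀ (abs_nonneg _) (hdb t) 2
    linarith only [h2, h1]
  obtain ⟨hi, he⟩ := integral_brA (a := a) hs hgm hgB
  have hae : ∀ᵐ z ∂(volume.restrict (ball (0 : ℂ) s)),
      (‖z‖ * s)⁻¹ * g (brA a z) = ‖grad (hext a s c F) z‖ ^ 2 := by
    refine ae_restrict_of_ae ?_
    have h1 : ∀ᵐ z : ℂ, z ∉ rayA a := by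
      rw [ae_iff]; simpa only [not_not, ofPred_mem_eq] using volume_rayA a
    have h2 := (locLip_hext (c := c) hs hF (a := a)).ae_diff (isClosed_rayA a).isOpen_compl
    filter_upwards [h1, h2] with z hz hz'
    rw [norm_grad_hext hs hz (hz' hz), hg]
  have hint : IntegrableOn (fun z => ‖grad (hext a s c F) z‖ ^ 2) (ball 0 s) := hi.congr hae
  refine ⟨hint, ?_⟩
  rw [← integral_congr_ae hae, he]
  have hfin : IsFiniteMeasure (volume.restrict (Ioo a (a + 2 * π))) :=
    ⟨by rw [Measure.restrict_apply_univ]; exact measure_Ioo_lt_top⟩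
  have hFm : MemLp F 2 (volume.restrict (Ioo a (a + 2 * π))) :=
    MemLp.of_bound hFc.aestronglyMeasurable B (Eventually.of_forall fun t => hB t)
  have hdF : MemLp (deriv F) 2 (volume.restrict (Ioo a (a + 2 * π))) :=
    MemLp.of_bound hdm.aestronglyMeasurable M (Eventually.of_forall fun t => hdb t)
  have P := arc_poincare (a := a) (b := a + 2 * π) (by linarith only [hπ]) hFm hdF
    (fun φ h1 h2 h3 => lip_weak hF h1 h2 h3)
  have e1 : a + 2 * π - a = 2 * π := by ring
  rw [e1, ← hc] at P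
  have e2 : (2 * π / π) ^ 2 = 4 := by
    field_simp; norm_num
  rw [e2] at P
  have i1 : IntegrableOn (fun t => (F t - c) ^ 2 / 4) (Ioo a (a + 2 * π)) := by
    have := ((hFm.sub (memLp_const c)).integrable_sq).div_const 4
    exact this
  have i2 : IntegrableOn (fun t => deriv F t ^ 2) (Ioo a (a + 2 * π)) := hdF.integrable_sq
  rw [hg, integral_add i1 i2, integral_div]
  linarith only [P]

/-! ### The competitor -/

variable {u : ℂ → ℝ} {K : Set ℂ}

theorem ut_periodic (u : ℂ → ℝ) (s : ℝ) : Function.Periodic (fun θ => ut u s θ ^ 2) (2 * π) := by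
  intro θ
  change ut u s (θ + 2 * π) ^ 2 = ut u s θ ^ 2
  unfold ut
  rw [periodic_circleMap 0 s θ]
  have : Complex.exp (((θ + 2 * π : ℝ) : ℂ) * Complex.I) = Complex.exp (θ * Complex.I) := by
    have h2 := periodic_circleMap 0 1 θ
    simpa [circleMap] using h2
  rw [this]

/-- The trace of `u` on an arc, extended by constants. -/
theorem exists_trace {U : Set ℂ} (hU : IsOpen U) (hu : LocLip U u)
    (hd : ∀ z ∈ U, DifferentiableAt ℝ u z) {s : ℝ} (hs : 0 < s)
    (hint : IntegrableOn (fun θ => ‖grad u (circleMap 0 s θ)‖ ^ 2) ang) {a b : ℝ} (hab : a < b)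
    (hb : b ≤ a + 2 * π) (hK : ∀ θ ∈ Icc a b, circleMap 0 s θ ∈ U) :
    ∃ (F : ℝ → ℝ) (M : ℝ≥0) (B : ℝ), LipschitzWith M F ∧ (∀ t, |F t| ≤ B) ∧
      (∀ t ∈ Icc a b, F t = u (circleMap 0 s t)) ∧
      ∫ t in Ioo a (a + 2 * π), deriv F t ^ 2 ≤ s * TT u s := by
  have hπ := Real.pi_pos
  have hC : IsCompact (circleMap 0 s '' Icc a b) :=
    isCompact_Icc.image (continuous_circleMap 0 s)
  have hCU : circleMap 0 s '' Icc a b ⊆ U := by
    rintro _ ⟨t, ht, rfl⟩
    exact hK t ht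
  obtain ⟨V, M, f, hVo, hCV, -, -, hf, he⟩ := hu.exists_global hU hC hCU
  obtain ⟨F, hF⟩ : ∃ F : ℝ → ℝ, F = fun t => f (circleMap 0 s (max a (min t b))) := ⟨_, rfl⟩
  have hcl : ∀ t, max a (min t b) ∈ Icc a b := fun t =>
    ⟨le_max_left _ _, max_le hab.le (min_le_right _ _)⟩
  have hFl : LipschitzWith (M * (Real.nnabs s * 1)) F := by
    rw [hF]
    exact hf.comp ((lipschitzWith_circleMap 0 s).comp
      (((LipschitzWith.id).min_const b).const_max a))
  obtain ⟨B, hB⟩ := hC.exists_bound_of_continuousOn hf.continuous.continuousOn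
  have hFu : ∀ t ∈ Icc a b, F t = u (circleMap 0 s t) := by
    intro t ht
    rw [hF]
    simp only
    rw [min_eq_left ht.2, max_eq_right ht.1]
    exact (he (subset_closure (hCV (mem_image_of_mem _ ht)))).symm
  refine ⟨F, _, B, hFl, fun t => ?_, hFu, ?_⟩
  · rw [hF]
    exact hB _ (mem_image_of_mem _ (hcl t))
  -- the derivative
  have hd1 : ∀ t ∈ Ioo a b, deriv F t = s * ut u s t := by
    intro t ht
    have e1 : F =ᶠ[𝓝 t] fun τ => u (circleMap 0 s τ) := by
      filter_upwards [Ioo_mem_nhds ht.1 ht.2] with τ hτ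
      exact hFu τ ⟨hτ.1.le, hτ.2.le⟩
    have e2 := (hd _ (hK t ⟨ht.1.le, ht.2.le⟩)).hasFDerivAt.comp_hasDerivAt t
      (hasDerivAt_circleMap 0 s t)
    have e3 : circleMap 0 s t * Complex.I = s • (Complex.I * Complex.exp (t * Complex.I)) := by
      simp only [circleMap, zero_add, Complex.real_smul]; ring
    rw [e1.deriv_eq]
    have e4 := e2.deriv
    rw [e3, map_smul, smul_eq_mul, ← inner_grad] at e4
    exact e4
  have hd2 : ∀ t ∈ Ioo b (a + 2 * π), deriv F t = 0 := by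
    intro t ht
    have e1 : F =ᶠ[𝓝 t] fun _ => f (circleMap 0 s b) := by
      filter_upwards [lt_mem_nhds ht.1] with τ hτ
      rw [hF]
      simp only
      rw [min_eq_right hτ.le, max_eq_right hab.le]
    rw [e1.deriv_eq, deriv_const]
  have hutI : IntervalIntegrable (fun θ => ut u s θ ^ 2) volume (-π) (-π + 2 * π) := by
    rw [intervalIntegrable_iff_integrableOn_Ioo_of_le (by linarith only [hπ])]
    have : -π + 2 * π = π := by ring
    rw [this]
    refine Integrable.mono' hint ((measurable_ut u s).pow_const 2).aestronglyMeasurable ?_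
    refine Eventually.of_forall fun θ => ?_
    rw [Real.norm_of_nonneg (by (clear * -; positivity)), ← un_sq_add_ut_sq]
    nlinarith only []
  have hutI' : IntegrableOn (fun θ => ut u s θ ^ 2) (Ioo a (a + 2 * π)) := by
    have := (ut_periodic u s).intervalIntegrable Real.two_pi_pos.ne' hutI a (a + 2 * π)
    rwa [intervalIntegrable_iff_integrableOn_Ioo_of_le (by linarith only [hπ])] at this
  have e5 : ∫ t in Ioo a (a + 2 * π), deriv F t ^ 2 ≤
      ∫ t in Ioo a (a + 2 * π), s ^ 2 * ut u s t ^ 2 := by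
    refine integral_mono_of_nonneg (Eventually.of_forall fun t => by (clear * -; positivity))
      (hutI'.const_mul _) ?_
    rw [EventuallyLE, ae_restrict_iff' measurableSet_Ioo]
    have hne : ∀ᵐ t : ℝ, t ≠ b := by
      rw [ae_iff]; simp
    filter_upwards [hne] with t htb ht
    rcases lt_or_gt_of_ne htb with h1 | h1
    · rw [hd1 t ⟨ht.1, h1⟩, mul_pow]
    · rw [hd2 t ⟨h1, ht.2⟩]
      have : 0 ≤ s ^ 2 * ut u s t ^ 2 := by (clear * - hs; positivity)
      simpa only [ne_eq, OfNat.ofNat_ne_zero, not_false_eq_true, zero_pow, ge_iff_le] using this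
  refine e5.trans (le_of_eq ?_)
  rw [integral_const_mul]
  have e6 := (ut_periodic u s).intervalIntegral_add_eq (-π) a
  rw [show -π + 2 * π = π by ring,
    intervalIntegral.integral_of_le (a := a) (by linarith only [hπ]), integral_Ioc_eq_integral_Ioo] at e6
  unfold TT
  rw [e6]
  ring

theorem GMin.cluster_aux (h : GMin u K) {s : ℝ} (hs : 0 < s)
    (hint : IntegrableOn (fun θ => ‖grad u (circleMap 0 s θ)‖ ^ 2) ang) {a b : ℝ} (hab : a < b)
    (hb : b ≤ a + 2 * π) (hK : ∀ θ ∈ Icc a b, circleMap 0 s θ ∉ K) :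
    En u s + Len K s ≤ 2 * s * TT u s + s + s * (a + 2 * π - b) := by
  have hπ := Real.pi_pos
  have hud : ∀ z ∈ Kᶜ, DifferentiableAt ℝ u z := fun z hz =>
    ((InnerProductSpace.HarmonicOnNhd.contDiffOn h.harm).contDiffAt
      (h.isOpen_compl.mem_nhds hz)).differentiableAt (by norm_num)
  obtain ⟨F, M, B, hF, hB, hFu, hFd⟩ := exists_trace h.isOpen_compl h.locLip hud hs hint hab hb hK
  obtain ⟨c, hc⟩ : ∃ c, c = (2 * π)⁻¹ * ∫ t in Ioo a (a + 2 * π), F t := ⟨_, rfl⟩
  obtain ⟨hi, he⟩ := energy_hext (a := a) hs hF hB hc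
  obtain ⟨φ, hφ⟩ : ∃ φ, φ = hext a s c F := ⟨_, rfl⟩
  have hφl : LocLip (rayA a)ᶜ φ := by rw [hφ]; exact locLip_hext hs hF
  rw [← hφ] at hi he
  obtain ⟨Arc, hArc⟩ : ∃ Arc : Set ℂ, Arc = circleMap 0 s '' Icc b (a + 2 * π) := ⟨_, rfl⟩
  obtain ⟨Rad, hRad⟩ : ∃ Rad : Set ℂ, Rad = rayA a ∩ closedBall 0 s := ⟨_, rfl⟩
  obtain ⟨L, hL⟩ : ∃ L : Set ℂ, L = (K \ ball 0 s) ∪ Arc ∪ Rad := ⟨_, rfl⟩
  obtain ⟨v, hv⟩ : ∃ v : ℂ → ℝ, v = fun z => u z + (ball (0 : ℂ) s).indicator
    (fun z => φ z - u z) z := ⟨_, rfl⟩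
  have hArcC : IsClosed Arc := by
    rw [hArc]; exact (isCompact_Icc.image (continuous_circleMap 0 s)).isClosed
  have hArcS : Arc ⊆ closedBall 0 s := by
    rw [hArc]
    rintro _ ⟨t, -, rfl⟩
    rw [mem_closedBall_zero_iff, norm_circleMap_zero, abs_of_pos hs]
  have hRadC : IsClosed Rad := by
    rw [hRad]; exact (isClosed_rayA a).inter isClosed_closedBall
  have hRadS : Rad ⊆ closedBall 0 s := by rw [hRad]; exact inter_subset_right
  have hLc : IsClosed L := by
    rw [hL]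
    exact ((h.closed.sdiff isOpen_ball).union hArcC).union hRadC
  have hvin : ∀ z, ‖z‖ < s → v z = φ z := by
    intro z hz
    rw [hv]
    simp only
    rw [indicator_of_mem (mem_ball_zero_iff.2 hz)]
    ring
  have hvout : ∀ z, s ≤ ‖z‖ → v z = u z := by
    intro z hz
    rw [hv]
    simp only
    rw [indicator_of_notMem (fun h => absurd (mem_ball_zero_iff.1 h) (not_lt.2 hz)), add_zero]
  have hvL : LocLip Lᶜ v := by
    refine LocLip.of_local' fun z hz => ?_
    rw [hL, mem_compl_iff, mem_union, mem_union, not_or, not_or] at hz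
    obtain ⟨⟨hz1, hz2⟩, hz3⟩ := hz
    rcases lt_trichotomy ‖z‖ s with hzs | hzs | hzs
    · refine ⟨ball 0 s ∩ (rayA a)ᶜ, isOpen_ball.inter (isClosed_rayA a).isOpen_compl,
        ⟨mem_ball_zero_iff.2 hzs, fun h' => hz3 ?_⟩, ?_, ?_⟩
      · rw [hRad]; exact ⟨h', mem_closedBall_zero_iff.2 hzs.le⟩
      · rintro y ⟨hy1, hy2⟩
        rw [hL, mem_compl_iff, mem_union, mem_union, not_or, not_or]
        refine ⟨⟨fun h' => h'.2 hy1, fun h' => ?_⟩, fun h' => ?_⟩
        · rw [hArc] at h'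
          obtain ⟨t, -, rfl⟩ := h'
          rw [mem_ball_zero_iff, norm_circleMap_zero, abs_of_pos hs] at hy1
          exact lt_irrefl _ hy1
        · rw [hRad] at h'
          exact hy2 h'.1
      · refine (hφl.mono (isOpen_ball.inter (isClosed_rayA a).isOpen_compl)
          inter_subset_right).congr fun y hy => ?_
        exact (hvin y (mem_ball_zero_iff.1 hy.1)).symm
    · have hzK : z ∉ K := fun h' => hz1 ⟨h', fun h'' => by
        rw [mem_ball_zero_iff, hzs] at h''; exact lt_irrefl _ h''⟩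
      have hzR : z ∉ rayA a := fun h' => hz3 (by
        rw [hRad]; exact ⟨h', mem_closedBall_zero_iff.2 hzs.le⟩)
      have hVo : IsOpen (Kᶜ ∩ (rayA a)ᶜ ∩ Arcᶜ) :=
        (h.isOpen_compl.inter (isClosed_rayA a).isOpen_compl).inter hArcC.isOpen_compl
      refine ⟨Kᶜ ∩ (rayA a)ᶜ ∩ Arcᶜ, hVo, ⟨⟨hzK, hzR⟩, hz2⟩, ?_, ?_⟩
      · rintro y ⟨⟨hy1, hy2⟩, hy3⟩
        rw [hL, mem_compl_iff, mem_union, mem_union, not_or, not_or]
        exact ⟨⟨fun h' => hy1 h'.1, hy3⟩, fun h' => hy2 (by rw [hRad] at h'; exact h'.1)⟩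
      · have h1 : LocLip (Kᶜ ∩ (rayA a)ᶜ ∩ Arcᶜ) u :=
          h.locLip.mono hVo (inter_subset_left.trans inter_subset_left)
        have h2 : LocLip (Kᶜ ∩ (rayA a)ᶜ ∩ Arcᶜ) φ :=
          hφl.mono hVo (inter_subset_left.trans inter_subset_right)
        have h3 := (h2.sub h1).ind_ball (s := s) fun y hy hys => by
          obtain ⟨⟨-, hy2⟩, hy3⟩ := hy
          have h4 := brA_mem hy2
          have h5 := circleMap_brA a y
          rw [hys] at h5
          have h6 : brA a y < b := by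
            by_contra hcon
            apply hy3
            rw [hArc]
            exact ⟨brA a y, ⟨not_lt.1 hcon, h4.2.le⟩, h5⟩
          have h7 : φ y = u y := by
            rw [hφ]
            unfold hext
            rw [hys, div_self hs.ne', Real.sqrt_one, one_mul, hFu _ ⟨h4.1.le, h6.le⟩, h5]
            ring
          rw [h7, sub_self]
        have h4 := h1.add h3
        rw [hv]
        exact h4
    · refine ⟨Kᶜ ∩ (closedBall 0 s)ᶜ, h.isOpen_compl.inter isClosed_closedBall.isOpen_compl,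
        ⟨fun h' => hz1 ⟨h', fun h'' => ?_⟩, fun h' => ?_⟩, ?_, ?_⟩
      · exact absurd (mem_ball_zero_iff.1 h'') (not_lt.2 hzs.le)
      · exact absurd (mem_closedBall_zero_iff.1 h') (not_le.2 hzs)
      · rintro y ⟨hy1, hy2⟩
        rw [hL, mem_compl_iff, mem_union, mem_union, not_or, not_or]
        exact ⟨⟨fun h' => hy1 h'.1, fun h' => hy2 (hArcS h')⟩, fun h' => hy2 (hRadS h')⟩
      · refine (h.locLip.mono (h.isOpen_compl.inter isClosed_closedBall.isOpen_compl)
          inter_subset_left).congr fun y hy => ?_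
        refine (hvout y ?_).symm
        have := hy.2
        rw [mem_compl_iff, mem_closedBall_zero_iff, not_le] at this
        exact this.le
  have hsymm : symmDiff L K ⊆ closedBall 0 s := by
    intro z hz
    rcases hz with ⟨h1, h2⟩ | ⟨h1, h2⟩
    · rw [hL] at h1
      rcases h1 with (h1 | h1) | h1
      · exact absurd h1.1 h2
      · exact hArcS h1
      · exact hRadS h1
    · by_contra hcon
      apply h2
      rw [hL]
      refine Or.inl (Or.inl ⟨h1, fun h' => hcon (ball_subset_closedBall h')⟩)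
  -- gradients
  have hgin : ∀ z ∈ ball (0 : ℂ) s, grad v z = grad φ z := by
    intro z hz
    refine grad_congr ?_
    filter_upwards [isOpen_ball.mem_nhds hz] with y hy
    exact hvin y (mem_ball_zero_iff.1 hy)
  have hgout : ∀ z ∈ ball (0 : ℂ) (s + 1) \ closedBall 0 s, grad v z = grad u z := by
    intro z hz
    refine grad_congr ?_
    filter_upwards [isClosed_closedBall.isOpen_compl.mem_nhds hz.2] with y hy
    rw [mem_compl_iff, mem_closedBall_zero_iff, not_le] at hy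
    exact hvout y hy.le
  have hsplit : ball (0 : ℂ) (s + 1) =ᵐ[volume] (ball 0 s ∪ (ball 0 (s + 1) \ closedBall 0 s) : Set ℂ) := by
    have h1 : ball (0 : ℂ) (s + 1) = ball 0 s ∪ (ball 0 (s + 1) \ closedBall 0 s) ∪ sphere 0 s := by
      ext z
      simp only [mem_union, Set.mem_sdiff, mem_ball_zero_iff, mem_closedBall_zero_iff, mem_sphere_zero_iff_norm]
      constructor
      · intro h'
        rcases lt_trichotomy ‖z‖ s with h2 | h2 | h2
        · exact Or.inl (Or.inl h2)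
        · exact Or.inr h2
        · exact Or.inl (Or.inr ⟨h', not_le.2 h2⟩)
      · rintro ((h' | h') | h')
        · linarith only [h']
        · exact h'.1
        · linarith only [h']
    conv_lhs => rw [h1]
    exact union_ae_eq_left_of_ae_eq_empty
      (ae_eq_empty.2 (by rw [Measure.addHaar_sphere_of_ne_zero _ _ hs.ne']))
  have hAm : MeasurableSet (ball (0 : ℂ) (s + 1) \ closedBall 0 s) :=
    measurableSet_ball.diff measurableSet_closedBall
  have hdisj : Disjoint (ball (0 : ℂ) s) (ball (0 : ℂ) (s + 1) \ closedBall 0 s) := by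
    rw [Set.disjoint_left]
    intro z hz hz'
    exact hz'.2 (ball_subset_closedBall hz)
  have hiu := h.integrableOn (s + 1)
  have hius : IntegrableOn (fun z => ‖grad u z‖ ^ 2) (ball 0 s) := h.integrableOn s
  have hiuA : IntegrableOn (fun z => ‖grad u z‖ ^ 2) (ball (0 : ℂ) (s + 1) \ closedBall 0 s) :=
    hiu.mono_set sdiff_subset
  have hivs : IntegrableOn (fun z => ‖grad v z‖ ^ 2) (ball 0 s) :=
    hi.congr_fun (fun z hz => by rw [hgin z hz]) measurableSet_ball
  have hivA : IntegrableOn (fun z => ‖grad v z‖ ^ 2) (ball (0 : ℂ) (s + 1) \ closedBall 0 s) :=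
    hiuA.congr_fun (fun z hz => by rw [hgout z hz]) hAm
  have hiv : IntegrableOn (fun z => ‖grad v z‖ ^ 2) (ball 0 (s + 1)) :=
    (hivs.union hivA).congr_set_ae hsplit
  have e1 : ∫ z in ball (0 : ℂ) (s + 1), ‖grad u z‖ ^ 2 = (∫ z in ball (0 : ℂ) s, ‖grad u z‖ ^ 2) +
      ∫ z in ball (0 : ℂ) (s + 1) \ closedBall 0 s, ‖grad u z‖ ^ 2 := by
    rw [setIntegral_congr_set hsplit, setIntegral_union hdisj hAm hius hiuA]
  have e2 : ∫ z in ball (0 : ℂ) (s + 1), ‖grad v z‖ ^ 2 = (∫ z in ball (0 : ℂ) s, ‖grad φ z‖ ^ 2) +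
      ∫ z in ball (0 : ℂ) (s + 1) \ closedBall 0 s, ‖grad u z‖ ^ 2 := by
    rw [setIntegral_congr_set hsplit, setIntegral_union hdisj hAm hivs hivA]
    congr 1
    · exact setIntegral_congr_fun measurableSet_ball fun z hz => by
        show ‖grad v z‖ ^ 2 = ‖grad φ z‖ ^ 2
        rw [hgin z hz]
    · exact setIntegral_congr_fun hAm fun z hz => by
        show ‖grad v z‖ ^ 2 = ‖grad u z‖ ^ 2
        rw [hgout z hz]
  -- lengths
  obtain ⟨R1, hR1⟩ : ∃ R1 : Set ℂ, R1 = K ∩ (ball 0 (s + 1) \ ball 0 s) := ⟨_, rfl⟩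
  have hR1f : μH[1] R1 ≠ ⊤ := by
    refine ((measure_mono ?_).trans_lt (h.len_lt (s + 1))).ne
    rw [hR1]
    exact inter_subset_inter_right _ sdiff_subset
  have l1 : μH[1] (K ∩ ball 0 (s + 1)) = μH[1] (K ∩ ball 0 s) + μH[1] R1 := by
    have hu : K ∩ ball 0 (s + 1) = (K ∩ ball 0 s) ∪ R1 := by
      rw [hR1, ← inter_union_distrib_left, union_sdiff_cancel (ball_subset_ball (by linarith only []))]
    rw [hu]
    refine measure_union ?_ ?_
    · rw [Set.disjoint_left]
      intro z hz hz'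
      rw [hR1] at hz'
      exact hz'.2.2 hz.2
    · rw [hR1]
      exact h.closed.measurableSet.inter (measurableSet_ball.diff measurableSet_ball)
  have l2 : μH[1] (L ∩ ball 0 (s + 1)) ≤
      μH[1] R1 + ENNReal.ofReal (s * (a + 2 * π - b)) + ENNReal.ofReal s := by
    have hsub : L ∩ ball 0 (s + 1) ⊆ R1 ∪ Arc ∪ Rad := by
      rintro z ⟨hz1, hz2⟩
      rw [hL] at hz1
      rcases hz1 with (hz1 | hz1) | hz1
      · refine Or.inl (Or.inl ?_)
        rw [hR1]
        exact ⟨hz1.1, hz2, hz1.2⟩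
      · exact Or.inl (Or.inr hz1)
      · exact Or.inr hz1
    refine (measure_mono hsub).trans ((measure_union_le _ _).trans (add_le_add
      ((measure_union_le _ _).trans (add_le_add le_rfl ?_)) ?_))
    · rw [hArc]; exact hausdorff_arc hs.le (by linarith only [hb])
    · rw [hRad]; exact hausdorff_rayA hs.le
  have l2f : μH[1] R1 + ENNReal.ofReal (s * (a + 2 * π - b)) + ENNReal.ofReal s ≠ ⊤ :=
    ENNReal.add_ne_top.2 ⟨ENNReal.add_ne_top.2 ⟨hR1f, ENNReal.ofReal_ne_top⟩,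
      ENNReal.ofReal_ne_top⟩
  have l3 : (μH[1] (L ∩ ball 0 (s + 1))).toReal ≤
      (μH[1] R1).toReal + s * (a + 2 * π - b) + s := by
    have h1 := ENNReal.toReal_mono l2f l2
    rw [ENNReal.toReal_add (ENNReal.add_ne_top.2 ⟨hR1f, ENNReal.ofReal_ne_top⟩)
      ENNReal.ofReal_ne_top, ENNReal.toReal_add hR1f ENNReal.ofReal_ne_top,
      ENNReal.toReal_ofReal (mul_nonneg hs.le (by linarith only [hb])), ENNReal.toReal_ofReal hs.le] at h1
    exact h1
  have l4 : (μH[1] (K ∩ ball 0 (s + 1))).toReal =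
      (μH[1] (K ∩ ball 0 s)).toReal + (μH[1] R1).toReal := by
    rw [l1, ENNReal.toReal_add (h.len_lt s).ne hR1f]
  have key := h.compare_real (x := 0) (r := s + 1) hLc hvL (isCompact_closedBall 0 s)
    (closedBall_subset_ball (by linarith only [])) hsymm (fun z hz _ => hvout z (by
      rw [mem_closedBall_zero_iff, not_le] at hz; exact hz.le)) hiv
    (l2.trans_lt (lt_top_iff_ne_top.2 l2f)).ne
  rw [e1, e2, l4] at key
  unfold En Len
  linarith only [key, l3, he, hFd]

theorem GMin.cluster (h : GMin u K) :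
    ∀ᵐ s : ℝ, 0 < s → ∀ α β : ℝ, α < β → β ≤ α + 2 * π → (∀ θ ∈ Ioo α β, circleMap 0 s θ ∉ K) →
      En u s + Len K s ≤ 2 * s * TT u s + s + s * (2 * π - (β - α)) := by
  filter_upwards [polar_ae (fun R => h.integrableOn R)] with s hs hs0 α β hαβ hβ hK
  refine le_of_forall_pos_le_add fun ε hε => ?_
  obtain ⟨d, hd⟩ : ∃ d, d = min ((β - α) / 4) (ε / (2 * s)) := ⟨_, rfl⟩
  have hd0 : 0 < d := by rw [hd]; exact lt_min (by linarith) (by positivity)
  have hd1 : d ≤ (β - α) / 4 := by rw [hd]; exact min_le_left _ _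
  have hd2 : d ≤ ε / (2 * s) := by rw [hd]; exact min_le_right _ _
  have h1 := h.cluster_aux hs0 (hs hs0) (a := α + d) (b := β - d) (by linarith only [hd0, hd1]) (by linarith only [hβ, hd0])
    (fun θ hθ => hK θ ⟨by linarith only [hd0, hθ.1], by linarith only [hd0, hθ.2]⟩)
  have h2 : 2 * s * d ≤ ε := by
    rw [le_div_iff₀ (by positivity)] at hd2
    linarith only [hd2]
  linarith only [h1, h2]

end Vale.Agent.P128.GM
end

section

/-! Oscillation of a global minimizer on an arc of a circle. -/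

open MeasureTheory Set Metric Filter InnerProductSpace
open scoped ENNReal NNReal ContDiff Topology Real

namespace Vale.Agent.P128.GM

open Vale.Agent.P128

variable {u : ℂ → ℝ} {K : Set ℂ}

/-- the signed distance to a chord -/
noncomputable def oscArcG (s θ₁ θ₂ : ℝ) (z : ℂ) : ℝ :=
  (z * Complex.exp (-(((θ₁ + θ₂) / 2 : ℝ) * Complex.I))).re - s * Real.cos ((θ₂ - θ₁) / 2)

theorem oscArcG_circleMap (s θ₁ θ₂ θ : ℝ) :
    oscArcG s θ₁ θ₂ (circleMap 0 s θ) =
      -2 * s * (Real.sin ((θ - θ₁) / 2) * Real.sin ((θ - θ₂) / 2)) := by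
  have e1 : circleMap 0 s θ * Complex.exp (-(((θ₁ + θ₂) / 2 : ℝ) * Complex.I)) =
      (s : ℂ) * Complex.exp ((θ - (θ₁ + θ₂) / 2 : ℝ) * Complex.I) := by
    unfold circleMap
    rw [zero_add, mul_assoc, ← Complex.exp_add]
    congr 2
    push_cast
    ring
  unfold oscArcG
  rw [e1, Complex.re_ofReal_mul, Complex.exp_ofReal_mul_I_re]
  have e2 : θ - (θ₁ + θ₂) / 2 = (θ - θ₁) / 2 + (θ - θ₂) / 2 := by ring
  have e3 : (θ₂ - θ₁) / 2 = (θ - θ₁) / 2 - (θ - θ₂) / 2 := by ring
  rw [e2, e3, Real.cos_add, Real.cos_sub]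
  ring

theorem oscArc_circleMap_eq {s θ φ : ℝ} (h : Real.sin ((θ - φ) / 2) = 0) :
    circleMap 0 s θ = circleMap 0 s φ := by
  obtain ⟨n, hn⟩ := Real.sin_eq_zero_iff.1 h
  have : θ = φ + n * (2 * π) := by linarith
  rw [this]
  exact ((periodic_circleMap 0 s).int_mul n φ)

theorem oscArcG_continuous (s θ₁ θ₂ : ℝ) : Continuous (oscArcG s θ₁ θ₂) := by
  unfold oscArcG
  fun_prop

/-- A connected subset of a circle contains one of the two arcs between two of its points. -/
theorem oscArc_subset {I : Set ℂ} {s : ℝ} (hs : 0 < s) (hI : IsPreconnected I)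
    (hIs : I ⊆ sphere 0 s) {t₀ t₁ : ℝ} (_ : t₀ < t₁) (_ : t₁ < t₀ + 2 * π)
    (h0 : circleMap 0 s t₀ ∈ I) (h1 : circleMap 0 s t₁ ∈ I) :
    (∀ t ∈ Icc t₀ t₁, circleMap 0 s t ∈ I) ∨
      (∀ t ∈ Icc t₁ (t₀ + 2 * π), circleMap 0 s t ∈ I) := by
  by_contra hcon
  rw [not_or] at hcon
  obtain ⟨ha, hb⟩ := hcon
  push Not at ha hb
  obtain ⟨θ₁, hθ₁, hn1⟩ := ha
  obtain ⟨θ₂, hθ₂, hn2⟩ := hb
  have h3 : circleMap 0 s (t₀ + 2 * π) = circleMap 0 s t₀ := periodic_circleMap 0 s t₀
  have a1 : t₀ < θ₁ := lt_of_le_of_ne hθ₁.1 fun h => hn1 (h ▸ h0)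
  have a2 : θ₁ < t₁ := lt_of_le_of_ne hθ₁.2 fun h => hn1 (h ▸ h1)
  have b1 : t₁ < θ₂ := lt_of_le_of_ne hθ₂.1 fun h => hn2 (h ▸ h1)
  have b2 : θ₂ < t₀ + 2 * π := lt_of_le_of_ne hθ₂.2 fun h => hn2 (by rw [h, h3]; exact h0)
  have hπ := Real.pi_pos
  have g1 : 0 < oscArcG s θ₁ θ₂ (circleMap 0 s t₁) := by
    rw [oscArcG_circleMap]
    have c1 : 0 < Real.sin ((t₁ - θ₁) / 2) :=
      Real.sin_pos_of_pos_of_lt_pi (by linarith only [a2]) (by linarith only [b2, b1, a1])
    have c2 : Real.sin ((t₁ - θ₂) / 2) < 0 :=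
      Real.sin_neg_of_neg_of_neg_pi_lt (by linarith) (by linarith only [b2, a2, a1])
    have := mul_neg_of_pos_of_neg c1 c2
    linarith only [mul_pos (sub_pos.2 hs) (sub_pos.2 this)]
  have g0 : oscArcG s θ₁ θ₂ (circleMap 0 s t₀) < 0 := by
    rw [oscArcG_circleMap]
    have c1 : Real.sin ((t₀ - θ₁) / 2) < 0 :=
      Real.sin_neg_of_neg_of_neg_pi_lt (by linarith) (by linarith)
    have c2 : Real.sin ((t₀ - θ₂) / 2) < 0 :=
      Real.sin_neg_of_neg_of_neg_pi_lt (by linarith) (by linarith)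
    have := mul_pos_of_neg_of_neg c1 c2
    linarith only [mul_pos (sub_pos.2 hs) (sub_pos.2 this)]
  have hc := hI.image (oscArcG s θ₁ θ₂) (oscArcG_continuous s θ₁ θ₂).continuousOn
  have h0mem : (0 : ℝ) ∈ oscArcG s θ₁ θ₂ '' I :=
    hc.ordConnected.out (mem_image_of_mem _ h0) (mem_image_of_mem _ h1) ⟨g0.le, g1.le⟩
  obtain ⟨z, hz, hz0⟩ := h0mem
  have hzs := hIs hz
  have h4 : z ∈ circleMap 0 s '' Ioc 0 (2 * π) := by
    rw [image_circleMap_Ioc, abs_of_pos hs]
    exact hzs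
  obtain ⟨θ, -, rfl⟩ := h4
  rw [oscArcG_circleMap] at hz0
  have h5 : Real.sin ((θ - θ₁) / 2) * Real.sin ((θ - θ₂) / 2) = 0 := by
    have : (-2 * s) ≠ 0 := by linarith only [hs]
    exact (mul_eq_zero.1 hz0).resolve_left this
  rcases mul_eq_zero.1 h5 with h6 | h6
  · exact hn1 (oscArc_circleMap_eq h6 ▸ hz)
  · exact hn2 (oscArc_circleMap_eq h6 ▸ hz)

/-- oscillation on an arc of angles -/
theorem oscArc_trace {U : Set ℂ} (hU : IsOpen U) (hu : LocLip U u)
    (hd : ∀ z ∈ U, DifferentiableAt ℝ u z) {s : ℝ} (hs : 0 < s)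
    (hint : IntegrableOn (fun θ => ‖grad u (circleMap 0 s θ)‖ ^ 2) ang) {a b : ℝ} (hab : a < b)
    (hb : b ≤ a + 2 * π) (hK : ∀ θ ∈ Icc a b, circleMap 0 s θ ∈ U) :
    (u (circleMap 0 s b) - u (circleMap 0 s a)) ^ 2 ≤ 2 * π * s * TT u s := by
  have hπ := Real.pi_pos
  obtain ⟨F, M, B, hF, hB, hFu, hFd⟩ := exists_trace hU hu hd hs hint hab hb hK
  have hFabs : AbsolutelyContinuousOnInterval F a b :=
    hF.lipschitzOnWith.absolutelyContinuousOnInterval
  have hder : ∫ t in a..b, deriv F t = F b - F a := hFabs.integral_deriv_eq_sub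
  have hbd : ∀ t, ‖deriv F t‖ ≤ M := fun t => norm_deriv_le_of_lipschitz hF
  have hmeas : Measurable (deriv F) := measurable_deriv F
  have hfin : ∀ S : Set ℝ, volume S ≠ ⊤ → IntegrableOn (deriv F) S := fun S hS =>
    Measure.integrableOn_of_bounded (M := (M : ℝ)) hS hmeas.aestronglyMeasurable
      (Eventually.of_forall hbd)
  have hfin2 : ∀ S : Set ℝ, volume S ≠ ⊤ → IntegrableOn (fun t => deriv F t ^ 2) S := fun S hS =>
    Measure.integrableOn_of_bounded (M := (M : ℝ) ^ 2) hS (hmeas.pow_const 2).aestronglyMeasurable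
      (Eventually.of_forall fun t => by
        rw [norm_pow]
        exact pow_le_pow_left₀ (norm_nonneg _) (hbd t) 2)
  rw [← hFu b ⟨hab.le, le_rfl⟩, ← hFu a ⟨le_rfl, hab.le⟩, ← hder]
  rw [intervalIntegral.integral_of_le hab.le, integral_Ioc_eq_integral_Ioo]
  -- Cauchy-Schwarz
  have hvol : (volume (Ioo a b)).toReal = b - a := by
    rw [Real.volume_Ioo, ENNReal.toReal_ofReal (by linarith)]
  have hi1 := hfin (Ioo a b) (by simp)
  have hi2 := hfin2 (Ioo a b) (by simp)
  set A : ℝ := ∫ t in Ioo a b, deriv F t with hA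
  have hcs : A ^ 2 ≤ (b - a) * ∫ t in Ioo a b, deriv F t ^ 2 := by
    have h1 : 0 ≤ ∫ t in Ioo a b, (deriv F t - A / (b - a)) ^ 2 :=
      integral_nonneg fun t => sq_nonneg _
    have h2 : ∫ t in Ioo a b, (deriv F t - A / (b - a)) ^ 2 =
        ∫ t in Ioo a b, (deriv F t ^ 2 - 2 * (A / (b - a)) * deriv F t + (A / (b - a)) ^ 2) := by
      congr 1
      funext t
      ring
    have h3 : ∫ t in Ioo a b, (deriv F t ^ 2 - 2 * (A / (b - a)) * deriv F t +
        (A / (b - a)) ^ 2) = (∫ t in Ioo a b, deriv F t ^ 2) - 2 * (A / (b - a)) * A +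
          (b - a) * (A / (b - a)) ^ 2 := by
      have hsub : Integrable (fun t => deriv F t ^ 2 - 2 * (A / (b - a)) * deriv F t)
          (volume.restrict (Ioo a b)) := hi2.sub (hi1.const_mul _)
      rw [integral_add hsub (integrable_const _),
        integral_sub hi2 (hi1.const_mul _), integral_const_mul, integral_const, ← hA]
      simp only [Measure.real, Measure.restrict_apply_univ, hvol, smul_eq_mul]
    rw [h2, h3] at h1
    have hba : 0 < b - a := by linarith only [hab]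
    have h4 : (∫ t in Ioo a b, deriv F t ^ 2) - 2 * (A / (b - a)) * A +
          (b - a) * (A / (b - a)) ^ 2 = (∫ t in Ioo a b, deriv F t ^ 2) - A ^ 2 / (b - a) := by
      field_simp
      ring
    rw [h4] at h1
    have h5 : A ^ 2 / (b - a) ≤ ∫ t in Ioo a b, deriv F t ^ 2 := by linarith only [h1]
    rw [div_le_iff₀ hba] at h5
    linarith only [h5]
  have hmono : ∫ t in Ioo a b, deriv F t ^ 2 ≤ ∫ t in Ioo a (a + 2 * π), deriv F t ^ 2 :=
    setIntegral_mono_set (hfin2 _ measure_Ioo_lt_top.ne) (Eventually.of_forall fun t => sq_nonneg _)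
      (Ioo_subset_Ioo_right hb).eventuallyLE
  have h0 : 0 ≤ ∫ t in Ioo a b, deriv F t ^ 2 := integral_nonneg fun t => sq_nonneg _
  calc A ^ 2 ≤ (b - a) * ∫ t in Ioo a b, deriv F t ^ 2 := hcs
    _ ≤ (2 * π) * ∫ t in Ioo a b, deriv F t ^ 2 := mul_le_mul_of_nonneg_right (by linarith) h0
    _ ≤ (2 * π) * (s * TT u s) := mul_le_mul_of_nonneg_left (hmono.trans hFd) (by positivity)
    _ = 2 * π * s * TT u s := by ring

/-- oscillation on an arc -/
theorem GMin.osc_arc (h : GMin u K) : ∀ᵐ s : ℝ, 0 < s → ∀ I : Set ℂ, IsPreconnected I →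
    I ⊆ sphere 0 s \ K → ∀ a ∈ I, ∀ b ∈ I, (u a - u b) ^ 2 ≤ 2 * π * s * TT u s := by
  have hπ := Real.pi_pos
  filter_upwards [polar_ae (fun R => h.integrableOn R)] with s hs hs0 I hI hIs a ha b hb
  have hint := hs hs0
  have hud : ∀ z ∈ Kᶜ, DifferentiableAt ℝ u z := fun z hz =>
    ((InnerProductSpace.HarmonicOnNhd.contDiffOn h.harm).contDiffAt
      (h.isOpen_compl.mem_nhds hz)).differentiableAt (by norm_num)
  have hTT := TT_nonneg u hs0.le
  have key : ∀ t₀ t₁ : ℝ, t₀ < t₁ → t₁ < t₀ + 2 * π → circleMap 0 s t₀ ∈ I →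
      circleMap 0 s t₁ ∈ I →
      (u (circleMap 0 s t₀) - u (circleMap 0 s t₁)) ^ 2 ≤ 2 * π * s * TT u s := by
    intro t₀ t₁ h01 h12 h0 h1
    rcases oscArc_subset hs0 hI (hIs.trans sdiff_subset) h01 h12 h0 h1 with h2 | h2
    · have h3 := oscArc_trace h.isOpen_compl h.locLip hud hs0 hint h01 h12.le
        (fun θ hθ => (hIs (h2 θ hθ)).2)
      have : (u (circleMap 0 s t₀) - u (circleMap 0 s t₁)) ^ 2 =
          (u (circleMap 0 s t₁) - u (circleMap 0 s t₀)) ^ 2 := by ring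
      rw [this]
      exact h3
    · have h3 := oscArc_trace h.isOpen_compl h.locLip hud hs0 hint h12 (by linarith)
        (fun θ hθ => (hIs (h2 θ hθ)).2)
      rwa [periodic_circleMap 0 s t₀] at h3
  have hrep : ∀ z ∈ I, ∃ θ ∈ Ioc 0 (2 * π), circleMap 0 s θ = z := by
    intro z hz
    have h4 : z ∈ circleMap 0 s '' Ioc 0 (2 * π) := by
      rw [image_circleMap_Ioc, abs_of_pos hs0]
      exact (hIs hz).1
    exact h4
  obtain ⟨θa, hθa, rfl⟩ := hrep a ha
  obtain ⟨θb, hθb, rfl⟩ := hrep b hb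
  rcases lt_trichotomy θa θb with hlt | heq | hgt
  · exact key θa θb hlt (by linarith [hθa.1, hθb.2]) ha hb
  · rw [heq, sub_self, zero_pow two_ne_zero]
    exact mul_nonneg (by positivity) hTT
  · have h5 := key θb θa hgt (by linarith [hθb.1, hθa.2]) hb ha
    have : (u (circleMap 0 s θa) - u (circleMap 0 s θb)) ^ 2 =
        (u (circleMap 0 s θb) - u (circleMap 0 s θa)) ^ 2 := by ring
    rw [this]
    exact h5

end Vale.Agent.P128.GM
end

section

/-! Tools for D1 (no bounded component): circles with at most two crossings, oscillation on arcs,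
choice of a good radius, points of `K` on the boundary of a bounded component. -/

open MeasureTheory Set Metric Filter InnerProductSpace
open scoped ENNReal NNReal ContDiff Topology Real

namespace Vale.Agent.P128.GM

open Vale.Agent.P128

variable {u : ℂ → ℝ} {K U : Set ℂ}

/-! ### oscillation on arcs, general form -/

/-- oscillation on an arc, any locally Lipschitz differentiable function on an open set -/
theorem osc_arc_gen (hU : IsOpen U) (hl : LocLip U u) (hd : ∀ z ∈ U, DifferentiableAt ℝ u z)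
    (hi : ∀ R : ℝ, IntegrableOn (fun z => ‖grad u z‖ ^ 2) (ball 0 R)) :
    ∀ᵐ s : ℝ, 0 < s → ∀ I : Set ℂ, IsPreconnected I →
      I ⊆ sphere 0 s ∩ U → ∀ a ∈ I, ∀ b ∈ I, (u a - u b) ^ 2 ≤ 2 * π * s * TT u s := by
  have hπ := Real.pi_pos
  filter_upwards [polar_ae hi] with s hs hs0 I hI hIs a ha b hb
  have hint := hs hs0
  have hTT := TT_nonneg u hs0.le
  have key : ∀ t₀ t₁ : ℝ, t₀ < t₁ → t₁ < t₀ + 2 * π → circleMap 0 s t₀ ∈ I →
      circleMap 0 s t₁ ∈ I →
      (u (circleMap 0 s t₀) - u (circleMap 0 s t₁)) ^ 2 ≤ 2 * π * s * TT u s := by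
    intro t₀ t₁ h01 h12 h0 h1
    rcases oscArc_subset hs0 hI (hIs.trans inter_subset_left) h01 h12 h0 h1 with h2 | h2
    · have h3 := oscArc_trace hU hl hd hs0 hint h01 h12.le
        (fun θ hθ => (hIs (h2 θ hθ)).2)
      have : (u (circleMap 0 s t₀) - u (circleMap 0 s t₁)) ^ 2 =
          (u (circleMap 0 s t₁) - u (circleMap 0 s t₀)) ^ 2 := by ring
      rw [this]
      exact h3
    · have h3 := oscArc_trace hU hl hd hs0 hint h12 (by linarith)
        (fun θ hθ => (hIs (h2 θ hθ)).2)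
      rwa [periodic_circleMap 0 s t₀] at h3
  have hrep : ∀ z ∈ I, ∃ θ ∈ Ioc 0 (2 * π), circleMap 0 s θ = z := by
    intro z hz
    have h4 : z ∈ circleMap 0 s '' Ioc 0 (2 * π) := by
      rw [image_circleMap_Ioc, abs_of_pos hs0]
      exact (hIs hz).1
    exact h4
  obtain ⟨θa, hθa, rfl⟩ := hrep a ha
  obtain ⟨θb, hθb, rfl⟩ := hrep b hb
  rcases lt_trichotomy θa θb with hlt | heq | hgt
  · exact key θa θb hlt (by linarith [hθa.1, hθb.2]) ha hb
  · rw [heq, sub_self, zero_pow two_ne_zero]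
    exact mul_nonneg (by positivity) hTT
  · have h5 := key θb θa hgt (by linarith [hθb.1, hθa.2]) hb ha
    have : (u (circleMap 0 s θa) - u (circleMap 0 s θb)) ^ 2 =
        (u (circleMap 0 s θb) - u (circleMap 0 s θa)) ^ 2 := by ring
    rw [this]
    exact h5

/-! ### the circle minus two points -/

/-- If the circle meets `K` in at most two points and meets the component `D` of `Kᶜ`, any two points
of the circle off `K` and `D` are joined by an arc of the circle off `K`. -/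
theorem nb_arc {y : ℂ} {r : ℝ} (hr : 0 < r) (h2 : (K ∩ sphere y r).encard ≤ 2) {z₀ : ℂ}
    {d₀ : ℂ} (hd₀ : d₀ ∈ connectedComponentIn Kᶜ z₀) (hd₀s : d₀ ∈ sphere y r) {a b : ℂ}
    (ha : a ∈ sphere y r) (haK : a ∉ K) (haD : a ∉ connectedComponentIn Kᶜ z₀)
    (hb : b ∈ sphere y r) (hbK : b ∉ K) (hbD : b ∉ connectedComponentIn Kᶜ z₀) :
    ∃ I : Set ℂ, IsPreconnected I ∧ I ⊆ sphere y r ∧ Disjoint I K ∧ a ∈ I ∧ b ∈ I := by
  have hπ := Real.pi_pos
  -- parametrisation starting at `d₀`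
  have hrep : ∀ z ∈ sphere y r, ∀ θ₀ : ℝ, ∃ θ ∈ Ioc θ₀ (θ₀ + 2 * π), circleMap y r θ = z := by
    intro z hz θ₀
    have h1 : z ∈ range (circleMap y r) := by
      rw [range_circleMap, abs_of_pos hr]; exact hz
    obtain ⟨t, rfl⟩ := h1
    obtain ⟨t', ht', h3⟩ := (periodic_circleMap y r).exists_mem_Ioc (by positivity) t θ₀
    exact ⟨t', ht', h3.symm⟩
  obtain ⟨θ₀, -, hθ₀⟩ := hrep d₀ hd₀s 0
  have hper : circleMap y r (θ₀ + 2 * π) = d₀ := by rw [periodic_circleMap, hθ₀]
  have hinj : InjOn (circleMap y r) (Ioc θ₀ (θ₀ + 2 * π)) := by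
    have := injOn_circleMap_of_abs_sub_le (c := y) (R := r) (a := θ₀) (b := θ₀ + 2 * π) hr.ne'
      (by rw [show θ₀ - (θ₀ + 2 * π) = -(2 * π) by ring, abs_neg, abs_of_pos (by positivity)])
    rwa [uIoc_of_le (by linarith)] at this
  have harc : ∀ s t : ℝ, IsPreconnected (circleMap y r '' Icc s t) := fun s t =>
    isPreconnected_Icc.image _ (continuous_circleMap y r).continuousOn
  have hsph : ∀ t, circleMap y r t ∈ sphere y r := circleMap_mem_sphere y hr.le
  -- an arc from `D` to a point outside `D` contains a point of `K`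
  have hcross : ∀ s t : ℝ, s ≤ t → (circleMap y r s ∈ connectedComponentIn Kᶜ z₀ ∧
      circleMap y r t ∉ connectedComponentIn Kᶜ z₀ ∨ circleMap y r t ∈ connectedComponentIn Kᶜ z₀ ∧
      circleMap y r s ∉ connectedComponentIn Kᶜ z₀) → ∃ τ ∈ Icc s t, circleMap y r τ ∈ K := by
    intro s t hst hc
    by_contra hcon
    push Not at hcon
    have hsub : circleMap y r '' Icc s t ⊆ Kᶜ := by
      rintro z ⟨τ, hτ, rfl⟩
      exact hcon τ hτ
    have hms : circleMap y r s ∈ circleMap y r '' Icc s t := ⟨s, ⟨le_rfl, hst⟩, rfl⟩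
    have hmt : circleMap y r t ∈ circleMap y r '' Icc s t := ⟨t, ⟨hst, le_rfl⟩, rfl⟩
    rcases hc with ⟨h1, h2⟩ | ⟨h1, h2⟩
    · apply h2
      rw [connectedComponentIn_eq h1]
      exact (harc s t).subset_connectedComponentIn hms hsub hmt
    · apply h2
      rw [connectedComponentIn_eq h1]
      exact (harc s t).subset_connectedComponentIn hmt hsub hms
  have hd₀' : circleMap y r θ₀ ∈ connectedComponentIn Kᶜ z₀ := by rw [hθ₀]; exact hd₀
  have hd₀'' : circleMap y r (θ₀ + 2 * π) ∈ connectedComponentIn Kᶜ z₀ := by rw [hper]; exact hd₀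
  -- main case
  have main : ∀ α β : ℝ, α ∈ Ioc θ₀ (θ₀ + 2 * π) → β ∈ Ioc θ₀ (θ₀ + 2 * π) → α ≤ β →
      circleMap y r α ∉ K → circleMap y r α ∉ connectedComponentIn Kᶜ z₀ →
      circleMap y r β ∉ K → circleMap y r β ∉ connectedComponentIn Kᶜ z₀ →
      Disjoint (circleMap y r '' Icc α β) K := by
    intro α β hα hβ hαβ haK haD hbK hbD
    rw [Set.disjoint_left]
    rintro z ⟨τ, hτ, rfl⟩ hzK
    obtain ⟨τ₁, hτ₁, h1⟩ := hcross θ₀ α hα.1.le (Or.inl ⟨hd₀', haD⟩)
    obtain ⟨τ₃, hτ₃, h3⟩ := hcross β (θ₀ + 2 * π) hβ.2 (Or.inr ⟨hd₀'', hbD⟩)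
    have hd₀K : d₀ ∉ K := connectedComponentIn_subset _ _ hd₀
    have n1 : θ₀ < τ₁ := lt_of_le_of_ne hτ₁.1 fun h => hd₀K (by rw [← hθ₀, h]; exact h1)
    have n1' : τ₁ < τ := by
      have h4 : τ₁ ≠ α := fun h => haK (h ▸ h1)
      exact lt_of_lt_of_le (lt_of_le_of_ne hτ₁.2 h4) hτ.1
    have n3' : τ < τ₃ := by
      have h4 : τ₃ ≠ β := fun h => hbK (h ▸ h3)
      exact lt_of_le_of_lt hτ.2 (lt_of_le_of_ne hτ₃.1 (Ne.symm h4))
    have m1 : τ₁ ∈ Ioc θ₀ (θ₀ + 2 * π) := ⟨n1, by linarith [hτ₃.2]⟩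
    have m2 : τ ∈ Ioc θ₀ (θ₀ + 2 * π) := ⟨by linarith, by linarith [hτ₃.2]⟩
    have m3 : τ₃ ∈ Ioc θ₀ (θ₀ + 2 * π) := ⟨by linarith, hτ₃.2⟩
    have e12 : circleMap y r τ₁ ≠ circleMap y r τ := fun h => n1'.ne (hinj m1 m2 h)
    have e23 : circleMap y r τ ≠ circleMap y r τ₃ := fun h => n3'.ne (hinj m2 m3 h)
    have e13 : circleMap y r τ₁ ≠ circleMap y r τ₃ := fun h =>
      (n1'.trans n3').ne (hinj m1 m3 h)
    have hsub : ({circleMap y r τ₁, circleMap y r τ, circleMap y r τ₃} : Set ℂ) ⊆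
        K ∩ sphere y r := by
      intro z hz
      rcases hz with rfl | rfl | rfl
      · exact ⟨h1, hsph _⟩
      · exact ⟨hzK, hsph _⟩
      · exact ⟨h3, hsph _⟩
    have hcard := encard_le_encard hsub
    rw [encard_eq_three.2 ⟨_, _, _, e12, e13, e23, rfl⟩] at hcard
    have := hcard.trans h2
    norm_num at this
  obtain ⟨α, hα, rfl⟩ := hrep a ha θ₀
  obtain ⟨β, hβ, rfl⟩ := hrep b hb θ₀
  rcases le_total α β with h | h
  · exact ⟨circleMap y r '' Icc α β, harc _ _, by rintro z ⟨t, -, rfl⟩; exact hsph t,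
      main α β hα hβ h haK haD hbK hbD, ⟨α, ⟨le_rfl, h⟩, rfl⟩, ⟨β, ⟨h, le_rfl⟩, rfl⟩⟩
  · exact ⟨circleMap y r '' Icc β α, harc _ _, by rintro z ⟨t, -, rfl⟩; exact hsph t,
      main β α hβ hα h hbK hbD haK haD, ⟨α, ⟨h, le_rfl⟩, rfl⟩, ⟨β, ⟨le_rfl, h⟩, rfl⟩⟩

/-! ### the boundary of a bounded component -/

theorem nb_pre_frontier {S t : Set ℂ} (hS : IsPreconnected S) (ht : IsOpen t)
    (h1 : (S ∩ t).Nonempty) (h2 : (S \ t).Nonempty) : (S ∩ frontier t).Nonempty := by
  by_contra hcon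
  rw [not_nonempty_iff_eq_empty] at hcon
  have hcov : S ⊆ t ∪ (closure t)ᶜ := by
    intro z hz
    by_cases hzt : z ∈ t
    · exact Or.inl hzt
    · refine Or.inr fun hzc => ?_
      have : z ∈ S ∩ frontier t := ⟨hz, by rw [ht.frontier_eq]; exact ⟨hzc, hzt⟩⟩
      rw [hcon] at this
      exact this
  have h3 : (S ∩ (closure t)ᶜ).Nonempty := by
    obtain ⟨z, hz, hzt⟩ := h2
    exact ⟨z, hz, (hcov hz).resolve_left hzt⟩
  obtain ⟨z, -, hz1, hz2⟩ := hS t (closure t)ᶜ ht isClosed_closure.isOpen_compl hcov h1 h3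
  exact hz2 (subset_closure hz1)

theorem nb_frontier (hK : IsClosed K) (z₀ : ℂ) :
    frontier (connectedComponentIn Kᶜ z₀) ⊆ K := by
  intro p hp
  by_contra hpK
  have hU : IsOpen Kᶜ := hK.isOpen_compl
  have hopen : IsOpen (connectedComponentIn Kᶜ z₀) := hU.connectedComponentIn
  have h1 : connectedComponentIn Kᶜ p ∈ 𝓝 p :=
    hU.connectedComponentIn.mem_nhds (mem_connectedComponentIn hpK)
  obtain ⟨q, hq1, hq2⟩ := mem_closure_iff_nhds.1 (frontier_subset_closure hp) _ h1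
  have h2 : p ∈ connectedComponentIn Kᶜ z₀ := by
    rw [connectedComponentIn_eq hq2, ← connectedComponentIn_eq hq1]
    exact mem_connectedComponentIn hpK
  rw [hopen.frontier_eq] at hp
  exact hp.2 h2

/-- The boundary of a bounded component has positive length. -/
theorem nb_pos (hK : IsClosed K) {z₀ : ℂ} (hz₀ : z₀ ∉ K)
    (hb : Bornology.IsBounded (connectedComponentIn Kᶜ z₀)) :
    0 < μH[1] (K ∩ closure (connectedComponentIn Kᶜ z₀)) := by
  set D := connectedComponentIn Kᶜ z₀ with hD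
  have hopen : IsOpen D := hK.isOpen_compl.connectedComponentIn
  have hz₀D : z₀ ∈ D := mem_connectedComponentIn hz₀
  obtain ⟨ε, hε, hball⟩ := Metric.isOpen_iff.1 hopen z₀ hz₀D
  obtain ⟨R, hR⟩ := hb.subset_ball (0 : ℂ)
  have hsub : Ioo (z₀.im - ε) (z₀.im + ε) ⊆ Complex.im '' (K ∩ closure D) := by
    intro t ht
    set w : ℂ := ⟨z₀.re, t⟩ with hw
    have hwD : w ∈ D := by
      apply hball
      rw [mem_ball, Complex.dist_eq]
      have : w - z₀ = (t - z₀.im : ℝ) * Complex.I := by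
        apply Complex.ext <;> simp [hw]
      rw [this, norm_mul, Complex.norm_I, mul_one, Complex.norm_real, Real.norm_eq_abs, abs_lt]
      constructor <;> linarith [ht.1, ht.2]
    -- the horizontal half-line
    set γ : ℝ → ℂ := fun s => w + (s : ℂ) with hγ
    have hγc : Continuous γ := by fun_prop
    have hpre : IsPreconnected (γ '' Ici 0) := isPreconnected_Ici.image _ hγc.continuousOn
    have h1 : (γ '' Ici 0 ∩ D).Nonempty := ⟨w, ⟨0, self_mem_Ici, by simp [hγ]⟩, hwD⟩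
    have h2 : (γ '' Ici 0 \ D).Nonempty := by
      refine ⟨γ (|R| + ‖w‖ + 1), ⟨|R| + ‖w‖ + 1, ?_, rfl⟩, fun hmem => ?_⟩
      · simp only [mem_Ici]; (clear * -; positivity)
      · have h3 := hR hmem
        rw [mem_ball_zero_iff] at h3
        have h4 : ((|R| + ‖w‖ + 1 : ℝ) : ℂ) = γ (|R| + ‖w‖ + 1) - w := by simp [hγ]
        have h5 : |R| + ‖w‖ + 1 ≤ ‖γ (|R| + ‖w‖ + 1)‖ + ‖w‖ := by
          calc |R| + ‖w‖ + 1 = ‖((|R| + ‖w‖ + 1 : ℝ) : ℂ)‖ := by
                rw [Complex.norm_real, Real.norm_of_nonneg (by (clear * -; positivity))]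
            _ = ‖γ (|R| + ‖w‖ + 1) - w‖ := by rw [h4]
            _ ≤ _ := norm_sub_le _ _
        have h6 := le_abs_self R
        linarith
    obtain ⟨p, hp1, hp2⟩ := nb_pre_frontier hpre hopen h1 h2
    refine ⟨p, ⟨nb_frontier hK z₀ hp2, frontier_subset_closure hp2⟩, ?_⟩
    obtain ⟨s, -, rfl⟩ := hp1
    simp [hγ, hw]
  have h3 : μH[1] (Complex.im '' (K ∩ closure D)) ≤ μH[1] (K ∩ closure D) := by
    have hlip : LipschitzWith 1 Complex.im := by
      refine LipschitzWith.of_dist_le_mul fun z w => ?_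
      rw [NNReal.coe_one, one_mul, Real.dist_eq, Complex.dist_eq, ← Complex.sub_im]
      exact Complex.abs_im_le_norm _
    have := hlip.hausdorffMeasure_image_le (d := 1) (by norm_num) (K ∩ closure D)
    simpa using this
  refine lt_of_lt_of_le ?_ ((measure_mono hsub).trans h3)
  rw [hausdorffMeasure_real, Real.volume_Ioo, ENNReal.ofReal_pos]
  linarith only [hε]

/-- Small circles about a boundary point of `D` meet `D`. -/
theorem nb_meets (hK : IsClosed K) {z₀ : ℂ} (hz₀ : z₀ ∉ K) {y : ℂ} (hy : y ∈ K)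
    (hyD : y ∈ closure (connectedComponentIn Kᶜ z₀)) :
    ∃ δ : ℝ, 0 < δ ∧ ∀ r : ℝ, 0 < r → r < δ →
      (connectedComponentIn Kᶜ z₀ ∩ sphere y r).Nonempty := by
  have hz₀D : z₀ ∈ connectedComponentIn Kᶜ z₀ := mem_connectedComponentIn hz₀
  have hne : z₀ ≠ y := fun h => hz₀ (h ▸ hy)
  refine ⟨dist z₀ y, dist_pos.2 hne, fun r hr hrd => ?_⟩
  have hpre : IsPreconnected (connectedComponentIn Kᶜ z₀) := isPreconnected_connectedComponentIn
  obtain ⟨q, hq1, hq2⟩ := Metric.mem_closure_iff.1 hyD r hr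
  have h1 : (connectedComponentIn Kᶜ z₀ ∩ ball y r).Nonempty :=
    ⟨q, hq1, by rw [mem_ball, dist_comm]; exact hq2⟩
  have h2 : (connectedComponentIn Kᶜ z₀ \ ball y r).Nonempty :=
    ⟨z₀, hz₀D, by rw [mem_ball, not_lt]; exact hrd.le⟩
  obtain ⟨p, hp1, hp2⟩ := nb_pre_frontier hpre isOpen_ball h1 h2
  rw [frontier_ball y hr.ne'] at hp2
  exact ⟨p, hp1, hp2⟩

end Vale.Agent.P128.GM
end

section

/-! from global minimizers to networks -/

open MeasureTheory Set Metric Filter
open scoped ENNReal NNReal Topology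

namespace Vale.Agent.P128.GM

open Vale.Agent.P128 InnerProductSpace

open scoped ContDiff

variable {K : Set ℂ}

/-- with zero gradient, the minimizer has a locally constant representative -/
theorem netBridge_const {u : ℂ → ℝ} {G : ℂ → ℂ} (h : IsGlobalMin u G K)
    (hG : ∀ᵐ z, z ∉ K → G z = 0) :
    ∃ g : ℂ → ℝ, (∀ᵐ z, z ∈ Kᶜ → u z = g z) ∧
      ∀ z ∈ Kᶜ, ∀ z' ∈ connectedComponentIn Kᶜ z, g z' = g z := by
  have hU : IsOpen Kᶜ := h.closed.isOpen_compl
  have hharm : ∀ φ : ℂ → ℝ, ContDiff ℝ ∞ φ → HasCompactSupport φ → tsupport φ ⊆ Kᶜ →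
      ∫ z, u z * lap φ z = 0 := by
    intro φ hφ hφc hs
    have c : ∀ v : ℂ, ContDiff ℝ ∞ fun z => fderiv ℝ φ z v := contDiff_fderiv_apply hφ
    have s : ∀ v : ℂ, HasCompactSupport fun z => fderiv ℝ φ z v :=
      hasCompactSupport_fderiv_apply hφc
    have ts : ∀ v : ℂ, tsupport (fun z => fderiv ℝ φ z v) ⊆ Kᶜ := fun v => (clTsupp v).trans hs
    have e : ∀ v : ℂ, ∫ z, u z * fderiv ℝ (fun w => fderiv ℝ φ w v) z v = 0 := by
      intro v
      rw [h.sobolev.weak.test (c v) (s v) (ts v) v, neg_eq_zero]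
      refine integral_eq_zero_of_ae ?_
      filter_upwards [hG] with z hz
      by_cases hzK : z ∈ K
      · have h0 : fderiv ℝ φ z v = 0 := by
          by_contra hne
          exact ts v (subset_tsupport _ hne) hzK
        show inner ℝ (G z) v * fderiv ℝ φ z v = 0
        rw [h0, mul_zero]
      · show inner ℝ (G z) v * fderiv ℝ φ z v = 0
        rw [hz hzK, inner_zero_left, zero_mul]
    have i : ∀ v : ℂ, Integrable fun z => u z * fderiv ℝ (fun w => fderiv ℝ φ w v) z v :=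
      fun v => clInt h.sobolev.memLp (contDiff_fderiv_apply (c v) v).continuous
        (hasCompactSupport_fderiv_apply (s v) v) ((clTsupp v).trans (ts v))
    have h3 : ∫ z, u z * lap φ z =
        (∫ z, u z * fderiv ℝ (fun w => fderiv ℝ φ w 1) z 1) +
          ∫ z, u z * fderiv ℝ (fun w => fderiv ℝ φ w Complex.I) z Complex.I := by
      rw [← integral_add (i 1) (i Complex.I)]
      refine integral_congr_ae (Eventually.of_forall fun z => ?_)
      simp only [lap]
      ring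
    rw [h3, e 1, e Complex.I, add_zero]
  obtain ⟨g, hg, hae⟩ := clWeyl hU (clLI hU h.sobolev.memLp) hharm
  rw [ae_restrict_iff' hU.measurableSet] at hae
  refine ⟨g, hae, ?_⟩
  have hsm : ContDiffOn ℝ 1 g Kᶜ := (HarmonicOnNhd.smooth hg).of_le (by simp)
  have hW : W12loc Kᶜ g (grad g) := (LocLip.of_contDiffOn hU hsm).w12loc hU
  have hGg : ∀ᵐ z, z ∈ Kᶜ → G z = grad g z := clUniq hU h.sobolev hW hae
  have hcont : ContinuousOn (fderiv ℝ g) Kᶜ := hsm.continuousOn_fderiv_of_isOpen hU le_rfl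
  have hzero : ∀ z ∈ Kᶜ, fderiv ℝ g z = 0 := by
    intro z hz
    ext v
    have h1 : EqOn (fun z => fderiv ℝ g z v) (fun _ => (0 : ℝ)) Kᶜ := by
      refine Measure.eqOn_open_of_ae_eq (μ := (volume : Measure ℂ)) ?_ hU
        (hcont.clm_apply continuousOn_const) continuousOn_const
      rw [EventuallyEq, ae_restrict_iff' hU.measurableSet]
      filter_upwards [hGg, hG] with y h1 h2 hy
      rw [← inner_grad, ← h1 hy, h2 hy, inner_zero_left]
    exact h1 hz
  intro z hz z' hz'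
  refine (IsOpen.is_const_of_fderiv_eq_zero (𝕜 := ℝ) (hU.connectedComponentIn (x := z))
    isPreconnected_connectedComponentIn ?_ ?_ hz' (mem_connectedComponentIn hz))
  · exact (hsm.differentiableOn (by simp)).mono (connectedComponentIn_subset _ _)
  · intro y hy
    exact hzero y (connectedComponentIn_subset _ _ hy)

theorem IsGlobalMin.netMin {u : ℂ → ℝ} {G : ℂ → ℂ} (h : IsGlobalMin u G K)
    (hred : IsReduced univ K) (hG : ∀ᵐ z, z ∉ K → G z = 0) : NetMin K := by
  classical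
  obtain ⟨g, hug, hgc⟩ := netBridge_const h hG
  refine ⟨h.closed, fun x s => lt_top_iff_ne_top.2 (h.len_fin x s),
    fun x hx r hr => hred x hx r hr (subset_univ _), ?_⟩
  intro x s L hLc hout hfin hsep
  have hLo : IsOpen Lᶜ := hLc.isOpen_compl
  -- outside the disk, `K` and `L` coincide
  have hiff : ∀ z, z ∉ ball x s → (z ∈ L ↔ z ∈ K) := by
    intro z hz
    have h1 : z ∈ L \ ball x s ↔ z ∈ K \ ball x s := by rw [hout]
    constructor
    · intro h2
      exact (h1.1 ⟨h2, hz⟩).1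
    · intro h2
      exact (h1.2 ⟨h2, hz⟩).1
  -- the competitor
  let F : Set ℂ → ℝ := fun S => if hz : ∃ z', z' ∈ S ∧ z' ∉ ball x s then g hz.choose else 0
  set w : ℂ → ℝ := fun z => F (connectedComponentIn Lᶜ z) with hw
  have hwc : ∀ z z', z' ∈ connectedComponentIn Lᶜ z → w z' = w z := by
    intro z z' hz'
    have h1 : connectedComponentIn Lᶜ z = connectedComponentIn Lᶜ z' :=
      connectedComponentIn_eq hz'
    show F (connectedComponentIn Lᶜ z') = F (connectedComponentIn Lᶜ z)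
    rw [h1]
  have hwg : ∀ z, z ∉ L → z ∉ ball x s → w z = g z := by
    intro z hzL hzb
    have hex : ∃ z', z' ∈ connectedComponentIn Lᶜ z ∧ z' ∉ ball x s :=
      ⟨z, mem_connectedComponentIn hzL, hzb⟩
    show F (connectedComponentIn Lᶜ z) = g z
    simp only [F]
    rw [dif_pos hex]
    obtain ⟨h1, h2⟩ := hex.choose_spec
    exact hgc z (fun hzK => hzL ((hiff z hzb).2 hzK)) _ (hsep z _ hzL hzb h2 h1)
  have hwloc : ∀ z ∈ Lᶜ, ∃ r > 0, ball z r ⊆ Lᶜ ∧ ∀ y ∈ ball z r, w y = w z := by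
    intro z hz
    obtain ⟨r, hr, hrL⟩ := Metric.isOpen_iff.1 hLo z hz
    refine ⟨r, hr, hrL, fun y hy => hwc z y ?_⟩
    exact (convex_ball z r).isPreconnected.subset_connectedComponentIn (mem_ball_self hr) hrL hy
  have hLip : LocLip Lᶜ w := by
    intro z hz
    obtain ⟨r, hr, hrL, hc⟩ := hwloc z hz
    refine ⟨0, r, hr, hrL, LipschitzOnWith.of_dist_le_mul fun a ha b hb => ?_⟩
    rw [hc a ha, hc b hb, dist_self]
    simp
  have hgrad : ∀ z ∈ Lᶜ, grad w z = 0 := by
    intro z hz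
    obtain ⟨r, hr, hrL, hc⟩ := hwloc z hz
    have h1 : w =ᶠ[𝓝 z] fun _ => w z := by
      filter_upwards [ball_mem_nhds z hr] with y hy using hc y hy
    rw [grad_congr h1, grad_const]
  have key := h.minimal x (s + 1) w (grad w) L hLc (hLip.w12loc hLo)
    ⟨closedBall x s, isCompact_closedBall x s, closedBall_subset_ball (by linarith), ?_, ?_⟩ ?_
  · have hlen : μH[1] (K ∩ ball x (s + 1)) ≤ μH[1] (L ∩ ball x (s + 1)) := by
      have h0 : ∫⁻ z in ball x (s + 1) \ L, ENNReal.ofReal (‖grad w z‖ ^ 2) = 0 := by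
        have : ∫⁻ z in ball x (s + 1) \ L, ENNReal.ofReal (‖grad w z‖ ^ 2) =
            ∫⁻ _ in ball x (s + 1) \ L, (0 : ℝ≥0∞) := by
          refine setLIntegral_congr_fun (measurableSet_ball.diff hLc.measurableSet) fun z hz => ?_
          rw [hgrad z hz.2]
          simp
        rw [this, lintegral_zero]
      unfold genergy at key
      rw [h0, zero_add] at key
      exact le_trans le_add_self key
    have hsub : ball x s ⊆ ball x (s + 1) := ball_subset_ball (by linarith)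
    have eK := measure_inter_add_sdiff (μ := (μH[1] : Measure ℂ)) (K ∩ ball x (s + 1))
      (measurableSet_ball (x := x) (ε := s))
    have eL := measure_inter_add_sdiff (μ := (μH[1] : Measure ℂ)) (L ∩ ball x (s + 1))
      (measurableSet_ball (x := x) (ε := s))
    have e1 : K ∩ ball x (s + 1) ∩ ball x s = K ∩ ball x s := by
      rw [inter_assoc, inter_eq_right.2 hsub]
    have e2 : L ∩ ball x (s + 1) ∩ ball x s = L ∩ ball x s := by
      rw [inter_assoc, inter_eq_right.2 hsub]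
    have e3 : (L ∩ ball x (s + 1)) \ ball x s = (K ∩ ball x (s + 1)) \ ball x s := by
      ext z
      constructor
      · rintro ⟨⟨h1, h2⟩, h3⟩
        exact ⟨⟨(hiff z h3).1 h1, h2⟩, h3⟩
      · rintro ⟨⟨h1, h2⟩, h3⟩
        exact ⟨⟨(hiff z h3).2 h1, h2⟩, h3⟩
    rw [e1] at eK
    rw [e2, e3] at eL
    rw [← eK, ← eL] at hlen
    have hne : μH[1] ((K ∩ ball x (s + 1)) \ ball x s) ≠ ⊤ :=
      ne_top_of_le_ne_top (h.len_fin x (s + 1)) (measure_mono sdiff_subset)
    exact (ENNReal.add_le_add_iff_right hne).1 hlen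
  · intro z hz
    by_contra hzb
    have hzb' : z ∉ ball x s := fun h1 => hzb (ball_subset_closedBall h1)
    rcases hz with ⟨h1, h2⟩ | ⟨h1, h2⟩
    · exact h2 ((hiff z hzb').1 h1)
    · exact h2 ((hiff z hzb').2 h1)
  · filter_upwards [hug, h.ae_compl] with z h1 h2 hz
    have hzb' : z ∉ ball x s := fun h1 => hz (ball_subset_closedBall h1)
    rw [h1 h2, hwg z (fun h3 => h2 ((hiff z hzb').1 h3)) hzb']
  · intro p q hp hq hpq hL
    rw [mem_union, not_or] at hp hq
    have hsub : ball x s ⊆ ball x (s + 1) := ball_subset_ball (by linarith)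
    have hp' : p ∉ ball x s := fun h1 => hp.1 (hsub h1)
    have hq' : q ∉ ball x s := fun h1 => hq.1 (hsub h1)
    exact hpq (hsep p q (fun h1 => hp.2 ((hiff p hp').1 h1)) hp' hq' hL)

end Vale.Agent.P128.GM
end

section

/-! The logarithmic potential of a bounded function with bounded support is `C¹`. -/

open MeasureTheory Set Metric Filter
open scoped ENNReal NNReal ContDiff Topology Real

namespace Vale.Agent.P128.Q

open Vale.Agent.P128
open Vale.Agent.P128.GM (Nk lap measurable_Nk locInt_Nk locInt_rpow weak_Nk fund)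

/-- the gradient of the logarithmic kernel -/
noncomputable def pot1K (y : ℂ) : ℂ := ((2 * π)⁻¹ * (‖y‖ ^ 2)⁻¹ : ℝ) • y

/-- the auxiliary kernel `‖y‖ ^ (-3/2)` -/
noncomputable def pot1g (y : ℂ) : ℝ := (√‖y‖)⁻¹ ^ 3

lemma pot1_pi : (2 * π)⁻¹ ≤ 1 := by
  rw [inv_le_one₀ (by positivity)]
  linarith only [Real.pi_gt_three]

lemma pot1_norm_K (y : ℂ) : ‖pot1K y‖ = (2 * π)⁻¹ * ‖y‖⁻¹ := by
  unfold pot1K
  rw [norm_smul, Real.norm_of_nonneg (by positivity)]
  rcases eq_or_ne y 0 with rfl | hy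
  · simp
  · have : ‖y‖ ≠ 0 := norm_ne_zero_iff.2 hy
    field_simp

lemma pot1_measurable_K : Measurable pot1K := by
  unfold pot1K
  fun_prop

lemma pot1_measurable_g : Measurable pot1g := by
  unfold pot1g
  fun_prop

lemma pot1_g_nonneg (y : ℂ) : 0 ≤ pot1g y := by unfold pot1g; positivity

lemma pot1_K_sub {a b : ℂ} (ha : a ≠ 0) (hb : b ≠ 0) :
    ‖pot1K a - pot1K b‖ ≤ √‖a - b‖ * (pot1g a + pot1g b) := by
  have hA : 0 < ‖a‖ := norm_pos_iff.2 ha
  have hB : 0 < ‖b‖ := norm_pos_iff.2 hb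
  have h1 := dist_div_norm_sq_smul (F := ℂ) ha hb 1
  have e1 : pot1K a - pot1K b = (2 * π)⁻¹ • ((1 / ‖a‖) ^ 2 • a - (1 / ‖b‖) ^ 2 • b) := by
    unfold pot1K
    rw [smul_sub, smul_smul, smul_smul, one_div_pow, one_div_pow, one_div, one_div]
  rw [e1, norm_smul, Real.norm_of_nonneg (by positivity), ← dist_eq_norm, h1, dist_eq_norm]
  unfold pot1g
  obtain ⟨A, hAd⟩ : ∃ A, A = √‖a‖ := ⟨_, rfl⟩
  obtain ⟨B, hBd⟩ : ∃ B, B = √‖b‖ := ⟨_, rfl⟩
  obtain ⟨D, hDd⟩ : ∃ D, D = √‖a - b‖ := ⟨_, rfl⟩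
  have hA2 : ‖a‖ = A ^ 2 := by rw [hAd, Real.sq_sqrt hA.le]
  have hB2 : ‖b‖ = B ^ 2 := by rw [hBd, Real.sq_sqrt hB.le]
  have hD2 : ‖a - b‖ = D ^ 2 := by rw [hDd, Real.sq_sqrt (norm_nonneg _)]
  have hA0 : 0 < A := by rw [hAd]; exact Real.sqrt_pos.2 hA
  have hB0 : 0 < B := by rw [hBd]; exact Real.sqrt_pos.2 hB
  have hD0 : 0 ≤ D := by rw [hDd]; exact Real.sqrt_nonneg _
  have htri : D ^ 2 ≤ A ^ 2 + B ^ 2 := by
    rw [← hA2, ← hB2, ← hD2]
    exact norm_sub_le a b
  have hDAB : D ≤ A + B := by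
    by_contra hcon
    push Not at hcon
    linarith only [mul_pos (sub_pos.2 hcon) (sub_pos.2 hcon), mul_pos (sub_pos.2 hB0) (sub_pos.2 hcon), mul_pos (sub_pos.2 hA0) (sub_pos.2 hcon), mul_pos (sub_pos.2 hA0) (sub_pos.2 hB0), htri]
  rw [← hAd, ← hBd, ← hDd, hD2, hA2, hB2]
  have hp : 0 < A⁻¹ := inv_pos.2 hA0
  have hq : 0 < B⁻¹ := inv_pos.2 hB0
  have e2 : 1 ^ 2 / (A ^ 2 * B ^ 2) * D ^ 2 = D * (D * (A⁻¹ ^ 2 * B⁻¹ ^ 2)) := by
    field_simp
  have h3 : D * (A⁻¹ ^ 2 * B⁻¹ ^ 2) ≤ (A + B) * (A⁻¹ ^ 2 * B⁻¹ ^ 2) :=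
    mul_le_mul_of_nonneg_right hDAB (by positivity)
  have e3 : (A + B) * (A⁻¹ ^ 2 * B⁻¹ ^ 2) = A⁻¹ * B⁻¹ * (A⁻¹ + B⁻¹) := by
    field_simp
    ring
  have h4 : A⁻¹ * B⁻¹ * (A⁻¹ + B⁻¹) ≤ A⁻¹ ^ 3 + B⁻¹ ^ 3 := by
    linarith only [mul_nonneg (add_nonneg hp.le hq.le) (sq_nonneg (A⁻¹ - B⁻¹))]
  have h5 : 0 ≤ 1 ^ 2 / (A ^ 2 * B ^ 2) * D ^ 2 := by (clear * - hA0 hB0; positivity)
  calc (2 * π)⁻¹ * (1 ^ 2 / (A ^ 2 * B ^ 2) * D ^ 2)
      ≤ 1 * (1 ^ 2 / (A ^ 2 * B ^ 2) * D ^ 2) := mul_le_mul_of_nonneg_right pot1_pi h5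
    _ = D * (D * (A⁻¹ ^ 2 * B⁻¹ ^ 2)) := by rw [one_mul, e2]
    _ ≤ D * (A⁻¹ ^ 3 + B⁻¹ ^ 3) :=
        mul_le_mul_of_nonneg_left (h3.trans (e3.le.trans h4)) hD0

/-- the real inequality behind the Taylor estimate of the kernel; `A, B, H` are the square roots
of `‖a‖, ‖a + h‖, ‖h‖` and `s` is the inner product -/
lemma pot1_real {A B H s : ℝ} (hA : 0 < A) (hB : 0 < B) (hH : 0 ≤ H) (hs : |s| ≤ A ^ 2 * H ^ 2)
    (hab : B ^ 4 = A ^ 4 + 2 * s + H ^ 4) (htri : B ^ 2 ≤ A ^ 2 + H ^ 2) :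
    |Real.log (B ^ 2) - Real.log (A ^ 2) - s / A ^ 4| ≤ 13 * H ^ 3 * (A⁻¹ ^ 3 + B⁻¹ ^ 3) := by
  obtain ⟨t, ht⟩ : ∃ t, t = H / A := ⟨_, rfl⟩
  have ht0 : 0 ≤ t := by rw [ht]; positivity
  have hHt : H = t * A := by rw [ht]; field_simp
  have hsA : |s / A ^ 4| ≤ t ^ 2 := by
    rw [abs_div, abs_of_pos (by positivity : (0 : ℝ) < A ^ 4), div_le_iff₀ (by positivity)]
    calc |s| ≤ A ^ 2 * H ^ 2 := hs
      _ = t ^ 2 * A ^ 4 := by rw [hHt]; ring
  have hR1 : 13 * t ^ 3 ≤ 13 * H ^ 3 * (A⁻¹ ^ 3 + B⁻¹ ^ 3) := by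
    have e1 : 13 * H ^ 3 * A⁻¹ ^ 3 = 13 * t ^ 3 := by
      rw [hHt]; field_simp
    have h1 : 0 ≤ 13 * H ^ 3 * B⁻¹ ^ 3 := by (clear * - hH hB; positivity)
    rw [mul_add, e1]
    linarith only [h1]
  by_cases hc : t ^ 2 ≤ 1 / 2
  · -- small increments
    have ht1 : t ≤ 1 := by (by_contra nlg; linarith only [nlg, mul_eq_zero_of_left (sub_eq_zero.2 hHt) (t - (0)), mul_nonneg (sub_nonneg.2 hH) (sub_nonneg.2 ht0), mul_nonneg (le_of_lt (sub_pos.2 hA)) (sub_nonneg.2 hc), mul_eq_zero_of_left (sub_eq_zero.2 hHt) (t - (1)), mul_nonneg (le_of_lt (sub_pos.2 (not_le.1 nlg))) (sub_nonneg.2 hH), mul_pos (sub_pos.2 (not_le.1 nlg)) (sub_pos.2 hA)])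
    obtain ⟨u, hu⟩ : ∃ u, u = 2 * (s / A ^ 4) + t ^ 4 := ⟨_, rfl⟩
    have hBu : B ^ 4 = A ^ 4 * (1 + u) := by
      rw [hab, hu, hHt]; field_simp; ring
    obtain ⟨hs1, hs2⟩ := abs_le.1 hsA
    have ht4 : t ^ 4 ≤ t ^ 2 / 2 := by linarith only [mul_nonneg (sub_nonneg.2 hc) (sq_nonneg t)]
    have ht40 : 0 ≤ t ^ 4 := by positivity
    have hu1 : -(3 / 4) ≤ u := by
      have : t ^ 4 = (t ^ 2) ^ 2 := by ring
      rw [hu, this]
      linarith only [sq_nonneg (t ^ 2 - 1 / 2), ht4, hs1]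
    have hu2 : |u| ≤ 5 / 2 * t ^ 2 := by
      rw [abs_le, hu]
      constructor <;> linarith
    have h1u : 0 < 1 + u := by linarith only [hu1]
    have hlog : Real.log (B ^ 2) - Real.log (A ^ 2) = 1 / 2 * Real.log (1 + u) := by
      have h2 : Real.log (B ^ 4) = Real.log (A ^ 4) + Real.log (1 + u) := by
        rw [hBu, Real.log_mul (by positivity) h1u.ne']
      have h3 : Real.log (B ^ 4) = 2 * Real.log (B ^ 2) := by
        rw [show B ^ 4 = (B ^ 2) ^ 2 by ring, Real.log_pow]; norm_num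
      have h4 : Real.log (A ^ 4) = 2 * Real.log (A ^ 2) := by
        rw [show A ^ 4 = (A ^ 2) ^ 2 by ring, Real.log_pow]; norm_num
      rw [h3, h4] at h2
      linarith
    have hl1 : Real.log (1 + u) ≤ u := by
      have := Real.log_le_sub_one_of_pos h1u
      linarith only [this]
    have hl2 : u - 4 * u ^ 2 ≤ Real.log (1 + u) := by
      have h2 := Real.one_sub_inv_le_log_of_pos h1u
      have h3 : u - 4 * u ^ 2 ≤ 1 - (1 + u)⁻¹ := by
        have h4 : (1 + u)⁻¹ ≤ 1 - u + 4 * u ^ 2 := by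
          rw [inv_le_iff_one_le_mul₀ h1u]
          (by_contra nlg; linarith only [nlg, mul_nonneg (sub_nonneg.2 hu1) (sq_nonneg u), mul_pos (sub_pos.2 (not_le.1 nlg)) (sub_pos.2 h1u), mul_nonneg (le_of_lt (sub_pos.2 (not_le.1 nlg))) (sub_nonneg.2 ht4), mul_nonneg (le_of_lt (sub_pos.2 (not_le.1 nlg))) (sub_nonneg.2 hs2), mul_eq_zero_of_left (sub_eq_zero.2 hu) (1 - ((1 - u + 4 * u ^ 2) * (1 + u))), mul_nonneg (le_of_lt (sub_pos.2 (not_le.1 nlg))) (sub_nonneg.2 hc)])
        linarith only [h4]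
      linarith only [h3, h2]
    have hu3 : u ^ 2 ≤ (5 / 2 * t ^ 2) ^ 2 := by
      rw [← sq_abs]
      exact pow_le_pow_left₀ (abs_nonneg _) hu2 2
    rw [hlog]
    have e2 : 1 / 2 * Real.log (1 + u) - s / A ^ 4 = 1 / 2 * (Real.log (1 + u) - u) + t ^ 4 / 2 := by
      rw [hu]; ring
    rw [e2]
    have ht43 : t ^ 4 ≤ t ^ 3 := by
      have : t ^ 4 = t ^ 3 * t := by ring
      rw [this]
      exact mul_le_of_le_one_right (by positivity) ht1
    have e3 : (5 / 2 * t ^ 2) ^ 2 = 25 / 4 * t ^ 4 := by ring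
    rw [e3] at hu3
    refine le_trans ?_ hR1
    have ht30 : 0 ≤ t ^ 3 := by (clear * - ht0; positivity)
    rw [abs_le]
    constructor
    · linarith only [hl2, hu3, ht43, ht30, ht40]
    · linarith only [hl1, ht43, ht30, ht40]
  · -- large increments
    push Not at hc
    have ht2 : 1 / 2 ≤ t := by (by_contra nlg; linarith only [nlg, mul_pos (sub_pos.2 hA) (sub_pos.2 hc), mul_nonneg (le_of_lt (sub_pos.2 hA)) (sub_nonneg.2 ht0), mul_eq_zero_of_left (sub_eq_zero.2 hHt) (1 / 2 - (t)), mul_nonneg (le_of_lt (sub_pos.2 (not_le.1 nlg))) (sub_nonneg.2 hH), mul_pos (sub_pos.2 (not_le.1 nlg)) (sub_pos.2 hA)])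
    have h23 : t ^ 2 ≤ 2 * t ^ 3 := by (by_contra nlg; linarith only [nlg, mul_pos (sub_pos.2 hc) (sub_pos.2 hc), mul_nonneg (le_of_lt (sub_pos.2 (not_le.1 nlg))) (sub_nonneg.2 ht0), mul_nonneg (mul_self_nonneg (1 : ℝ)) (le_of_lt (sub_pos.2 hc)), mul_nonneg (mul_self_nonneg (1 : ℝ)) (le_of_lt (sub_pos.2 (not_le.1 nlg)))])
    have hup : Real.log (B ^ 2) - Real.log (A ^ 2) ≤ t ^ 2 := by
      rw [← Real.log_div (by positivity) (by positivity)]
      have h1 := Real.log_le_sub_one_of_pos (x := B ^ 2 / A ^ 2) (by positivity)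
      have h2 : B ^ 2 / A ^ 2 ≤ 1 + t ^ 2 := by
        rw [div_le_iff₀ (by positivity)]
        calc B ^ 2 ≤ A ^ 2 + H ^ 2 := htri
          _ = (1 + t ^ 2) * A ^ 2 := by rw [hHt]; ring
      linarith only [h2, h1]
    have hlo : -(8 * H ^ 3 * B⁻¹ ^ 3) ≤ Real.log (B ^ 2) - Real.log (A ^ 2) := by
      have h1 : Real.log (A ^ 2) - Real.log (B ^ 2) = 2 * Real.log (A / B) := by
        rw [← Real.log_div (by positivity) (by positivity), ← div_pow, Real.log_pow]
        norm_num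
      have h2 := Real.log_le_sub_one_of_pos (x := A / B) (by positivity)
      have h3 : A / B - 1 ≤ (A / B) ^ 3 := by
        have h4 : 0 < A / B := by positivity
        rcases le_total (A / B) 1 with h | h
        · have : 0 < (A / B) ^ 3 := by positivity
          linarith only [this, h]
        · have h5 : A / B ≤ (A / B) ^ 3 := le_self_pow₀ h (by norm_num)
          linarith only [h5]
      have h6 : (A / B) ^ 3 ≤ 4 * H ^ 3 * B⁻¹ ^ 3 := by
        have h7 : A ^ 3 ≤ 4 * H ^ 3 := by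
          rw [hHt]
          have h8 : 1 ≤ 4 * t ^ 3 := by
            have h9 : 1 / 2 ≤ t ^ 2 := hc.le
            have h10 : 7 / 10 ≤ t := by (by_contra nlg; linarith only [nlg, mul_eq_zero_of_left (sub_eq_zero.2 hHt) (t - (1 / 2)), mul_eq_zero_of_left (sub_eq_zero.2 hHt) (t - (0)), mul_nonneg (le_of_lt (sub_pos.2 hA)) (sub_nonneg.2 ht2), mul_pos (sub_pos.2 hA) (sub_pos.2 hc), mul_nonneg (le_of_lt (sub_pos.2 (not_le.1 nlg))) (sub_nonneg.2 hH), mul_pos (sub_pos.2 (not_le.1 nlg)) (sub_pos.2 hA)])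
            linarith only [h23, hc]
          have h11 := mul_le_mul_of_nonneg_right h8 (by positivity : (0 : ℝ) ≤ A ^ 3)
          calc A ^ 3 = 1 * A ^ 3 := (one_mul _).symm
            _ ≤ 4 * t ^ 3 * A ^ 3 := h11
            _ = 4 * (t * A) ^ 3 := by ring
        rw [div_eq_mul_inv, mul_pow]
        exact mul_le_mul_of_nonneg_right h7 (by positivity)
      linarith only [h6, h3, h2, h1]
    obtain ⟨hs1, hs2⟩ := abs_le.1 hsA
    have hB3 : 0 ≤ H ^ 3 * B⁻¹ ^ 3 := by positivity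
    have e4 : 13 * H ^ 3 * (A⁻¹ ^ 3 + B⁻¹ ^ 3) = 13 * t ^ 3 + 13 * (H ^ 3 * B⁻¹ ^ 3) := by
      rw [hHt]; field_simp
    rw [e4]
    have ht3 : 0 ≤ t ^ 3 := by positivity
    have e5 : 8 * H ^ 3 * B⁻¹ ^ 3 = 8 * (H ^ 3 * B⁻¹ ^ 3) := by ring
    rw [e5] at hlo
    rw [abs_le]
    constructor
    · linarith only [hB3, ht3, h23, hs2, hlo]
    · linarith only [hup, hs1, h23, ht3, hB3]

lemma pot1_Nk_sub {a h : ℂ} (ha : a ≠ 0) (hah : a + h ≠ 0) :
    |Nk (a + h) - Nk a - inner ℝ (pot1K a) h| ≤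
      13 * (√‖h‖) ^ 3 * (pot1g a + pot1g (a + h)) := by
  have hA : 0 < ‖a‖ := norm_pos_iff.2 ha
  have hB : 0 < ‖a + h‖ := norm_pos_iff.2 hah
  have hA2 : (√‖a‖) ^ 2 = ‖a‖ := Real.sq_sqrt hA.le
  have hB2 : (√‖a + h‖) ^ 2 = ‖a + h‖ := Real.sq_sqrt hB.le
  have hH2 : (√‖h‖) ^ 2 = ‖h‖ := Real.sq_sqrt (norm_nonneg h)
  have h4 : ∀ x : ℝ, x ^ 4 = (x ^ 2) ^ 2 := fun x => by ring
  have key := pot1_real (A := √‖a‖) (B := √‖a + h‖) (H := √‖h‖) (s := inner ℝ a h)
    (Real.sqrt_pos.2 hA) (Real.sqrt_pos.2 hB) (Real.sqrt_nonneg _)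
    (by rw [hA2, hH2]; exact abs_real_inner_le_norm a h)
    (by rw [h4, h4 (√‖a‖), h4 (√‖h‖), hA2, hB2, hH2]; exact norm_add_sq_real a h)
    (by rw [hA2, hB2, hH2]; exact norm_add_le a h)
  rw [hA2, hB2, h4 (√‖a‖), hA2] at key
  have e1 : Nk (a + h) - Nk a - inner ℝ (pot1K a) h =
      (2 * π)⁻¹ * (Real.log ‖a + h‖ - Real.log ‖a‖ - inner ℝ a h / ‖a‖ ^ 2) := by
    unfold Nk pot1K
    rw [real_inner_smul_left]
    ring
  rw [e1, abs_mul, abs_of_nonneg (by positivity : (0 : ℝ) ≤ (2 * π)⁻¹)]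
  unfold pot1g
  calc (2 * π)⁻¹ * |Real.log ‖a + h‖ - Real.log ‖a‖ - inner ℝ a h / ‖a‖ ^ 2|
      ≤ 1 * |Real.log ‖a + h‖ - Real.log ‖a‖ - inner ℝ a h / ‖a‖ ^ 2| :=
        mul_le_mul_of_nonneg_right pot1_pi (abs_nonneg _)
    _ ≤ _ := by rw [one_mul]; exact key

/-! ### Integrability -/

lemma pot1_locInt_g : LocallyIntegrable pot1g := by
  have h1 := locInt_rpow (α := 3 / 2) (by norm_num)
  have e : pot1g = fun y : ℂ => ‖y‖ ^ (-(3 / 2) : ℝ) := by
    funext y
    unfold pot1g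
    rw [Real.sqrt_eq_rpow, ← Real.rpow_neg (norm_nonneg y), ← Real.rpow_natCast,
      ← Real.rpow_mul (norm_nonneg y)]
    norm_num
  rw [e]
  exact h1

lemma pot1_locInt_K : LocallyIntegrable pot1K := by
  have h1 := locInt_rpow (α := 1) (by norm_num)
  refine h1.mono pot1_measurable_K.aestronglyMeasurable (Eventually.of_forall fun y => ?_)
  rw [pot1_norm_K, Real.rpow_neg_one, Real.norm_of_nonneg (by positivity)]
  calc (2 * π)⁻¹ * ‖y‖⁻¹ ≤ 1 * ‖y‖⁻¹ := mul_le_mul_of_nonneg_right pot1_pi (by positivity)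
    _ = _ := one_mul _

section

variable {f : ℂ → ℝ} {m ρ : ℝ}

lemma pot1_m_nonneg (hm : ∀ z, |f z| ≤ m) : 0 ≤ m := (abs_nonneg _).trans (hm 0)

lemma pot1_int {E : Type*} [NormedAddCommGroup E] [NormedSpace ℝ E] [MeasurableSpace E]
    [BorelSpace E] [SecondCountableTopology E] (hf : Measurable f) (hm : ∀ z, |f z| ≤ m)
    (hs : ∀ z, ρ < ‖z‖ → f z = 0) {k : ℂ → E} (hk : Measurable k) (hk' : LocallyIntegrable k)
    (x : ℂ) : Integrable (fun z => f z • k (x - z)) := by
  have h1 : Integrable ((closedBall (0 : ℂ) (‖x‖ + ρ)).indicator k) :=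
    (integrable_indicator_iff isClosed_closedBall.measurableSet).2
      (hk'.integrableOn_isCompact (isCompact_closedBall 0 _))
  have h2 := ((h1.comp_sub_left x).norm).const_mul m
  refine h2.mono' ?_ (Eventually.of_forall fun z => ?_)
  · exact (hf.smul (hk.comp (measurable_const.sub measurable_id))).aestronglyMeasurable
  · rw [norm_smul, Real.norm_eq_abs]
    by_cases hz : ‖z‖ ≤ ρ
    · have h3 : x - z ∈ closedBall (0 : ℂ) (‖x‖ + ρ) := by
        rw [mem_closedBall, dist_zero_right]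
        exact (norm_sub_le x z).trans (by linarith)
      rw [indicator_of_mem h3]
      exact mul_le_mul_of_nonneg_right (hm z) (norm_nonneg _)
    · rw [hs z (not_le.1 hz), abs_zero, zero_mul]
      exact mul_nonneg (pot1_m_nonneg hm) (norm_nonneg _)

/-- the uniform bound of the integral of the auxiliary kernel -/
lemma pot1_bound (hf : Measurable f) (hm : ∀ z, |f z| ≤ m) (hs : ∀ z, ρ < ‖z‖ → f z = 0) :
    ∃ M : ℝ, 0 ≤ M ∧ ∀ x, Integrable (fun z => |f z| * pot1g (x - z)) ∧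
      ∫ z, |f z| * pot1g (x - z) ≤ M := by
  have h1 : Integrable ((closedBall (0 : ℂ) 1).indicator pot1g) :=
    (integrable_indicator_iff isClosed_closedBall.measurableSet).2
      (pot1_locInt_g.integrableOn_isCompact (isCompact_closedBall 0 _))
  have h2 : Integrable ((closedBall (0 : ℂ) ρ).indicator (fun _ => (1 : ℝ))) :=
    (integrable_indicator_iff isClosed_closedBall.measurableSet).2
      (integrableOn_const (isCompact_closedBall 0 ρ).measure_lt_top.ne)
  have hm0 := pot1_m_nonneg hm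
  refine ⟨m * (∫ y, (closedBall (0 : ℂ) 1).indicator pot1g y) +
    m * ∫ z, (closedBall (0 : ℂ) ρ).indicator (fun _ => (1 : ℝ)) z, ?_, fun x => ?_⟩
  · refine add_nonneg (mul_nonneg hm0 ?_) (mul_nonneg hm0 ?_)
    · exact integral_nonneg fun y => indicator_nonneg (fun y _ => pot1_g_nonneg y) y
    · exact integral_nonneg fun y => indicator_nonneg (fun y _ => zero_le_one) y
  · have h3 : Integrable (fun z => |f z| * pot1g (x - z)) := by
      have := pot1_int (f := fun z => |f z|) (m := m) (ρ := ρ) hf.abs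
        (fun z => by rw [abs_abs]; exact hm z) (fun z hz => by rw [hs z hz, abs_zero])
        pot1_measurable_g pot1_locInt_g x
      exact this
    refine ⟨h3, ?_⟩
    have h4 : Integrable (fun z => m * (closedBall (0 : ℂ) 1).indicator pot1g (x - z) +
        m * (closedBall (0 : ℂ) ρ).indicator (fun _ => (1 : ℝ)) z) :=
      ((h1.comp_sub_left x).const_mul m).add (h2.const_mul m)
    have h5 : ∫ z, |f z| * pot1g (x - z) ≤
        ∫ z, (m * (closedBall (0 : ℂ) 1).indicator pot1g (x - z) +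
          m * (closedBall (0 : ℂ) ρ).indicator (fun _ => (1 : ℝ)) z) := by
      refine integral_mono h3 h4 fun z => ?_
      simp only
      by_cases hz : ‖z‖ ≤ ρ
      · have hz' : z ∈ closedBall (0 : ℂ) ρ := by simpa using hz
        rw [indicator_of_mem hz' (fun _ => (1 : ℝ)), mul_one]
        have hg : pot1g (x - z) ≤ (closedBall (0 : ℂ) 1).indicator pot1g (x - z) + 1 := by
          by_cases h : x - z ∈ closedBall (0 : ℂ) 1
          · rw [indicator_of_mem h]; linarith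
          · rw [indicator_of_notMem h, zero_add]
            rw [mem_closedBall, dist_zero_right, not_le] at h
            unfold pot1g
            refine pow_le_one₀ (by positivity) ?_
            rw [inv_le_one₀ (Real.sqrt_pos.2 (by linarith))]
            rw [Real.one_le_sqrt]
            exact h.le
        calc |f z| * pot1g (x - z) ≤ m * pot1g (x - z) :=
              mul_le_mul_of_nonneg_right (hm z) (pot1_g_nonneg _)
          _ ≤ m * ((closedBall (0 : ℂ) 1).indicator pot1g (x - z) + 1) :=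
              mul_le_mul_of_nonneg_left hg hm0
          _ = _ := by ring
      · rw [hs z (not_le.1 hz), abs_zero, zero_mul]
        refine add_nonneg (mul_nonneg hm0 ?_) (mul_nonneg hm0 ?_)
        · exact indicator_nonneg (fun y _ => pot1_g_nonneg y) _
        · exact indicator_nonneg (fun y _ => zero_le_one) _
    refine h5.trans (le_of_eq ?_)
    rw [integral_add ((h1.comp_sub_left x).const_mul m) (h2.const_mul m), integral_const_mul,
      integral_const_mul, integral_sub_left_eq_self (fun y => (closedBall (0 : ℂ) 1).indicator pot1g y)]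

/-- the potential -/
noncomputable def pot1w (f : ℂ → ℝ) (x : ℂ) : ℝ := ∫ z, f z * Nk (x - z)

/-- its gradient -/
noncomputable def pot1V (f : ℂ → ℝ) (x : ℂ) : ℂ := ∫ z, f z • pot1K (x - z)

lemma pot1_inner (hf : Measurable f) (hm : ∀ z, |f z| ≤ m) (hs : ∀ z, ρ < ‖z‖ → f z = 0)
    (x h : ℂ) : Integrable (fun z => f z * inner ℝ (pot1K (x - z)) h) ∧
      ∫ z, f z * inner ℝ (pot1K (x - z)) h = inner ℝ (pot1V f x) h := by
  have h1 := pot1_int hf hm hs pot1_measurable_K pot1_locInt_K x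
  have e : ∀ z, f z * inner ℝ (pot1K (x - z)) h = inner ℝ h (f z • pot1K (x - z)) := by
    intro z
    rw [real_inner_smul_right, real_inner_comm]
  constructor
  · simp_rw [e]
    exact h1.const_inner h
  · simp_rw [e]
    rw [integral_inner h1, real_inner_comm]
    rfl

lemma pot1_hasFDerivAt (hf : Measurable f) (hm : ∀ z, |f z| ≤ m)
    (hs : ∀ z, ρ < ‖z‖ → f z = 0) (x : ℂ) :
    HasFDerivAt (pot1w f) (innerSL ℝ (pot1V f x)) x := by
  obtain ⟨M, hM0, hM⟩ := pot1_bound hf hm hs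
  have hae : ∀ c : ℂ, ∀ᵐ z : ℂ, z ≠ c := by
    intro c
    simp [ae_iff]
  have hest : ∀ h : ℂ, |pot1w f (x + h) - pot1w f x - inner ℝ (pot1V f x) h| ≤
      26 * M * (√‖h‖) ^ 3 := by
    intro h
    have i1 : Integrable (fun z => f z * Nk (x + h - z)) :=
      pot1_int hf hm hs measurable_Nk locInt_Nk (x + h)
    have i2 : Integrable (fun z => f z * Nk (x - z)) :=
      pot1_int hf hm hs measurable_Nk locInt_Nk x
    obtain ⟨i3, e3⟩ := pot1_inner hf hm hs x h
    have e1 : pot1w f (x + h) - pot1w f x - inner ℝ (pot1V f x) h =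
        ∫ z, (f z * Nk (x + h - z) - f z * Nk (x - z) - f z * inner ℝ (pot1K (x - z)) h) := by
      have i12 : Integrable (fun z => f z * Nk (x + h - z) - f z * Nk (x - z)) := i1.sub i2
      rw [integral_sub i12 i3, integral_sub i1 i2, e3]
      rfl
    rw [e1, ← Real.norm_eq_abs]
    refine (norm_integral_le_integral_norm _).trans ?_
    have h2 : ∫ z, ‖f z * Nk (x + h - z) - f z * Nk (x - z) - f z * inner ℝ (pot1K (x - z)) h‖ ≤
        ∫ z, 13 * (√‖h‖) ^ 3 * (|f z| * pot1g (x - z) + |f z| * pot1g (x + h - z)) := by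
      refine integral_mono_ae ((i1.sub i2).sub i3).norm
        ((((hM x).1.add (hM (x + h)).1)).const_mul _) ?_
      filter_upwards [hae x, hae (x + h)] with z hz1 hz2
      have ha : x - z ≠ 0 := sub_ne_zero.2 (Ne.symm hz1)
      have hah : x - z + h ≠ 0 := by
        have : x - z + h = x + h - z := by ring
        rw [this]
        exact sub_ne_zero.2 (Ne.symm hz2)
      have h3 := pot1_Nk_sub ha hah
      have e2 : x - z + h = x + h - z := by ring
      rw [e2] at h3
      have e4 : f z * Nk (x + h - z) - f z * Nk (x - z) - f z * inner ℝ (pot1K (x - z)) h =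
          f z * (Nk (x + h - z) - Nk (x - z) - inner ℝ (pot1K (x - z)) h) := by ring
      rw [e4, Real.norm_eq_abs, abs_mul]
      calc |f z| * |Nk (x + h - z) - Nk (x - z) - inner ℝ (pot1K (x - z)) h|
          ≤ |f z| * (13 * (√‖h‖) ^ 3 * (pot1g (x - z) + pot1g (x + h - z))) :=
            mul_le_mul_of_nonneg_left h3 (abs_nonneg _)
        _ = _ := by ring
    refine h2.trans ?_
    rw [integral_const_mul, integral_add (hM x).1 (hM (x + h)).1]
    have h5 : (∫ z, |f z| * pot1g (x - z)) + ∫ z, |f z| * pot1g (x + h - z) ≤ M + M :=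
      add_le_add (hM x).2 (hM (x + h)).2
    calc 13 * (√‖h‖) ^ 3 * ((∫ z, |f z| * pot1g (x - z)) + ∫ z, |f z| * pot1g (x + h - z))
        ≤ 13 * (√‖h‖) ^ 3 * (M + M) := mul_le_mul_of_nonneg_left h5 (by positivity)
      _ = _ := by ring
  rw [hasFDerivAt_iff_isLittleO_nhds_zero, Asymptotics.isLittleO_iff]
  intro c hc
  obtain ⟨δ, hδ⟩ : ∃ δ, δ = (c / (26 * M + 1)) ^ 2 := ⟨_, rfl⟩
  have hδ0 : 0 < δ := by rw [hδ]; positivity
  filter_upwards [Metric.ball_mem_nhds (0 : ℂ) hδ0] with h hh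
  rw [mem_ball, dist_zero_right] at hh
  rw [innerSL_apply_apply, Real.norm_eq_abs]
  refine (hest h).trans ?_
  have h6 : √‖h‖ ≤ c / (26 * M + 1) := by
    rw [Real.sqrt_le_left (by positivity), ← hδ]
    exact hh.le
  have h7 : (√‖h‖) ^ 3 = √‖h‖ * ‖h‖ := by
    have : (√‖h‖) ^ 3 = √‖h‖ * (√‖h‖) ^ 2 := by ring
    rw [this, Real.sq_sqrt (norm_nonneg h)]
  rw [h7, ← mul_assoc]
  refine mul_le_mul_of_nonneg_right ?_ (norm_nonneg h)
  calc 26 * M * √‖h‖ ≤ 26 * M * (c / (26 * M + 1)) := mul_le_mul_of_nonneg_left h6 (by positivity)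
    _ ≤ c := by
        rw [mul_div_assoc', div_le_iff₀ (by positivity)]
        linarith only [hc]

lemma pot1_V_cont (hf : Measurable f) (hm : ∀ z, |f z| ≤ m)
    (hs : ∀ z, ρ < ‖z‖ → f z = 0) : Continuous (pot1V f) := by
  obtain ⟨M, hM0, hM⟩ := pot1_bound hf hm hs
  have hae : ∀ c : ℂ, ∀ᵐ z : ℂ, z ≠ c := by
    intro c
    simp [ae_iff]
  have hest : ∀ x x' : ℂ, ‖pot1V f x - pot1V f x'‖ ≤ √‖x - x'‖ * (M + M) := by
    intro x x'
    have i1 := pot1_int hf hm hs pot1_measurable_K pot1_locInt_K x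
    have i2 := pot1_int hf hm hs pot1_measurable_K pot1_locInt_K x'
    unfold pot1V
    rw [← integral_sub i1 i2]
    refine (norm_integral_le_integral_norm _).trans ?_
    have h2 : ∫ z, ‖f z • pot1K (x - z) - f z • pot1K (x' - z)‖ ≤
        ∫ z, √‖x - x'‖ * (|f z| * pot1g (x - z) + |f z| * pot1g (x' - z)) := by
      refine integral_mono_ae (i1.sub i2).norm (((hM x).1.add (hM x').1).const_mul _) ?_
      filter_upwards [hae x, hae x'] with z hz1 hz2
      have h3 := pot1_K_sub (sub_ne_zero.2 (Ne.symm hz1)) (sub_ne_zero.2 (Ne.symm hz2))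
      have e1 : x - z - (x' - z) = x - x' := by ring
      rw [e1] at h3
      rw [← smul_sub, norm_smul, Real.norm_eq_abs]
      calc |f z| * ‖pot1K (x - z) - pot1K (x' - z)‖
          ≤ |f z| * (√‖x - x'‖ * (pot1g (x - z) + pot1g (x' - z))) :=
            mul_le_mul_of_nonneg_left h3 (abs_nonneg _)
        _ = _ := by ring
    refine h2.trans ?_
    rw [integral_const_mul, integral_add (hM x).1 (hM x').1]
    exact mul_le_mul_of_nonneg_left (add_le_add (hM x).2 (hM x').2) (Real.sqrt_nonneg _)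
  rw [continuous_iff_continuousAt]
  intro x
  rw [ContinuousAt, tendsto_iff_norm_sub_tendsto_zero]
  have h1 : Tendsto (fun y : ℂ => √‖y - x‖ * (M + M)) (𝓝 x) (𝓝 (√‖x - x‖ * (M + M))) := by
    apply Continuous.tendsto (f := fun y : ℂ => √‖y - x‖ * (M + M))
    fun_prop
  rw [sub_self, norm_zero, Real.sqrt_zero, zero_mul] at h1
  exact squeeze_zero (fun y => norm_nonneg _) (fun y => hest y x) h1

lemma pot1_grad (hf : Measurable f) (hm : ∀ z, |f z| ≤ m)
    (hs : ∀ z, ρ < ‖z‖ → f z = 0) (x : ℂ) : grad (pot1w f) x = pot1V f x := by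
  unfold grad
  rw [(pot1_hasFDerivAt hf hm hs x).fderiv, innerSL_apply_apply, innerSL_apply_apply]
  apply Complex.ext <;> simp [Complex.inner]

/-! ### The bound of the gradient -/

lemma pot1_int_inv (hρ : 0 < ρ) : Integrable ((ball (0 : ℂ) ρ).indicator (fun y : ℂ => ‖y‖⁻¹)) ∧
    ∫ y, (ball (0 : ℂ) ρ).indicator (fun y : ℂ => ‖y‖⁻¹) y = 2 * π * ρ := by
  have hm : Measurable ((ball (0 : ℂ) ρ).indicator (fun y : ℂ => ‖y‖⁻¹)) :=
    (measurable_norm.inv).indicator measurableSet_ball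
  have hi : Integrable ((ball (0 : ℂ) ρ).indicator (fun y : ℂ => ‖y‖⁻¹)) := by
    refine (integrable_indicator_iff measurableSet_ball).2 ?_
    have h1 := (locInt_rpow (α := 1) (by norm_num)).integrableOn_isCompact
      (isCompact_closedBall (0 : ℂ) ρ)
    simp only [Real.rpow_neg_one] at h1
    exact h1.mono_set ball_subset_closedBall
  refine ⟨hi, ?_⟩
  rw [integral_polar 0 hm hi]
  have h1 : ∀ s ∈ Ioi (0 : ℝ), s * ∫ θ in ang, (ball (0 : ℂ) ρ).indicator (fun y : ℂ => ‖y‖⁻¹)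
      (circleMap 0 s θ) = (Iio ρ).indicator (fun _ => 2 * π) s := by
    intro s hs
    have hs0 : 0 < s := hs
    have hn : ∀ θ, ‖circleMap 0 s θ‖ = s := fun θ => by
      rw [norm_circleMap_zero, abs_of_pos hs0]
    by_cases h : s < ρ
    · have h2 : ∀ θ, (ball (0 : ℂ) ρ).indicator (fun y : ℂ => ‖y‖⁻¹) (circleMap 0 s θ) = s⁻¹ := by
        intro θ
        rw [indicator_of_mem (by rw [mem_ball, dist_zero_right, hn]; exact h), hn]
      simp only [h2]
      rw [indicator_of_mem (show s ∈ Iio ρ from h), setIntegral_const]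
      have hvol : (volume : Measure ℝ).real ang = 2 * π := by
        rw [Measure.real, Real.volume_Ioo, ENNReal.toReal_ofReal (by linarith [Real.pi_pos])]
        ring
      rw [hvol, smul_eq_mul]
      field_simp
    · have h2 : ∀ θ, (ball (0 : ℂ) ρ).indicator (fun y : ℂ => ‖y‖⁻¹) (circleMap 0 s θ) = 0 := by
        intro θ
        rw [indicator_of_notMem (by rw [mem_ball, dist_zero_right, hn]; exact h)]
      simp only [h2]
      rw [indicator_of_notMem (show s ∉ Iio ρ from h)]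
      simp
  rw [setIntegral_congr_fun measurableSet_Ioi h1, setIntegral_indicator measurableSet_Iio,
    Ioi_inter_Iio, setIntegral_const, Measure.real, Real.volume_Ioo,
    ENNReal.toReal_ofReal (by linarith), smul_eq_mul]
  ring

lemma pot1_V_le (hf : Measurable f) (hρ : 0 < ρ) (hm : ∀ z, |f z| ≤ m)
    (hs : ∀ z, ρ < ‖z‖ → f z = 0) (x : ℂ) : ‖pot1V f x‖ ≤ 4 * m * ρ := by
  have hm0 := pot1_m_nonneg hm
  obtain ⟨hi, he⟩ := pot1_int_inv hρ
  have h2 : Integrable ((closedBall (0 : ℂ) ρ).indicator (fun _ => (1 : ℝ))) :=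
    (integrable_indicator_iff isClosed_closedBall.measurableSet).2
      (integrableOn_const (isCompact_closedBall 0 ρ).measure_lt_top.ne)
  have he2 : ∫ z, (closedBall (0 : ℂ) ρ).indicator (fun _ => (1 : ℝ)) z = π * ρ ^ 2 := by
    rw [integral_indicator isClosed_closedBall.measurableSet, setIntegral_const, Measure.real,
      Complex.volume_closedBall, smul_eq_mul, mul_one, ENNReal.toReal_mul, ENNReal.toReal_pow,
      ENNReal.toReal_ofReal hρ.le, ENNReal.coe_toReal, NNReal.coe_real_pi]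
    ring
  have i1 := pot1_int hf hm hs pot1_measurable_K pot1_locInt_K x
  have h4 : Integrable (fun z => (2 * π)⁻¹ * m *
      ((ball (0 : ℂ) ρ).indicator (fun y : ℂ => ‖y‖⁻¹) (x - z) +
        ρ⁻¹ * (closedBall (0 : ℂ) ρ).indicator (fun _ => (1 : ℝ)) z)) :=
    ((hi.comp_sub_left x).add (h2.const_mul ρ⁻¹)).const_mul _
  unfold pot1V
  refine (norm_integral_le_integral_norm _).trans ?_
  have h5 : ∫ z, ‖f z • pot1K (x - z)‖ ≤ ∫ z, (2 * π)⁻¹ * m *
      ((ball (0 : ℂ) ρ).indicator (fun y : ℂ => ‖y‖⁻¹) (x - z) +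
        ρ⁻¹ * (closedBall (0 : ℂ) ρ).indicator (fun _ => (1 : ℝ)) z) := by
    refine integral_mono i1.norm h4 fun z => ?_
    simp only
    rw [norm_smul, pot1_norm_K, Real.norm_eq_abs]
    have hnn1 : 0 ≤ (ball (0 : ℂ) ρ).indicator (fun y : ℂ => ‖y‖⁻¹) (x - z) :=
      indicator_nonneg (fun y _ => by positivity) _
    have hnn2 : 0 ≤ (closedBall (0 : ℂ) ρ).indicator (fun _ => (1 : ℝ)) z :=
      indicator_nonneg (fun y _ => zero_le_one) _
    by_cases hz : ‖z‖ ≤ ρ
    · have hz' : z ∈ closedBall (0 : ℂ) ρ := by simpa using hz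
      rw [indicator_of_mem hz' (fun _ => (1 : ℝ)), mul_one]
      have hg : ‖x - z‖⁻¹ ≤ (ball (0 : ℂ) ρ).indicator (fun y : ℂ => ‖y‖⁻¹) (x - z) + ρ⁻¹ := by
        by_cases h : x - z ∈ ball (0 : ℂ) ρ
        · rw [indicator_of_mem h]
          have : 0 < ρ⁻¹ := inv_pos.2 hρ
          linarith
        · rw [indicator_of_notMem h, zero_add]
          rw [mem_ball, dist_zero_right, not_lt] at h
          exact inv_anti₀ hρ h
      calc |f z| * ((2 * π)⁻¹ * ‖x - z‖⁻¹) ≤ m * ((2 * π)⁻¹ * ‖x - z‖⁻¹) :=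
            mul_le_mul_of_nonneg_right (hm z) (by positivity)
        _ = (2 * π)⁻¹ * m * ‖x - z‖⁻¹ := by ring
        _ ≤ _ := mul_le_mul_of_nonneg_left hg (by positivity)
    · rw [hs z (not_le.1 hz), abs_zero, zero_mul]
      (clear * - hm0 hnn1 hρ hnn2; positivity)
  refine h5.trans ?_
  rw [integral_const_mul, integral_add (hi.comp_sub_left x) (h2.const_mul ρ⁻¹),
    integral_sub_left_eq_self (fun y => (ball (0 : ℂ) ρ).indicator (fun y : ℂ => ‖y‖⁻¹) y),
    he, integral_const_mul, he2]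
  have hpi := Real.pi_pos
  have e1 : (2 * π)⁻¹ * m * (2 * π * ρ + ρ⁻¹ * (π * ρ ^ 2)) = 3 / 2 * (m * ρ) := by
    field_simp
    ring
  rw [e1]
  have : 0 ≤ m * ρ := by positivity
  linarith only [this]

/-! ### The weak equation -/

lemma pot1_fund {φ : ℂ → ℝ} (hφ : ContDiff ℝ ∞ φ) (hc : HasCompactSupport φ) :
    ∫ y, inner ℝ (pot1K y) (grad φ y) = - φ 0 := by
  have hφ2 : ContDiff ℝ 2 φ := hφ.of_le (by norm_cast)
  have hd1 : ∀ v : ℂ, ContDiff ℝ 1 fun w => fderiv ℝ φ w v := fun v =>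
    (hφ2.fderiv_right (m := 1) (by norm_num)).clm_apply contDiff_const
  have hc1 : ∀ v : ℂ, HasCompactSupport fun w => fderiv ℝ φ w v := fun v => hc.fderiv_apply ℝ v
  have hc2 : ∀ v w : ℂ, HasCompactSupport fun z => fderiv ℝ (fun w => fderiv ℝ φ w v) z w :=
    fun v w => (hc1 v).fderiv_apply ℝ w
  have hk2 : ∀ v w : ℂ, Continuous fun z => fderiv ℝ (fun w => fderiv ℝ φ w v) z w := fun v w =>
    ((hd1 v).continuous_fderiv one_ne_zero).clm_apply continuous_const
  have hint : ∀ v w : ℂ, Integrable fun z => Nk z * fderiv ℝ (fun w => fderiv ℝ φ w v) z w :=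
    fun v w => locInt_Nk.integrable_smul_right_of_hasCompactSupport (hk2 v w) (hc2 v w)
  have hkv : ∀ v : ℂ, Integrable fun y =>
      ((2 * π)⁻¹ * (‖y‖ ^ 2)⁻¹ * inner ℝ y v) * fderiv ℝ φ y v := by
    intro v
    have h1 : LocallyIntegrable (fun y : ℂ => (2 * π)⁻¹ * (‖y‖ ^ 2)⁻¹ * inner ℝ y v) := by
      have h2 : LocallyIntegrable (fun y : ℂ => ‖v‖ • ‖pot1K y‖) := by
        refine LocallyIntegrable.smul ?_ ‖v‖
        intro x
        obtain ⟨s, hs, h⟩ := pot1_locInt_K x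
        exact ⟨s, hs, h.norm⟩
      refine h2.mono ?_ (Eventually.of_forall fun y => ?_)
      · have : Measurable fun y : ℂ => (2 * π)⁻¹ * (‖y‖ ^ 2)⁻¹ * inner ℝ y v := by fun_prop
        exact this.aestronglyMeasurable
      · have e1 : (2 * π)⁻¹ * (‖y‖ ^ 2)⁻¹ * inner ℝ y v = inner ℝ (pot1K y) v := by
          unfold pot1K
          rw [real_inner_smul_left]
        rw [e1, norm_smul, norm_norm, norm_norm, mul_comm]
        exact norm_inner_le_norm _ _
    exact h1.integrable_smul_right_of_hasCompactSupport (hd1 v).continuous (hc1 v)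
  have e1 : (fun y => inner ℝ (pot1K y) (grad φ y)) = fun y =>
      ((2 * π)⁻¹ * (‖y‖ ^ 2)⁻¹ * inner ℝ y 1) * fderiv ℝ φ y 1 +
      ((2 * π)⁻¹ * (‖y‖ ^ 2)⁻¹ * inner ℝ y Complex.I) * fderiv ℝ φ y Complex.I := by
    funext y
    unfold pot1K grad
    rw [real_inner_smul_left]
    have h1 : (inner ℝ y 1 : ℝ) = y.re := by
      rw [Complex.inner]; simp
    have h2 : (inner ℝ y Complex.I : ℝ) = y.im := by
      rw [Complex.inner]; simp
    rw [h1, h2, Complex.inner]
    simp
    ring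
  rw [e1, integral_add (hkv 1) (hkv Complex.I)]
  have w1 := weak_Nk (hd1 1) (hc1 1) 1
  have w2 := weak_Nk (hd1 Complex.I) (hc1 Complex.I) Complex.I
  have h3 := fund hφ2 hc
  have e2 : (fun y => Nk y * lap φ y) = fun y =>
      Nk y * fderiv ℝ (fun w => fderiv ℝ φ w 1) y 1 +
        Nk y * fderiv ℝ (fun w => fderiv ℝ φ w Complex.I) y Complex.I := by
    funext y
    unfold lap
    ring
  rw [e2, integral_add (hint 1 1) (hint Complex.I Complex.I), w1, w2] at h3
  linarith

lemma pot1_fund_shift {φ : ℂ → ℝ} (hφ : ContDiff ℝ ∞ φ) (hc : HasCompactSupport φ) (z : ℂ) :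
    ∫ x, inner ℝ (pot1K (x - z)) (grad φ x) = - φ z := by
  have h1 := pot1_fund (φ := fun y => φ (y + z)) (hφ.comp (contDiff_id.add contDiff_const))
    (hc.comp_homeomorph (Homeomorph.addRight z))
  have e1 : ∀ y, grad (fun y => φ (y + z)) y = grad φ (y + z) := by
    intro y
    unfold grad
    rw [fderiv_comp_add_right]
  simp only [e1, zero_add] at h1
  rw [← h1, ← integral_add_right_eq_self _ z]
  simp only [add_sub_cancel_right]

lemma pot1_weak (hf : Measurable f) (hm : ∀ z, |f z| ≤ m)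
    (hs : ∀ z, ρ < ‖z‖ → f z = 0) {φ : ℂ → ℝ} (hφ : ContDiff ℝ ∞ φ) (hc : HasCompactSupport φ) :
    ∫ x, inner ℝ (pot1V f x) (grad φ x) = - ∫ z, f z * φ z := by
  have hm0 := pot1_m_nonneg hm
  have hgc : Continuous (grad φ) := by
    have h1 := hφ.continuous_fderiv (by simp)
    have h2 : grad φ = fun z => (fderiv ℝ φ z 1 : ℂ) + (fderiv ℝ φ z Complex.I : ℂ) * Complex.I := by
      funext z
      apply Complex.ext <;> simp [grad]
    rw [h2]
    exact (Complex.continuous_ofReal.comp (h1.clm_apply continuous_const)).add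
      ((Complex.continuous_ofReal.comp (h1.clm_apply continuous_const)).mul continuous_const)
  obtain ⟨R, hR0, hR⟩ := hc.isCompact.isBounded.exists_pos_norm_le
  have hzero : ∀ x : ℂ, R < ‖x‖ → grad φ x = 0 := by
    intro x hx
    have h2 : x ∉ tsupport φ := fun hmem => absurd (hR x hmem) (not_le.2 hx)
    have h3 : fderiv ℝ φ x = 0 := by
      by_contra hcon
      exact h2 (support_fderiv_subset ℝ hcon)
    unfold grad
    rw [h3]
    apply Complex.ext <;> simp
  have hgs : HasCompactSupport (grad φ) := by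
    refine HasCompactSupport.intro (isCompact_closedBall (0 : ℂ) R) fun x hx => hzero x ?_
    rw [mem_closedBall, dist_zero_right, not_le] at hx
    exact hx
  obtain ⟨D, hD⟩ := hgs.exists_bound_of_continuous hgc
  have hD0 : 0 ≤ D := (norm_nonneg _).trans (hD 0)
  -- the integrand on the product
  have hFi : Integrable (fun p : ℂ × ℂ => f p.2 * inner ℝ (pot1K (p.1 - p.2)) (grad φ p.1))
      (volume.prod volume) := by
    have h2 : Integrable ((closedBall (0 : ℂ) ρ).indicator (fun _ => m)) :=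
      (integrable_indicator_iff isClosed_closedBall.measurableSet).2
        (integrableOn_const (isCompact_closedBall 0 ρ).measure_lt_top.ne)
    have h3 : Integrable ((closedBall (0 : ℂ) (R + ρ)).indicator (fun y => ‖pot1K y‖)) :=
      (integrable_indicator_iff isClosed_closedBall.measurableSet).2
        ((pot1_locInt_K.integrableOn_isCompact (isCompact_closedBall 0 _)).norm)
    have h4 := (h2.convolution_integrand (ContinuousLinearMap.mul ℝ ℝ) h3).mul_const D
    refine h4.mono' ?_ (Eventually.of_forall fun p => ?_)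
    · have : Measurable fun p : ℂ × ℂ => f p.2 * inner ℝ (pot1K (p.1 - p.2)) (grad φ p.1) := by
        have h5 := hgc.measurable
        have h6 := pot1_measurable_K
        fun_prop
      exact this.aestronglyMeasurable
    · rw [ContinuousLinearMap.mul_apply']
      have hn1 : 0 ≤ (closedBall (0 : ℂ) ρ).indicator (fun _ => m) p.2 :=
        indicator_nonneg (fun _ _ => hm0) _
      have hn2 : 0 ≤ (closedBall (0 : ℂ) (R + ρ)).indicator (fun y => ‖pot1K y‖) (p.1 - p.2) :=
        indicator_nonneg (fun _ _ => norm_nonneg _) _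
      by_cases hp2 : ‖p.2‖ ≤ ρ
      · by_cases hp1 : ‖p.1‖ ≤ R
        · have m1 : p.2 ∈ closedBall (0 : ℂ) ρ := by simpa using hp2
          have m2 : p.1 - p.2 ∈ closedBall (0 : ℂ) (R + ρ) := by
            rw [mem_closedBall, dist_zero_right]
            exact (norm_sub_le _ _).trans (by linarith)
          rw [indicator_of_mem m1, indicator_of_mem m2, norm_mul, Real.norm_eq_abs, mul_assoc]
          refine mul_le_mul (hm _) ?_ (norm_nonneg _) hm0
          exact (norm_inner_le_norm _ _).trans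
            (mul_le_mul_of_nonneg_left (hD _) (norm_nonneg _))
        · rw [hzero _ (not_le.1 hp1), inner_zero_right, mul_zero, norm_zero]
          (clear * - hn1 hn2 hD0; positivity)
      · rw [hs _ (not_le.1 hp2), zero_mul, norm_zero]
        (clear * - hn1 hn2 hD0; positivity)
  have e1 : ∀ x, inner ℝ (pot1V f x) (grad φ x) =
      ∫ z, f z * inner ℝ (pot1K (x - z)) (grad φ x) := fun x =>
    (pot1_inner hf hm hs x (grad φ x)).2.symm
  simp_rw [e1]
  rw [integral_integral_swap hFi, ← integral_neg]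
  refine integral_congr_ae (Eventually.of_forall fun z => ?_)
  simp only
  rw [integral_const_mul, pot1_fund_shift hφ hc z]
  ring

end

/-- A bounded function with bounded support is the Laplacian of a `C¹` function with bounded
gradient. -/
theorem exists_c1pot {f : ℂ → ℝ} (hf : Measurable f) {m ρ : ℝ} (hρ : 0 < ρ)
    (hm : ∀ z, |f z| ≤ m) (hs : ∀ z, ρ < ‖z‖ → f z = 0) :
    ∃ w : ℂ → ℝ, ContDiff ℝ 1 w ∧ (∀ z, ‖grad w z‖ ≤ 4 * m * ρ) ∧
      ∀ φ : ℂ → ℝ, ContDiff ℝ ∞ φ → HasCompactSupport φ →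
        ∫ z, inner ℝ (grad w z) (grad φ z) = - ∫ z, f z * φ z := by
  refine ⟨pot1w f, ?_, fun z => ?_, fun φ hφ hc => ?_⟩
  · rw [contDiff_one_iff_fderiv]
    refine ⟨fun x => (pot1_hasFDerivAt hf hm hs x).differentiableAt, ?_⟩
    have e : fderiv ℝ (pot1w f) = fun x => innerSL ℝ (pot1V f x) :=
      funext fun x => (pot1_hasFDerivAt hf hm hs x).fderiv
    rw [e]
    exact (innerSL ℝ).continuous.comp (pot1_V_cont hf hm hs)
  · rw [pot1_grad hf hm hs]
    exact pot1_V_le hf hρ hm hs z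
  · simp_rw [pot1_grad hf hm hs]
    exact pot1_weak hf hm hs hφ hc

end Vale.Agent.P128.Q
end
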