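import Vale.Agent.P128.MathlibUsed
import Vale.Agent.P128.Bdl.B6
import Vale.Agent.P128.Bdl.B3
import Vale.Agent.P128.Bdl.B2
import Vale.Agent.P128.Bdl.B9
import Vale.Agent.P128.Bdl.B5
import Vale.Agent.P128.Bdl.B1
import Vale.Agent.P128.Bdl.B8

set_option linter.all false

section

/-! Density facts at almost every point of a closed set `K` of locally finite length:
upper density at most one, lower bound at arbitrarily small scales, vanishing density of measures
which do not charge `K`. -/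

open MeasureTheory Set Metric Filter
open scoped ENNReal NNReal Topology Real

namespace Vale.Agent.P128.GM

open Vale.Agent.P128

/-- Covering argument: if at all points of `S` the measure `ν` has upper density at least `c`
(normalised by the radius), then `c H¹(S) ≤ 2 ν(V)` for every open `V ⊇ S`. -/
theorem genPts_open {K : Set ℂ} (hK : IsClosed K) {R : ℝ}
    (hfin : μH[1] (K ∩ ball (0 : ℂ) (R + 1)) < ⊤) {S : Set ℂ} (hSK : S ⊆ K ∩ ball 0 R)
    {ν : Measure ℂ} {c : ℝ≥0∞} (hc0 : c ≠ 0) (hct : c ≠ ⊤)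
    (hS : ∀ w ∈ S, ∀ δ : ℝ, 0 < δ → ∃ r : ℝ, 0 < r ∧ r < δ ∧
      c * ENNReal.ofReal r ≤ ν (closedBall w r))
    {V : Set ℂ} (hV : IsOpen V) (hSV : S ⊆ V) :
    c * μH[1] S ≤ 2 * ν V := by
  classical
  set σ : Measure ℂ := (μH[1] : Measure ℂ).restrict (K ∩ ball 0 (R + 1)) with hσ
  have hKm : MeasurableSet (K ∩ ball (0 : ℂ) (R + 1)) :=
    hK.measurableSet.inter measurableSet_ball
  have hσfin : IsFiniteMeasure σ := ⟨by rw [hσ, Measure.restrict_apply_univ]; exact hfin⟩
  -- radius at every point such that the ball stays in `V`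
  have hrad : ∀ x : ℂ, ∃ ρ : ℝ, 0 < ρ ∧ (x ∈ S → ball x ρ ⊆ V) := by
    intro x
    by_cases hx : x ∈ S
    · obtain ⟨ρ, hρ, hb⟩ := Metric.isOpen_iff.1 hV x (hSV hx)
      exact ⟨ρ, hρ, fun _ => hb⟩
    · exact ⟨1, one_pos, fun h => absurd h hx⟩
  choose ρ hρ hρV using hrad
  have hcov : ∀ n : ℕ, ∃ (t : Set ℂ) (r : ℂ → ℝ), t.Countable ∧ t ⊆ S ∧
      (∀ x ∈ t, 0 < r x ∧ r x < ρ x ∧ c * ENNReal.ofReal (r x) ≤ ν (closedBall x (r x)) ∧
        r x < 1 / ((n : ℝ) + 1)) ∧
      μH[1] (S \ ⋃ x ∈ t, closedBall x (r x)) = 0 ∧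
        t.PairwiseDisjoint fun x => closedBall x (r x) := by
    intro n
    obtain ⟨t, r, htc, htS, htr, hμ, hdis⟩ := Besicovitch.exists_disjoint_closedBall_covering_ae σ
      (fun x => {r | c * ENNReal.ofReal r ≤ ν (closedBall x r)}) S
      (fun x hx δ hδ => by
        obtain ⟨r, h1, h2, h3⟩ := hS x hx δ hδ
        exact ⟨r, h3, h1, h2⟩)
      (fun x => min (ρ x) (1 / ((n : ℝ) + 1)))
      (fun x _ => lt_min (hρ x) (by positivity))
    refine ⟨t, r, htc, htS, ?_, ?_, hdis⟩
    · intro x hx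
      obtain ⟨h0, h1, h2⟩ := htr x hx
      exact ⟨h1, h2.trans_le (min_le_left _ _), h0, h2.trans_le (min_le_right _ _)⟩
    · rw [hσ, Measure.restrict_apply' hKm] at hμ
      refine measure_mono_null ?_ hμ
      intro x hx
      refine ⟨hx, (hSK hx.1).1, ?_⟩
      have := (hSK hx.1).2
      rw [mem_ball] at this ⊢
      linarith
  choose t r htc htS htr hμ hdis using hcov
  set N : Set ℂ := ⋃ n, S \ ⋃ x ∈ t n, closedBall x (r n x) with hN
  have hN0 : μH[1] N = 0 := measure_iUnion_null fun n => hμ n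
  have hS1 : μH[1] S ≤ μH[1] (S \ N) := by
    calc μH[1] S ≤ μH[1] ((S \ N) ∪ N) := measure_mono (by
          intro x hx
          by_cases h : x ∈ N
          · exact Or.inr h
          · exact Or.inl ⟨hx, h⟩)
      _ ≤ μH[1] (S \ N) + μH[1] N := measure_union_le _ _
      _ = μH[1] (S \ N) := by rw [hN0, add_zero]
  have hcount : ∀ n, Countable (t n) := fun n => (htc n).to_subtype
  have hdiam : ∀ (n : ℕ) (x : t n), ediam (closedBall (x : ℂ) (r n x)) ≤
      2 * ENNReal.ofReal (r n x) := by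
    intro n x
    rw [← Metric.closedEBall_ofReal (htr n x x.2).1.le]
    exact Metric.ediam_closedEBall_le
  have hS2 : μH[1] (S \ N) ≤ liminf (fun n : ℕ =>
      ∑' x : t n, ediam (closedBall (x : ℂ) (r n x)) ^ (1 : ℝ)) atTop := by
    refine Measure.hausdorffMeasure_le_liminf_tsum 1 (S \ N)
      (fun n : ℕ => 2 * ENNReal.ofReal (1 / ((n : ℝ) + 1))) ?_
      (fun n (x : t n) => closedBall (x : ℂ) (r n x)) ?_ ?_
    · have h1 : Tendsto (fun n : ℕ => ENNReal.ofReal (1 / ((n : ℝ) + 1))) atTop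
          (𝓝 (ENNReal.ofReal 0)) :=
        (ENNReal.continuous_ofReal.tendsto 0).comp tendsto_one_div_add_atTop_nhds_zero_nat
      have h2 := ENNReal.Tendsto.const_mul (a := 2) h1 (Or.inr (by norm_num))
      simpa using h2
    · refine Eventually.of_forall fun n x => (hdiam n x).trans ?_
      have := (htr n x x.2).2.2.2
      gcongr
    · refine Eventually.of_forall fun n x hx => ?_
      by_contra hcon
      apply hx.2
      rw [hN, mem_iUnion]
      refine ⟨n, hx.1, fun hmem => hcon ?_⟩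
      simp only [mem_iUnion, exists_prop] at hmem ⊢
      obtain ⟨y, hy, hxy⟩ := hmem
      exact ⟨⟨y, hy⟩, hxy⟩
  have hsum : ∀ n : ℕ, c * ∑' x : t n, ediam (closedBall (x : ℂ) (r n x)) ^ (1 : ℝ) ≤
      2 * ν V := by
    intro n
    have h1 : ∀ x : t n, c * ediam (closedBall (x : ℂ) (r n x)) ^ (1 : ℝ) ≤
        2 * ν (closedBall (x : ℂ) (r n x)) := by
      intro x
      rw [ENNReal.rpow_one]
      have h2 : c * ENNReal.ofReal (r n x) ≤ ν (closedBall (x : ℂ) (r n x)) :=
        (htr n x x.2).2.2.1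
      calc c * ediam (closedBall (x : ℂ) (r n x)) ≤ c * (2 * ENNReal.ofReal (r n x)) := by
            gcongr; exact hdiam n x
        _ = 2 * (c * ENNReal.ofReal (r n x)) := by ring
        _ ≤ 2 * ν (closedBall (x : ℂ) (r n x)) := by gcongr
    calc c * ∑' x : t n, ediam (closedBall (x : ℂ) (r n x)) ^ (1 : ℝ)
        = ∑' x : t n, c * ediam (closedBall (x : ℂ) (r n x)) ^ (1 : ℝ) := by
          rw [ENNReal.tsum_mul_left]
      _ ≤ ∑' x : t n, 2 * ν (closedBall (x : ℂ) (r n x)) := ENNReal.tsum_le_tsum h1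
      _ = 2 * ∑' x : t n, ν (closedBall (x : ℂ) (r n x)) := by
          rw [ENNReal.tsum_mul_left]
      _ = 2 * ν (⋃ x : t n, closedBall (x : ℂ) (r n x)) := by
          rw [measure_iUnion]
          · intro x y hxy
            exact hdis n x.2 y.2 (fun h => hxy (Subtype.ext h))
          · intro x
            exact measurableSet_closedBall
      _ ≤ 2 * ν V := by
          gcongr
          refine iUnion_subset fun x => ?_
          exact (closedBall_subset_ball (htr n x x.2).2.1).trans (hρV x (htS n x.2))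
  have hlim : liminf (fun n : ℕ =>
      ∑' x : t n, ediam (closedBall (x : ℂ) (r n x)) ^ (1 : ℝ)) atTop ≤
        2 * ν V / c := by
    refine (liminf_le_liminf (v := fun _ => 2 * ν V / c)
      (Eventually.of_forall fun n => ?_)).trans (by rw [liminf_const])
    rw [ENNReal.le_div_iff_mul_le (Or.inl hc0) (Or.inl hct), mul_comm]
    exact hsum n
  have h5 := (hS1.trans hS2).trans hlim
  rw [ENNReal.le_div_iff_mul_le (Or.inl hc0) (Or.inl hct), mul_comm] at h5
  exact h5

/-- Points of `K` where the upper density of `K` is larger than one form a null set. -/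
theorem genPts_upper_null {K : Set ℂ} (hK : IsClosed K) {R : ℝ}
    (hfin : μH[1] (K ∩ ball (0 : ℂ) (R + 1)) < ⊤) {S : Set ℂ} (hSK : S ⊆ K ∩ ball 0 R)
    {c : ℝ≥0∞} (hc : 2 < c) (hct : c ≠ ⊤)
    (hS : ∀ w ∈ S, ∀ δ : ℝ, 0 < δ → ∃ r : ℝ, 0 < r ∧ r < δ ∧
      c * ENNReal.ofReal r ≤ μH[1] (K ∩ closedBall w r)) :
    μH[1] S = 0 := by
  set ν : Measure ℂ := (μH[1] : Measure ℂ).restrict (K ∩ ball 0 (R + 1)) with hν
  have hKm : MeasurableSet (K ∩ ball (0 : ℂ) (R + 1)) :=
    hK.measurableSet.inter measurableSet_ball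
  have hνfin : IsFiniteMeasure ν := ⟨by rw [hν, Measure.restrict_apply_univ]; exact hfin⟩
  have hsub : S ⊆ K ∩ ball (0 : ℂ) (R + 1) := fun x hx => ⟨(hSK hx).1, by
    have := (hSK hx).2
    rw [mem_ball] at this ⊢
    linarith⟩
  have hSfin : μH[1] S ≠ ⊤ := ne_top_of_le_ne_top hfin.ne (measure_mono hsub)
  have hνS : ν S = μH[1] S := by
    rw [hν, Measure.restrict_apply' hKm, inter_eq_self_of_subset_left hsub]
  have hS' : ∀ w ∈ S, ∀ δ : ℝ, 0 < δ → ∃ r : ℝ, 0 < r ∧ r < δ ∧
      c * ENNReal.ofReal r ≤ ν (closedBall w r) := by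
    intro w hw δ hδ
    have hwR := (hSK hw).2
    rw [mem_ball, dist_zero_right] at hwR
    obtain ⟨r, h1, h2, h3⟩ := hS w hw (min δ 1) (lt_min hδ one_pos)
    refine ⟨r, h1, h2.trans_le (min_le_left _ _), h3.trans (le_of_eq ?_)⟩
    rw [hν, Measure.restrict_apply' hKm]
    congr 1
    ext z
    simp only [mem_inter_iff, mem_closedBall, mem_ball, dist_zero_right]
    constructor
    · rintro ⟨hz, hz2⟩
      refine ⟨hz2, hz, ?_⟩
      have h4 : r < 1 := h2.trans_le (min_le_right _ _)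
      have h5 : ‖z‖ ≤ ‖w‖ + dist z w := by
        rw [dist_eq_norm]
        calc ‖z‖ = ‖w + (z - w)‖ := by congr 1; ring
          _ ≤ _ := norm_add_le _ _
      linarith
    · rintro ⟨hz, hz2, -⟩
      exact ⟨hz2, hz⟩
  have hc0 : c ≠ 0 := (lt_trans (by norm_num) hc).ne'
  have h3 : c * μH[1] S ≤ 2 * μH[1] S := by
    refine ENNReal.le_of_forall_pos_le_add fun η hη _ => ?_
    obtain ⟨U, hSU, hUo, hU⟩ := S.exists_isOpen_le_add ν (ε := (η / 2 : ℝ≥0∞)) (by
      rw [ne_eq, ENNReal.div_eq_zero_iff]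
      push Not
      exact ⟨by exact_mod_cast hη.ne', by norm_num⟩)
    have h1 := genPts_open hK hfin hSK hc0 hct hS' hUo hSU
    refine h1.trans ?_
    rw [hνS] at hU
    calc 2 * ν U ≤ 2 * (μH[1] S + (η / 2 : ℝ≥0∞)) := by gcongr
      _ = 2 * μH[1] S + η := by
        rw [mul_add, ENNReal.mul_div_cancel (by norm_num) (by norm_num)]
  by_contra h0
  have h5 : (2 : ℝ≥0∞) * μH[1] S < c * μH[1] S :=
    (ENNReal.mul_lt_mul_iff_left h0 hSfin).2 hc
  exact absurd h3 (not_le.2 h5)

/-- Points of `K` where a measure which does not charge `K` has positive upper one-dimensional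
density form a null set. -/
theorem genPts_zero_null {K : Set ℂ} (hK : IsClosed K) {R : ℝ}
    (hfin : μH[1] (K ∩ ball (0 : ℂ) (R + 1)) < ⊤) {S : Set ℂ} (hSK : S ⊆ K ∩ ball 0 R)
    {ν : Measure ℂ} [ν.OuterRegular] (hνK : ν K = 0) {c : ℝ≥0∞} (hc : c ≠ 0) (hct : c ≠ ⊤)
    (hS : ∀ w ∈ S, ∀ δ : ℝ, 0 < δ → ∃ r : ℝ, 0 < r ∧ r < δ ∧
      c * ENNReal.ofReal r ≤ ν (closedBall w r)) :
    μH[1] S = 0 := by
  have hνS : ν S = 0 := measure_mono_null (fun x hx => (hSK hx).1) hνK
  have h3 : c * μH[1] S ≤ 0 := by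
    refine ENNReal.le_of_forall_pos_le_add fun η hη _ => ?_
    obtain ⟨U, hSU, hUo, hU⟩ := S.exists_isOpen_le_add ν (ε := (η / 2 : ℝ≥0∞)) (by
      rw [ne_eq, ENNReal.div_eq_zero_iff]
      push Not
      exact ⟨by exact_mod_cast hη.ne', by norm_num⟩)
    have h1 := genPts_open hK hfin hSK hc hct hS hUo hSU
    refine h1.trans ?_
    rw [hνS, zero_add] at hU
    calc 2 * ν U ≤ 2 * (η / 2 : ℝ≥0∞) := by gcongr
      _ = 0 + η := by rw [ENNReal.mul_div_cancel (by norm_num) (by norm_num), zero_add]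
  have h4 := le_antisymm h3 bot_le
  exact (mul_eq_zero.1 h4).resolve_left hc

/-- UPPER DENSITY AT MOST ONE. -/
theorem ae_upper_density {K : Set ℂ} (hK : IsClosed K)
    (hfin : ∀ R : ℝ, μH[1] (K ∩ ball 0 R) < ⊤) :
    ∀ᵐ w ∂((μH[1] : Measure ℂ).restrict K), ∀ ε : ℝ, 0 < ε → ∃ δ : ℝ, 0 < δ ∧
      ∀ r : ℝ, 0 < r → r < δ → μH[1] (K ∩ closedBall w r) ≤ ENNReal.ofReal ((2 + ε) * r) := by
  rw [ae_iff, Measure.restrict_apply' hK.measurableSet]
  refine measure_mono_null (t := ⋃ n : ℕ, ⋃ m : ℕ, {w | w ∈ K ∩ ball 0 (m : ℝ) ∧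
    ∀ δ : ℝ, 0 < δ → ∃ r : ℝ, 0 < r ∧ r < δ ∧
      ENNReal.ofReal (2 + 1 / ((n : ℝ) + 1)) * ENNReal.ofReal r ≤ μH[1] (K ∩ closedBall w r)}) ?_ ?_
  · rintro w ⟨hw, hwK⟩
    simp only [mem_ofPred_eq] at hw
    push Not at hw
    obtain ⟨ε, hε, hw⟩ := hw
    obtain ⟨n, hn⟩ := exists_nat_one_div_lt hε
    obtain ⟨m, hm⟩ := exists_nat_gt ‖w‖
    rw [mem_iUnion]
    refine ⟨n, ?_⟩
    rw [mem_iUnion]
    refine ⟨m, ⟨hwK, ?_⟩, ?_⟩
    · rw [mem_ball_zero_iff]; exact hm
    · intro δ hδ
      obtain ⟨r, h1, h2, h3⟩ := hw δ hδ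
      refine ⟨r, h1, h2, ?_⟩
      rw [← ENNReal.ofReal_mul (by positivity)]
      refine (ENNReal.ofReal_le_ofReal ?_).trans h3.le
      exact mul_le_mul_of_nonneg_right (by linarith) h1.le
  · refine measure_iUnion_null fun n => measure_iUnion_null fun m => ?_
    refine genPts_upper_null hK (R := m) (hfin _) (fun w hw => hw.1)
      (c := ENNReal.ofReal (2 + 1 / ((n : ℝ) + 1))) ?_ ENNReal.ofReal_ne_top (fun w hw => hw.2)
    rw [show (2 : ℝ≥0∞) = ENNReal.ofReal 2 by norm_num]
    exact (ENNReal.ofReal_lt_ofReal_iff (by positivity)).2 (by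
      have : 0 < 1 / ((n : ℝ) + 1) := by positivity
      linarith)

/-- LOWER DENSITY at arbitrarily small scales (normalised by the radius). -/
theorem ae_lower_density {K : Set ℂ} (hK : IsClosed K)
    (hfin : ∀ R : ℝ, μH[1] (K ∩ ball 0 R) < ⊤) :
    ∀ᵐ w ∂((μH[1] : Measure ℂ).restrict K), ∀ t : ℝ, 0 < t → t < 1 → ∀ δ : ℝ, 0 < δ →
      ∃ r : ℝ, 0 < r ∧ r < δ ∧ ENNReal.ofReal (t * r) < μH[1] (K ∩ closedBall w r) := by
  rw [ae_iff, Measure.restrict_apply' hK.measurableSet]
  refine measure_mono_null (t := ⋃ n : ℕ, ⋃ k : ℕ, ⋃ m : ℕ, {w | w ∈ K ∩ ball 0 (m : ℝ) ∧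
    ∀ r : ℝ, 0 < r → r < 1 / ((k : ℝ) + 1) →
      μH[1] (K ∩ closedBall w r) ≤ ENNReal.ofReal (1 - 1 / ((n : ℝ) + 1)) * ENNReal.ofReal r}) ?_ ?_
  · rintro w ⟨hw, hwK⟩
    simp only [mem_ofPred_eq] at hw
    push Not at hw
    obtain ⟨t, ht0, ht1, δ, hδ, hw⟩ := hw
    obtain ⟨n, hn⟩ := exists_nat_one_div_lt (show (0 : ℝ) < 1 - t by linarith)
    obtain ⟨k, hk⟩ := exists_nat_one_div_lt hδ
    obtain ⟨m, hm⟩ := exists_nat_gt ‖w‖
    rw [mem_iUnion]
    refine ⟨n, ?_⟩
    rw [mem_iUnion]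
    refine ⟨k, ?_⟩
    rw [mem_iUnion]
    refine ⟨m, ⟨hwK, ?_⟩, ?_⟩
    · rw [mem_ball_zero_iff]; exact hm
    · intro r h1 h2
      refine (hw r h1 (h2.trans hk)).trans ?_
      rw [← ENNReal.ofReal_mul (by linarith only [hn, ht0])]
      refine ENNReal.ofReal_le_ofReal ?_
      exact mul_le_mul_of_nonneg_right (by linarith) h1.le
  · refine measure_iUnion_null fun n => measure_iUnion_null fun k => measure_iUnion_null fun m => ?_
    refine hausdorff_null_of_density (K := K) (fun w hw => hw.1.1)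
      (t := ENNReal.ofReal (1 - 1 / ((n : ℝ) + 1))) ?_ (δ := 1 / ((k : ℝ) + 1)) (by positivity)
      (fun w hw r h1 h2 => hw.2 r h1 h2) ?_
    · rw [← ENNReal.ofReal_one]
      refine (ENNReal.ofReal_lt_ofReal_iff (by norm_num)).2 ?_
      have : 0 < 1 / ((n : ℝ) + 1) := by positivity
      linarith
    · exact ne_top_of_le_ne_top (hfin m).ne (measure_mono fun w hw => hw.1)

/-- A measure which does not charge `K` has zero one-dimensional density at almost every point
of `K`. -/
theorem ae_zero_density {K : Set ℂ} (hK : IsClosed K)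
    (hfin : ∀ R : ℝ, μH[1] (K ∩ ball 0 R) < ⊤) {ν : Measure ℂ} [ν.OuterRegular] (hνK : ν K = 0) :
    ∀ᵐ w ∂((μH[1] : Measure ℂ).restrict K), ∀ ε : ℝ, 0 < ε → ∃ δ : ℝ, 0 < δ ∧
      ∀ r : ℝ, 0 < r → r < δ → ν (closedBall w r) ≤ ENNReal.ofReal (ε * r) := by
  rw [ae_iff, Measure.restrict_apply' hK.measurableSet]
  refine measure_mono_null (t := ⋃ n : ℕ, ⋃ m : ℕ, {w | w ∈ K ∩ ball 0 (m : ℝ) ∧
    ∀ δ : ℝ, 0 < δ → ∃ r : ℝ, 0 < r ∧ r < δ ∧
      ENNReal.ofReal (1 / ((n : ℝ) + 1)) * ENNReal.ofReal r ≤ ν (closedBall w r)}) ?_ ?_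
  · rintro w ⟨hw, hwK⟩
    simp only [mem_ofPred_eq] at hw
    push Not at hw
    obtain ⟨ε, hε, hw⟩ := hw
    obtain ⟨n, hn⟩ := exists_nat_one_div_lt hε
    obtain ⟨m, hm⟩ := exists_nat_gt ‖w‖
    rw [mem_iUnion]
    refine ⟨n, ?_⟩
    rw [mem_iUnion]
    refine ⟨m, ⟨hwK, ?_⟩, ?_⟩
    · rw [mem_ball_zero_iff]; exact hm
    · intro δ hδ
      obtain ⟨r, h1, h2, h3⟩ := hw δ hδ
      refine ⟨r, h1, h2, ?_⟩
      rw [← ENNReal.ofReal_mul (by (clear * -; positivity))]
      exact (ENNReal.ofReal_le_ofReal (mul_le_mul_of_nonneg_right hn.le h1.le)).trans h3.le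
  · refine measure_iUnion_null fun n => measure_iUnion_null fun m => ?_
    refine genPts_zero_null hK (R := m) (hfin _) (fun w hw => hw.1) hνK
      (c := ENNReal.ofReal (1 / ((n : ℝ) + 1))) ?_ ENNReal.ofReal_ne_top (fun w hw => hw.2)
    exact (ENNReal.ofReal_pos.2 (by positivity)).ne'

end Vale.Agent.P128.GM
end

section

/-! consequences of the star and circle competitors -/

open MeasureTheory Set Metric Filter
open scoped ENNReal NNReal Topology

namespace Vale.Agent.P128.GM

open Vale.Agent.P128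

variable {K : Set ℂ}

/-- The star competitor with an arbitrary node in the disk. -/
theorem NetMin.netTwo_star (hK : NetMin K) {x : ℂ} {s : ℝ} (hs : 0 < s) {F : Finset ℂ}
    (hF : K ∩ sphere x s = F) {c : ℂ} (hc : c ∈ ball x s) :
    lh K x s ≤ ∑ q ∈ F, dist c q := by
  have hfr : frontier (ball x s) = sphere x s := frontier_ball x hs.ne'
  have h1 := hK.star_le (Ω := ball x s) isOpen_ball (convex_ball x s) isBounded_ball (c := c)
    hc (F := F) (by rw [hfr]; exact hF)
  rw [← ENNReal.ofReal_sum_of_nonneg fun q _ => dist_nonneg] at h1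
  exact ENNReal.toReal_le_of_le_ofReal (Finset.sum_nonneg fun q _ => dist_nonneg) h1

theorem NetMin.lh_le_card (hK : NetMin K) {x : ℂ} {s : ℝ} (hs : 0 < s) {F : Finset ℂ}
    (hF : K ∩ sphere x s = F) : lh K x s ≤ F.card * s := by
  have h1 := hK.netTwo_star hs hF (mem_ball_self hs)
  have h2 : ∑ q ∈ F, dist x q = F.card * s := by
    have h3 : ∀ q ∈ F, dist x q = s := by
      intro q hq
      have h4 : q ∈ K ∩ sphere x s := by rw [hF]; exact hq
      rw [dist_comm]
      exact mem_sphere.1 h4.2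
    rw [Finset.sum_congr rfl h3, Finset.sum_const, nsmul_eq_mul]
  rwa [h2] at h1

theorem NetMin.netTwo_single (hK : NetMin K) {x : ℂ} {s : ℝ} (hs : 0 < s) {p : ℂ}
    (hF : K ∩ sphere x s = {p}) : lh K x s ≤ 0 := by
  have hp : p ∈ K ∩ sphere x s := by rw [hF]; rfl
  have hps : ‖p - x‖ = s := by
    have := mem_sphere.1 hp.2
    rwa [dist_eq_norm] at this
  refine le_of_forall_pos_le_add fun η hη => ?_
  obtain ⟨δ, hδ0, hδ1, hδ2⟩ : ∃ δ : ℝ, 0 < δ ∧ δ < 1 ∧ δ * s ≤ η := by
    refine ⟨Min.min (1 / 2) (η / s), lt_min (by norm_num) (div_pos hη hs),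
      (min_le_left _ _).trans_lt (by norm_num), ?_⟩
    calc Min.min (1 / 2) (η / s) * s ≤ (η / s) * s :=
          mul_le_mul_of_nonneg_right (min_le_right _ _) hs.le
      _ = η := div_mul_cancel₀ _ hs.ne'
  have hc : x + (1 - δ) • (p - x) ∈ ball x s := by
    rw [mem_ball, dist_eq_norm, add_sub_cancel_left, norm_smul, hps, Real.norm_eq_abs,
      abs_of_nonneg (by linarith)]
    (by_contra nlg; linarith only [nlg, mul_pos (sub_pos.2 hs) (sub_pos.2 hδ0), mul_nonneg (sub_nonneg.2 (not_lt.1 nlg)) (le_of_lt (sub_pos.2 hδ1)), mul_nonneg (sub_nonneg.2 (not_lt.1 nlg)) (le_of_lt (sub_pos.2 hδ0))])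
  have h1 := hK.netTwo_star hs (F := {p}) (by rw [hF]; simp) hc
  rw [Finset.sum_singleton] at h1
  have h2 : dist (x + (1 - δ) • (p - x)) p = δ * s := by
    rw [dist_eq_norm]
    have h3 : x + (1 - δ) • (p - x) - p = (-δ) • (p - x) := by
      rw [sub_smul, one_smul, neg_smul]
      abel
    rw [h3, norm_smul, hps, Real.norm_eq_abs, abs_neg, abs_of_pos hδ0]
  rw [h2] at h1
  linarith

theorem NetMin.lh_le_dist (hK : NetMin K) {x : ℂ} {s : ℝ} (hs : 0 < s) {p q : ℂ}
    (hF : K ∩ sphere x s = {p, q}) : lh K x s ≤ dist p q := by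
  rcases eq_or_ne p q with rfl | hpq
  · rw [dist_self]
    exact hK.netTwo_single hs (by rw [hF, pair_eq_singleton])
  have hp : p ∈ K ∩ sphere x s := by rw [hF]; exact Or.inl rfl
  have hq : q ∈ K ∩ sphere x s := by rw [hF]; exact Or.inr rfl
  have hps : ‖p - x‖ = s := by
    have := mem_sphere.1 hp.2
    rwa [dist_eq_norm] at this
  have hqs : ‖q - x‖ = s := by
    have := mem_sphere.1 hq.2
    rwa [dist_eq_norm] at this
  have hne : p - x ≠ q - x := fun h => hpq (sub_left_injective h)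
  have h0 : ‖(1 / 2 : ℝ) • ((p - x) + (q - x))‖ < s := by
    have := (norm_midpoint_lt_iff (hps.trans hqs.symm)).2 hne
    rwa [hps] at this
  have hc : x + (1 / 2 : ℝ) • ((p - x) + (q - x)) ∈ ball x s := by
    rw [mem_ball, dist_eq_norm, add_sub_cancel_left]
    exact h0
  classical
  have h1 := hK.netTwo_star hs (F := {p, q}) (by rw [hF]; simp) hc
  rw [Finset.sum_pair hpq] at h1
  have h2 : dist (x + (1 / 2 : ℝ) • ((p - x) + (q - x))) p = (1 / 2) * dist p q := by
    rw [dist_eq_norm, dist_eq_norm]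
    have h3 : x + (1 / 2 : ℝ) • ((p - x) + (q - x)) - p = (-(1 / 2) : ℝ) • (p - q) := by
      simp only [Complex.real_smul]
      push_cast
      ring
    rw [h3, norm_smul, Real.norm_eq_abs, abs_neg, abs_of_pos (by norm_num)]
  have h4 : dist (x + (1 / 2 : ℝ) • ((p - x) + (q - x))) q = (1 / 2) * dist p q := by
    rw [dist_eq_norm, dist_eq_norm]
    have h3 : x + (1 / 2 : ℝ) • ((p - x) + (q - x)) - q = (1 / 2 : ℝ) • (p - q) := by
      simp only [Complex.real_smul]
      push_cast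
      ring
    rw [h3, norm_smul, Real.norm_eq_abs, abs_of_pos (by norm_num)]
  rw [h2, h4] at h1
  linarith only [h1]

theorem NetMin.netTwo_pos (hK : NetMin K) {x : ℂ} (hx : x ∈ K) {s : ℝ} (hs : 0 < s) :
    0 < lh K x s :=
  ENNReal.toReal_pos (hK.red x hx s hs).ne' (hK.fin x s).ne

theorem NetMin.two_le (hK : NetMin K) {x : ℂ} (hx : x ∈ K) {s : ℝ} (hs : 0 < s) :
    2 ≤ (K ∩ sphere x s).encard := by
  by_contra hcon
  push Not at hcon
  have h1 : (K ∩ sphere x s).encard ≤ 1 := Order.le_of_lt_succ (by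
    have : Order.succ (1 : ℕ∞) = 2 := by rfl
    rw [this]
    exact hcon)
  have h2 := hK.netTwo_pos hx hs
  rcases encard_le_one_iff_eq.1 h1 with h | ⟨q, h⟩
  · have h3 := hK.lh_le_card hs (F := ∅) (by rw [h]; simp)
    simp only [Finset.card_empty, Nat.cast_zero, zero_mul] at h3
    linarith
  · have h3 := hK.netTwo_single hs h
    linarith

/-- A set of locally finite length is not the whole plane. -/
theorem NetMin.netTwo_ne_univ (hK : NetMin K) : ∃ p, p ∉ K := by
  by_contra hcon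
  push Not at hcon
  have h1 : K = univ := eq_univ_of_forall hcon
  have h2 := hK.fin 0 1
  rw [h1, univ_inter] at h2
  have h3 : dimH (ball (0 : ℂ) 1) ≤ ((1 : ℝ≥0) : ℝ≥0∞) :=
    dimH_le_of_hausdorffMeasure_ne_top (by simpa using h2.ne)
  have h4 : dimH (ball (0 : ℂ) 1) = 2 := by
    rw [Real.dimH_of_nonempty_interior (E := ℂ)
      ⟨0, by rw [isOpen_ball.interior_eq]; exact mem_ball_self one_pos⟩, Complex.finrank_real_complex]
    rfl
  rw [h4] at h3
  norm_num at h3

theorem NetMin.lh_le_circle (hK : NetMin K) (x : ℂ) {s : ℝ} (hs : 0 < s) :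
    lh K x s ≤ 2 * Real.pi * s := by
  classical
  obtain ⟨p₀, hp₀⟩ := hK.netTwo_ne_univ
  have hfr : frontier (ball x s) = sphere x s := frontier_ball x hs.ne'
  have hsub : ball x s ⊆ ball x (s + 1) := ball_subset_ball (by linarith)
  set L : Set ℂ := (K \ ball x s) ∪ sphere x s with hL
  have hLc : IsClosed L := (hK.closed.sdiff isOpen_ball).union isClosed_sphere
  have hd : L \ ball x (s + 1) = K \ ball x (s + 1) := by
    ext z
    constructor
    · rintro ⟨h1 | h1, h2⟩
      · exact ⟨h1.1, h2⟩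
      · exfalso
        apply h2
        rw [mem_ball, mem_sphere.1 h1]
        linarith
    · rintro ⟨h1, h2⟩
      exact ⟨Or.inl ⟨h1, fun h3 => h2 (hsub h3)⟩, h2⟩
  have hsep : SepOut K L (ball x (s + 1)) := by
    refine sepOut_of_map (fun y => if y ∈ ball x s then p₀ else y) ?_ ?_ ?_
    · refine ContinuousOn.if (p := fun y => y ∈ ball x s) ?_ continuousOn_const continuousOn_id
      rintro y ⟨h1, h2⟩
      exfalso
      refine h1 (Or.inr ?_)
      rw [← hfr]
      exact h2
    · intro y hy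
      by_cases h : y ∈ ball x s
      · simp only [h, if_true]
        exact hp₀
      · simp only [h, if_false]
        exact fun h1 => hy (Or.inl ⟨h1, h⟩)
    · intro y _ h2
      have h : y ∉ ball x s := fun h3 => h2 (hsub h3)
      simp only [h, if_false]
  have h1 := hK.min' isOpen_ball isBounded_ball hLc hd hsep
  have h2 : K ∩ ball x (s + 1) = (K ∩ ball x s) ∪ (K \ ball x s ∩ ball x (s + 1)) := by
    ext z
    constructor
    · rintro ⟨h3, h4⟩
      by_cases h5 : z ∈ ball x s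
      · exact Or.inl ⟨h3, h5⟩
      · exact Or.inr ⟨⟨h3, h5⟩, h4⟩
    · rintro (⟨h3, h4⟩ | ⟨⟨h3, _⟩, h4⟩)
      · exact ⟨h3, hsub h4⟩
      · exact ⟨h3, h4⟩
  have h3 : Disjoint (K ∩ ball x s) (K \ ball x s ∩ ball x (s + 1)) :=
    Set.disjoint_left.2 fun z h1 h2 => h2.1.2 h1.2
  have h4 : MeasurableSet (K \ ball x s ∩ ball x (s + 1)) :=
    (hK.closed.measurableSet.diff measurableSet_ball).inter measurableSet_ball
  have h5 : μH[1] (K \ ball x s ∩ ball x (s + 1)) < ⊤ :=
    (measure_mono (inter_subset_inter_left _ sdiff_subset)).trans_lt (hK.fin x (s + 1))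
  have h6 : μH[1] (L ∩ ball x (s + 1)) ≤ ENNReal.ofReal (2 * Real.pi * s) +
      μH[1] (K \ ball x s ∩ ball x (s + 1)) := by
    have h7 : L ∩ ball x (s + 1) ⊆ sphere x s ∪ (K \ ball x s ∩ ball x (s + 1)) := by
      rintro z ⟨h8 | h8, h9⟩
      · exact Or.inr ⟨h8, h9⟩
      · exact Or.inl h8
    refine (measure_mono h7).trans ((measure_union_le _ _).trans ?_)
    exact add_le_add_left (hausdorff_sphere_le x hs.le) _
  rw [h2, measure_union h3 h4] at h1
  have h7 := (ENNReal.add_le_add_iff_right h5.ne).1 (h1.trans h6)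
  exact ENNReal.toReal_le_of_le_ofReal (by positivity) h7

end Vale.Agent.P128.GM
end

section

/-! moving a node -/

open MeasureTheory Set Metric Filter
open scoped ENNReal NNReal Topology

namespace Vale.Agent.P128.GM

open Vale.Agent.P128

variable {K : Set ℂ}

/-- length of the union of finitely many segments with a common end point -/
theorem netSplit_segs (x : ℂ) (F : Finset ℂ) {s : ℝ} (hF : ∀ q ∈ F, dist x q = s) {A : Set ℂ}
    (hA : A ⊆ {x} ∪ ⋃ q ∈ F, segment ℝ x q) : μH[1] A ≤ ∑ _q ∈ F, ENNReal.ofReal s := by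
  have hno : NullSingletonClass (μH[1] : Measure ℂ) :=
    Measure.nullSingletonClass_hausdorff ℂ one_pos
  calc μH[1] A ≤ μH[1] ({x} ∪ ⋃ q ∈ F, segment ℝ x q) := measure_mono hA
    _ ≤ μH[1] ({x} : Set ℂ) + μH[1] (⋃ q ∈ F, segment ℝ x q) := measure_union_le _ _
    _ ≤ 0 + ∑ q ∈ F, μH[1] (segment ℝ x q) := by
        gcongr
        · rw [measure_singleton]
        · exact measure_biUnion_finset_le _ _
    _ = ∑ _q ∈ F, ENNReal.ofReal s := by
        rw [zero_add]
        refine Finset.sum_congr rfl fun q hq => ?_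
        rw [hausdorffMeasure_segment, edist_dist, hF q hq]

/-- the distance from the moved node -/
theorem netSplit_dist {x q e : ℂ} {s τ : ℝ} (hs : 0 < s) (hτ : 0 < τ)
    (hq : ‖q - x‖ = s) (he : ‖e‖ = 1) :
    dist (x + τ • e) q ≤ s - τ * (inner ℝ (q - x) e / s) + τ ^ 2 / (2 * s) := by
  have h1 : |inner ℝ (q - x) e| ≤ s := by
    have := abs_real_inner_le_norm (q - x) e
    rwa [hq, he, mul_one] at this
  set a : ℝ := inner ℝ (q - x) e with ha
  have h2 : dist (x + τ • e) q ^ 2 = s ^ 2 - 2 * τ * a + τ ^ 2 := by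
    have h3 : dist (x + τ • e) q = ‖(q - x) - τ • e‖ := by
      rw [dist_comm, dist_eq_norm]
      congr 1
      ring
    rw [h3, @norm_sub_sq_real, real_inner_smul_right, norm_smul, hq, he, ← ha, mul_one,
      Real.norm_eq_abs, sq_abs]
    ring
  have h4 : s - τ * (a / s) + τ ^ 2 / (2 * s) = s + (τ ^ 2 - 2 * τ * a) / (2 * s) := by
    field_simp
    ring
  have h5 : 0 ≤ s + (τ ^ 2 - 2 * τ * a) / (2 * s) := by
    have h6 : s + (τ ^ 2 - 2 * τ * a) / (2 * s) =
        ((s - τ) ^ 2 + s ^ 2 + 2 * τ * (s - a)) / (2 * s) := by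
      field_simp
      ring
    rw [h6]
    have h7 : 0 ≤ s - a := by linarith only [le_abs_self a, h1]
    (clear * - hs hτ h7; positivity)
  rw [h4]
  refine abs_le_of_sq_le_sq' ?_ h5 |>.2
  rw [h2]
  have h8 : (s + (τ ^ 2 - 2 * τ * a) / (2 * s)) ^ 2 =
      s ^ 2 - 2 * τ * a + τ ^ 2 + ((τ ^ 2 - 2 * τ * a) / (2 * s)) ^ 2 := by
    field_simp
    ring
  rw [h8]
  linarith only [sq_nonneg ((τ ^ 2 - 2 * τ * a) / (2 * s))]

/-- the half disk -/
def netHalf (x e : ℂ) (s : ℝ) : Set ℂ := ball x s ∩ {z | 0 < inner ℝ (z - x) e}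

theorem netHalf_open (x e : ℂ) (s : ℝ) : IsOpen (netHalf x e s) := by
  refine isOpen_ball.inter (isOpen_lt continuous_const ?_)
  fun_prop

theorem netHalf_convex (x e : ℂ) (s : ℝ) : Convex ℝ (netHalf x e s) := by
  refine (convex_ball x s).inter ?_
  intro z hz w hw a b ha hb hab
  simp only [mem_ofPred_eq] at hz hw ⊢
  have h1 : a • z + b • w - x = a • (z - x) + b • (w - x) := by
    have h2 : x = a • x + b • x := by rw [← add_smul, hab, one_smul]
    nth_rw 1 [h2]
    simp only [smul_sub]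
    ring
  rw [h1, inner_add_left, real_inner_smul_left, real_inner_smul_left]
  rcases ha.lt_or_eq with ha | ha
  · have h3 : 0 < a * inner ℝ (z - x) e := mul_pos ha hz
    have h4 : 0 ≤ b * inner ℝ (w - x) e := mul_nonneg hb hw.le
    linarith
  · have hb1 : b = 1 := by linarith
    rw [← ha, hb1]
    linarith

theorem netHalf_frontier {x e z : ℂ} {s : ℝ} (hz : z ∈ frontier (netHalf x e s)) :
    ‖z - x‖ ≤ s ∧ 0 ≤ inner ℝ (z - x) e ∧ z ∉ netHalf x e s := by
  have h1 : z ∈ closure (netHalf x e s) := frontier_subset_closure hz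
  have h2 : z ∉ netHalf x e s := by
    rw [(netHalf_open x e s).frontier_eq] at hz
    exact hz.2
  have h3 : closure (netHalf x e s) ⊆ closedBall x s ∩ {z | 0 ≤ inner ℝ (z - x) e} := by
    refine closure_minimal (fun w hw => ⟨ball_subset_closedBall hw.1, ?_⟩) ?_
    · exact (show 0 < inner ℝ (w - x) e from hw.2).le
    · refine isClosed_closedBall.inter (isClosed_le continuous_const ?_)
      fun_prop
  obtain ⟨h4, h5⟩ := h3 h1
  exact ⟨by simpa [dist_eq_norm] using h4, h5, h2⟩

/-- star at `x`, then star at `x + τ e` in the half disk in direction `e` -/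
theorem NetMin.split_generic (hK : NetMin K) {x : ℂ} {s : ℝ} (hs : 0 < s) {F : Finset ℂ}
    (hF : K ∩ sphere x s = F) {e : ℂ} (he : ‖e‖ = 1)
    (hgen : ∀ q ∈ F, inner ℝ (q - x) e ≠ 0) {τ : ℝ} (hτ : 0 < τ) (hτs : τ < s) :
    lh K x s ≤ F.card * s - τ * (∑ q ∈ F, max (inner ℝ (q - x) e / s) 0 - 1) +
      F.card * τ ^ 2 / (2 * s) := by
  classical
  have hfr : frontier (ball x s) = sphere x s := frontier_ball x hs.ne'
  have hFq : ∀ q ∈ F, ‖q - x‖ = s := by
    intro q hq
    have h1 : q ∈ K ∩ sphere x s := by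
      rw [hF]
      exact hq
    simpa [dist_eq_norm] using h1.2
  have hKF : K ∩ frontier (ball x s) = F := by rw [hfr, hF]
  set K₁ : Set ℂ := star K (ball x s) x with hK₁
  have hxB : x ∈ ball x s := mem_ball_self hs
  have hK₁d : K₁ \ ball x s = K \ ball x s := star_diff isOpen_ball (convex_ball x s) hxB
  have hK₁s : SepOut K K₁ (ball x s) :=
    star_sep isOpen_ball (convex_ball x s) isBounded_ball hxB
  have hK₁c : IsClosed K₁ := isClosed_star hK.closed isOpen_ball
    (by rw [hKF]; exact F.finite_toSet) x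
  -- points of `K₁`
  have hmem : ∀ z ∈ K₁, (z ∈ K ∧ z ∉ ball x s) ∨ z = x ∨
      ∃ q ∈ F, ∃ t : ℝ, 0 < t ∧ t ≤ 1 ∧ z = x + t • (q - x) := by
    intro z hz
    rcases hz with hz | hz | hz
    · exact Or.inl hz
    · exact Or.inr (Or.inl hz)
    · simp only [mem_iUnion] at hz
      obtain ⟨q, hq, hz⟩ := hz
      rw [hKF] at hq
      rw [segment_eq_image'] at hz
      obtain ⟨t, ⟨ht0, ht1⟩, rfl⟩ := hz
      rcases ht0.lt_or_eq with ht | ht
      · exact Or.inr (Or.inr ⟨q, hq, t, ht, ht1, rfl⟩)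
      · right; left
        simp [← ht]
  set Ω : Set ℂ := netHalf x e s with hΩ
  set c : ℂ := x + τ • e with hc
  have hcΩ : c ∈ Ω := by
    refine ⟨?_, ?_⟩
    · rw [mem_ball, dist_eq_norm, hc, add_sub_cancel_left, norm_smul, he, mul_one,
        Real.norm_eq_abs, abs_of_pos hτ]
      exact hτs
    · simp only [mem_ofPred_eq]
      rw [hc, add_sub_cancel_left, real_inner_smul_left, real_inner_self_eq_norm_sq, he]
      simpa using hτ
  have hΩB : Ω ⊆ ball x s := inter_subset_left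
  have hΩb : Bornology.IsBounded Ω := isBounded_ball.subset hΩB
  -- inner products along the segments
  have hinn : ∀ (q : ℂ) (t : ℝ), inner ℝ (x + t • (q - x) - x) e = t * inner ℝ (q - x) e := by
    intro q t
    rw [add_sub_cancel_left, real_inner_smul_left]
  -- the star points of the second star
  have hsub : K₁ ∩ frontier Ω ⊆
      ((insert x (F.filter fun q => 0 < inner ℝ (q - x) e) : Finset ℂ) : Set ℂ) := by
    rintro z ⟨hz1, hz2⟩
    obtain ⟨h1, h2, h3⟩ := netHalf_frontier hz2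
    rcases hmem z hz1 with ⟨h4, h5⟩ | h4 | ⟨q, hq, t, ht0, ht1, rfl⟩
    · have h6 : z ∈ K ∩ sphere x s := by
        refine ⟨h4, ?_⟩
        rw [mem_ball, not_lt, dist_eq_norm] at h5
        rw [mem_sphere, dist_eq_norm]
        exact le_antisymm h1 h5
      rw [hF] at h6
      have h7 : z ∈ F := h6
      refine Finset.mem_coe.2 (Finset.mem_insert_of_mem (Finset.mem_filter.2 ⟨h7, ?_⟩))
      exact lt_of_le_of_ne h2 (hgen z h7).symm
    · rw [h4]
      simp
    · rw [hinn] at h2
      have h4 : 0 < inner ℝ (q - x) e := by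
        refine lt_of_le_of_ne ?_ (hgen q hq).symm
        exact nonneg_of_mul_nonneg_right h2 ht0
      have h5 : ¬ t < 1 := by
        intro h5
        apply h3
        refine ⟨?_, ?_⟩
        · rw [mem_ball, dist_eq_norm, add_sub_cancel_left, norm_smul, hFq q hq, Real.norm_eq_abs,
            abs_of_pos ht0]
          calc t * s < 1 * s := by gcongr
            _ = s := one_mul s
        · simp only [mem_ofPred_eq]
          rw [hinn]
          exact mul_pos ht0 h4
      have h6 : t = 1 := le_antisymm ht1 (not_lt.1 h5)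
      have h7 : x + t • (q - x) = q := by
        rw [h6, one_smul]
        ring
      rw [h7]
      exact Finset.mem_coe.2 (Finset.mem_insert_of_mem (Finset.mem_filter.2 ⟨hq, h4⟩))
  have hfin : (K₁ ∩ frontier Ω).Finite := (Finset.finite_toSet _).subset hsub
  set K₂ : Set ℂ := star K₁ Ω c with hK₂
  have hΩo : IsOpen Ω := netHalf_open x e s
  have hΩc : Convex ℝ Ω := netHalf_convex x e s
  have hK₂d : K₂ \ Ω = K₁ \ Ω := star_diff hΩo hΩc hcΩ
  have hK₂s : SepOut K₁ K₂ Ω := star_sep hΩo hΩc hΩb hcΩ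
  have hK₂c : IsClosed K₂ := isClosed_star hK₁c hΩo hfin c
  have hK₂d' : K₂ \ ball x s = K \ ball x s := by
    rw [← hK₁d]
    ext z
    constructor
    · rintro ⟨h1, h2⟩
      have h3 : z ∈ K₂ \ Ω := ⟨h1, fun h => h2 (hΩB h)⟩
      rw [hK₂d] at h3
      exact ⟨h3.1, h2⟩
    · rintro ⟨h1, h2⟩
      have h3 : z ∈ K₁ \ Ω := ⟨h1, fun h => h2 (hΩB h)⟩
      rw [← hK₂d] at h3
      exact ⟨h3.1, h2⟩
  have hmin := hK.min' isOpen_ball isBounded_ball hK₂c hK₂d' (hK₁s.trans hK₂s hΩB hK₂d)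
  -- the two parts of the competitor
  have hcov : K₂ ∩ ball x s ⊆ ((K₁ ∩ ball x s) \ Ω) ∪ (K₂ ∩ Ω) := by
    rintro z ⟨h1, h2⟩
    by_cases h3 : z ∈ Ω
    · exact Or.inr ⟨h1, h3⟩
    · have h4 : z ∈ K₂ \ Ω := ⟨h1, h3⟩
      rw [hK₂d] at h4
      exact Or.inl ⟨⟨h4.1, h2⟩, h3⟩
  have hpart1 : μH[1] ((K₁ ∩ ball x s) \ Ω) ≤
      ∑ _q ∈ F.filter (fun q => ¬ 0 < inner ℝ (q - x) e), ENNReal.ofReal s := by
    refine netSplit_segs x _ (fun q hq => ?_) ?_
    · rw [dist_comm, dist_eq_norm]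
      exact hFq q (Finset.mem_filter.1 hq).1
    · rintro z ⟨⟨h1, h2⟩, h3⟩
      rcases hmem z h1 with ⟨-, h5⟩ | h4 | ⟨q, hq, t, ht0, ht1, rfl⟩
      · exact absurd h2 h5
      · exact Or.inl h4
      · right
        simp only [mem_iUnion]
        refine ⟨q, Finset.mem_filter.2 ⟨hq, fun h4 => h3 ⟨h2, ?_⟩⟩, ?_⟩
        · simp only [mem_ofPred_eq]
          rw [hinn]
          exact mul_pos ht0 h4
        · rw [segment_eq_image']
          exact ⟨t, ⟨ht0.le, ht1⟩, rfl⟩
  have hpart2 : μH[1] (K₂ ∩ Ω) ≤ ENNReal.ofReal τ +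
      ∑ q ∈ F.filter (fun q => 0 < inner ℝ (q - x) e), ENNReal.ofReal (dist c q) := by
    have h1 := star_length (K := K₁) (Ω := Ω) (c := c) (F := hfin.toFinset) (by simp)
    refine h1.trans ?_
    have h2 : hfin.toFinset ⊆ insert x (F.filter fun q => 0 < inner ℝ (q - x) e) := by
      intro z hz
      rw [Set.Finite.mem_toFinset] at hz
      exact Finset.mem_coe.1 (hsub hz)
    refine (Finset.sum_le_sum_of_subset h2).trans ?_
    have h3 : dist c x = τ := by
      rw [hc, dist_eq_norm, add_sub_cancel_left, norm_smul, he, mul_one, Real.norm_eq_abs,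
        abs_of_pos hτ]
    have h4 : x ∉ F.filter fun q => 0 < inner ℝ (q - x) e := by
      intro h
      have := (Finset.mem_filter.1 h).2
      simp at this
    rw [Finset.sum_insert h4, h3]
  have htot : μH[1] (K ∩ ball x s) ≤ ENNReal.ofReal (τ +
      ∑ q ∈ F, (s - τ * max (inner ℝ (q - x) e / s) 0 + τ ^ 2 / (2 * s))) := by
    have hterm : ∀ q ∈ F, 0 ≤ s - τ * max (inner ℝ (q - x) e / s) 0 + τ ^ 2 / (2 * s) := by
      intro q hq
      have h1 : inner ℝ (q - x) e / s ≤ 1 := by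
        rw [div_le_one hs]
        have := real_inner_le_norm (q - x) e
        rwa [hFq q hq, he, mul_one] at this
      have h2 : max (inner ℝ (q - x) e / s) 0 ≤ 1 := max_le h1 zero_le_one
      have h3 : τ * max (inner ℝ (q - x) e / s) 0 ≤ τ * 1 :=
        mul_le_mul_of_nonneg_left h2 hτ.le
      have h4 : 0 ≤ τ ^ 2 / (2 * s) := by positivity
      linarith only [h4, h3, hτs]
    rw [ENNReal.ofReal_add hτ.le (Finset.sum_nonneg hterm), ENNReal.ofReal_sum_of_nonneg hterm]
    calc μH[1] (K ∩ ball x s) ≤ μH[1] (K₂ ∩ ball x s) := hmin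
      _ ≤ μH[1] ((K₁ ∩ ball x s) \ Ω) + μH[1] (K₂ ∩ Ω) :=
          (measure_mono hcov).trans (measure_union_le _ _)
      _ ≤ (∑ _q ∈ F.filter (fun q => ¬ 0 < inner ℝ (q - x) e), ENNReal.ofReal s) +
          (ENNReal.ofReal τ +
          ∑ q ∈ F.filter (fun q => 0 < inner ℝ (q - x) e), ENNReal.ofReal (dist c q)) :=
          add_le_add hpart1 hpart2
      _ ≤ (∑ q ∈ F.filter (fun q => ¬ 0 < inner ℝ (q - x) e),
            ENNReal.ofReal (s - τ * max (inner ℝ (q - x) e / s) 0 + τ ^ 2 / (2 * s))) +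
          (ENNReal.ofReal τ + ∑ q ∈ F.filter (fun q => 0 < inner ℝ (q - x) e),
            ENNReal.ofReal (s - τ * max (inner ℝ (q - x) e / s) 0 + τ ^ 2 / (2 * s))) := by
          gcongr with q hq q hq
          · have h1 := not_lt.1 (Finset.mem_filter.1 hq).2
            have h2 : max (inner ℝ (q - x) e / s) 0 = 0 :=
              max_eq_right (div_nonpos_of_nonpos_of_nonneg h1 hs.le)
            rw [h2]
            have h4 : 0 ≤ τ ^ 2 / (2 * s) := by positivity
            linarith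
          · have h1 := (Finset.mem_filter.1 hq).2
            have h2 : max (inner ℝ (q - x) e / s) 0 = inner ℝ (q - x) e / s :=
              max_eq_left (div_nonneg h1.le hs.le)
            rw [h2]
            exact netSplit_dist hs hτ (hFq q (Finset.mem_filter.1 hq).1) he
      _ = ENNReal.ofReal τ + ∑ q ∈ F,
            ENNReal.ofReal (s - τ * max (inner ℝ (q - x) e / s) 0 + τ ^ 2 / (2 * s)) := by
          rw [← Finset.sum_filter_add_sum_filter_not F (fun q => 0 < inner ℝ (q - x) e)]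
          ring
  have hreal : lh K x s ≤ τ +
      ∑ q ∈ F, (s - τ * max (inner ℝ (q - x) e / s) 0 + τ ^ 2 / (2 * s)) := by
    unfold lh
    refine ENNReal.toReal_le_of_le_ofReal ?_ htot
    refine add_nonneg hτ.le (Finset.sum_nonneg fun q hq => ?_)
    have h1 : inner ℝ (q - x) e / s ≤ 1 := by
      rw [div_le_one hs]
      have := real_inner_le_norm (q - x) e
      rwa [hFq q hq, he, mul_one] at this
    have h2 : max (inner ℝ (q - x) e / s) 0 ≤ 1 := max_le h1 zero_le_one
    have h3 : τ * max (inner ℝ (q - x) e / s) 0 ≤ τ * 1 :=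
      mul_le_mul_of_nonneg_left h2 hτ.le
    have h4 : 0 ≤ τ ^ 2 / (2 * s) := by positivity
    linarith only [h4, h3, hτs]
  refine hreal.trans (le_of_eq ?_)
  rw [Finset.sum_add_distrib, Finset.sum_sub_distrib, ← Finset.mul_sum]
  simp only [Finset.sum_const, nsmul_eq_mul]
  ring

/-- rotating the direction a little bit -/
noncomputable def netRot (e : ℂ) (t : ℝ) : ℂ := (√(1 + t ^ 2))⁻¹ • (e + t • (Complex.I * e))

theorem netRot_norm {e : ℂ} (he : ‖e‖ = 1) (t : ℝ) : ‖netRot e t‖ = 1 := by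
  have h1 : e + t • (Complex.I * e) = (1 + t * Complex.I) * e := by
    rw [Complex.real_smul]
    ring
  have h2 : ‖(1 : ℂ) + t * Complex.I‖ = √(1 + t ^ 2) := by
    have h3 := Complex.norm_add_mul_I 1 t
    simpa using h3
  unfold netRot
  rw [h1, norm_smul, norm_mul, he, mul_one, h2, norm_inv, Real.norm_eq_abs,
    abs_of_nonneg (Real.sqrt_nonneg _)]
  have h4 : 0 < √(1 + t ^ 2) := Real.sqrt_pos.2 (by positivity)
  exact inv_mul_cancel₀ h4.ne'

theorem netRot_cont (e : ℂ) : Continuous (netRot e) := by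
  have h1 : Continuous fun t : ℝ => √(1 + t ^ 2) := by fun_prop
  have h2 : Continuous fun t : ℝ => e + t • (Complex.I * e) := by fun_prop
  exact (h1.inv₀ fun t => (Real.sqrt_pos.2 (by positivity)).ne').smul h2

theorem netRot_zero (e : ℂ) : netRot e 0 = e := by
  simp [netRot]

theorem netRot_gen {e w : ℂ} (he : ‖e‖ = 1) (hw : w ≠ 0) :
    ∀ᶠ t in 𝓝[>] (0 : ℝ), inner ℝ w (netRot e t) ≠ 0 := by
  have key : ∀ t : ℝ, inner ℝ w (netRot e t) = (√(1 + t ^ 2))⁻¹ *
      (inner ℝ w e + t * inner ℝ w (Complex.I * e)) := by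
    intro t
    unfold netRot
    rw [real_inner_smul_right, inner_add_right, real_inner_smul_right]
  have hpos : ∀ t : ℝ, (√(1 + t ^ 2))⁻¹ ≠ 0 := fun t =>
    inv_ne_zero (Real.sqrt_pos.2 (by positivity)).ne'
  by_cases ha : inner ℝ w e = 0
  · have hb : inner ℝ w (Complex.I * e) ≠ 0 := by
      intro hb
      rw [Complex.inner] at ha hb
      have h1 : e * (starRingEnd ℂ) w = 0 := by
        apply Complex.ext
        · exact ha
        · have h2 : (Complex.I * e * (starRingEnd ℂ) w).re = -(e * (starRingEnd ℂ) w).im := by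
            rw [mul_assoc, Complex.I_mul_re]
          rw [h2] at hb
          exact neg_eq_zero.1 hb
      have h3 : ‖e * (starRingEnd ℂ) w‖ = 0 := by rw [h1, norm_zero]
      rw [norm_mul, he, one_mul, RCLike.norm_conj, norm_eq_zero] at h3
      exact hw h3
    filter_upwards [self_mem_nhdsWithin] with t ht
    have ht : 0 < t := ht
    rw [key, ha, zero_add]
    exact mul_ne_zero (hpos t) (mul_ne_zero ht.ne' hb)
  · have h1 : ContinuousAt (fun t : ℝ => inner ℝ w e + t * inner ℝ w (Complex.I * e)) 0 := by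
      fun_prop
    have h2 : ∀ᶠ t in 𝓝 (0 : ℝ), inner ℝ w e + t * inner ℝ w (Complex.I * e) ≠ 0 :=
      h1.eventually_ne (by simpa using ha)
    filter_upwards [h2.filter_mono nhdsWithin_le_nhds] with t ht
    rw [key]
    exact mul_ne_zero (hpos t) ht

theorem NetMin.split_le (hK : NetMin K) {x : ℂ} {s : ℝ} (hs : 0 < s) {F : Finset ℂ}
    (hF : K ∩ sphere x s = F) {e : ℂ} (he : ‖e‖ = 1) {τ : ℝ} (hτ : 0 < τ) (hτs : τ < s) :
    lh K x s ≤ F.card * s - τ * (∑ q ∈ F, max (inner ℝ (q - x) e / s) 0 - 1) +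
      F.card * τ ^ 2 / (2 * s) := by
  have hF0 : ∀ q ∈ F, q - x ≠ 0 := by
    intro q hq h0
    have h1 : q ∈ K ∩ sphere x s := by
      rw [hF]
      exact hq
    have h2 := h1.2
    rw [mem_sphere, dist_eq_norm, h0, norm_zero] at h2
    exact hs.ne h2
  have hev : ∀ᶠ t in 𝓝[>] (0 : ℝ), ∀ q ∈ F, inner ℝ (q - x) (netRot e t) ≠ 0 :=
    (Filter.eventually_all_finset F).2 fun q hq => netRot_gen he (hF0 q hq)
  have hc : Continuous fun t : ℝ => (F.card : ℝ) * s - τ *
      (∑ q ∈ F, max (inner ℝ (q - x) (netRot e t) / s) 0 - 1) + F.card * τ ^ 2 / (2 * s) := by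
    have h1 := netRot_cont e
    fun_prop
  have hlim : Tendsto (fun t : ℝ => (F.card : ℝ) * s - τ *
      (∑ q ∈ F, max (inner ℝ (q - x) (netRot e t) / s) 0 - 1) + F.card * τ ^ 2 / (2 * s))
      (𝓝[>] 0) (𝓝 ((F.card : ℝ) * s - τ *
      (∑ q ∈ F, max (inner ℝ (q - x) e / s) 0 - 1) + F.card * τ ^ 2 / (2 * s))) := by
    have h1 := hc.tendsto 0
    simp only [netRot_zero] at h1
    exact h1.mono_left nhdsWithin_le_nhds
  refine ge_of_tendsto hlim ?_
  filter_upwards [hev] with t ht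
  exact hK.split_generic hs hF (netRot_norm he t) ht hτ hτs

end Vale.Agent.P128.GM
end

section

/-! NetGain -/

open MeasureTheory Set Metric Filter
open scoped ENNReal NNReal Topology

namespace Vale.Agent.P128.GM

open Vale.Agent.P128

variable {K : Set ℂ}

theorem netGain_finset {S : Set ℂ} {n : ℕ} (hn : S.encard = n) :
    ∃ F : Finset ℂ, S = F ∧ F.card = n := by
  have hf : S.Finite := finite_of_encard_eq_coe hn
  refine ⟨hf.toFinset, hf.coe_toFinset.symm, ?_⟩
  have h1 := hf.encard_eq_coe_toFinset_card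
  rw [hn] at h1
  exact_mod_cast h1.symm

theorem NetMin.gain (hK : NetMin K) {x : ℂ} {s : ℝ} (hs : 0 < s) {n : ℕ}
    (hn : (K ∩ sphere x s).encard = n) (h4 : 4 ≤ n) : lh K x s + s / 100 ≤ n * s := by
  classical
  obtain ⟨F, hF, hFn⟩ := netGain_finset hn
  rcases le_or_gt 7 n with h7 | h7
  · have h1 := hK.lh_le_circle x hs
    have h2 : (7 : ℝ) ≤ n := by exact_mod_cast h7
    have h3 : 2 * Real.pi * s ≤ 2 * 3.15 * s := by
      have := Real.pi_lt_d2
      linarith only [mul_pos (sub_pos.2 hs) (sub_pos.2 this)]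
    linarith only [mul_nonneg (le_of_lt (sub_pos.2 hs)) (sub_nonneg.2 h2), h3, h1, hs]
  · have hnorm : ∀ q ∈ F, ‖q - x‖ = s := by
      intro q hq
      have h4 : q ∈ K ∩ sphere x s := by rw [hF]; exact hq
      have := mem_sphere.1 h4.2
      rwa [dist_eq_norm] at this
    have hinj : Set.InjOn (fun q : ℂ => q - x) F := fun a _ b _ h => sub_left_injective h
    obtain ⟨e, he, h1⟩ := exists_dir_of_four hs (F := F.image (fun q => q - x)) (by
      intro q hq
      obtain ⟨p, hp, rfl⟩ := Finset.mem_image.1 hq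
      exact hnorm p hp) (by rw [Finset.card_image_of_injOn hinj, hFn]; exact h4)
    rw [Finset.sum_image hinj] at h1
    have h2 := hK.split_le hs hF he (τ := s / 15) (by positivity) (by linarith only [hs])
    rw [hFn] at h2
    have h5 : (n : ℝ) ≤ 6 := by
      have : n ≤ 6 := by omega
      exact_mod_cast this
    have h6 : (1.414 : ℝ) ≤ √2 := by
      rw [Real.le_sqrt' (by norm_num)]
      norm_num
    have h8 : (n : ℝ) * (s / 15) ^ 2 / (2 * s) = n * s / 450 := by
      field_simp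
      ring
    rw [h8] at h2
    have h9 : (s / 15) * (1.414 - 1) ≤
        (s / 15) * (∑ q ∈ F, max (inner ℝ (q - x) e / s) 0 - 1) := by
      apply mul_le_mul_of_nonneg_left _ (by positivity)
      linarith only [h6, h1]
    have h10 : (n : ℝ) * s / 450 ≤ 6 * s / 450 := by
      apply div_le_div_of_nonneg_right _ (by norm_num)
      linarith only [mul_nonneg (le_of_lt (sub_pos.2 hs)) (sub_nonneg.2 h5)]
    linarith only [h10, h9, h2, hs]

theorem NetMin.netGain_angle (hK : NetMin K) {x : ℂ} {s : ℝ} (hs : 0 < s) {F : Finset ℂ}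
    (hF : K ∩ sphere x s = F) (hn : F.card = 3) (hl : 3 * s ≤ lh K x s) {p q : ℂ}
    (hp : p ∈ F) (hq : q ∈ F) (hpq : p ≠ q) : inner ℝ (p - x) (q - x) ≤ -(s ^ 2 / 2) := by
  classical
  by_contra hcon
  push Not at hcon
  have hnorm : ∀ q ∈ F, ‖q - x‖ = s := by
    intro q hq
    have h4 : q ∈ K ∩ sphere x s := by rw [hF]; exact hq
    have := mem_sphere.1 h4.2
    rwa [dist_eq_norm] at this
  obtain ⟨e, he, h1⟩ := exists_dir_of_angle hs (hnorm p hp) (hnorm q hq) hcon
  have h2 : inner ℝ (p - x) e / s + inner ℝ (q - x) e / s ≤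
      ∑ q ∈ F, max (inner ℝ (q - x) e / s) 0 := by
    calc inner ℝ (p - x) e / s + inner ℝ (q - x) e / s
        ≤ max (inner ℝ (p - x) e / s) 0 + max (inner ℝ (q - x) e / s) 0 :=
          add_le_add (le_max_left _ _) (le_max_left _ _)
      _ = ∑ y ∈ {p, q}, max (inner ℝ (y - x) e / s) 0 := by rw [Finset.sum_pair hpq]
      _ ≤ ∑ y ∈ F, max (inner ℝ (y - x) e / s) 0 := by
          apply Finset.sum_le_sum_of_subset_of_nonneg
          · intro y hy
            rw [Finset.mem_insert, Finset.mem_singleton] at hy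
            rcases hy with rfl | rfl
            · exact hp
            · exact hq
          · intro y _ _
            exact le_max_right _ _
  obtain ⟨η, hη, h3⟩ : ∃ η : ℝ, 0 < η ∧ η ≤ ∑ q ∈ F, max (inner ℝ (q - x) e / s) 0 - 1 :=
    ⟨inner ℝ (p - x) e / s + inner ℝ (q - x) e / s - 1, by linarith only [h1], by linarith only [h2]⟩
  obtain ⟨τ, hτ0, hτ1, hτ2⟩ : ∃ τ : ℝ, 0 < τ ∧ τ < s ∧ τ ≤ s * η / 3 := by
    refine ⟨Min.min (s / 2) (s * η / 3), lt_min (by positivity) (by positivity),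
      (min_le_left _ _).trans_lt (by linarith only [hs]), min_le_right _ _⟩
  have h4 := hK.split_le hs hF he hτ0 hτ1
  rw [hn] at h4
  have h5 : τ * η ≤ τ * (∑ q ∈ F, max (inner ℝ (q - x) e / s) 0 - 1) :=
    mul_le_mul_of_nonneg_left h3 hτ0.le
  have h6 : ((3 : ℕ) : ℝ) * τ ^ 2 / (2 * s) ≤ τ * η / 2 := by
    rw [div_le_div_iff₀ (by positivity) (by norm_num)]
    push_cast
    linarith only [mul_le_mul_of_nonneg_left hτ2 hτ0.le]
  push_cast at h4 h6
  linarith only [mul_pos hτ0 hη, h6, h5, h4, hl]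

theorem NetMin.three (hK : NetMin K) {x : ℂ} {s : ℝ} (hs : 0 < s)
    (hn : (K ∩ sphere x s).encard = 3) (hl : 3 * s ≤ lh K x s) :
    ∃ a b c : ℂ, ‖a‖ = 1 ∧ ‖b‖ = 1 ∧ ‖c‖ = 1 ∧ a + b + c = 0 ∧
      K ∩ sphere x s = {x + s * a, x + s * b, x + s * c} := by
  classical
  obtain ⟨F, hF, hFn⟩ := netGain_finset (n := 3) (by exact_mod_cast hn)
  have hnorm : ∀ q ∈ F, ‖q - x‖ = s := by
    intro q hq
    have h4 : q ∈ K ∩ sphere x s := by rw [hF]; exact hq
    have := mem_sphere.1 h4.2
    rwa [dist_eq_norm] at this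
  obtain ⟨p, q, r, hpq, hpr, hqr, hFe⟩ := Finset.card_eq_three.1 hFn
  have hp : p ∈ F := by rw [hFe]; simp
  have hq : q ∈ F := by rw [hFe]; simp
  have hr : r ∈ F := by rw [hFe]; simp
  have h0 : (p - x) + (q - x) + (r - x) = 0 :=
    add_eq_zero_of_inner (hnorm p hp) (hnorm q hq) (hnorm r hr)
      (hK.netGain_angle hs hF hFn hl hp hq hpq) (hK.netGain_angle hs hF hFn hl hq hr hqr)
      (hK.netGain_angle hs hF hFn hl hr hp hpr.symm)
  have hs' : (s : ℂ) ≠ 0 := by exact_mod_cast hs.ne'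
  have hu : ∀ q ∈ F, ‖(q - x) / s‖ = 1 := by
    intro q hq
    rw [norm_div, hnorm q hq, Complex.norm_real, Real.norm_eq_abs, abs_of_pos hs,
      div_self hs.ne']
  have hv : ∀ q : ℂ, x + s * ((q - x) / s) = q := by
    intro q
    field_simp
    ring
  refine ⟨(p - x) / s, (q - x) / s, (r - x) / s, hu p hp, hu q hq, hu r hr, ?_, ?_⟩
  · rw [← add_div, ← add_div, h0, zero_div]
  · rw [hv, hv, hv, hF, hFe]
    simp

end Vale.Agent.P128.GM
end

section

/-! monotonicity of the density -/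

open MeasureTheory Set Metric Filter
open scoped ENNReal NNReal Topology

namespace Vale.Agent.P128.GM

open Vale.Agent.P128

variable {K : Set ℂ}

theorem NetMono_card (hK : NetMin K) {x : ℂ} {s : ℝ} (hs : 0 < s) {n : ℕ}
    (hn : (K ∩ sphere x s).encard = n) : lh K x s ≤ n * s := by
  have hfin : (K ∩ sphere x s).Finite := Set.finite_of_encard_eq_coe hn
  have hF : K ∩ sphere x s = (hfin.toFinset : Set ℂ) := hfin.coe_toFinset.symm
  have h := hK.lh_le_card hs hF
  have hc : hfin.toFinset.card = n := by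
    have h2 : ((hfin.toFinset.card : ℕ) : ℕ∞) = n := by
      rw [← Set.encard_coe_eq_coe_finsetCard, ← hF, hn]
    exact_mod_cast h2
  rwa [hc] at h

theorem NetMin.div_mono (hK : NetMin K) (x : ℂ) {a b : ℝ} (ha : 0 < a) (hab : a ≤ b) :
    lh K x a / a ≤ lh K x b / b := by
  have h := div_mono_of_deriv (h := lh K x) (lh_mono hK.fin x) (fun s => ENNReal.toReal_nonneg)
    (δ := 0) ha hab (by
      filter_upwards [ae_card_le_deriv hK.closed hK.fin x] with s hs h1 _
      have hs0 : 0 < s := ha.trans h1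
      obtain ⟨n, hn, hd⟩ := hs hs0
      have h2 := NetMono_card hK hs0 hn
      have h3 : s * (n : ℝ) ≤ s * deriv (lh K x) s := mul_le_mul_of_nonneg_left hd hs0.le
      linarith)
  linarith

theorem NetMin.le_three (hK : NetMin K) (x : ℂ) {s : ℝ} (hs : 0 < s) :
    lh K x s ≤ 3 * s := by
  by_contra hcon
  push Not at hcon
  have h3 : 3 < lh K x s / s := by rwa [lt_div_iff₀ hs]
  set b : ℝ := s * Real.exp 400 with hb
  have hexp : 1 ≤ Real.exp 400 := Real.one_le_exp (by norm_num)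
  have hsb : s ≤ b := le_mul_of_one_le_right hs.le hexp
  have hb0 : 0 < b := hs.trans_le hsb
  have h := div_mono_of_deriv (h := lh K x) (lh_mono hK.fin x) (fun s => ENNReal.toReal_nonneg)
    (δ := 1 / 100) hs hsb (by
      filter_upwards [ae_card_le_deriv hK.closed hK.fin x] with t ht h1 _
      have ht0 : 0 < t := hs.trans h1
      obtain ⟨n, hn, hd⟩ := ht ht0
      have h2 := NetMono_card hK ht0 hn
      have h4 : 3 < lh K x t / t := h3.trans_le (hK.div_mono x hs h1.le)
      have h5 : 3 * t < lh K x t := by rwa [lt_div_iff₀ ht0] at h4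
      have h6 : (3 : ℝ) < n := by
        by_contra h7
        push Not at h7
        have h8 : (n : ℝ) * t ≤ 3 * t := mul_le_mul_of_nonneg_right h7 ht0.le
        linarith
      have h7 : 4 ≤ n := by
        have h8 : 3 < n := by exact_mod_cast h6
        omega
      have h8 := hK.gain ht0 hn h7
      have h9 : t * (n : ℝ) ≤ t * deriv (lh K x) t := mul_le_mul_of_nonneg_left hd ht0.le
      linarith only [h9, h8])
  have hlog : Real.log (b / s) = 400 := by
    rw [hb, mul_div_cancel_left₀ _ hs.ne', Real.log_exp]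
  have h5 : lh K x b / b ≤ 2 * Real.pi := by
    rw [div_le_iff₀ hb0]
    exact hK.lh_le_circle x hb0
  have h6 := Real.pi_lt_d2
  rw [hlog] at h
  linarith only [h6, h5, h, h3]

end Vale.Agent.P128.GM
end

section

/-! Auxiliary results for the reducedness of limits: decay of the energy of a global minimizer in a
disk in which the singular set has no length. -/

open MeasureTheory Set Metric Filter Function
open scoped ENNReal NNReal ContDiff Topology Real

namespace Vale.Agent.P128.Q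

open Vale.Agent.P128
open Vale.Agent.P128.GM

/-- Wirtinger's inequality for continuously differentiable periodic functions. -/
theorem lra_wirt {f h : ℝ → ℝ} (hf : ∀ θ, HasDerivAt f (h θ) θ) (hh : Continuous h)
    (hper : f π = f (-π)) :
    ∫ t in ang, (f t - (2 * π)⁻¹ * ∫ t in ang, f t) ^ 2 ≤ ∫ t in ang, h t ^ 2 := by
  have hπ := Real.pi_pos
  have hfc : Continuous f := continuous_iff_continuousAt.2 fun θ => (hf θ).continuousAt
  have hmem : ∀ {g : ℝ → ℝ}, Continuous g → MemLp g 2 (volume.restrict ang) := by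
    intro g hg
    have : IsFiniteMeasure (volume.restrict ang) := ⟨by simp⟩
    obtain ⟨C, hC⟩ := (isCompact_Icc (a := -π) (b := π)).exists_bound_of_continuousOn
      hg.continuousOn
    exact MemLp.of_bound hg.aestronglyMeasurable C
      ((ae_restrict_iff' measurableSet_Ioo).2 (Eventually.of_forall fun t ht =>
        hC t (Ioo_subset_Icc_self ht)))
  have conv : ∀ Ψ : ℝ → ℝ, ∫ t in ang, Ψ t = ∫ t in (-π)..π, Ψ t := by
    intro Ψ
    rw [intervalIntegral.integral_of_le (by linarith), integral_Ioc_eq_integral_Ioo]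
  refine circle_wirtinger (hmem hfc) (hmem hh) (fun n => ?_) fun n => ?_
  · rw [conv, conv]
    have h1 : ∀ t ∈ uIcc (-π) π, HasDerivAt (fun t => Real.cos (n * t)) (-(n * Real.sin (n * t))) t := by
      intro t _
      have := ((hasDerivAt_id t).const_mul (n : ℝ)).cos
      simpa [mul_comm] using this
    have key := intervalIntegral.integral_mul_deriv_eq_deriv_mul (u := f) (v := fun t => Real.cos (n * t))
      (u' := h) (v' := fun t => -(n * Real.sin (n * t))) (fun t _ => hf t) h1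
      (hh.intervalIntegrable _ _) (Continuous.intervalIntegrable (by fun_prop) _ _)
    have e1 : ∫ t in (-π)..π, f t * -(n * Real.sin (n * t)) =
        -(n * ∫ t in (-π)..π, f t * Real.sin (n * t)) := by
      rw [← intervalIntegral.integral_const_mul, ← intervalIntegral.integral_neg]
      exact intervalIntegral.integral_congr fun t _ => by ring
    rw [e1, hper] at key
    have e2 : Real.cos (n * -π) = Real.cos (n * π) := by rw [mul_neg, Real.cos_neg]
    rw [e2] at key
    linarith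
  · rw [conv, conv]
    have h1 : ∀ t ∈ uIcc (-π) π, HasDerivAt (fun t => Real.sin (n * t)) (n * Real.cos (n * t)) t := by
      intro t _
      have := ((hasDerivAt_id t).const_mul (n : ℝ)).sin
      simpa [mul_comm] using this
    have key := intervalIntegral.integral_mul_deriv_eq_deriv_mul (u := f) (v := fun t => Real.sin (n * t))
      (u' := h) (v' := fun t => n * Real.cos (n * t)) (fun t _ => hf t) h1
      (hh.intervalIntegrable _ _) (Continuous.intervalIntegrable (by fun_prop) _ _)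
    have e1 : ∫ t in (-π)..π, f t * (n * Real.cos (n * t)) =
        n * ∫ t in (-π)..π, f t * Real.cos (n * t) := by
      rw [← intervalIntegral.integral_const_mul]
      exact intervalIntegral.integral_congr fun t _ => by ring
    rw [e1] at key
    have e2 : Real.sin (n * π) = 0 := Real.sin_nat_mul_pi n
    have e3 : Real.sin (n * -π) = 0 := by rw [mul_neg, Real.sin_neg, e2, neg_zero]
    simp only [e2, e3, mul_zero, sub_zero, zero_sub] at key
    linarith

section

variable {u : ℂ → ℝ} {K : Set ℂ}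

theorem lra_grad_cont (hK : IsClosed K) (hu : ContDiffOn ℝ 1 u Kᶜ) : ContinuousOn (grad u) Kᶜ := by
  have h1 : ContinuousOn (fderiv ℝ u) Kᶜ := hu.continuousOn_fderiv_of_isOpen hK.isOpen_compl le_rfl
  have h2 : grad u = fun z => (fderiv ℝ u z 1 : ℂ) + (fderiv ℝ u z Complex.I : ℂ) * Complex.I := by
    funext z
    apply Complex.ext <;> simp [grad]
  rw [h2]
  have h3 : ContinuousOn (fun z => fderiv ℝ u z 1) Kᶜ := h1.clm_apply continuousOn_const
  have h4 : ContinuousOn (fun z => fderiv ℝ u z Complex.I) Kᶜ := h1.clm_apply continuousOn_const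
  exact (Complex.continuous_ofReal.comp_continuousOn h3).add
    ((Complex.continuous_ofReal.comp_continuousOn h4).mul continuousOn_const)

theorem lra_circle_mem {x : ℂ} {s : ℝ} (hs : 0 < s) (hsph : K ∩ sphere x s = ∅) (θ : ℝ) :
    circleMap x s θ ∈ Kᶜ := by
  intro hK
  have : circleMap x s θ ∈ K ∩ sphere x s := ⟨hK, circleMap_mem_sphere x hs.le θ⟩
  rw [hsph] at this
  exact this

theorem lra_integrableOn_ang {g : ℝ → ℝ} (hg : Continuous g) : IntegrableOn g ang :=
  (hg.integrableOn_Icc (a := -π) (b := π)).mono_set Ioo_subset_Icc_self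

/-- From the energy identity to the differential inequality. -/
theorem lra_half (hK : IsClosed K) (hu : ContDiffOn ℝ 1 u Kᶜ) {x : ℂ} {s E : ℝ} (hs : 0 < s)
    (hsph : K ∩ sphere x s = ∅)
    (hG : ∀ m : ℝ, E ≤ s * ∫ θ in ang, (u (circleMap x s θ) - m) *
      inner ℝ (grad u (circleMap x s θ)) (Complex.exp (θ * Complex.I))) :
    E ≤ s ^ 2 / 2 * ∫ θ in ang, ‖grad u (circleMap x s θ)‖ ^ 2 := by
  have hmem := lra_circle_mem hs hsph
  have hcm : Continuous fun θ : ℝ => circleMap x s θ := continuous_circleMap x s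
  set f : ℝ → ℝ := fun θ => u (circleMap x s θ) with hf
  set N : ℝ → ℝ := fun θ => inner ℝ (grad u (circleMap x s θ)) (Complex.exp (θ * Complex.I)) with hN
  set T : ℝ → ℝ := fun θ =>
    inner ℝ (grad u (circleMap x s θ)) (Complex.I * Complex.exp (θ * Complex.I)) with hT
  have hfc : Continuous f := by
    refine continuousOn_univ.1 ?_
    exact hu.continuousOn.comp hcm.continuousOn fun θ _ => hmem θ
  have hgc : Continuous fun θ : ℝ => grad u (circleMap x s θ) := by
    refine continuousOn_univ.1 ?_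
    exact (lra_grad_cont hK hu).comp hcm.continuousOn fun θ _ => hmem θ
  have hNc : Continuous N := hgc.inner (by fun_prop)
  have hTc : Continuous T := hgc.inner (by fun_prop)
  have hder : ∀ θ, HasDerivAt f (s * T θ) θ := by
    intro θ
    have hd : DifferentiableAt ℝ u (circleMap x s θ) :=
      (hu.differentiableOn one_ne_zero).differentiableAt (hK.isOpen_compl.mem_nhds (hmem θ))
    have h1 := hasDerivAt_circleMap x s θ
    have h2 := hd.hasFDerivAt.comp_hasDerivAt θ h1
    have h4 : fderiv ℝ u (circleMap x s θ) (circleMap 0 s θ * Complex.I) = s * T θ := by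
      simp only [hT]
      rw [inner_grad]
      have h3 : circleMap 0 s θ * Complex.I = s • (Complex.I * Complex.exp (θ * Complex.I)) := by
        simp [circleMap]; ring
      rw [h3, map_smul, smul_eq_mul]
    rw [← h4]
    exact h2
  have hper : f π = f (-π) := by
    simp only [hf]
    congr 1
    simp [circleMap]
  have W := lra_wirt hder (hTc.const_mul s |>.congr fun _ => rfl) hper
  set m : ℝ := (2 * π)⁻¹ * ∫ t in ang, f t with hm
  have i1 : IntegrableOn (fun θ => (f θ - m) ^ 2) ang :=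
    lra_integrableOn_ang ((hfc.sub continuous_const).pow 2)
  have i2 : IntegrableOn (fun θ => N θ ^ 2) ang := lra_integrableOn_ang (hNc.pow 2)
  have i3 : IntegrableOn (fun θ => T θ ^ 2) ang := lra_integrableOn_ang (hTc.pow 2)
  have i4 : IntegrableOn (fun θ => (f θ - m) * N θ) ang :=
    lra_integrableOn_ang ((hfc.sub continuous_const).mul hNc)
  have e1 : ∫ t in ang, (s * T t) ^ 2 = s ^ 2 * ∫ t in ang, T t ^ 2 := by
    rw [← integral_const_mul]
    exact integral_congr_ae (Eventually.of_forall fun t => by ring)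
  have e2 : ∫ θ in ang, ‖grad u (circleMap x s θ)‖ ^ 2 =
      (∫ θ in ang, N θ ^ 2) + ∫ θ in ang, T θ ^ 2 := by
    rw [← integral_add i2 i3]
    exact integral_congr_ae (Eventually.of_forall fun θ => (inner_sq_add _ θ).symm)
  have e3 : ∫ θ in ang, (f θ - m) * N θ ≤
      (1 / (2 * s)) * (∫ θ in ang, (f θ - m) ^ 2) + s / 2 * ∫ θ in ang, N θ ^ 2 := by
    rw [← integral_const_mul, ← integral_const_mul,
      ← integral_add (i1.const_mul _) (i2.const_mul _)]
    refine integral_mono i4 ((i1.const_mul _).add (i2.const_mul _)) fun θ => ?_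
    show (f θ - m) * N θ ≤ 1 / (2 * s) * (f θ - m) ^ 2 + s / 2 * N θ ^ 2
    have h1 : 1 / (2 * s) * (f θ - m) ^ 2 + s / 2 * N θ ^ 2 - (f θ - m) * N θ =
        1 / (2 * s) * ((f θ - m) - s * N θ) ^ 2 := by
      field_simp
      ring
    have h2 : 0 ≤ 1 / (2 * s) * ((f θ - m) - s * N θ) ^ 2 := by (clear * - hs; positivity)
    linarith only [h2, h1]
  rw [e1] at W
  have h5 : 1 / (2 * s) * (∫ θ in ang, (f θ - m) ^ 2) ≤ 1 / (2 * s) * (s ^ 2 * ∫ t in ang, T t ^ 2) := by
    gcongr
  have h6 : 1 / (2 * s) * (s ^ 2 * ∫ t in ang, T t ^ 2) = s / 2 * ∫ t in ang, T t ^ 2 := by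
    field_simp
  calc E ≤ s * ∫ θ in ang, (f θ - m) * N θ := hG m
    _ ≤ s * (s / 2 * (∫ t in ang, T t ^ 2) + s / 2 * ∫ θ in ang, N θ ^ 2) := by
        refine mul_le_mul_of_nonneg_left ?_ hs.le
        linarith only [h6, h5, e3]
    _ = s ^ 2 / 2 * ∫ θ in ang, ‖grad u (circleMap x s θ)‖ ^ 2 := by rw [e2]; ring

/-! ### Euler-Lagrange equation -/

theorem lra_integrableOn (h : IsGlobalMin u (grad u) K) (x : ℂ) (r : ℝ) :
    IntegrableOn (fun z => ‖grad u z‖ ^ 2) (ball x r) := by
  refine ⟨((measurable_grad u).norm.pow_const 2).aestronglyMeasurable, ?_⟩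
  have h1 := h.en_fin x r
  rw [h.restrict_compl] at h1
  rw [hasFiniteIntegral_iff_norm]
  refine lt_of_le_of_lt (lintegral_mono fun z => ?_) (lt_top_iff_ne_top.2 h1)
  rw [Real.norm_of_nonneg (by positivity)]

/-- Comparison with locally Lipschitz competitors with the same singular set. -/
theorem lra_compare (h : IsGlobalMin u (grad u) K) {v : ℂ → ℝ} (hv : LocLip Kᶜ v) {x : ℂ} {r : ℝ}
    {C : Set ℂ} (hC : IsCompact C) (hCb : C ⊆ ball x r) (hvu : ∀ z ∉ C, z ∉ K → v z = u z)
    (hint : IntegrableOn (fun z => ‖grad v z‖ ^ 2) (ball x r)) :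
    (∫ z in ball x r, ‖grad u z‖ ^ 2) ≤ ∫ z in ball x r, ‖grad v z‖ ^ 2 := by
  have key := h.minimal x r v (grad v) K h.closed (hv.w12loc h.closed.isOpen_compl)
    ⟨C, hC, hCb, by simp, h.ae_compl.mono fun z hz hzC => hvu z hzC hz⟩ (fun p q _ _ hpq => hpq)
  unfold genergy at key
  rw [h.restrict_compl] at key
  have hlen := h.len_fin x r
  have h1 := (ENNReal.add_le_add_iff_right hlen).1 key
  rw [← ofReal_integral_eq_lintegral_ofReal (lra_integrableOn h x r)
      (Eventually.of_forall fun _ => by positivity),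
    ← ofReal_integral_eq_lintegral_ofReal hint
      (Eventually.of_forall fun _ => by positivity)] at h1
  exact (ENNReal.ofReal_le_ofReal_iff (integral_nonneg fun _ => by positivity)).1 h1

theorem lra_el (h : IsGlobalMin u (grad u) K) (hu : LocLip Kᶜ u) {ψ : ℂ → ℝ} (hψ : LocLip Kᶜ ψ)
    {x : ℂ} {R : ℝ} (hRψ : ∀ z, z ∉ K → z ∉ ball x R → ψ z = 0)
    (hi : Integrable (fun z => ‖grad ψ z‖ ^ 2)) :
    ∫ z, inner ℝ (grad u z) (grad ψ z) = 0 := by
  have hKo := h.closed.isOpen_compl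
  -- the gradient of `ψ` vanishes far away
  have hg0 : ∀ z, z ∉ K → z ∉ closedBall x R → grad ψ z = 0 := by
    intro z hz hzR
    have hev : ψ =ᶠ[𝓝 z] fun _ => (0 : ℝ) := by
      filter_upwards [isClosed_closedBall.isOpen_compl.mem_nhds hzR, hKo.mem_nhds hz] with w hw hwK
      exact hRψ w hwK fun hb => hw (ball_subset_closedBall hb)
    rw [grad_congr hev, grad_const]
  set B : Set ℂ := ball x (R + 1) with hB
  have hfull : ∫ z, (inner ℝ (grad u z) (grad ψ z) : ℝ) =
      ∫ z in B, (inner ℝ (grad u z) (grad ψ z) : ℝ) := by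
    symm
    rw [← integral_indicator measurableSet_ball]
    refine integral_congr_ae ?_
    filter_upwards [h.ae_compl] with z hz
    by_cases hzB : z ∈ B
    · rw [indicator_of_mem hzB]
    · rw [indicator_of_notMem hzB]
      have : z ∉ closedBall x R := fun hh => hzB (closedBall_subset_ball (by linarith) hh)
      simp [hg0 z hz this]
  rw [hfull]
  have hum := (measurable_grad u).aestronglyMeasurable (μ := (volume.restrict B : Measure ℂ))
  have hψm := (measurable_grad ψ).aestronglyMeasurable (μ := (volume.restrict B : Measure ℂ))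
  have i1 : Integrable (fun z => ‖grad u z‖ ^ 2) (volume.restrict B) := lra_integrableOn h x (R + 1)
  have i3 : Integrable (fun z => ‖grad ψ z‖ ^ 2) (volume.restrict B) := hi.restrict
  have i2 := integrable_inner_of_sq hum hψm i1 i3
  refine quad_zero (Q := ∫ z in B, ‖grad ψ z‖ ^ 2) fun t => ?_
  have hae0 : ∀ᵐ z, grad (fun w => u w + t * ψ w) z = grad u z + t • grad ψ z := by
    filter_upwards [h.ae_compl, hu.ae_diff hKo, hψ.ae_diff hKo] with z hz h1 h2
    rw [grad_add (h1 hz) ((h2 hz).const_mul t), grad_const_mul (h2 hz)]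
  have hae : ∀ᵐ z ∂(volume.restrict B : Measure ℂ), ‖grad (fun w => u w + t * ψ w) z‖ ^ 2 =
      ‖grad u z‖ ^ 2 + (2 * t * inner ℝ (grad u z) (grad ψ z) + t ^ 2 * ‖grad ψ z‖ ^ 2) := by
    filter_upwards [ae_restrict_of_ae hae0] with z hz
    rw [hz, norm_add_sq_real, inner_smul_right, norm_smul, mul_pow, Real.norm_eq_abs, sq_abs]
    ring
  have I2 : Integrable (fun z => 2 * t * inner ℝ (grad u z) (grad ψ z) + t ^ 2 * ‖grad ψ z‖ ^ 2)
      (volume.restrict B) := (i2.const_mul (2 * t)).add (i3.const_mul (t ^ 2))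
  have I1 : IntegrableOn (fun z => ‖grad (fun w => u w + t * ψ w) z‖ ^ 2) B :=
    (i1.add I2).congr (hae.mono fun z hz => hz.symm)
  have hv : LocLip Kᶜ fun w => u w + t * ψ w := hu.add (hψ.const_mul hKo t)
  have hcmp := lra_compare h hv (x := x) (r := R + 1) (C := closedBall x R)
    (isCompact_closedBall _ _) (closedBall_subset_ball (by linarith))
    (fun z hz hzK => by
        have : z ∉ ball x R := fun hh => hz (ball_subset_closedBall hh)
        simp only [hRψ z hzK this, mul_zero, add_zero]) I1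
  have hE : ∫ z in ball x (R + 1), ‖grad (fun w => u w + t * ψ w) z‖ ^ 2 =
      (∫ z in ball x (R + 1), ‖grad u z‖ ^ 2) +
      (2 * t * (∫ z in B, (inner ℝ (grad u z) (grad ψ z) : ℝ))
        + t ^ 2 * ∫ z in B, ‖grad ψ z‖ ^ 2) := by
    rw [integral_congr_ae hae]
    rw [integral_add i1 I2]
    congr 1
    rw [← integral_const_mul, ← integral_const_mul]
    exact integral_add (i2.const_mul (2 * t)) (i3.const_mul (t ^ 2))
  rw [hE] at hcmp
  linarith

end

end Vale.Agent.P128.Q
end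

section

/-! The energy identity on circles which do not meet the singular set. -/

open MeasureTheory Set Metric Filter Function
open scoped ENNReal NNReal ContDiff Topology Real

namespace Vale.Agent.P128.Q

open Vale.Agent.P128
open Vale.Agent.P128.GM

variable {u : ℂ → ℝ} {K : Set ℂ}

/-- A smooth cut-off function of one variable. -/
theorem lrb_cut {s t : ℝ} (hs : 0 < s) (ht : 0 < t) :
    ∃ (β h : ℝ → ℝ) (b k : ℝ), ContDiff ℝ ∞ β ∧ (∀ ρ, 0 ≤ β ρ) ∧ (∀ ρ, ρ ∉ Ioo s (s + t) → β ρ = 0) ∧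
      Integrable β ∧ ∫ ρ in Ioi 0, β ρ = 1 ∧ (∃ C, ∀ ρ, |β ρ| ≤ C) ∧
      b < s + t ∧ ContDiff ℝ ∞ h ∧ (∀ ρ, HasDerivAt h (-β ρ) ρ) ∧
      (∀ ρ < s, h ρ = k) ∧ (∀ ρ, b < ρ → h ρ = 0) ∧ (∀ ρ, 0 ≤ ρ → 0 ≤ h ρ ∧ h ρ ≤ 1) ∧
      ∀ ρ, 0 ≤ ρ → ρ ≤ s → h ρ = 1 := by
  let B : ContDiffBump (s + t / 2) := ⟨t / 8, t / 4, by linarith, by linarith⟩
  set β : ℝ → ℝ := B.normed volume with hβ
  have hβs : ContDiff ℝ ∞ β := B.contDiff_normed
  have hβ0 : ∀ ρ, 0 ≤ β ρ := fun ρ => B.nonneg_normed ρ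
  have hβc : HasCompactSupport β := B.hasCompactSupport_normed
  have hβt : tsupport β = closedBall (s + t / 2) (t / 4) := B.tsupport_normed_eq
  have hβi : Integrable β := hβs.continuous.integrable_of_hasCompactSupport hβc
  have hβ1 : ∫ ρ, β ρ = 1 := B.integral_normed
  have hz : ∀ ρ, ρ ∉ Ioo s (s + t) → β ρ = 0 := by
    intro ρ hρ
    refine image_eq_zero_of_notMem_tsupport fun hh => hρ ?_
    rw [hβt, mem_closedBall, Real.dist_eq, abs_le] at hh
    exact ⟨by linarith only [hh.1, ht], by linarith only [hh.2, ht]⟩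
  have hIoi : ∀ ρ, ρ ≤ s → ∫ ρ in Ioi ρ, β ρ = 1 := by
    intro ρ hρ
    rw [← hβ1]
    refine setIntegral_eq_integral_of_forall_compl_eq_zero fun y hy => hz y fun hh => hy ?_
    exact lt_of_le_of_lt hρ hh.1
  have h1 : ContDiff ℝ ∞ fun ρ => - β ρ := hβs.neg
  have h2 : HasCompactSupport fun ρ => - β ρ := hβc.comp_left (g := fun y => -y) neg_zero
  have h3 : tsupport (fun ρ => - β ρ) ⊆ Ioo 0 (s + t) := by
    have : tsupport (fun ρ => - β ρ) ⊆ tsupport β := by
      refine closure_mono fun y hy => ?_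
      simpa using hy
    refine this.trans ?_
    rw [hβt]
    intro y hy
    rw [mem_closedBall, Real.dist_eq, abs_le] at hy
    exact ⟨by linarith only [hy.1, ht, hs], by linarith only [hy.2, ht]⟩
  obtain ⟨h, a, b, k, ha, hb, hsm, hder, hk, hb0, hform⟩ := exists_primitive h1 h2 (by linarith) h3
  have hform' : ∀ ρ, 0 ≤ ρ → h ρ = ∫ y in Ioi ρ, β y := by
    intro ρ hρ
    rw [hform ρ hρ, integral_neg, neg_neg]
  have hone : ∀ ρ, 0 ≤ ρ → ρ ≤ s → h ρ = 1 := fun ρ h0 h1 => by rw [hform' ρ h0, hIoi ρ h1]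
  have hk' : ∀ ρ < s, h ρ = 1 := by
    intro ρ hρ
    by_cases h0 : 0 ≤ ρ
    · exact hone ρ h0 hρ.le
    · push Not at h0
      have e1 : h ρ = k := hk ρ (h0.trans ha)
      have e2 : h 0 = k := hk 0 ha
      rw [e1, ← e2, hone 0 le_rfl hs.le]
  obtain ⟨C, hC⟩ := hβs.continuous.bounded_above_of_compact_support hβc
  refine ⟨β, h, b, 1, hβs, hβ0, hz, hβi, hIoi 0 hs.le, ⟨C, fun ρ => hC ρ⟩, hb, hsm, hder, hk', hb0,
    fun ρ hρ => ?_, hone⟩
  rw [hform' ρ hρ]
  refine ⟨setIntegral_nonneg measurableSet_Ioi fun y _ => hβ0 y, ?_⟩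
  rw [← hβ1]
  exact setIntegral_le_integral hβi (Eventually.of_forall hβ0)

/-- Uniform continuity near a circle. -/
theorem lrb_unif {g : ℂ → ℝ} {U : Set ℂ} (hU : IsOpen U) (hg : ContinuousOn g U) {x : ℂ} {s : ℝ}
    (hs : 0 < s) (hsU : ∀ θ, circleMap x s θ ∈ U) {ε : ℝ} (hε : 0 < ε) :
    ∃ t : ℝ, 0 < t ∧ ∀ ρ ∈ Icc s (s + t), ∀ θ, circleMap x ρ θ ∈ U ∧
      |g (circleMap x ρ θ) - g (circleMap x s θ)| ≤ ε := by
  have hsph : sphere x s ⊆ U := by
    intro z hz
    have : z ∈ range (circleMap x s) := by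
      rw [range_circleMap, abs_of_pos hs]; exact hz
    obtain ⟨θ, rfl⟩ := this
    exact hsU θ
  obtain ⟨δ, hδ, hδU⟩ := (isCompact_sphere x s).exists_cthickening_subset_open hU hsph
  have hc : IsCompact (cthickening δ (sphere x s)) := (isCompact_sphere x s).cthickening
  have huc := hc.uniformContinuousOn_of_continuous (hg.mono hδU)
  rw [Metric.uniformContinuousOn_iff_le] at huc
  obtain ⟨δ', hδ', H⟩ := huc ε hε
  have hdist : ∀ ρ θ, dist (circleMap x ρ θ) (circleMap x s θ) = |ρ - s| := by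
    intro ρ θ
    have : circleMap x ρ θ - circleMap x s θ = ((ρ - s : ℝ) : ℂ) * Complex.exp (θ * Complex.I) := by
      simp only [circleMap]; push_cast; ring
    rw [dist_eq_norm, this, norm_mul, Complex.norm_real, Complex.norm_exp_ofReal_mul_I, mul_one,
      Real.norm_eq_abs]
  refine ⟨min δ δ', lt_min hδ hδ', fun ρ hρ θ => ?_⟩
  have h1 : |ρ - s| ≤ min δ δ' := by
    rw [abs_of_nonneg (by linarith [hρ.1])]
    linarith [hρ.2]
  have hm0 : circleMap x s θ ∈ sphere x s := circleMap_mem_sphere x hs.le θ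
  have hm1 : circleMap x ρ θ ∈ cthickening δ (sphere x s) := by
    refine mem_cthickening_of_dist_le _ (circleMap x s θ) δ _ hm0 ?_
    rw [hdist]
    exact h1.trans (min_le_left _ _)
  have hm2 : circleMap x s θ ∈ cthickening δ (sphere x s) := self_subset_cthickening _ hm0
  refine ⟨hδU hm1, ?_⟩
  have := H _ hm1 _ hm2 (by rw [hdist]; exact h1.trans (min_le_right _ _))
  rwa [Real.dist_eq] at this

/-- Energy inequality on a circle which does not meet the singular set. -/
theorem lrb_green (h : IsGlobalMin u (grad u) K) (hu : ContDiffOn ℝ 1 u Kᶜ) {x : ℂ} {s : ℝ}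
    (hs : 0 < s) (hsph : K ∩ sphere x s = ∅) (m : ℝ) :
    dir u x s ≤ s * ∫ θ in ang, (u (circleMap x s θ) - m) *
      inner ℝ (grad u (circleMap x s θ)) (Complex.exp (θ * Complex.I)) := by
  have hK := h.closed
  have hKo := hK.isOpen_compl
  have hmem := lra_circle_mem hs hsph
  have hgc := lra_grad_cont hK hu
  have huL : LocLip Kᶜ u := LocLip.of_contDiffOn hKo hu
  set U : Set ℂ := Kᶜ ∩ {x}ᶜ with hU
  have hUo : IsOpen U := hKo.inter isOpen_compl_singleton
  have hnu : ContinuousOn (nu x) U := by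
    unfold nu
    refine (continuousOn_id.sub continuousOn_const).div (by fun_prop) fun z hz => ?_
    have : z ≠ x := hz.2
    simpa [sub_eq_zero] using this
  set g : ℂ → ℝ := fun z => (u z - m) * inner ℝ (grad u z) (nu x z) with hg
  have hgU : ContinuousOn g U :=
    ((hu.continuousOn.mono inter_subset_left).sub continuousOn_const).mul
      ((hgc.mono inter_subset_left).inner hnu)
  set g2 : ℂ → ℝ := fun z => ‖z - x‖ * g z with hg2
  have hg2U : ContinuousOn g2 U := ContinuousOn.mul (by fun_prop) hgU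
  have hnorm : ∀ ρ, 0 < ρ → ∀ θ, ‖circleMap x ρ θ - x‖ = ρ := fun ρ hρ θ => by
    rw [circleMap_sub_center, norm_circleMap_zero, abs_of_pos hρ]
  have hsU : ∀ θ, circleMap x s θ ∈ U := by
    intro θ
    refine ⟨hmem θ, fun hh => ?_⟩
    have h1 := hnorm s hs θ
    rw [mem_singleton_iff] at hh
    rw [hh, sub_self, norm_zero] at h1
    exact hs.ne h1
  have hg2c : Continuous fun θ => g2 (circleMap x s θ) := by
    refine continuousOn_univ.1 ?_
    exact hg2U.comp (continuous_circleMap x s).continuousOn fun θ _ => hsU θ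
  have hB : s * ∫ θ in ang, (u (circleMap x s θ) - m) *
      inner ℝ (grad u (circleMap x s θ)) (Complex.exp (θ * Complex.I)) =
      ∫ θ in ang, g2 (circleMap x s θ) := by
    rw [← integral_const_mul]
    refine integral_congr_ae (Eventually.of_forall fun θ => ?_)
    simp only [hg2, hg, hnorm s hs θ, nu_circleMap x hs θ]
  rw [hB]
  refine le_of_forall_pos_le_add fun ε hε => ?_
  have hπ := Real.pi_pos
  obtain ⟨t, ht, htU⟩ := lrb_unif hUo hg2U hs hsU (ε := ε / (2 * π)) (by positivity)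
  obtain ⟨β, η, b, k, hβs, hβ0, hβz, hβi, hβ1, ⟨Cβ, hCβ⟩, hb, hηs, hηd, hηk, hηb, hη01, hη1⟩ :=
    lrb_cut hs ht
  -- the annulus
  set A : Set ℂ := {z | dist z x ∈ Icc s (s + t)} with hA
  have hAU : A ⊆ U := by
    intro z hz
    have hz0 : 0 < dist z x := hs.trans_le hz.1
    have : z ∈ range (circleMap x (dist z x)) := by
      rw [range_circleMap, abs_of_pos hz0]; rfl
    obtain ⟨θ, hθ⟩ := this
    rw [← hθ]
    exact (htU (dist z x) hz θ).1
  have hAcl : IsClosed A := isClosed_Icc.preimage (continuous_id.dist continuous_const)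
  have hAc : IsCompact A :=
    (isCompact_closedBall x (s + t)).of_isClosed_subset hAcl fun z hz => hz.2
  obtain ⟨Mu, hMu⟩ := hAc.exists_bound_of_continuousOn
    (((hu.continuousOn.mono inter_subset_left).sub (continuousOn_const (c := m))).mono hAU)
  obtain ⟨Mg, hMg⟩ := hAc.exists_bound_of_continuousOn (hgU.mono hAU)
  have hA0 : circleMap x s 0 ∈ A := by
    show dist (circleMap x s 0) x ∈ Icc s (s + t)
    rw [dist_eq_norm, hnorm s hs]
    exact ⟨le_rfl, by linarith⟩
  have hMu0 : 0 ≤ Mu := (norm_nonneg _).trans (hMu _ hA0)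
  have hMg0 : 0 ≤ Mg := (norm_nonneg _).trans (hMg _ hA0)
  have hCβ0 : 0 ≤ Cβ := (abs_nonneg _).trans (hCβ 0)
  -- the radial cut-off
  set H : ℂ → ℝ := fun z => η ‖z - x‖ with hH
  have hHs : ContDiff ℝ ∞ H := contDiff_radial hηs hs hηk x
  have hH01 : ∀ z, 0 ≤ H z ∧ H z ≤ 1 := fun z => hη01 _ (norm_nonneg _)
  set φ : ℂ → ℝ := fun z => H z * (u z - m) with hφ
  have hφL : LocLip Kᶜ φ :=
    (LocLip.of_contDiff hHs hKo).mul (huL.sub (LocLip.const hKo m))
  have hHgrad : ∀ z, z ≠ x → grad H z = (-β ‖z - x‖) • nu x z := by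
    intro z hz
    refine ext_inner_right ℝ fun v => ?_
    rw [inner_grad, hH, fderiv_radial hz (hηd _), real_inner_smul_left]
  have hφg : ∀ᵐ z, grad φ z = H z • grad u z + (u z - m) • ((-β ‖z - x‖) • nu x z) := by
    have hne0 : ∀ᵐ z : ℂ, z ≠ x := by
      rw [ae_iff]
      simp
    filter_upwards [h.ae_compl, hne0] with z hz hzx
    have hd : DifferentiableAt ℝ u z :=
      (hu.differentiableOn one_ne_zero).differentiableAt (hKo.mem_nhds hz)
    have e1 : grad (fun w => u w - m) z = grad u z := by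
      rw [grad_sub hd (differentiableAt_const m), grad_const, sub_zero]
    rw [hφ, grad_mul ((hHs.differentiable (by simp)) z) (hd.sub_const m), e1, hHgrad z hzx]
  set R : ℝ := s + t with hR
  have hHR : ∀ z, z ∉ ball x R → H z = 0 := by
    intro z hz
    rw [mem_ball, dist_eq_norm, not_lt] at hz
    exact hηb _ (lt_of_lt_of_le hb hz)
  have hβR : ∀ z, z ∉ A → β ‖z - x‖ = 0 := by
    intro z hz
    refine hβz _ fun hh => hz ?_
    show dist z x ∈ Icc s (s + t)
    rw [dist_eq_norm]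
    exact Ioo_subset_Icc_self hh
  have hβx : ∀ z, z ∉ ball x R → β ‖z - x‖ = 0 := by
    intro z hz
    rw [mem_ball, dist_eq_norm, not_lt] at hz
    exact hβz _ fun hh => absurd hh.2 (not_lt.2 hz)
  have hiu := lra_integrableOn h x R
  have hfinB : IsFiniteMeasure (volume.restrict (ball x R) : Measure ℂ) :=
    ⟨by simpa using measure_ball_lt_top (μ := (volume : Measure ℂ)) (x := x) (r := R)⟩
  have hiφ : Integrable (fun z => ‖grad φ z‖ ^ 2) := by
    have hbd : Integrable ((ball x R).indicator fun z =>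
        2 * ‖grad u z‖ ^ 2 + 2 * (Mu * Cβ) ^ 2) := by
      rw [integrable_indicator_iff measurableSet_ball]
      exact (hiu.const_mul _).add (integrable_const _)
    refine Integrable.mono' hbd ((measurable_grad _).norm.pow_const 2).aestronglyMeasurable ?_
    filter_upwards [hφg] with z hz
    rw [Real.norm_of_nonneg (by (clear * -; positivity)), hz]
    by_cases hzB : z ∈ ball x R
    · rw [indicator_of_mem hzB]
      have e1 : ‖H z • grad u z + (u z - m) • ((-β ‖z - x‖) • nu x z)‖ ≤ ‖grad u z‖ + Mu * Cβ := by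
        refine (norm_add_le _ _).trans (add_le_add ?_ ?_)
        · rw [norm_smul, Real.norm_of_nonneg (hH01 z).1]
          exact mul_le_of_le_one_left (norm_nonneg _) (hH01 z).2
        · by_cases hzA : z ∈ A
          · rw [norm_smul, norm_smul]
            have h1 : ‖u z - m‖ ≤ Mu := hMu z hzA
            have h2 : ‖-β ‖z - x‖‖ ≤ Cβ := by rw [norm_neg]; exact hCβ _
            have h3 := norm_nu_le x z
            have h4 : ‖-β ‖z - x‖‖ * ‖nu x z‖ ≤ Cβ := by
              calc ‖-β ‖z - x‖‖ * ‖nu x z‖ ≤ Cβ * 1 := by gcongr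
                _ = Cβ := mul_one _
            gcongr
          · rw [hβR z hzA]
            simp only [neg_zero, zero_smul, smul_zero, norm_zero]
            (clear * - hMu0 hCβ0; positivity)
      have e2 : 0 ≤ ‖H z • grad u z + (u z - m) • ((-β ‖z - x‖) • nu x z)‖ := norm_nonneg _
      calc ‖H z • grad u z + (u z - m) • ((-β ‖z - x‖) • nu x z)‖ ^ 2
          ≤ (‖grad u z‖ + Mu * Cβ) ^ 2 := by gcongr
        _ ≤ 2 * ‖grad u z‖ ^ 2 + 2 * (Mu * Cβ) ^ 2 := by
            linarith only [sq_nonneg (‖grad u z‖ - Mu * Cβ)]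
    · rw [indicator_of_notMem hzB, hHR z hzB, hβx z hzB]
      simp
  have EL := lra_el h huL hφL (x := x) (R := R) (fun z _ hzR => by
    simp only [hφ, hHR z hzR, zero_mul]) hiφ
  -- the two parts of the integrand
  have hFm : Measurable ((interior A).indicator g) := by
    classical
    rw [← Set.piecewise_eq_indicator]
    exact (hgU.mono (interior_subset.trans hAU)).measurable_piecewise continuousOn_const
      isOpen_interior.measurableSet
  have hintA : ∀ z, β ‖z - x‖ ≠ 0 → z ∈ interior A := by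
    intro z hz
    have h1 : dist z x ∈ Ioo s (s + t) := by
      by_contra hcon
      rw [dist_eq_norm] at hcon
      exact hz (hβz _ hcon)
    have h2 : {z : ℂ | dist z x ∈ Ioo s (s + t)} ⊆ interior A := by
      refine interior_maximal (fun w hw => Ioo_subset_Icc_self hw) ?_
      exact isOpen_Ioo.preimage (continuous_id.dist continuous_const)
    exact h2 h1
  set F2 : ℂ → ℝ := fun z => β ‖z - x‖ * (interior A).indicator g z with hF2
  have hF2m : Measurable F2 :=
    (hβs.continuous.measurable.comp (measurable_id.sub_const x).norm).mul hFm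
  have hF2g : ∀ z, F2 z = β ‖z - x‖ * g z := by
    intro z
    simp only [hF2]
    by_cases hz : β ‖z - x‖ = 0
    · rw [hz, zero_mul, zero_mul]
    · rw [indicator_of_mem (hintA z hz)]
  have hF2i : Integrable F2 := by
    have hbd : Integrable ((ball x R).indicator fun _ : ℂ => Cβ * Mg) := by
      rw [integrable_indicator_iff measurableSet_ball]
      exact integrable_const _
    refine Integrable.mono' hbd hF2m.aestronglyMeasurable (Eventually.of_forall fun z => ?_)
    by_cases hzB : z ∈ ball x R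
    · rw [indicator_of_mem hzB]
      simp only [hF2]
      by_cases hzA : z ∈ interior A
      · rw [indicator_of_mem hzA, norm_mul]
        have h3 := hMg z (interior_subset hzA)
        have h4 : ‖β ‖z - x‖‖ ≤ Cβ := hCβ _
        gcongr
      · rw [indicator_of_notMem hzA, mul_zero, norm_zero]
        (clear * - hCβ0 hMg0; positivity)
    · rw [indicator_of_notMem hzB]
      simp only [hF2, hβx z hzB, zero_mul, norm_zero, le_refl]
  set F1 : ℂ → ℝ := fun z => H z * ‖grad u z‖ ^ 2 with hF1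
  have hF1m : Measurable F1 := hHs.continuous.measurable.mul ((measurable_grad u).norm.pow_const 2)
  have hF1i : Integrable F1 := by
    have hbd : Integrable ((ball x R).indicator fun z : ℂ => ‖grad u z‖ ^ 2) := by
      rw [integrable_indicator_iff measurableSet_ball]
      exact hiu
    refine Integrable.mono' hbd hF1m.aestronglyMeasurable (Eventually.of_forall fun z => ?_)
    simp only [hF1]
    rw [Real.norm_of_nonneg (mul_nonneg (hH01 z).1 (by (clear * -; positivity)))]
    by_cases hzB : z ∈ ball x R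
    · rw [indicator_of_mem hzB]
      exact mul_le_of_le_one_left (by (clear * -; positivity)) (hH01 z).2
    · rw [indicator_of_notMem hzB, hHR z hzB, zero_mul]
  have hEL : ∫ z, F1 z = ∫ z, F2 z := by
    have e1 : ∫ z, (inner ℝ (grad u z) (grad φ z) : ℝ) = ∫ z, (F1 z - F2 z) := by
      refine integral_congr_ae ?_
      filter_upwards [hφg] with z hz
      rw [hz, hF2g z, inner_add_right, real_inner_smul_right, real_inner_smul_right,
        real_inner_smul_right, real_inner_self_eq_norm_sq]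
      simp only [hF1, hg]
      ring
    rw [EL, integral_sub hF1i hF2i] at e1
    linarith
  -- lower bound for the left-hand side
  have hlow : dir u x s ≤ ∫ z, F1 z := by
    unfold dir
    rw [← integral_indicator measurableSet_ball]
    refine integral_mono ?_ hF1i fun z => ?_
    · rw [integrable_indicator_iff measurableSet_ball]
      exact hiu.mono_set (ball_subset_ball (by linarith))
    · by_cases hz : z ∈ ball x s
      · rw [indicator_of_mem hz]
        have : H z = 1 := by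
          refine hη1 _ (norm_nonneg _) ?_
          rw [mem_ball, dist_eq_norm] at hz
          exact hz.le
        simp only [hF1, this, one_mul, le_refl]
      · rw [indicator_of_notMem hz]
        exact mul_nonneg (hH01 z).1 (by (clear * -; positivity))
  -- upper bound for the right-hand side
  have hup : ∫ z, F2 z ≤ (∫ θ in ang, g2 (circleMap x s θ)) + ε := by
    rw [integral_polar x hF2m hF2i]
    set Q : ℝ := (∫ θ in ang, g2 (circleMap x s θ)) + ε with hQ
    have h1 : Integrable (fun ρ : ℝ => ρ * ∫ θ in ang, F2 (circleMap x ρ θ))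
        (volume.restrict (Ioi 0)) := by
      have := (integrable_polar x hF2m hF2i).integral_prod_left
      refine this.congr (Eventually.of_forall fun ρ => ?_)
      simp only [integral_const_mul]
    have h2 : ∫ ρ in Ioi (0 : ℝ), β ρ * Q = Q := by
      rw [integral_mul_const, hβ1, one_mul]
    rw [← h2]
    refine setIntegral_mono_on h1 (hβi.integrableOn.mul_const Q) measurableSet_Ioi fun ρ hρ => ?_
    have hρ0 : 0 < ρ := hρ
    by_cases hρI : ρ ∈ Ioo s (s + t)
    · have e1 : ρ * ∫ θ in ang, F2 (circleMap x ρ θ) = β ρ * ∫ θ in ang, g2 (circleMap x ρ θ) := by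
        rw [← integral_const_mul, ← integral_const_mul]
        refine integral_congr_ae (Eventually.of_forall fun θ => ?_)
        simp only [hF2g, hg2, hnorm ρ hρ0 θ]
        ring
      rw [e1]
      refine mul_le_mul_of_nonneg_left ?_ (hβ0 ρ)
      have hcρ : Continuous fun θ => g2 (circleMap x ρ θ) := by
        refine continuousOn_univ.1 ?_
        exact hg2U.comp (continuous_circleMap x ρ).continuousOn fun θ _ =>
          (htU ρ (Ioo_subset_Icc_self hρI) θ).1
      have e2 : ∫ θ in ang, g2 (circleMap x ρ θ) ≤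
          ∫ θ in ang, (g2 (circleMap x s θ) + ε / (2 * π)) := by
        refine integral_mono (lra_integrableOn_ang hcρ)
          (lra_integrableOn_ang (hg2c.add continuous_const)) fun θ => ?_
        have := (abs_le.1 (htU ρ (Ioo_subset_Icc_self hρI) θ).2).2
        show g2 (circleMap x ρ θ) ≤ g2 (circleMap x s θ) + ε / (2 * π)
        linarith
      have e3 : ∫ θ in ang, (g2 (circleMap x s θ) + ε / (2 * π)) = Q := by
        rw [integral_add (lra_integrableOn_ang hg2c) (lra_integrableOn_ang continuous_const), hQ]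
        congr 1
        rw [setIntegral_const, smul_eq_mul]
        have : (volume : Measure ℝ).real ang = 2 * π := by
          rw [Measure.real, Real.volume_Ioo, ENNReal.toReal_ofReal (by linarith)]
          ring
        rw [this]
        field_simp
      rw [e3] at e2
      exact e2
    · have e1 : ∀ θ, F2 (circleMap x ρ θ) = 0 := by
        intro θ
        simp only [hF2, hnorm ρ hρ0 θ, hβz ρ hρI, zero_mul]
      simp only [e1, hβz ρ hρI, integral_zero, mul_zero, zero_mul, le_refl]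
  linarith

end Vale.Agent.P128.Q
end

section

/-! Part VI: the decay of the energy defect at a tip and the convergence of the angle. -/

open MeasureTheory Set Metric Filter
open scoped ENNReal NNReal ContDiff Topology Real

namespace Vale.Agent.P128.Q1

open Vale.Agent.P128

theorem inv_sqrt_le {x : ℝ} (h0 : 0 ≤ x) (h1 : x ≤ 1) : 1 / Real.sqrt (1 + x) ≤ 1 - x / 4 := by
  have hs : 0 < Real.sqrt (1 + x) := Real.sqrt_pos.2 (by linarith)
  have hq : 0 ≤ 1 - x / 4 := by linarith
  rw [div_le_iff₀ hs]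
  have h2 : 1 ≤ (1 - x / 4) ^ 2 * (1 + x) := by linarith only [mul_nonneg (sub_nonneg.2 (mul_nonneg h0 (sub_nonneg.2 h1))) (sub_nonneg.2 (mul_nonneg h0 (sub_nonneg.2 h1))), mul_nonneg (sub_nonneg.2 (mul_nonneg h0 h0)) (sub_nonneg.2 (mul_nonneg h0 (sub_nonneg.2 h1))), mul_nonneg (sub_nonneg.2 (mul_nonneg h0 h0)) (sub_nonneg.2 (mul_nonneg h0 h0)), mul_nonneg (sub_nonneg.2 hq) (sub_nonneg.2 (mul_nonneg h0 (sub_nonneg.2 h1)))]
  have h3 : (1 : ℝ) ^ 2 ≤ ((1 - x / 4) * Real.sqrt (1 + x)) ^ 2 := by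
    rw [mul_pow, Real.sq_sqrt (by linarith only [h0])]
    linarith only [h2]
  exact le_of_sq_le_sq h3 (by positivity)

/-- One octave. -/
theorem tip_octave {f p ψ : ℝ → ℝ} {s₁ Λ C : ℝ} (hC : 0 ≤ C)
    (hf0 : ∀ s ∈ Ioc 0 s₁, 0 ≤ f s) (hfΛ : ∀ s ∈ Ioc 0 s₁, f s ≤ Λ * s)
    (hp : ∀ a, 0 < a → a ≤ s₁ → IntervalIntegrable p volume a s₁) (hp0 : ∀ s, 0 < s → 0 ≤ p s)
    (hfp : ∀ s t, 0 < s → s ≤ t → t ≤ s₁ → ∫ r in s..t, p r ≤ f t - f s)
    (hψ : ContinuousOn ψ (Ioc 0 s₁)) (hψ1 : ∀ s ∈ Ioc 0 s₁, |ψ s| ≤ 1)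
    (hlim : Tendsto (fun s => f s / s) (𝓝[>] 0) (𝓝 1))
    (hT : ∀ᵐ s : ℝ, s ∈ Ioo 0 s₁ →
      f s / s ≤ 1 / Real.sqrt (1 + ψ s ^ 2) + 10 * (p s - f s / s) + C * s)
    (hD : ∀ᵐ s : ℝ, s ∈ Ioo 0 s₁ → f s / s ≤ p s + C * s) :
    (∀ s t, 0 < s → s ≤ t → t ≤ s₁ → f s / s + C * s ≤ f t / t + C * t) ∧
    (∀ s, 0 < s → s ≤ s₁ → 1 ≤ f s / s + C * s) ∧
    ∀ s, 0 < s → 2 * s ≤ s₁ → (1 + Real.log 2 / 10) * (f s / s - 1 + C * s) +
      1 / 40 * ∫ r in s..(2 * s), ψ r ^ 2 / r ≤ f (2 * s) / (2 * s) - 1 + C * (2 * s) := by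
  have hsub : ∀ s t, 0 < s → s ≤ t → t ≤ s₁ → IntervalIntegrable p volume s t := by
    intro s t hs hst ht
    refine (hp s hs (hst.trans ht)).mono_set ?_
    rw [uIcc_of_le hst, uIcc_of_le (hst.trans ht)]
    exact Icc_subset_Icc le_rfl ht
  have hmon : ∀ s t, 0 < s → s ≤ t → t ≤ s₁ → f s / s + C * s ≤ f t / t + C * t := by
    intro s t hs hst ht
    rcases hst.eq_or_lt with rfl | hlt
    · exact le_rfl
    have h1 := ratio_growth (γ := fun s => -(C * s)) hs hlt
      (fun r hr => hf0 r ⟨hs.trans_le hr.1, hr.2.trans ht⟩)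
      (fun r hr => hfΛ r ⟨hs.trans_le hr.1, hr.2.trans ht⟩) (hsub s t hs hst ht)
      (fun r hr => hp0 r (hs.trans_le hr.1))
      (fun a b ha hab hb => hfp a b (hs.trans_le ha) hab (hb.trans ht))
      (Continuous.intervalIntegrable (by fun_prop) _ _)
      (by
        filter_upwards [hD] with r hr hr'
        have := hr ⟨hs.trans hr'.1, hr'.2.trans_le ht⟩
        linarith)
    have h2 : ∫ r in s..t, -(C * r) / r = -(C * (t - s)) := by
      have : ∫ r in s..t, -(C * r) / r = ∫ r in s..t, -C := by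
        refine intervalIntegral.integral_congr fun r hr => ?_
        rw [uIcc_of_le hst] at hr
        have hr0 : r ≠ 0 := (hs.trans_le hr.1).ne'
        field_simp
      rw [this, intervalIntegral.integral_const]
      simp; ring
    rw [h2] at h1
    linarith only [h1]
  have hone : ∀ s, 0 < s → s ≤ s₁ → 1 ≤ f s / s + C * s := by
    intro s hs hss
    have h1 : Tendsto (fun r => f r / r + C * r) (𝓝[>] 0) (𝓝 (1 + C * 0)) := by
      refine hlim.add ?_
      exact (tendsto_const_nhds.mul tendsto_id).mono_left nhdsWithin_le_nhds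
    rw [mul_zero, add_zero] at h1
    refine le_of_tendsto h1 ?_
    filter_upwards [Ioc_mem_nhdsGT hs] with r hr
    exact hmon r s hr.1 hr.2 hss
  refine ⟨hmon, hone, fun s hs hss => ?_⟩
  have hlog : 0 < Real.log 2 := Real.log_pos (by norm_num)
  have hlog' : Real.log 2 < 7 / 10 := by linarith only [Real.log_two_lt_d9, hlog]
  have hs2 : s < 2 * s := by linarith
  have hψc : ContinuousOn (fun r => ψ r ^ 2) (uIcc s (2 * s)) := by
    refine (hψ.mono ?_).pow 2
    rw [uIcc_of_le hs2.le]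
    exact fun r hr => ⟨hs.trans_le hr.1, hr.2.trans hss⟩
  have hinv : ContinuousOn (fun r : ℝ => r⁻¹) (uIcc s (2 * s)) := by
    rw [uIcc_of_le hs2.le]
    exact continuousOn_inv₀.mono fun r hr => (hs.trans_le hr.1).ne'
  have h1 := ratio_growth (γ := fun r => (f s / s - 1 + ψ r ^ 2 / 4 - 2 * C * r) / 10) hs hs2
    (fun r hr => hf0 r ⟨hs.trans_le hr.1, hr.2.trans hss⟩)
    (fun r hr => hfΛ r ⟨hs.trans_le hr.1, hr.2.trans hss⟩) (hsub s (2 * s) hs hs2.le hss)
    (fun r hr => hp0 r (hs.trans_le hr.1))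
    (fun a b ha hab hb => hfp a b (hs.trans_le ha) hab (hb.trans hss))
    (ContinuousOn.intervalIntegrable (by
      refine ContinuousOn.div_const ?_ _
      exact (continuousOn_const.add (hψc.div_const 4)).sub (by fun_prop)))
    (by
      filter_upwards [hT] with r hr hr'
      have hr0 : 0 < r := hs.trans hr'.1
      have h2 := hr ⟨hr0, hr'.2.trans_le hss⟩
      have h3 := hmon s r hs hr'.1.le (hr'.2.le.trans hss)
      have h4 := hψ1 r ⟨hr0, hr'.2.le.trans hss⟩
      have h5 := inv_sqrt_le (sq_nonneg (ψ r)) (by rw [← sq_abs]; (by_contra nlg; linarith only [nlg, mul_nonneg (sub_nonneg.2 h4) (sub_nonneg.2 (abs_nonneg (ψ r))), mul_nonneg (sub_nonneg.2 h4) (sub_nonneg.2 h4), mul_pos (sub_pos.2 (not_le.1 nlg)) (sub_pos.2 hlog'), mul_pos (sub_pos.2 (not_le.1 nlg)) (sub_pos.2 hlog)]))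
      have h6 : 0 ≤ C * s := by (clear * - hC hs; positivity)
      linarith only [h6, h5, h3, h2])
  have h2 : ∫ r in s..(2 * s), (f s / s - 1 + ψ r ^ 2 / 4 - 2 * C * r) / 10 / r =
      (f s / s - 1) / 10 * Real.log 2 + 1 / 40 * (∫ r in s..(2 * s), ψ r ^ 2 / r) -
        2 * C * s / 10 := by
    have e1 : ∫ r in s..(2 * s), (f s / s - 1 + ψ r ^ 2 / 4 - 2 * C * r) / 10 / r =
        ∫ r in s..(2 * s), ((f s / s - 1) / 10 * r⁻¹ + 1 / 40 * (ψ r ^ 2 / r) -
          2 * C / 10) := by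
      refine intervalIntegral.integral_congr fun r hr => ?_
      rw [uIcc_of_le hs2.le] at hr
      have hr0 : r ≠ 0 := (hs.trans_le hr.1).ne'
      field_simp
      ring
    have i1 : IntervalIntegrable (fun r : ℝ => (f s / s - 1) / 10 * r⁻¹) volume s (2 * s) :=
      hinv.intervalIntegrable.const_mul _
    have i2 : IntervalIntegrable (fun r : ℝ => 1 / 40 * (ψ r ^ 2 / r)) volume s (2 * s) := by
      refine IntervalIntegrable.const_mul ?_ _
      simp only [div_eq_mul_inv]
      exact (hψc.mul hinv).intervalIntegrable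
    rw [e1, intervalIntegral.integral_sub (i1.add i2) intervalIntegrable_const,
      intervalIntegral.integral_add i1 i2, intervalIntegral.integral_const_mul,
      intervalIntegral.integral_const_mul, integral_inv_of_pos hs (by linarith only [hs2]),
      intervalIntegral.integral_const]
    have : 2 * s / s = 2 := by field_simp
    rw [this]
    simp
    ring
  rw [h2] at h1
  have h3 : 0 ≤ C * s := by positivity
  have h4 : Real.log 2 * (C * s) ≤ 7 / 10 * (C * s) := by
    exact mul_le_mul_of_nonneg_right hlog'.le h3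
  linarith only [h4, h3, h1]

/-- Geometric decay gives a power rate. -/
theorem pow_decay {δ : ℝ → ℝ} {s₁ κ B : ℝ} (hs₁ : 0 < s₁) (hκ : 0 < κ) (hκ1 : κ ≤ 1)
    (hB : ∀ s, 0 < s → s ≤ s₁ → δ s ≤ B) (hB0 : 0 ≤ B)
    (h : ∀ s, 0 < s → 2 * s ≤ s₁ → (1 + κ) * δ s ≤ δ (2 * s)) :
    ∃ c : ℝ, 0 < c ∧ c ≤ 1 ∧ ∀ s, 0 < s → s ≤ s₁ → δ s ≤ B * (2 / s₁) ^ c * s ^ c := by
  have hlog2 : 0 < Real.log 2 := Real.log_pos (by norm_num)
  obtain ⟨c, hc⟩ : ∃ c, c = Real.log (1 + κ) / Real.log 2 := ⟨_, rfl⟩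
  have hc0 : 0 < c := by
    rw [hc]; exact div_pos (Real.log_pos (by linarith)) hlog2
  have hc1 : c ≤ 1 := by
    rw [hc, div_le_one hlog2]
    exact Real.log_le_log (by linarith) (by linarith)
  have h2c : (2 : ℝ) ^ c = 1 + κ := by
    rw [hc, Real.rpow_def_of_pos (by norm_num), mul_div_cancel₀ _ hlog2.ne',
      Real.exp_log (by linarith)]
  have hn : ∀ n : ℕ, ∀ s, 0 < s → 2 ^ n * s ≤ s₁ → (1 + κ) ^ n * δ s ≤ B := by
    intro n
    induction n with
    | zero => intro s hs hss; simpa using hB s hs (by simpa using hss)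
    | succ n ih =>
      intro s hs hss
      have h1 : 2 ^ n * (2 * s) ≤ s₁ := by rw [pow_succ] at hss; linarith
      have h3 : 2 * s ≤ s₁ := by
        have : 1 * (2 * s) ≤ 2 ^ n * (2 * s) := by
          apply mul_le_mul_of_nonneg_right _ (by positivity)
          exact one_le_pow₀ (by norm_num)
        linarith
      have h2 := ih (2 * s) (by positivity) h1
      have h4 := h s hs h3
      calc (1 + κ) ^ (n + 1) * δ s = (1 + κ) ^ n * ((1 + κ) * δ s) := by ring
        _ ≤ (1 + κ) ^ n * δ (2 * s) := mul_le_mul_of_nonneg_left h4 (by positivity)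
        _ ≤ B := h2
  refine ⟨c, hc0, hc1, fun s hs hss => ?_⟩
  obtain ⟨n, hn1, hn2⟩ : ∃ n : ℕ, 2 ^ n * s ≤ s₁ ∧ s₁ < 2 ^ (n + 1) * s := by
    have hex : ∃ n : ℕ, s₁ < 2 ^ n * s := by
      obtain ⟨n, hn⟩ := pow_unbounded_of_one_lt (s₁ / s) (by norm_num : (1 : ℝ) < 2)
      exact ⟨n, by rwa [div_lt_iff₀ hs] at hn⟩
    classical
    obtain ⟨m, hm⟩ : ∃ m, m = Nat.find hex := ⟨_, rfl⟩
    have hm1 : s₁ < 2 ^ m * s := by rw [hm]; exact Nat.find_spec hex
    have hm0 : m ≠ 0 := by
      rintro rfl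
      simp at hm1
      linarith
    obtain ⟨k, rfl⟩ := Nat.exists_eq_succ_of_ne_zero hm0
    refine ⟨k, ?_, hm1⟩
    have := Nat.find_min hex (m := k) (by rw [← hm]; exact Nat.lt_succ_self k)
    exact not_lt.1 this
  have h1 := hn n s hs hn1
  have h3 : (1 + κ) ^ n = ((2 : ℝ) ^ n) ^ c := by
    rw [← h2c, ← Real.rpow_natCast, ← Real.rpow_natCast, ← Real.rpow_mul (by norm_num),
      ← Real.rpow_mul (by norm_num), mul_comm]
  have h4 : s₁ / (2 * s) ≤ 2 ^ n := by
    rw [div_le_iff₀ (by positivity)]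
    rw [pow_succ] at hn2
    linarith
  have h5 : (s₁ / (2 * s)) ^ c ≤ (1 + κ) ^ n := by
    rw [h3]; exact Real.rpow_le_rpow (by positivity) h4 hc0.le
  have h6 : 0 < (s₁ / (2 * s)) ^ c := Real.rpow_pos_of_pos (by positivity) c
  have h7 : B * (2 / s₁) ^ c * s ^ c = B / (s₁ / (2 * s)) ^ c := by
    have h8 : (s₁ / (2 * s))⁻¹ = 2 / s₁ * s := by field_simp
    rw [mul_assoc, ← Real.mul_rpow (by positivity) hs.le, ← h8,
      Real.inv_rpow (by positivity)]
    exact (div_eq_mul_inv _ _).symm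
  rw [h7, le_div_iff₀ h6]
  rcases le_or_gt (δ s) 0 with hd | hd
  · calc δ s * (s₁ / (2 * s)) ^ c ≤ 0 := mul_nonpos_of_nonpos_of_nonneg hd h6.le
      _ ≤ B := hB0
  · calc δ s * (s₁ / (2 * s)) ^ c ≤ δ s * (1 + κ) ^ n := mul_le_mul_of_nonneg_left h5 hd.le
      _ = (1 + κ) ^ n * δ s := mul_comm _ _
      _ ≤ B := h1

/-- Part VI: decay at a tip. -/
theorem tip_decay {f p ψ : ℝ → ℝ} {s₁ Λ C : ℝ} (hs₁ : 0 < s₁) (hC : 0 ≤ C)
    (hf0 : ∀ s ∈ Ioc 0 s₁, 0 ≤ f s) (hfΛ : ∀ s ∈ Ioc 0 s₁, f s ≤ Λ * s)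
    (hp : ∀ a, 0 < a → a ≤ s₁ → IntervalIntegrable p volume a s₁) (hp0 : ∀ s, 0 < s → 0 ≤ p s)
    (hfp : ∀ s t, 0 < s → s ≤ t → t ≤ s₁ → ∫ r in s..t, p r ≤ f t - f s)
    (hψ : ContinuousOn ψ (Ioc 0 s₁)) (hψ1 : ∀ s ∈ Ioc 0 s₁, |ψ s| ≤ 1)
    (hlim : Tendsto (fun s => f s / s) (𝓝[>] 0) (𝓝 1))
    (hT : ∀ᵐ s : ℝ, s ∈ Ioo 0 s₁ →
      f s / s ≤ 1 / Real.sqrt (1 + ψ s ^ 2) + 10 * (p s - f s / s) + C * s)
    (hD : ∀ᵐ s : ℝ, s ∈ Ioo 0 s₁ → f s / s ≤ p s + C * s) :
    ∃ c C' : ℝ, 0 < c ∧ c ≤ 1 ∧ 0 ≤ C' ∧ ∀ s, 0 < s → 2 * s ≤ s₁ →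
      ∫ r in s..(2 * s), ψ r ^ 2 / r ≤ C' * s ^ c := by
  obtain ⟨h1, h2, h3⟩ := tip_octave hC hf0 hfΛ hp hp0 hfp hψ hψ1 hlim hT hD
  have hlog : 0 < Real.log 2 := Real.log_pos (by norm_num)
  have hlog' : Real.log 2 < 7 / 10 := by linarith only [Real.log_two_lt_d9, hlog]
  have hI : ∀ s, 0 < s → 0 ≤ ∫ r in s..(2 * s), ψ r ^ 2 / r := fun s hs =>
    intervalIntegral.integral_nonneg (by linarith) fun r hr => by
      have := hs.trans_le hr.1
      (clear * - this; positivity)
  obtain ⟨B, hB⟩ : ∃ B, B = f s₁ / s₁ - 1 + C * s₁ := ⟨_, rfl⟩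
  have hB0 : 0 ≤ B := by
    have := h2 s₁ hs₁ le_rfl
    rw [hB]; linarith only [this]
  obtain ⟨c, hc0, hc1, hc⟩ := pow_decay (δ := fun s => f s / s - 1 + C * s) (B := B)
    (κ := Real.log 2 / 10) hs₁ (by positivity) (by linarith only [hlog', hlog])
    (fun s hs hss => by
      have := h1 s s₁ hs hss le_rfl
      rw [hB]; linarith only [this]) hB0
    (fun s hs hss => by
      have h4 := h3 s hs hss
      have h5 := hI s hs
      linarith only [h5, h4])
  refine ⟨c, 40 * (B * (2 / s₁) ^ c * 2 ^ c), hc0, hc1, by positivity, fun s hs hss => ?_⟩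
  have h4 := h3 s hs hss
  have h5 := hc (2 * s) (by positivity) hss
  have h6 := h2 s hs (by linarith only [hss, hs])
  rw [Real.mul_rpow (by norm_num) hs.le] at h5
  have h7 : 0 ≤ (1 + Real.log 2 / 10) * (f s / s - 1 + C * s) :=
    mul_nonneg (by positivity) (by linarith only [h6])
  calc ∫ r in s..(2 * s), ψ r ^ 2 / r ≤ 40 * (f (2 * s) / (2 * s) - 1 + C * (2 * s)) := by
        linarith only [h7, h4]
    _ ≤ 40 * (B * (2 / s₁) ^ c * (2 ^ c * s ^ c)) := by linarith only [h5]
    _ = _ := by ring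

/-- The angle converges. -/
theorem angle_conv {φ : ℝ → ℝ} {s₁ c C : ℝ} (hs₁ : 0 < s₁) (hc : 0 < c) (hC : 0 ≤ C)
    (hd : ∀ s ∈ Ioo 0 s₁, DifferentiableAt ℝ φ s)
    (hψ : ContinuousOn (fun s => s * deriv φ s) (Ioo 0 s₁))
    (hI : ∀ s, 0 < s → 2 * s < s₁ → ∫ r in s..(2 * s), (r * deriv φ r) ^ 2 / r ≤ C * s ^ c) :
    ∃ a C' : ℝ, ∀ s ∈ Ioo 0 (s₁ / 2), |φ s - a| ≤ C' * s ^ (c / 2) := by
  have hlog : 0 < Real.log 2 := Real.log_pos (by norm_num)
  obtain ⟨C1, hC1⟩ : ∃ C1, C1 = Real.log 2 / 2 + C / 2 := ⟨_, rfl⟩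
  have hC10 : 0 < C1 := by rw [hC1]; positivity
  -- one octave
  have hstep : ∀ s t, 0 < s → s ≤ t → t ≤ 2 * s → 2 * s < s₁ → |φ t - φ s| ≤ C1 * s ^ (c / 2) := by
    intro s t hs hst ht hss
    have hs2 : s ≤ 2 * s := by linarith
    have hIcc : ∀ b, b ≤ 2 * s → Icc s b ⊆ Ioo 0 s₁ := fun b hb r hr =>
      ⟨hs.trans_le hr.1, (hr.2.trans hb).trans_lt hss⟩
    have hdc : ContinuousOn (deriv φ) (Ioo 0 s₁) := by
      have h1 : ContinuousOn (fun r : ℝ => r⁻¹ * (r * deriv φ r)) (Ioo 0 s₁) :=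
        (continuousOn_inv₀.mono fun r hr => hr.1.ne').mul hψ
      refine h1.congr fun r hr => ?_
      have := hr.1.ne'
      field_simp
    have h1 : ∫ r in s..t, deriv φ r = φ t - φ s :=
      intervalIntegral.integral_eq_sub_of_hasDerivAt (fun r hr => by
        rw [uIcc_of_le hst] at hr
        exact (hd r (hIcc t ht hr)).hasDerivAt) ((hdc.mono (by
          rw [uIcc_of_le hst]; exact hIcc t ht)).intervalIntegrable)
    rw [← h1]
    obtain ⟨l, hl⟩ : ∃ l, l = s ^ (c / 2) := ⟨_, rfl⟩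
    have hl0 : 0 < l := by rw [hl]; exact Real.rpow_pos_of_pos hs _
    have hll : l * l = s ^ c := by
      rw [hl, ← Real.rpow_add hs]; congr 1; ring
    have hinv : ContinuousOn (fun r : ℝ => r⁻¹) (uIcc s (2 * s)) := by
      rw [uIcc_of_le hs2]
      exact continuousOn_inv₀.mono fun r hr => (hs.trans_le hr.1).ne'
    have hψ2 : ContinuousOn (fun r => (r * deriv φ r) ^ 2) (uIcc s (2 * s)) := by
      rw [uIcc_of_le hs2]
      exact (hψ.mono (hIcc _ le_rfl)).pow 2
    have i1 : IntervalIntegrable (fun r : ℝ => l / 2 * r⁻¹) volume s (2 * s) :=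
      hinv.intervalIntegrable.const_mul _
    have i2 : IntervalIntegrable (fun r : ℝ => 1 / (2 * l) * ((r * deriv φ r) ^ 2 / r))
        volume s (2 * s) := by
      refine IntervalIntegrable.const_mul ?_ _
      simp only [div_eq_mul_inv]
      exact (hψ2.mul hinv).intervalIntegrable
    have hpt : ∀ r ∈ Icc s (2 * s), |deriv φ r| ≤ l / 2 * r⁻¹ +
        1 / (2 * l) * ((r * deriv φ r) ^ 2 / r) := by
      intro r hr
      have hr0 : 0 < r := hs.trans_le hr.1
      have e1 : l / 2 * r⁻¹ + 1 / (2 * l) * ((r * deriv φ r) ^ 2 / r) =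
          (l ^ 2 + (r * |deriv φ r|) ^ 2) / (2 * l * r) := by
        rw [mul_pow, mul_pow, sq_abs]
        field_simp
      rw [e1, le_div_iff₀ (by positivity)]
      linarith only [sq_nonneg (l - r * |deriv φ r|)]
    calc |∫ r in s..t, deriv φ r| ≤ ∫ r in s..t, |deriv φ r| :=
          intervalIntegral.abs_integral_le_integral_abs hst
      _ ≤ ∫ r in s..t, (l / 2 * r⁻¹ + 1 / (2 * l) * ((r * deriv φ r) ^ 2 / r)) := by
          refine intervalIntegral.integral_mono_on hst ?_ ?_ fun r hr => hpt r ⟨hr.1, hr.2.trans ht⟩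
          · exact ((hdc.mono (by
              rw [uIcc_of_le hst]; exact hIcc t ht)).intervalIntegrable).abs
          · refine (i1.add i2).mono_set ?_
            rw [uIcc_of_le hst, uIcc_of_le hs2]
            exact Icc_subset_Icc le_rfl ht
      _ ≤ ∫ r in s..(2 * s), (l / 2 * r⁻¹ + 1 / (2 * l) * ((r * deriv φ r) ^ 2 / r)) := by
          refine intervalIntegral.integral_mono_interval le_rfl hst ht ?_ (i1.add i2)
          rw [Filter.EventuallyLE, ae_restrict_iff' measurableSet_Ioc]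
          refine Eventually.of_forall fun r hr => ?_
          have hr0 : 0 < r := hs.trans hr.1
          simp only [Pi.zero_apply]
          (clear * - hl0 hr0; positivity)
      _ = l / 2 * Real.log 2 + 1 / (2 * l) * ∫ r in s..(2 * s), (r * deriv φ r) ^ 2 / r := by
          rw [intervalIntegral.integral_add i1 i2, intervalIntegral.integral_const_mul,
            intervalIntegral.integral_const_mul, integral_inv_of_pos hs (by linarith)]
          have : 2 * s / s = 2 := by field_simp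
          rw [this]
      _ ≤ l / 2 * Real.log 2 + 1 / (2 * l) * (C * (l * l)) := by
          rw [hll]
          have := hI s hs hss
          gcongr
      _ = C1 * s ^ (c / 2) := by
          rw [← hl, hC1]; field_simp
  -- all scales
  obtain ⟨q, hq⟩ : ∃ q, q = (2 : ℝ) ^ (-(c / 2)) := ⟨_, rfl⟩
  have hq0 : 0 < q := by rw [hq]; positivity
  have hq1 : q < 1 := by
    rw [hq]; exact Real.rpow_lt_one_of_one_lt_of_neg (by norm_num) (by linarith)
  have hhalf : ∀ t, 0 < t → (t / 2) ^ (c / 2) = q * t ^ (c / 2) := by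
    intro t ht
    rw [hq, Real.div_rpow ht.le (by norm_num), Real.rpow_neg (by norm_num)]
    ring
  obtain ⟨D, hD⟩ : ∃ D, D = C1 / (1 - q) := ⟨_, rfl⟩
  have h1q : 0 < 1 - q := by linarith
  have hD0 : 0 < D := by rw [hD]; positivity
  have hDC : C1 = D * (1 - q) := by rw [hD]; field_simp
  have hall : ∀ n : ℕ, ∀ s t, 0 < s → s ≤ t → t < s₁ / 2 → t ≤ 2 ^ n * s →
      |φ s - φ t| ≤ D * t ^ (c / 2) := by
    intro n
    induction n with
    | zero =>
      intro s t hs hst ht hts
      have : s = t := le_antisymm hst (by simpa using hts)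
      rw [this, sub_self, abs_zero]
      have : 0 < t := by linarith only [this, hs]
      positivity
    | succ n ih =>
      intro s t hs hst ht hts
      have ht0 : 0 < t := hs.trans_le hst
      rcases le_or_gt t (2 * s) with h2 | h2
      · have h3 := hstep s t hs hst h2 (by linarith)
        rw [abs_sub_comm]
        refine h3.trans ?_
        have h4 : s ^ (c / 2) ≤ t ^ (c / 2) := Real.rpow_le_rpow hs.le hst (by positivity)
        have h5 : C1 ≤ D := by rw [hDC]; (by_contra nlg; linarith only [nlg, mul_eq_zero_of_left (sub_eq_zero.2 hDC) (q - (0)), mul_pos (sub_pos.2 hC10) (sub_pos.2 hq0), mul_pos (sub_pos.2 (not_le.1 nlg)) (sub_pos.2 h1q)])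
        exact mul_le_mul h5 h4 (by positivity) hD0.le
      · have h3 := ih s (t / 2) hs (by linarith) (by linarith) (by
          rw [pow_succ] at hts; linarith)
        have h4 := hstep (t / 2) t (by linarith) (by linarith only [h2, hs]) (by linarith) (by linarith only [h2, ht, hs])
        rw [hhalf t ht0] at h3 h4
        have h5 : |φ s - φ t| ≤ |φ s - φ (t / 2)| + |φ t - φ (t / 2)| := by
          have := abs_sub_le (φ s) (φ (t / 2)) (φ t)
          rwa [abs_sub_comm (φ (t / 2))] at this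
        refine h5.trans ((add_le_add h3 h4).trans ?_)
        have h6 : 0 < t ^ (c / 2) := Real.rpow_pos_of_pos ht0 _
        have h7 : D * (q * t ^ (c / 2)) + C1 * (q * t ^ (c / 2)) =
            (D * q + C1 * q) * t ^ (c / 2) := by ring
        rw [h7]
        refine mul_le_mul_of_nonneg_right ?_ h6.le
        rw [hDC]
        linarith only [mul_pos hD0 (mul_pos h1q h1q)]
  have hall' : ∀ s t, 0 < s → s ≤ t → t < s₁ / 2 → |φ s - φ t| ≤ D * t ^ (c / 2) := by
    intro s t hs hst ht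
    obtain ⟨n, hn⟩ := pow_unbounded_of_one_lt (t / s) (by norm_num : (1 : ℝ) < 2)
    rw [div_lt_iff₀ hs] at hn
    exact hall n s t hs hst ht hn.le
  -- the limit
  obtain ⟨x, hx⟩ : ∃ x : ℕ → ℝ, x = fun n => s₁ / 4 * (1 / 2) ^ n := ⟨_, rfl⟩
  have hx0 : ∀ n, 0 < x n := fun n => by rw [hx]; positivity
  have hxt : Tendsto x atTop (𝓝 0) := by
    rw [hx]
    have := (tendsto_pow_atTop_nhds_zero_of_lt_one (by norm_num : (0 : ℝ) ≤ 1 / 2)
      (by norm_num)).const_mul (s₁ / 4)
    simpa using this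
  have hxa : Antitone x := by
    rw [hx]
    intro a b hab
    simp only
    have := pow_le_pow_of_le_one (by norm_num : (0 : ℝ) ≤ 1 / 2) (by norm_num) hab
    gcongr
  have hxl : ∀ n, x n < s₁ / 2 := by
    intro n
    have h1 := hxa (Nat.zero_le n)
    have h2 : x 0 = s₁ / 4 := by rw [hx]; simp
    linarith only [h2, h1, hs₁]
  have hcau : CauchySeq fun n => φ (x n) := by
    refine cauchySeq_of_le_tendsto_0 (fun n => D * x n ^ (c / 2)) ?_ ?_
    · intro m n N hm hn
      rw [Real.dist_eq]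
      rcases le_total m n with h1 | h1
      · rw [abs_sub_comm]
        have h2 := hall' (x n) (x m) (hx0 n) (hxa h1) (hxl m)
        have h3 : x m ^ (c / 2) ≤ x N ^ (c / 2) :=
          Real.rpow_le_rpow (hx0 m).le (hxa hm) (by positivity)
        exact h2.trans (mul_le_mul_of_nonneg_left h3 hD0.le)
      · have h2 := hall' (x m) (x n) (hx0 m) (hxa h1) (hxl n)
        have h3 : x n ^ (c / 2) ≤ x N ^ (c / 2) :=
          Real.rpow_le_rpow (hx0 n).le (hxa hn) (by positivity)
        exact h2.trans (mul_le_mul_of_nonneg_left h3 hD0.le)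
    · have h1 : Tendsto (fun n => x n ^ (c / 2)) atTop (𝓝 (0 ^ (c / 2))) :=
        (Real.continuousAt_rpow_const 0 (c / 2) (Or.inr (by positivity))).tendsto.comp hxt
      rw [Real.zero_rpow (by positivity)] at h1
      simpa using h1.const_mul D
  obtain ⟨a, ha⟩ := cauchySeq_tendsto_of_complete hcau
  refine ⟨a, D, fun s hs => ?_⟩
  have h1 : Tendsto (fun n => |φ s - φ (x n)|) atTop (𝓝 |φ s - a|) :=
    (tendsto_const_nhds.sub ha).abs
  refine le_of_tendsto h1 ?_
  filter_upwards [hxt.eventually (gt_mem_nhds hs.1)] with n hn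
  rw [abs_sub_comm]
  exact hall' (x n) s (hx0 n) (le_of_lt hn) hs.2

end Vale.Agent.P128.Q1
end
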