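import Vale.Agent.P128.MathlibUsed
import Vale.Agent.P128.Bdl.K_GM_D_NetDefs
import Vale.Agent.P128.Bdl.B6
import Vale.Agent.P128.Bdl.B5
import Vale.Agent.P128.Bdl.B2
import Vale.Agent.P128.Bdl.B8
import Vale.Agent.P128.Bdl.K_GM_Defs
import Vale.Agent.P128.Bdl.B9

set_option linter.all false

section

/-! D-02 (GM/D/Janis.lean) : removing a compact piece does not change the separation -/

open MeasureTheory Set Metric Filter InnerProductSpace
open scoped ENNReal NNReal ContDiff Topology Real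

namespace Vale.Agent.P128.GM

open Vale.Agent.P128

variable {u : ℂ → ℝ} {G : ℂ → ℂ} {K L A W : Set ℂ} {η w : ℂ → ℝ} {δ : ℝ}

/-- the complement of a disk is preconnected -/
private theorem janis_compl_ball (R : ℝ) : IsPreconnected ((ball (0 : ℂ) R)ᶜ) := by
  rcases le_or_gt R 0 with hR | hR
  · rw [ball_eq_empty.2 hR, compl_empty]
    exact isPreconnected_univ
  · have h1 : (ball (0 : ℂ) R)ᶜ =
        (fun p : ℝ × ℝ => (p.1 : ℂ) * (Circle.exp p.2 : ℂ)) '' (Ici R ×ˢ univ) := by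
      ext z
      constructor
      · intro hz
        have hz' : R ≤ ‖z‖ := by
          rw [mem_compl_iff, mem_ball, dist_zero_right, not_lt] at hz
          exact hz
        refine ⟨(‖z‖, Complex.arg z), ⟨hz', mem_univ _⟩, ?_⟩
        show (‖z‖ : ℂ) * (Circle.exp (Complex.arg z) : ℂ) = z
        rw [Circle.coe_exp]
        exact Complex.norm_mul_exp_arg_mul_I z
      · rintro ⟨p, ⟨hp, -⟩, rfl⟩
        have hp' : R ≤ p.1 := hp
        rw [mem_compl_iff, mem_ball, dist_zero_right, not_lt, norm_mul, Circle.norm_coe, mul_one,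
          Complex.norm_real, Real.norm_eq_abs]
        exact hp'.trans (le_abs_self _)
    rw [h1]
    refine IsPreconnected.image ?_ _ ?_
    · exact isPreconnected_Ici.prod isPreconnected_univ
    · refine Continuous.continuousOn ?_
      fun_prop

/-- cutting off a function along the component `V` is harmless where the function vanishes near
the frontier -/
private theorem janis_cut (hK : IsClosed K) (z : ℂ) {r : ℂ → ℝ} (hr : Continuous r) {B : Set ℂ}
    (h0 : ∀ x ∈ K, x ∉ B → ∀ᶠ y in 𝓝 x, r y = 0) :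
    ContinuousOn (fun x => by
      classical exact if x ∈ connectedComponentIn Kᶜ z then r x else 0) Bᶜ := by
  classical
  intro x hx
  refine ContinuousAt.continuousWithinAt ?_
  show ContinuousAt (fun x => if x ∈ connectedComponentIn Kᶜ z then r x else 0) x
  have hKo : IsOpen Kᶜ := hK.isOpen_compl
  by_cases hxK : x ∈ K
  · have h1 : (fun x => if x ∈ connectedComponentIn Kᶜ z then r x else 0) =ᶠ[𝓝 x] fun _ => 0 := by
      filter_upwards [h0 x hxK hx] with y hy
      rw [hy, ite_self]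
    exact (continuousAt_congr h1).2 continuousAt_const
  · have hVo : IsOpen (connectedComponentIn Kᶜ z) := hKo.connectedComponentIn
    by_cases hxV : x ∈ connectedComponentIn Kᶜ z
    · have h1 : (fun x => if x ∈ connectedComponentIn Kᶜ z then r x else 0) =ᶠ[𝓝 x] r := by
        filter_upwards [hVo.mem_nhds hxV] with y hy
        rw [if_pos hy]
      exact (continuousAt_congr h1).2 hr.continuousAt
    · have hWo : IsOpen (connectedComponentIn Kᶜ x) := hKo.connectedComponentIn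
      have h1 : (fun x => if x ∈ connectedComponentIn Kᶜ z then r x else 0) =ᶠ[𝓝 x] fun _ => 0 := by
        filter_upwards [hWo.mem_nhds (mem_connectedComponentIn hxK)] with y hy
        rw [if_neg]
        intro hy'
        refine hxV ?_
        rw [connectedComponentIn_eq hy', ← connectedComponentIn_eq hy]
        exact mem_connectedComponentIn hxK
      exact (continuousAt_congr h1).2 continuousAt_const

/-- a continuous function with values in `2 π ℤ` is constant on preconnected sets -/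
private theorem janis_const {S : Set ℂ} (hS : IsPreconnected S) {f : ℂ → ℝ} (hf : ContinuousOn f S)
    (hv : ∀ x, ∃ n : ℤ, f x = n * (2 * π)) {x y : ℂ} (hx : x ∈ S) (hy : y ∈ S) : f x = f y := by
  refine hS.constant_of_mapsTo (T := (AddSubgroup.zmultiples (2 * π) : Set ℝ)) ?_ hf ?_ hx hy
  · exact ⟨(inferInstance : DiscreteTopology (AddSubgroup.zmultiples (2 * π)))⟩
  · intro x _
    obtain ⟨n, hn⟩ := hv x
    rw [SetLike.mem_coe, AddSubgroup.mem_zmultiples_iff]
    exact ⟨n, by rw [hn, zsmul_eq_mul]⟩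

theorem SepOut.of_piece (hK : IsClosed K) (hA : IsCompact A) (hAK : A ⊆ K) (ho : IsClosed (K \ A))
    (hL : K \ A ⊆ L) {R : ℝ} (hR : A ⊆ ball 0 R) : SepOut K L (ball 0 R) := by
  classical
  intro z z' hzL hzR hz'R hz'
  by_contra hcon
  -- the component in the complement of the rest
  have hF : Lᶜ ⊆ (K \ A)ᶜ := compl_subset_compl.2 hL
  have hz1 : z' ∈ connectedComponentIn (K \ A)ᶜ z := connectedComponentIn_mono z hF hz'
  have hzF : z ∈ (K \ A)ᶜ := hF hzL
  have hzA : z ∉ A := fun h => hzR (hR h)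
  have hzK : z ∈ Kᶜ := fun h => hzF ⟨h, hzA⟩
  -- a Urysohn function
  have hdis : Disjoint A (K \ A) := disjoint_sdiff_self_right
  obtain ⟨δ, hδ, hdis'⟩ := hdis.exists_cthickenings hA ho
  obtain ⟨ρ, hρ0, hρ1, -⟩ := exists_continuous_zero_one_of_isClosed
    (isClosed_cthickening (δ := δ) (E := A)) (isClosed_cthickening (δ := δ) (E := K \ A)) hdis'
  have hρA : ∀ x ∈ A, ∀ᶠ y in 𝓝 x, ρ y = 0 := by
    intro x hx
    have : cthickening δ A ∈ 𝓝 x :=
      mem_of_superset (isOpen_thickening.mem_nhds (self_subset_thickening hδ A hx))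
        (thickening_subset_cthickening δ A)
    filter_upwards [this] with y hy
    exact hρ0 hy
  have hρF : ∀ x ∈ K \ A, ∀ᶠ y in 𝓝 x, ρ y = 1 := by
    intro x hx
    have : cthickening δ (K \ A) ∈ 𝓝 x :=
      mem_of_superset (isOpen_thickening.mem_nhds (self_subset_thickening hδ _ hx))
        (thickening_subset_cthickening δ _)
    filter_upwards [this] with y hy
    exact hρ1 hy
  -- the two cut-off functions
  set V := connectedComponentIn Kᶜ z with hV
  set a : ℂ → ℝ := fun x => if x ∈ V then ρ x else 0 with ha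
  set b : ℂ → ℝ := fun x => if x ∈ V then ρ x - 1 else 0 with hb
  have haF : ContinuousOn a (K \ A)ᶜ := by
    refine janis_cut hK z ρ.continuous ?_
    intro x hxK hxF
    refine hρA x ?_
    by_contra hxA
    exact hxF ⟨hxK, hxA⟩
  have hbA : ContinuousOn b Aᶜ := by
    refine janis_cut hK z (ρ.continuous.sub continuous_const) ?_
    intro x hxK hxA
    filter_upwards [hρF x ⟨hxK, hxA⟩] with y hy
    show ρ y - 1 = 0
    rw [hy, sub_self]
  have hab : ∀ x, Circle.exp (2 * π * a x) = Circle.exp (2 * π * b x) := by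
    intro x
    by_cases hx : x ∈ V
    · simp only [ha, hb, if_pos hx]
      rw [Circle.exp_eq_exp]
      exact ⟨1, by push_cast; ring⟩
    · simp only [ha, hb, if_neg hx]
  have hcont : Continuous fun x => Circle.exp (2 * π * a x) := by
    rw [continuous_iff_continuousAt]
    intro x
    by_cases hxA : x ∈ A
    · have hx : x ∈ (K \ A)ᶜ := fun h => h.2 hxA
      have h1 := haF.continuousAt (ho.isOpen_compl.mem_nhds hx)
      exact Circle.exp.continuous.continuousAt.comp (h1.const_mul (2 * π))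
    · have h1 := hbA.continuousAt (hA.isClosed.isOpen_compl.mem_nhds hxA)
      have h2 : ContinuousAt (fun x => Circle.exp (2 * π * b x)) x :=
        Circle.exp.continuous.continuousAt.comp (h1.const_mul (2 * π))
      simp_rw [hab]
      exact h2
  -- the lift
  obtain ⟨g, ⟨-, hg⟩, -⟩ := Circle.isCoveringMap_exp.existsUnique_continuousMap_lifts
    ⟨fun x => Circle.exp (2 * π * a x), hcont⟩ z (2 * π * a z) rfl
  have hga : ∀ x, Circle.exp (g x) = Circle.exp (2 * π * a x) := fun x => congrFun hg x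
  have e1 : g z - 2 * π * a z = g z' - 2 * π * a z' := by
    refine janis_const (S := connectedComponentIn (K \ A)ᶜ z)
      (f := fun x => g x - 2 * π * a x) isPreconnected_connectedComponentIn ?_ ?_
      (mem_connectedComponentIn hzF) hz1
    · exact (g.continuous.continuousOn.sub (continuousOn_const.mul haF)).mono
        (connectedComponentIn_subset _ _)
    · intro x
      obtain ⟨n, hn⟩ := Circle.exp_eq_exp.1 (hga x)
      exact ⟨n, by rw [hn]; ring⟩
  have e2 : g z - 2 * π * b z = g z' - 2 * π * b z' := by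
    refine janis_const (S := (ball (0 : ℂ) R)ᶜ)
      (f := fun x => g x - 2 * π * b x) (janis_compl_ball R) ?_ ?_ hzR hz'R
    · exact (g.continuous.continuousOn.sub (continuousOn_const.mul hbA)).mono
        (compl_subset_compl.2 hR)
    · intro x
      obtain ⟨n, hn⟩ := Circle.exp_eq_exp.1 ((hga x).trans (hab x))
      exact ⟨n, by rw [hn]; ring⟩
  have hzV : z ∈ V := mem_connectedComponentIn hzK
  simp only [ha, hb, if_pos hzV, if_neg hcon] at e1 e2
  have := Real.pi_pos
  linarith only [this, e2, e1]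

end Vale.Agent.P128.GM
end

section

/-! P128, Q1, Part II, conclusion: continuity of the model functions, uniform convergence of
monotone functions. -/

open MeasureTheory Set Metric Filter
open scoped ENNReal NNReal Topology Real

namespace Vale.Agent.P128.Q1

open Vale.Agent.P128

/-- Continuity of the integral over disks. -/
theorem continuousAt_int_ball {μ : Measure ℂ} {f : ℂ → ℝ} {s : ℝ}
    (hf : IntegrableOn f (ball 0 (s + 1)) μ) (h0 : μ (sphere 0 s) = 0) :
    ContinuousAt (fun t => ∫ z in ball (0 : ℂ) t, f z ∂μ) s := by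
  have e1 : (fun t => ∫ z in ball (0 : ℂ) t, f z ∂μ) =
      fun t => ∫ z, (ball (0 : ℂ) t).indicator f z ∂μ := by
    funext t
    rw [integral_indicator measurableSet_ball]
  rw [e1]
  have hlt : ∀ᶠ t : ℝ in 𝓝 s, t < s + 1 := gt_mem_nhds (by linarith)
  refine continuousAt_of_dominated (bound := (ball (0 : ℂ) (s + 1)).indicator fun z => ‖f z‖)
    ?_ ?_ ?_ ?_
  · filter_upwards [hlt] with t ht
    exact (aestronglyMeasurable_indicator_iff measurableSet_ball).2
      (hf.mono_set (ball_subset_ball ht.le)).aestronglyMeasurable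
  · filter_upwards [hlt] with t ht
    refine Eventually.of_forall fun z => ?_
    by_cases hz : z ∈ ball (0 : ℂ) t
    · rw [indicator_of_mem hz, indicator_of_mem (ball_subset_ball ht.le hz)]
    · rw [indicator_of_notMem hz, norm_zero]
      exact indicator_nonneg (fun _ _ => norm_nonneg _) z
  · exact (integrable_indicator_iff measurableSet_ball).2 hf.norm
  · have h1 : ∀ᵐ z ∂μ, z ∉ sphere (0 : ℂ) s := measure_eq_zero_iff_ae_notMem.1 h0
    filter_upwards [h1] with z hz
    have hz' : ‖z‖ ≠ s := by simpa using hz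
    rcases lt_or_gt_of_ne hz' with h | h
    · refine (continuousAt_const (y := f z)).congr ?_
      filter_upwards [lt_mem_nhds h] with t ht
      rw [indicator_of_mem]
      simpa using ht
    · refine (continuousAt_const (y := (0 : ℝ))).congr ?_
      filter_upwards [gt_mem_nhds h] with t ht
      rw [indicator_of_notMem]
      simpa using ht.le

/-- Uniform convergence of monotone functions to a continuous function. -/
theorem unif_of_mono {F : ℝ → ℝ} {a b : ℝ} (ha : 0 < a) (hF : ContinuousOn F (Ioi 0))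
    {f : ℕ → ℝ → ℝ} (hmono : ∀ j, Monotone (f j))
    (hlo : ∀ s, 0 < s → ∀ ε > 0, ∀ᶠ j in atTop, F s - ε ≤ f j s)
    (hup : ∀ s, 0 < s → ∀ ε > 0, ∀ᶠ j in atTop, f j s ≤ F s + ε) {ε : ℝ} (hε : 0 < ε) :
    ∀ᶠ j in atTop, ∀ s ∈ Icc a b, |f j s - F s| ≤ ε := by
  refine isCompact_Icc.induction_on (p := fun S => ∀ᶠ j in atTop, ∀ s ∈ S, |f j s - F s| ≤ ε)
    ?_ ?_ ?_ ?_
  · exact Eventually.of_forall fun j s hs => absurd hs (notMem_empty s)
  · intro S T hST h
    filter_upwards [h] with j hj s hs using hj s (hST hs)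
  · intro S T hS hT
    filter_upwards [hS, hT] with j h1 h2 s hs
    rcases hs with hs | hs
    · exact h1 s hs
    · exact h2 s hs
  · intro s hs
    have hs0 : 0 < s := ha.trans_le hs.1
    have hc : ContinuousAt F s := hF.continuousAt (Ioi_mem_nhds hs0)
    obtain ⟨δ, hδ, hδF⟩ := Metric.continuousAt_iff.1 hc (ε / 4) (by positivity)
    obtain ⟨η, hη0, hη1, hη2⟩ : ∃ η, 0 < η ∧ η < δ ∧ η < s :=
      ⟨min δ s / 2, by positivity, by linarith [min_le_left δ s, lt_min hδ hs0],
        by linarith [min_le_right δ s, lt_min hδ hs0]⟩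
    have hlo' := hlo (s - η) (by linarith) (ε / 4) (by positivity)
    have hup' := hup (s + η) (by linarith) (ε / 4) (by positivity)
    refine ⟨Ioo (s - η) (s + η), mem_nhdsWithin_of_mem_nhds
      (Ioo_mem_nhds (by linarith) (by linarith)), ?_⟩
    filter_upwards [hlo', hup'] with j h1 h2 t ht
    have h3 := hmono j ht.1.le
    have h4 := hmono j ht.2.le
    have k1 : |F (s - η) - F s| < ε / 4 := by
      have := hδF (x := s - η) (by rw [Real.dist_eq]; rw [abs_lt]; constructor <;> linarith)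
      rwa [Real.dist_eq] at this
    have k2 : |F (s + η) - F s| < ε / 4 := by
      have := hδF (x := s + η) (by rw [Real.dist_eq]; rw [abs_lt]; constructor <;> linarith)
      rwa [Real.dist_eq] at this
    have k3 : |F t - F s| < ε / 4 := by
      have := hδF (x := t) (by
        rw [Real.dist_eq, abs_lt]
        constructor <;> linarith [ht.1, ht.2])
      rwa [Real.dist_eq] at this
    rw [abs_lt] at k1 k2 k3
    rw [abs_le]
    constructor <;> linarith

/-! ### Circles and models -/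

theorem line_sphere_finite (x a : ℂ) (ha : ‖a‖ = 1) (s : ℝ) :
    ({z : ℂ | ∃ t : ℝ, z = x + t * a} ∩ sphere 0 s).Finite := by
  set b : ℝ := x.re * a.re + x.im * a.im with hb
  set d : ℝ := b ^ 2 - (x.re ^ 2 + x.im ^ 2) + s ^ 2 with hd
  have ha2 : a.re ^ 2 + a.im ^ 2 = 1 := by
    have h1 := Complex.sq_norm a
    rw [ha, Complex.normSq_apply] at h1
    linarith
  refine (Set.toFinite ({x + ((-b + √d : ℝ) : ℂ) * a, x + ((-b - √d : ℝ) : ℂ) * a} : Set ℂ)).subset
    ?_
  rintro z ⟨⟨t, rfl⟩, hz⟩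
  have hz1 : ‖x + t * a‖ = s := by simpa using hz
  have h2 : (t + b) ^ 2 = d := by
    have h3 := Complex.sq_norm (x + t * a)
    rw [hz1, Complex.normSq_apply] at h3
    simp only [Complex.add_re, Complex.mul_re, Complex.ofReal_re, Complex.ofReal_im, zero_mul,
      sub_zero, Complex.add_im, Complex.mul_im, add_zero] at h3
    rw [hd, hb]
    have h4 : s ^ 2 = x.re ^ 2 + x.im ^ 2 + 2 * t * (x.re * a.re + x.im * a.im) +
        t ^ 2 * (a.re ^ 2 + a.im ^ 2) := by rw [h3]; ring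
    rw [ha2] at h4
    rw [h4]; ring
  have h5 : √d = |t + b| := by rw [← h2, Real.sqrt_sq_eq_abs]
  rcases le_total 0 (t + b) with h | h
  · left
    rw [h5, abs_of_nonneg h]
    congr 2
    push_cast; ring
  · right
    rw [mem_singleton_iff, h5, abs_of_nonpos h]
    congr 2
    push_cast; ring

/-- half-lines -/
def IsHalfLine (L : Set ℂ) : Prop :=
  ∃ x a : ℂ, ‖a‖ = 1 ∧ L = {z | ∃ t : ℝ, 0 ≤ t ∧ z = x - t * a}

theorem model_sphere_finite {L : Set ℂ} (hL : GM.IsLine L ∨ GM.IsPropeller L ∨ IsHalfLine L)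
    (s : ℝ) : (L ∩ sphere 0 s).Finite := by
  rcases hL with ⟨x, a, ha, rfl⟩ | ⟨x, a, b, c, ha, hb, hc, -, rfl⟩ | ⟨x, a, ha, rfl⟩
  · exact line_sphere_finite x a ha s
  · refine (((line_sphere_finite x a ha s).union (line_sphere_finite x b hb s)).union
      (line_sphere_finite x c hc s)).subset ?_
    rintro z ⟨⟨t, -, h | h | h⟩, hz⟩
    · exact Or.inl (Or.inl ⟨⟨t, h⟩, hz⟩)
    · exact Or.inl (Or.inr ⟨⟨t, h⟩, hz⟩)
    · exact Or.inr ⟨⟨t, h⟩, hz⟩
  · refine (line_sphere_finite x a ha s).subset ?_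
    rintro z ⟨⟨t, -, h⟩, hz⟩
    refine ⟨⟨-t, ?_⟩, hz⟩
    rw [h]; push_cast; ring

theorem model_sphere_null {L : Set ℂ} (hL : GM.IsLine L ∨ GM.IsPropeller L ∨ IsHalfLine L)
    (s : ℝ) : μH[1] (L ∩ sphere 0 s) = 0 := by
  have : NullSingletonClass (μH[1] : Measure ℂ) :=
    Measure.nullSingletonClass_hausdorff ℂ one_pos
  exact (model_sphere_finite hL s).measure_zero _

theorem model_Hn {L : Set ℂ} (hL : GM.IsLine L ∨ GM.IsPropeller L ∨ IsHalfLine L) (s : ℝ) :
    Hn L 0 s = (μH[1] (L ∩ ball 0 s)).toReal := by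
  unfold Hn
  congr 1
  refine le_antisymm ?_ (measure_mono (inter_subset_inter_right _ ball_subset_closedBall))
  calc μH[1] (L ∩ closedBall 0 s) ≤ μH[1] ((L ∩ ball 0 s) ∪ (L ∩ sphere 0 s)) := by
        refine measure_mono ?_
        rw [← inter_union_distrib_left, ball_union_sphere]
    _ ≤ μH[1] (L ∩ ball 0 s) + μH[1] (L ∩ sphere 0 s) := measure_union_le _ _
    _ = μH[1] (L ∩ ball 0 s) := by rw [model_sphere_null hL s, add_zero]

theorem model_Hn_cont {L : Set ℂ} (hL : GM.IsLine L ∨ GM.IsPropeller L ∨ IsHalfLine L)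
    (hfin : ∀ s, μH[1] (L ∩ ball 0 s) < ⊤) : Continuous (Hn L 0) := by
  have e1 : Hn L 0 = fun s => ∫ z in ball (0 : ℂ) s, (1 : ℝ) ∂((μH[1] : Measure ℂ).restrict L) := by
    funext s
    rw [model_Hn hL s, integral_const, smul_eq_mul, mul_one, Measure.real,
      Measure.restrict_apply_univ, Measure.restrict_apply measurableSet_ball, inter_comm]
  rw [e1, continuous_iff_continuousAt]
  intro s
  refine continuousAt_int_ball ?_ ?_
  · refine integrableOn_const ?_
    rw [Measure.restrict_apply measurableSet_ball, inter_comm]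
    exact (hfin _).ne
  · rw [Measure.restrict_apply isClosed_sphere.measurableSet, inter_comm]
    exact model_sphere_null hL s

end Vale.Agent.P128.Q1
end

section

/-! Right limits of energy and length, choice of a good radius. -/

open MeasureTheory Set Metric Filter
open scoped ENNReal NNReal ContDiff Topology Real

namespace Vale.Agent.P128.Q

open Vale.Agent.P128
open Vale.Agent.P128.GM (LocLip genergy IsGlobalMin W12loc)

/-- almost every circle about `z` meets `K₀` in a finite set -/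
theorem ae_finite_sphere_of_len {K₀ : Set ℂ} (z : ℂ) (h : ∀ r, μH[1] (K₀ ∩ ball z r) < ⊤) :
    ∀ᵐ s : ℝ, (K₀ ∩ sphere z s).Finite := by
  have hL : LipschitzWith 1 fun y : ℂ => dist y z := by
    have := LipschitzWith.dist_left (α := ℂ) z
    simpa using this
  have key : ∀ n : ℕ, volume {s : ℝ | s < n ∧ (K₀ ∩ sphere z s).Infinite} = 0 := by
    intro n
    by_contra h0
    obtain ⟨m, hm⟩ := ENNReal.exists_nat_mul_gt h0 (h n).ne
    have h1 := eilenberg (X := ℂ) hL (E := K₀) (m := m)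
      (S := {s : ℝ | s < n ∧ (K₀ ∩ sphere z s).Infinite}) (fun s hs => by
        have h3 : K₀ ∩ (fun y : ℂ => dist y z) ⁻¹' {s} = K₀ ∩ sphere z s := by
          ext y; rfl
        rw [h3, hs.2.encard_eq]
        exact le_top)
    refine absurd (hm.trans_le (h1.trans (measure_mono ?_))) (lt_irrefl _)
    rintro y ⟨hy, hy'⟩
    exact ⟨hy, hy'.1⟩
  have h2 : ∀ᵐ s : ℝ, ∀ n : ℕ, ¬ (s < n ∧ (K₀ ∩ sphere z s).Infinite) := by
    rw [ae_all_iff]
    intro n
    rw [ae_iff]
    simpa using key n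
  filter_upwards [h2] with s hs
  obtain ⟨n, hn⟩ := exists_nat_gt s
  by_contra hinf
  exact hs n ⟨hn, hinf⟩

/-- right limits of the length -/
theorem tendsto_len_right {K₀ : Set ℂ} (hK : IsClosed K₀) {z : ℂ}
    (h : ∀ r, μH[1] (K₀ ∩ ball z r) < ⊤) (s : ℝ) :
    Tendsto (fun t => len K₀ z t) (𝓝[>] s) (𝓝 (μH[1] (K₀ ∩ closedBall z s)).toReal) := by
  have h1 := tendsto_measure_biInter_gt (μ := μH[1]) (s := fun t : ℝ => K₀ ∩ ball z t) (a := s)
    (fun t _ => (hK.measurableSet.inter measurableSet_ball).nullMeasurableSet)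
    (fun i j _ hij => inter_subset_inter_right _ (ball_subset_ball hij))
    ⟨s + 1, by simp, (h _).ne⟩
  have h2 : (⋂ t > s, K₀ ∩ ball z t) = K₀ ∩ closedBall z s := by
    ext y
    simp only [mem_iInter, mem_inter_iff, mem_ball, mem_closedBall]
    constructor
    · intro hy
      refine ⟨(hy (s + 1) (by simp)).1, ?_⟩
      refine le_of_forall_gt_imp_ge_of_dense fun t ht => (hy t ht).2.le
    · rintro ⟨hy1, hy2⟩ t ht
      exact ⟨hy1, hy2.trans_lt ht⟩
  rw [h2] at h1
  have h3 : μH[1] (K₀ ∩ closedBall z s) ≠ ⊤ := by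
    refine ((measure_mono ?_).trans_lt (h (s + 1))).ne
    exact inter_subset_inter_right _ (closedBall_subset_ball (by linarith))
  exact (ENNReal.tendsto_toReal h3).comp h1

/-- right limits of the energy -/
theorem tendsto_dir_right {u₀ : ℂ → ℝ} {z : ℂ}
    (hi : ∀ r, IntegrableOn (fun y => ‖grad u₀ y‖ ^ 2) (ball z r)) (s : ℝ) :
    Tendsto (fun t => dir u₀ z t) (𝓝[>] s) (𝓝 (dir u₀ z s)) := by
  set f : ℂ → ℝ := fun y => ‖grad u₀ y‖ ^ 2 with hf
  have hfm : Measurable f := (GM.measurable_grad u₀).norm.pow_const 2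
  have hf0 : ∀ y, 0 ≤ f y := fun y => sq_nonneg _
  have e1 : ∀ t, dir u₀ z t = ∫ y, (ball z t).indicator f y := fun t => by
    rw [integral_indicator measurableSet_ball]
    rfl
  have e2 : dir u₀ z s = ∫ y, (closedBall z s).indicator f y := by
    rw [e1]
    refine integral_congr_ae ?_
    have h1 : ∀ᵐ y : ℂ, y ∉ sphere z s :=
      measure_eq_zero_iff_ae_notMem.1 (Measure.addHaar_sphere (volume : Measure ℂ) z s)
    filter_upwards [h1] with y hy
    by_cases h2 : y ∈ ball z s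
    · rw [indicator_of_mem h2, indicator_of_mem (ball_subset_closedBall h2)]
    · rw [indicator_of_notMem h2, indicator_of_notMem]
      intro h3
      exact hy (le_antisymm h3 (not_lt.1 h2))
  rw [e2]
  simp_rw [e1]
  refine tendsto_integral_filter_of_dominated_convergence ((ball z (s + 1)).indicator f) ?_ ?_
    ?_ ?_
  · exact Eventually.of_forall fun t => (hfm.indicator measurableSet_ball).aestronglyMeasurable
  · have h1 : ∀ᶠ t : ℝ in 𝓝[>] s, t < s + 1 :=
      nhdsWithin_le_nhds (eventually_lt_nhds (by linarith))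
    filter_upwards [h1] with t ht
    refine ae_of_all _ fun y => ?_
    rw [Real.norm_of_nonneg (indicator_nonneg (fun y _ => hf0 y) y)]
    exact indicator_le_indicator_of_subset (ball_subset_ball ht.le) hf0 y
  · exact (integrable_indicator_iff measurableSet_ball).2 (hi (s + 1))
  · refine ae_of_all _ fun y => ?_
    by_cases hy : y ∈ closedBall z s
    · rw [indicator_of_mem hy]
      refine tendsto_const_nhds.congr' ?_
      filter_upwards [self_mem_nhdsWithin] with t ht
      have ht' : s < t := ht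
      rw [indicator_of_mem (mem_ball.2 ((mem_closedBall.1 hy).trans_lt ht'))]
    · rw [indicator_of_notMem hy]
      refine tendsto_const_nhds.congr' ?_
      have h2 : s < dist y z := not_le.1 hy
      filter_upwards [nhdsWithin_le_nhds (eventually_lt_nhds h2)] with t ht
      rw [indicator_of_notMem]
      exact fun h3 => absurd (mem_ball.1 h3) (not_lt.2 ht.le)

/-- a radius slightly larger than `s` whose circle meets `K₀` in a finite set -/
theorem exists_radius {K₀ : Set ℂ} (hK : IsClosed K₀) {u₀ : ℂ → ℝ} {z : ℂ}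
    (h : ∀ r, μH[1] (K₀ ∩ ball z r) < ⊤)
    (hi : ∀ r, IntegrableOn (fun y => ‖grad u₀ y‖ ^ 2) (ball z r)) (s : ℝ) {ε : ℝ} (hε : 0 < ε) :
    ∃ t : ℝ, s < t ∧ (K₀ ∩ sphere z t).Finite ∧
      dir u₀ z t + len K₀ z t < dir u₀ z s + (μH[1] (K₀ ∩ closedBall z s)).toReal + ε := by
  have h1 : ∀ᶠ t in 𝓝[>] s,
      dir u₀ z t + len K₀ z t < dir u₀ z s + (μH[1] (K₀ ∩ closedBall z s)).toReal + ε :=
    ((tendsto_dir_right hi s).add (tendsto_len_right hK h s)).eventually
      (eventually_lt_nhds (by linarith))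
  obtain ⟨b, hb, hb2⟩ := (mem_nhdsGT_iff_exists_Ioo_subset.1 h1)
  obtain ⟨t, ht1, ht2⟩ := (Measure.dense_of_ae (ae_finite_sphere_of_len z h)).exists_mem_open
    (isOpen_Ioo (a := s) (b := b)) (nonempty_Ioo.2 hb)
  exact ⟨t, ht2.1, ht1, hb2 ht2⟩

end Vale.Agent.P128.Q
end

section

/-! C5, piece B: oscillation on a circle which meets `K` at most once. -/

open MeasureTheory Set Metric Filter
open scoped ENNReal NNReal ContDiff Topology Real

namespace Vale.Agent.P128.Q

open Vale.Agent.P128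

/-- the oscillation along an arc which misses `K` -/
theorem arc_osc {R : ℝ} {K : Set ℂ} {v : ℂ → ℝ} (ho : IsOpen (ball (0 : ℂ) R \ K))
    (hv : ContDiffOn ℝ 1 v (ball 0 R \ K)) {x : ℂ} {s : ℝ} (hs : 0 < s) (hx : ‖x‖ + s < R)
    (hi : IntegrableOn (fun θ => ‖grad v (circleMap x s θ)‖) (Ioc 0 (2 * π)))
    {p q : ℝ} (hpq : p ≤ q) (hq : q ≤ p + 2 * π) (hK : ∀ θ ∈ Icc p q, circleMap x s θ ∉ K) :
    |v (circleMap x s p) - v (circleMap x s q)| ≤
      s * ∫ θ in Ioc 0 (2 * π), ‖grad v (circleMap x s θ)‖ := by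
  have hmem : ∀ θ ∈ Icc p q, circleMap x s θ ∈ ball (0 : ℂ) R \ K := fun θ hθ => by
    refine ⟨?_, hK θ hθ⟩
    have h1 : ‖circleMap x s θ‖ ≤ ‖x‖ + s := by
      calc ‖circleMap x s θ‖ ≤ ‖x‖ + ‖circleMap 0 s θ‖ := by
            rw [show circleMap x s θ = x + circleMap 0 s θ by simp [circleMap]]
            exact norm_add_le _ _
        _ = ‖x‖ + s := by simp [abs_of_pos hs]
    exact mem_ball_zero_iff.2 (h1.trans_lt hx)
  have hder : ∀ θ ∈ Icc p q, HasDerivAt (fun θ => v (circleMap x s θ))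
      (fderiv ℝ v (circleMap x s θ) (circleMap 0 s θ * Complex.I)) θ := fun θ hθ => by
    have hd : DifferentiableAt ℝ v (circleMap x s θ) :=
      (hv.contDiffAt (ho.mem_nhds (hmem θ hθ))).differentiableAt (by simp)
    exact hd.hasFDerivAt.comp_hasDerivAt θ (hasDerivAt_circleMap x s θ)
  have hcont : ContinuousOn
      (fun θ => fderiv ℝ v (circleMap x s θ) (circleMap 0 s θ * Complex.I)) (Icc p q) := by
    have h1 : ContinuousOn (fderiv ℝ v) (ball (0 : ℂ) R \ K) :=
      hv.continuousOn_fderiv_of_isOpen ho le_rfl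
    have h2 : ContinuousOn (fun θ => fderiv ℝ v (circleMap x s θ)) (Icc p q) :=
      h1.comp (continuous_circleMap x s).continuousOn hmem
    exact h2.clm_apply (((continuous_circleMap 0 s).mul continuous_const).continuousOn)
  have hbd : ∀ θ, ‖fderiv ℝ v (circleMap x s θ) (circleMap 0 s θ * Complex.I)‖ ≤
      s * ‖grad v (circleMap x s θ)‖ := fun θ => by
    rw [← inner_grad]
    calc ‖inner ℝ (grad v (circleMap x s θ)) (circleMap 0 s θ * Complex.I)‖
        ≤ ‖grad v (circleMap x s θ)‖ * ‖circleMap 0 s θ * Complex.I‖ := norm_inner_le_norm _ _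
      _ = s * ‖grad v (circleMap x s θ)‖ := by simp [abs_of_pos hs, mul_comm]
  have hper : Function.Periodic (fun θ => ‖grad v (circleMap x s θ)‖) (2 * π) := fun θ => by
    simp only [periodic_circleMap x s θ]
  have hint : ∀ a : ℝ, IntervalIntegrable (fun θ => ‖grad v (circleMap x s θ)‖) volume a
      (a + 2 * π) := fun a => by
    have h0 : IntervalIntegrable (fun θ => ‖grad v (circleMap x s θ)‖) volume 0 (0 + 2 * π) := by
      rw [zero_add, intervalIntegrable_iff_integrableOn_Ioc_of_le Real.two_pi_pos.le]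
      exact hi
    exact hper.intervalIntegrable Real.two_pi_pos.ne' (t := 0) h0 _ _
  have hFTC := intervalIntegral.integral_eq_sub_of_hasDerivAt
    (f := fun θ => v (circleMap x s θ))
    (f' := fun θ => fderiv ℝ v (circleMap x s θ) (circleMap 0 s θ * Complex.I)) (a := p) (b := q)
    (fun θ hθ => hder θ (by rwa [uIcc_of_le hpq] at hθ))
    ((hcont.mono (by rw [uIcc_of_le hpq])).intervalIntegrable)
  have h1 : |v (circleMap x s p) - v (circleMap x s q)| ≤
      ∫ θ in p..q, s * ‖grad v (circleMap x s θ)‖ := by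
    rw [abs_sub_comm, ← hFTC, ← Real.norm_eq_abs]
    refine intervalIntegral.norm_integral_le_of_norm_le hpq (ae_of_all _ fun θ _ => hbd θ) ?_
    refine ((hint p).const_mul s).mono_set ?_
    rw [uIcc_of_le hpq, uIcc_of_le (by linarith [Real.two_pi_pos])]
    exact Icc_subset_Icc_right hq
  have h2 : ∫ θ in p..q, s * ‖grad v (circleMap x s θ)‖ ≤
      ∫ θ in p..(p + 2 * π), s * ‖grad v (circleMap x s θ)‖ := by
    refine intervalIntegral.integral_mono_interval le_rfl hpq hq
      (ae_of_all _ fun θ => by positivity) ((hint p).const_mul s)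
  refine h1.trans (h2.trans (le_of_eq ?_))
  rw [intervalIntegral.integral_const_mul, hper.intervalIntegral_add_eq p 0, zero_add,
    intervalIntegral.integral_of_le Real.two_pi_pos.le]

/-- **C5, piece B**: oscillation on a circle which meets `K` at most once. -/
theorem circle_osc {R : ℝ} {K : Set ℂ} {v : ℂ → ℝ} (ho : IsOpen (ball (0 : ℂ) R \ K))
    (hv : ContDiffOn ℝ 1 v (ball 0 R \ K)) {x : ℂ} {s : ℝ} (hs : 0 < s) (hx : ‖x‖ + s < R)
    (hc : (K ∩ sphere x s).encard ≤ 1)
    (hi : IntegrableOn (fun θ => ‖grad v (circleMap x s θ)‖) (Ioc 0 (2 * π))) :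
    ∀ a ∈ sphere x s, a ∉ K → ∀ b ∈ sphere x s, b ∉ K →
      |v a - v b| ≤ s * ∫ θ in Ioc 0 (2 * π), ‖grad v (circleMap x s θ)‖ := by
  have hsub : (K ∩ sphere x s).Subsingleton := Set.encard_le_one_iff_subsingleton.1 hc
  have himg : ∀ a ∈ sphere x s, ∃ α ∈ Ioc 0 (2 * π), circleMap x s α = a := fun a ha => by
    have h := image_circleMap_Ioc x s
    rw [abs_of_pos hs] at h
    rw [← h] at ha
    exact ha
  -- the case of ordered angles
  have key : ∀ α β : ℝ, α ≤ β → β ≤ α + 2 * π → circleMap x s α ∉ K → circleMap x s β ∉ K →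
      |v (circleMap x s α) - v (circleMap x s β)| ≤
        s * ∫ θ in Ioc 0 (2 * π), ‖grad v (circleMap x s θ)‖ := by
    intro α β hαβ hβ ha hb
    by_cases h : ∀ θ ∈ Icc α β, circleMap x s θ ∉ K
    · exact arc_osc ho hv hs hx hi hαβ hβ h
    · push Not at h
      obtain ⟨θ₁, hθ₁, h1⟩ := h
      have h' : ∀ θ ∈ Icc β (α + 2 * π), circleMap x s θ ∉ K := by
        intro θ₂ hθ₂ h2
        have he : circleMap x s θ₁ = circleMap x s θ₂ :=
          hsub ⟨h1, circleMap_mem_sphere x hs.le _⟩ ⟨h2, circleMap_mem_sphere x hs.le _⟩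
        rw [circleMap_eq_circleMap_iff x hs.ne'] at he
        obtain ⟨n, hn⟩ := he
        have hn' : θ₁ = θ₂ + n * (2 * π) := by
          have : (θ₁ : ℂ) * Complex.I = ((θ₂ + n * (2 * π) : ℝ) : ℂ) * Complex.I := by
            rw [hn]; push_cast; ring
          exact_mod_cast mul_right_cancel₀ Complex.I_ne_zero this
        have hπ := Real.two_pi_pos
        have hn0 : (n : ℝ) ≤ 0 := by
          by_contra hcon
          have : (1 : ℝ) ≤ n := by
            have : (0 : ℤ) < n := by exact_mod_cast not_le.1 hcon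
            exact_mod_cast this
          nlinarith [hθ₁.2, hθ₂.1]
        have hn1 : (-1 : ℝ) ≤ n := by
          by_contra hcon
          have : (n : ℝ) ≤ -2 := by
            have h3 : n < (-1 : ℤ) := by exact_mod_cast not_le.1 hcon
            have h4 : n ≤ (-2 : ℤ) := by omega
            exact_mod_cast h4
          nlinarith [hθ₁.1, hθ₂.2]
        have hn2 : n = 0 ∨ n = -1 := by
          have h3 : n ≤ 0 := by exact_mod_cast hn0
          have h4 : (-1 : ℤ) ≤ n := by exact_mod_cast hn1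
          omega
        rcases hn2 with rfl | rfl
        · have : θ₁ = β := by
            have : θ₁ = θ₂ := by simpa using hn'
            linarith [hθ₁.2, hθ₂.1]
          exact hb (this ▸ h1)
        · have : θ₁ = α := by
            have : θ₁ = θ₂ - 2 * π := by rw [hn']; push_cast; ring
            linarith [hθ₁.1, hθ₂.2]
          exact ha (this ▸ h1)
      have h3 := arc_osc ho hv hs hx hi (p := β) (q := α + 2 * π) hβ (by linarith) h'
      rw [periodic_circleMap x s α, abs_sub_comm] at h3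
      exact h3
  intro a ha haK b hb hbK
  obtain ⟨α, hα, rfl⟩ := himg a ha
  obtain ⟨β, hβ, rfl⟩ := himg b hb
  rcases le_total α β with h | h
  · exact key α β h (by linarith [hα.1, hβ.2]) haK hbK
  · rw [abs_sub_comm]
    exact key β α h (by linarith [hβ.1, hα.2]) hbK haK

end Vale.Agent.P128.Q
end

section

set_option linter.all false

/-! Local smooth approximation of Sobolev functions in `L²`. -/

open MeasureTheory Set Metric Filter Function ContinuousLinearMap
open scoped ENNReal NNReal ContDiff Topology Convolution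

namespace Vale.Agent.P128.Q

open Vale.Agent.P128
open Vale.Agent.P128.GM (LocLip genergy IsGlobalMin W12loc)

theorem q7_sq_moll_le (ρ : ContDiffBump (0 : ℂ)) {h : ℂ → ℝ} (hh : LocallyIntegrable h)
    (hh2 : LocallyIntegrable fun z => h z ^ 2) (z : ℂ) :
    moll ρ h z ^ 2 ≤ moll ρ (fun y => h y ^ 2) z := by
  have i1 : Integrable fun t => ρ.normed volume t * h (z - t) := by
    simpa using (ρ.hasCompactSupport_normed (μ := volume).convolutionExists_left (lsmul ℝ ℝ)
      ρ.continuous_normed hh z).integrable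
  have i2 : Integrable fun t => ρ.normed volume t * h (z - t) ^ 2 := by
    simpa using (ρ.hasCompactSupport_normed (μ := volume).convolutionExists_left (lsmul ℝ ℝ)
      ρ.continuous_normed hh2 z).integrable
  have i3 := integrable_normed ρ
  set c := moll ρ h z with hc
  have key : 0 ≤ ∫ t, ρ.normed volume t * (h (z - t) - c) ^ 2 :=
    integral_nonneg fun t => mul_nonneg (ρ.nonneg_normed t) (sq_nonneg _)
  have e : (fun t => ρ.normed volume t * (h (z - t) - c) ^ 2) = fun t =>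
      (ρ.normed volume t * h (z - t) ^ 2 - (2 * c) * (ρ.normed volume t * h (z - t))) +
        c ^ 2 * ρ.normed volume t := by
    funext t
    ring
  have i4 : Integrable fun t => ρ.normed volume t * h (z - t) ^ 2 -
      (2 * c) * (ρ.normed volume t * h (z - t)) := i2.sub (i1.const_mul _)
  rw [e, integral_add i4 (i3.const_mul _), integral_sub i2 (i1.const_mul _),
    integral_const_mul, integral_const_mul, ρ.integral_normed, ← moll_def, ← hc] at key
  rw [moll_def ρ (fun y => h y ^ 2)]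
  nlinarith

theorem q7_moll_int {h : ℂ → ℝ} (hh : MemLp h 2 (volume : Measure ℂ))
    (ρ : ContDiffBump (0 : ℂ)) :
    Integrable (fun z => moll ρ h z ^ 2) ∧ ∫ z, moll ρ h z ^ 2 ≤ ∫ z, h z ^ 2 := by
  have h2 : Integrable fun z => h z ^ 2 := hh.integrable_sq
  have hl : LocallyIntegrable h := hh.locallyIntegrable (by norm_num)
  obtain ⟨j1, j2⟩ := integral_abs_moll_le ρ h2
  have hle := q7_sq_moll_le ρ hl h2.locallyIntegrable
  have j3 : Integrable (fun z => moll ρ h z ^ 2) := by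
    refine j1.mono (((continuous_moll ρ hl).pow 2).aestronglyMeasurable)
      (Eventually.of_forall fun z => ?_)
    rw [Real.norm_eq_abs, Real.norm_eq_abs, abs_of_nonneg (sq_nonneg _)]
    exact (hle z).trans (le_abs_self _)
  refine ⟨j3, ?_⟩
  calc ∫ z, moll ρ h z ^ 2 ≤ ∫ z, |moll ρ (fun y => h y ^ 2) z| :=
        integral_mono j3 j1.abs fun z => (hle z).trans (le_abs_self _)
    _ ≤ ∫ z, |h z ^ 2| := j2
    _ = ∫ z, h z ^ 2 := by
        refine integral_congr_ae (Eventually.of_forall fun z => ?_)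
        exact abs_of_nonneg (sq_nonneg (h z))

theorem q7_moll_mem {h : ℂ → ℝ} (hh : MemLp h 2 (volume : Measure ℂ))
    (ρ : ContDiffBump (0 : ℂ)) : MemLp (moll ρ h) 2 (volume : Measure ℂ) := by
  have hl : LocallyIntegrable h := hh.locallyIntegrable (by norm_num)
  rw [memLp_two_iff_integrable_sq (continuous_moll ρ hl).aestronglyMeasurable]
  exact (q7_moll_int hh ρ).1

/-- Mollifiers converge in `L²`. -/
theorem q7_moll_L2 {h : ℂ → ℝ} (hh : MemLp h 2 (volume : Measure ℂ)) {ε : ℝ} (hε : 0 < ε) :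
    ∃ δ : ℝ, 0 < δ ∧ ∀ ρ : ContDiffBump (0 : ℂ), ρ.rOut < δ →
      ∫ z, (moll ρ h z - h z) ^ 2 ≤ ε := by
  have hh' : MemLp h (ENNReal.ofReal 2) (volume : Measure ℂ) := by
    rwa [ENNReal.ofReal_ofNat]
  obtain ⟨g, hgc, hg1, hg2, hg3⟩ := hh'.exists_hasCompactSupport_integral_rpow_sub_le
    (by norm_num) (show 0 < ε / 9 by positivity)
  rw [ENNReal.ofReal_ofNat] at hg3
  have hg1' : ∫ z, (h z - g z) ^ 2 ≤ ε / 9 := by
    refine le_trans (le_of_eq ?_) hg1
    refine integral_congr_ae (Eventually.of_forall fun z => ?_)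
    simp only [Real.rpow_ofNat, Real.norm_eq_abs, sq_abs]
  have hgl : LocallyIntegrable g := hg2.locallyIntegrable
  have hhl : LocallyIntegrable h := hh.locallyIntegrable (by norm_num)
  -- uniform continuity
  set B : Set ℂ := cthickening 1 (tsupport g) with hB
  have hBc : IsCompact B := hgc.isCompact.cthickening
  have hBv : volume B < ⊤ := hBc.measure_lt_top
  set η : ℝ := √(ε / 9 / ((volume B).toReal + 1)) with hη
  have hη0 : 0 < η := Real.sqrt_pos.2 (by (clear * - hε; positivity))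
  have hη2 : η ^ 2 * (volume B).toReal ≤ ε / 9 := by
    rw [hη, Real.sq_sqrt (by positivity), div_mul_eq_mul_div, div_le_iff₀ (by positivity)]
    nlinarith [show 0 < ε / 9 by positivity, ENNReal.toReal_nonneg (a := volume B)]
  obtain ⟨δ₁, hδ₁, hu⟩ := Metric.uniformContinuous_iff.1
    (hgc.uniformContinuous_of_continuous hg2) η hη0
  refine ⟨min δ₁ 1, by positivity, fun ρ hρ => ?_⟩
  have hρ1 : ρ.rOut < δ₁ := hρ.trans_le (min_le_left _ _)
  have hρ2 : ρ.rOut < 1 := hρ.trans_le (min_le_right _ _)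
  have a1 : ∀ z, |moll ρ g z - g z| ≤ B.indicator (fun _ => η) z := by
    intro z
    by_cases hz : z ∈ B
    · rw [indicator_of_mem hz, ← Real.dist_eq]
      refine ρ.dist_normed_convolution_le hg2.aestronglyMeasurable fun y hy => ?_
      exact (hu ((mem_ball.1 hy).trans hρ1)).le
    · rw [indicator_of_notMem hz]
      have hzg : ∀ y, dist y z ≤ 1 → g y = 0 := by
        intro y hy
        by_contra hne
        refine hz (mem_cthickening_of_dist_le z y 1 _ (subset_tsupport g hne) ?_)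
        rwa [dist_comm]
      have h1 : moll ρ g z = 0 := by
        rw [moll_def]
        have : ∀ t, ρ.normed volume t * g (z - t) = 0 := by
          intro t
          by_cases ht : t ∈ ball (0 : ℂ) ρ.rOut
          · rw [hzg (z - t), mul_zero]
            rw [mem_ball_zero_iff] at ht
            rw [dist_eq_norm, sub_sub_cancel_left, norm_neg]
            linarith only [ht, hρ2]
          · have : t ∉ support (ρ.normed (volume : Measure ℂ)) := by
              rw [ρ.support_normed_eq]; exact ht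
            rw [notMem_support.mp this, zero_mul]
        simp only [this, integral_zero]
      rw [h1, hzg z (by rw [dist_self]; norm_num), sub_zero, abs_zero]
  have m1 : MemLp (fun z => moll ρ g z - g z) 2 (volume : Measure ℂ) :=
    (q7_moll_mem hg3 ρ).sub hg3
  have a2 : ∫ z, (moll ρ g z - g z) ^ 2 ≤ ε / 9 := by
    have hBm : MeasurableSet B := hBc.measurableSet
    have h2 : ∫ z, (moll ρ g z - g z) ^ 2 ≤ ∫ z, B.indicator (fun _ => η ^ 2) z := by
      refine integral_mono m1.integrable_sq ?_ fun z => ?_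
      · exact (integrable_indicator_iff hBm).2 (integrableOn_const hBv.ne)
      · have := a1 z
        by_cases hz : z ∈ B
        · simp only [indicator_of_mem hz] at this ⊢
          rw [← sq_abs]
          exact pow_le_pow_left₀ (abs_nonneg _) this 2
        · simp only [indicator_of_notMem hz] at this ⊢
          have h0 : moll ρ g z - g z = 0 := abs_eq_zero.1 (le_antisymm this (abs_nonneg _))
          rw [h0]
          norm_num
    refine h2.trans (le_trans (le_of_eq ?_) hη2)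
    rw [integral_indicator hBm, setIntegral_const, smul_eq_mul, mul_comm]
    rfl
  have m2 : MemLp (fun z => h z - g z) 2 (volume : Measure ℂ) := hh.sub hg3
  obtain ⟨b1, b2⟩ := q7_moll_int m2 ρ
  have m3 : MemLp (fun z => moll ρ h z - h z) 2 (volume : Measure ℂ) :=
    (q7_moll_mem hh ρ).sub hh
  have hle : ∀ z, (moll ρ h z - h z) ^ 2 ≤ 3 * (moll ρ (fun y => h y - g y) z ^ 2 +
      (moll ρ g z - g z) ^ 2 + (h z - g z) ^ 2) := by
    intro z
    rw [moll_sub ρ hhl hgl z]
    linarith only [sq_nonneg ((moll ρ g z - g z) + (h z - g z)), sq_nonneg ((moll ρ h z - moll ρ g z) + (h z - g z)), sq_nonneg ((moll ρ h z - moll ρ g z) - (moll ρ g z - g z))]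
  have b3 : Integrable fun z => moll ρ (fun y => h y - g y) z ^ 2 + (moll ρ g z - g z) ^ 2 :=
    b1.add m1.integrable_sq
  calc ∫ z, (moll ρ h z - h z) ^ 2 ≤ ∫ z, 3 * (moll ρ (fun y => h y - g y) z ^ 2 +
      (moll ρ g z - g z) ^ 2 + (h z - g z) ^ 2) :=
        integral_mono m3.integrable_sq ((b3.add m2.integrable_sq).const_mul 3) hle
    _ = 3 * ((∫ z, moll ρ (fun y => h y - g y) z ^ 2) + (∫ z, (moll ρ g z - g z) ^ 2) +
        ∫ z, (h z - g z) ^ 2) := by
        rw [integral_const_mul, integral_add b3 m2.integrable_sq, integral_add b1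
          m1.integrable_sq]
    _ ≤ ε := by linarith only [b2, a2, hg1']

theorem q7_exists_bump {δ : ℝ} (hδ : 0 < δ) : ∃ ρ : ContDiffBump (0 : ℂ), ρ.rOut < δ :=
  ⟨⟨δ / 4, δ / 2, by positivity, by linarith only [hδ]⟩, by show δ / 2 < δ; linarith⟩

/-- Local smooth approximation. -/
theorem q7_local {U : Set ℂ} {v : ℂ → ℝ} {H : ℂ → ℂ} (hU : IsOpen U) (h : W12loc U v H)
    {S : Set ℂ} (hS : IsCompact S) (hSU : S ⊆ U) {δ : ℝ} (hδ : 0 < δ) :
    ∃ f : ℂ → ℝ, ContDiff ℝ ∞ f ∧
      ∫⁻ z in S, ENNReal.ofReal ((f z - v z) ^ 2) ≤ ENNReal.ofReal δ ∧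
      ∫⁻ z in S, ENNReal.ofReal (‖grad f z - H z‖ ^ 2) ≤ ENNReal.ofReal δ := by
  have hs : Sob U v H := ⟨hU, fun C h1 h2 => h.memLp C h2 h1, fun C h1 h2 => h.grad_memLp C h2 h1,
    h.weak⟩
  obtain ⟨V, hVo, hSV, hVU, hVc⟩ := exists_open_between_and_isCompact_closure hS hU hSU
  set v1 := V.indicator v with hv1
  set H1 := V.indicator H with hH1
  have m1 : MemLp v1 2 (volume : Measure ℂ) := hs.memLp_u hVo hVc hVU
  have m2 : MemLp H1 2 (volume : Measure ℂ) := hs.memLp_G hVo hVc hVU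
  have l1 : LocallyIntegrable v1 (volume : Measure ℂ) := hs.li_u hVo hVc hVU
  have hw : IsWeakGrad V v1 H1 := hs.weak_ind hVo hVU
  have m3 : MemLp (fun z => (H1 z).re) 2 (volume : Measure ℂ) := m2.re
  have m4 : MemLp (fun z => (H1 z).im) 2 (volume : Measure ℂ) := m2.im
  obtain ⟨δ₁, hδ₁, h1⟩ := q7_moll_L2 m1 hδ
  obtain ⟨δ₂, hδ₂, h2⟩ := q7_moll_L2 m3 (half_pos hδ)
  obtain ⟨δ₃, hδ₃, h3⟩ := q7_moll_L2 m4 (half_pos hδ)
  obtain ⟨δ₄, hδ₄, h4⟩ := hS.exists_cthickening_subset_open hVo hSV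
  obtain ⟨ρ, hρ⟩ := q7_exists_bump (show 0 < min (min δ₁ δ₂) (min δ₃ δ₄) by (clear * - hδ₁ hδ₂ hδ₃ hδ₄; positivity))
  have r1 : ρ.rOut < δ₁ := hρ.trans_le ((min_le_left _ _).trans (min_le_left _ _))
  have r2 : ρ.rOut < δ₂ := hρ.trans_le ((min_le_left _ _).trans (min_le_right _ _))
  have r3 : ρ.rOut < δ₃ := hρ.trans_le ((min_le_right _ _).trans (min_le_left _ _))
  have r4 : ρ.rOut < δ₄ := hρ.trans_le ((min_le_right _ _).trans (min_le_right _ _))
  refine ⟨moll ρ v1, contDiff_moll ρ l1, ?_, ?_⟩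
  · have n1 : MemLp (fun z => moll ρ v1 z - v1 z) 2 (volume : Measure ℂ) :=
      (q7_moll_mem m1 ρ).sub m1
    calc ∫⁻ z in S, ENNReal.ofReal ((moll ρ v1 z - v z) ^ 2)
        = ∫⁻ z in S, ENNReal.ofReal ((moll ρ v1 z - v1 z) ^ 2) := by
          refine setLIntegral_congr_fun hS.measurableSet fun z hz => ?_
          simp only [hv1, indicator_of_mem (hSV hz)]
      _ ≤ ∫⁻ z, ENNReal.ofReal ((moll ρ v1 z - v1 z) ^ 2) := setLIntegral_le_lintegral _ _
      _ = ENNReal.ofReal (∫ z, (moll ρ v1 z - v1 z) ^ 2) :=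
          (ofReal_integral_eq_lintegral_ofReal n1.integrable_sq
            (Eventually.of_forall fun _ => sq_nonneg _)).symm
      _ ≤ ENNReal.ofReal δ := ENNReal.ofReal_le_ofReal (h1 ρ r1)
  · have n1 : MemLp (fun z => moll ρ (fun y => (H1 y).re) z - (H1 z).re) 2
        (volume : Measure ℂ) := (q7_moll_mem m3 ρ).sub m3
    have n2 : MemLp (fun z => moll ρ (fun y => (H1 y).im) z - (H1 z).im) 2
        (volume : Measure ℂ) := (q7_moll_mem m4 ρ).sub m4
    have hg : ∀ z ∈ S, ‖grad (moll ρ v1) z - H z‖ ^ 2 =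
        (moll ρ (fun y => (H1 y).re) z - (H1 z).re) ^ 2 +
          (moll ρ (fun y => (H1 y).im) z - (H1 z).im) ^ 2 := by
      intro z hz
      have hb : closedBall z ρ.rOut ⊆ V := by
        refine subset_trans ?_ h4
        exact (closedBall_subset_cthickening hz _).trans (cthickening_mono r4.le _)
      have e1 := hw.fderiv_moll l1 ρ hb (1 : ℂ)
      have e2 := hw.fderiv_moll l1 ρ hb Complex.I
      have e3 : (fun y => inner ℝ (H1 y) (1 : ℂ)) = fun y => (H1 y).re := by
        funext y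
        rw [inner_eq]
        simp
      have e4 : (fun y => inner ℝ (H1 y) Complex.I) = fun y => (H1 y).im := by
        funext y
        rw [inner_eq]
        simp
      rw [e3] at e1
      rw [e4] at e2
      have e5 : H z = H1 z := by rw [hH1, indicator_of_mem (hSV hz)]
      rw [e5, ← Complex.normSq_eq_norm_sq, Complex.normSq_apply]
      simp only [Complex.sub_re, Complex.sub_im, grad, e1, e2]
      ring
    have i1 := n1.integrable_sq
    have i2 := n2.integrable_sq
    calc ∫⁻ z in S, ENNReal.ofReal (‖grad (moll ρ v1) z - H z‖ ^ 2)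
        = ∫⁻ z in S, ENNReal.ofReal ((moll ρ (fun y => (H1 y).re) z - (H1 z).re) ^ 2 +
          (moll ρ (fun y => (H1 y).im) z - (H1 z).im) ^ 2) := by
          refine setLIntegral_congr_fun hS.measurableSet fun z hz => ?_
          simp only [hg z hz]
      _ ≤ ∫⁻ z, ENNReal.ofReal ((moll ρ (fun y => (H1 y).re) z - (H1 z).re) ^ 2 +
          (moll ρ (fun y => (H1 y).im) z - (H1 z).im) ^ 2) := setLIntegral_le_lintegral _ _
      _ = ENNReal.ofReal (∫ z, ((moll ρ (fun y => (H1 y).re) z - (H1 z).re) ^ 2 +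
          (moll ρ (fun y => (H1 y).im) z - (H1 z).im) ^ 2)) :=
          (ofReal_integral_eq_lintegral_ofReal (i1.add i2)
            (Eventually.of_forall fun _ => add_nonneg (sq_nonneg _) (sq_nonneg _))).symm
      _ ≤ ENNReal.ofReal δ := by
          refine ENNReal.ofReal_le_ofReal ?_
          rw [integral_add i1 i2]
          linarith only [h3 ρ r3, h2 ρ r2]

end Vale.Agent.P128.Q
end

section

set_option linter.all false

/-! A locally finite Lipschitz partition of unity. -/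

open MeasureTheory Set Metric Filter Function
open scoped ENNReal NNReal ContDiff Topology

namespace Vale.Agent.P128.Q

open Vale.Agent.P128
open Vale.Agent.P128.GM (LocLip genergy IsGlobalMin W12loc)

/-- clamp to `[0, 1]` -/
noncomputable def q7c (t : ℝ) : ℝ := max 0 (min 1 t)

theorem q7c_lip : LipschitzWith 1 q7c := (LipschitzWith.id.const_min 1).const_max 0

theorem q7c_nonneg (t : ℝ) : 0 ≤ q7c t := le_max_left _ _

theorem q7c_le (t : ℝ) : q7c t ≤ 1 := max_le zero_le_one (min_le_left _ _)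

theorem q7c_zero {t : ℝ} (h : t ≤ 0) : q7c t = 0 := by
  unfold q7c
  rw [min_eq_right (by linarith), max_eq_left h]

theorem q7c_one {t : ℝ} (h : 1 ≤ t) : q7c t = 1 := by
  unfold q7c
  rw [min_eq_left h, max_eq_right zero_le_one]

/-- `1` for `t ≥ 2^(-i)`, `0` for `t ≤ 2^(-i-1)`. -/
noncomputable def q7a (i : ℕ) (t : ℝ) : ℝ := q7c (2 ^ (i + 1) * t - 1)

theorem q7a_lip (i : ℕ) : ∃ Λ : ℝ≥0, LipschitzWith Λ (q7a i) := by
  refine ⟨1 * 2 ^ (i + 1), q7c_lip.comp (LipschitzWith.of_dist_le_mul fun s t => ?_)⟩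
  rw [Real.dist_eq, Real.dist_eq]
  have e : (2 : ℝ) ^ (i + 1) * s - 1 - (2 ^ (i + 1) * t - 1) = 2 ^ (i + 1) * (s - t) := by ring
  rw [e, abs_mul, abs_of_nonneg (by positivity : (0 : ℝ) ≤ 2 ^ (i + 1))]
  push_cast
  exact le_rfl

theorem q7a_zero {i : ℕ} {t : ℝ} (h : t ≤ ((2 : ℝ) ^ (i + 1))⁻¹) : q7a i t = 0 := by
  unfold q7a
  refine q7c_zero ?_
  have h1 : (2 : ℝ) ^ (i + 1) * t ≤ 2 ^ (i + 1) * ((2 : ℝ) ^ (i + 1))⁻¹ :=
    mul_le_mul_of_nonneg_left h (by positivity)
  rw [mul_inv_cancel₀ (by positivity)] at h1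
  linarith

theorem q7a_one {i : ℕ} {t : ℝ} (h : ((2 : ℝ) ^ i)⁻¹ ≤ t) : q7a i t = 1 := by
  unfold q7a
  refine q7c_one ?_
  have h1 : (2 : ℝ) ^ i * ((2 : ℝ) ^ i)⁻¹ ≤ 2 ^ i * t :=
    mul_le_mul_of_nonneg_left h (by positivity)
  rw [mul_inv_cancel₀ (by positivity)] at h1
  rw [pow_succ]
  linarith

/-- the pieces -/
noncomputable def q7t : ℕ → ℝ → ℝ
  | 0 => q7a 0
  | i + 1 => fun t => q7a (i + 1) t - q7a i t

theorem q7t_sum (n : ℕ) (t : ℝ) : ∑ i ∈ Finset.range (n + 1), q7t i t = q7a n t := by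
  induction n with
  | zero => simp [q7t]
  | succ n ih =>
    rw [Finset.sum_range_succ, ih]
    simp [q7t]

theorem q7t_abs (i : ℕ) (t : ℝ) : |q7t i t| ≤ 1 := by
  cases i with
  | zero =>
    show |q7a 0 t| ≤ 1
    unfold q7a
    rw [abs_of_nonneg (q7c_nonneg _)]
    exact q7c_le _
  | succ i =>
    show |q7a (i + 1) t - q7a i t| ≤ 1
    unfold q7a
    rw [abs_le]
    have a1 := q7c_nonneg (2 ^ (i + 1 + 1) * t - 1)
    have a2 := q7c_nonneg (2 ^ (i + 1) * t - 1)
    have a3 := q7c_le (2 ^ (i + 1 + 1) * t - 1)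
    have a4 := q7c_le (2 ^ (i + 1) * t - 1)
    constructor <;> linarith

theorem q7t_zero {i : ℕ} {t : ℝ} (h : t ≤ ((2 : ℝ) ^ (i + 1))⁻¹) : q7t i t = 0 := by
  cases i with
  | zero => exact q7a_zero h
  | succ i =>
    show q7a (i + 1) t - q7a i t = 0
    rw [q7a_zero h, q7a_zero, sub_zero]
    refine h.trans ?_
    exact inv_anti₀ (by positivity) (pow_le_pow_right₀ (by norm_num) (by omega))

theorem q7t_zero' {i : ℕ} {t : ℝ} (h : ((2 : ℝ) ^ i)⁻¹ ≤ t) : q7t (i + 1) t = 0 := by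
  show q7a (i + 1) t - q7a i t = 0
  rw [q7a_one h, q7a_one, sub_self]
  refine le_trans ?_ h
  exact inv_anti₀ (by positivity) (pow_le_pow_right₀ (by norm_num) (by omega))

theorem q7t_lip (i : ℕ) : ∃ Λ : ℝ≥0, LipschitzWith Λ (q7t i) := by
  cases i with
  | zero => exact q7a_lip 0
  | succ i =>
    obtain ⟨A, hA⟩ := q7a_lip (i + 1)
    obtain ⟨B, hB⟩ := q7a_lip i
    exact ⟨A + B, hA.sub hB⟩

theorem q7_lip_mul {f g : ℂ → ℝ} {A B : ℝ≥0} (hf : LipschitzWith A f) (hg : LipschitzWith B g)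
    (hf1 : ∀ z, |f z| ≤ 1) (hg1 : ∀ z, |g z| ≤ 1) :
    LipschitzWith (A + B) fun z => f z * g z := by
  refine LipschitzWith.of_dist_le_mul fun y z => ?_
  have h1 := hf.dist_le_mul y z
  have h2 := hg.dist_le_mul y z
  rw [Real.dist_eq] at h1 h2 ⊢
  have e : f y * g y - f z * g z = (f y - f z) * g y + f z * (g y - g z) := by ring
  rw [e]
  push_cast
  calc |(f y - f z) * g y + f z * (g y - g z)|
      ≤ |(f y - f z)| * |g y| + |f z| * |g y - g z| := by
        rw [← abs_mul, ← abs_mul]; exact abs_add_le _ _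
    _ ≤ (A * dist y z) * 1 + 1 * (B * dist y z) := by
        gcongr
        · exact hg1 y
        · exact hf1 z
    _ = (A + B) * dist y z := by ring

/-- the partition -/
theorem q7_part {L : Set ℂ} (hL : IsClosed L) (x : ℂ) {r₁ r₂ r : ℝ} (h1 : r₁ < r₂) (h2 : r₂ < r) :
    ∃ (χ : ℂ → ℝ) (φ : ℕ → ℂ → ℝ) (Λ' : ℝ≥0) (Λ : ℕ → ℝ≥0) (S : ℕ → Set ℂ),
      LipschitzWith Λ' χ ∧ (∀ z, 0 ≤ χ z ∧ χ z ≤ 1) ∧ (∀ z ∈ closedBall x r₁, χ z = 1) ∧
      (∀ z ∉ ball x r₂, χ z = 0) ∧ (∀ i, LipschitzWith (Λ i) (φ i)) ∧ (∀ i z, |φ i z| ≤ 1) ∧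
      (∀ i, IsCompact (S i)) ∧ (∀ i, S i ⊆ ball x r \ L) ∧ (∀ i z, z ∉ S i → φ i z = 0) ∧
      (∀ i, ∀ z ∉ ball x r₂, φ i z = 0) ∧
      ∀ z ∈ ball x r \ L, ∃ (n : ℕ) (V : Set ℂ), IsOpen V ∧ z ∈ V ∧ V ⊆ ball x r \ L ∧
        ∀ y ∈ V, (∀ i, n < i → φ i y = 0) ∧ ∑ i ∈ Finset.range (n + 1), φ i y = χ y := by
  have h12 : 0 < r₂ - r₁ := by linarith
  set χ : ℂ → ℝ := fun z => q7c ((r₂ - dist z x) / (r₂ - r₁)) with hχ
  have hχl : LipschitzWith (1 * ⟨(r₂ - r₁)⁻¹, by positivity⟩) χ := by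
    refine q7c_lip.comp (LipschitzWith.of_dist_le_mul fun y z => ?_)
    rw [Real.dist_eq]
    have e : (r₂ - dist y x) / (r₂ - r₁) - (r₂ - dist z x) / (r₂ - r₁) =
        (r₂ - r₁)⁻¹ * (dist z x - dist y x) := by
      field_simp
      ring
    rw [e, abs_mul, abs_of_nonneg (by positivity : 0 ≤ (r₂ - r₁)⁻¹)]
    refine mul_le_mul_of_nonneg_left ?_ (by positivity)
    rw [dist_comm y z]
    exact abs_dist_sub_le _ _ _
  have hχ01 : ∀ z, 0 ≤ χ z ∧ χ z ≤ 1 := fun z => ⟨q7c_nonneg _, q7c_le _⟩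
  have hχabs : ∀ z, |χ z| ≤ 1 := fun z => by
    rw [abs_of_nonneg (hχ01 z).1]
    exact (hχ01 z).2
  have hχ1 : ∀ z ∈ closedBall x r₁, χ z = 1 := by
    intro z hz
    refine q7c_one ?_
    rw [mem_closedBall] at hz
    rw [le_div_iff₀ h12]
    linarith
  have hχ0 : ∀ z ∉ ball x r₂, χ z = 0 := by
    intro z hz
    refine q7c_zero ?_
    rw [mem_ball, not_lt] at hz
    exact div_nonpos_of_nonpos_of_nonneg (by linarith) h12.le
  set D : Set ℂ := L ∪ (ball x r)ᶜ with hD
  have hDc : IsClosed D := hL.union isOpen_ball.isClosed_compl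
  have hDn : D.Nonempty := by
    refine ⟨x + (|r| + 1 : ℝ), Or.inr ?_⟩
    rw [mem_compl_iff, mem_ball, dist_eq_norm, add_sub_cancel_left, Complex.norm_real,
      Real.norm_eq_abs, not_lt]
    have := abs_nonneg r
    rw [abs_of_nonneg (by linarith)]
    linarith [le_abs_self r]
  have hpos : ∀ z, 0 < infDist z D → z ∈ ball x r \ L := by
    intro z hz
    have h3 : z ∉ D := by
      intro h
      rw [infDist_zero_of_mem h] at hz
      exact lt_irrefl _ hz
    rw [hD, mem_union, not_or, mem_compl_iff, not_not] at h3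
    exact ⟨h3.2, h3.1⟩
  have hpos' : ∀ z ∈ ball x r \ L, 0 < infDist z D := by
    intro z hz
    refine (hDc.notMem_iff_infDist_pos hDn).1 ?_
    rintro (h | h)
    · exact hz.2 h
    · exact h hz.1
  choose Λ₀ hΛ₀ using q7t_lip
  have hdl : LipschitzWith 1 fun z : ℂ => infDist z D := lipschitz_infDist_pt D
  have hdc : Continuous fun z : ℂ => infDist z D := continuous_infDist_pt D
  refine ⟨χ, fun i z => χ z * q7t i (infDist z D), _,
    fun i => 1 * ⟨(r₂ - r₁)⁻¹, by positivity⟩ + Λ₀ i * 1,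
    fun i => closedBall x r₂ ∩ {z | ((2 : ℝ) ^ (i + 1))⁻¹ ≤ infDist z D}, hχl, hχ01, hχ1, hχ0,
    fun i => ?_, fun i z => ?_, fun i => ?_, fun i z hz => ?_, fun i z hz => ?_,
    fun i z hz => ?_, fun z hz => ?_⟩
  · exact q7_lip_mul hχl ((hΛ₀ i).comp hdl) hχabs (fun z => q7t_abs i _)
  · rw [abs_mul]
    exact mul_le_one₀ (hχabs z) (abs_nonneg _) (q7t_abs i _)
  · exact (isCompact_closedBall x r₂).inter_right (isClosed_le continuous_const hdc)
  · refine hpos z (lt_of_lt_of_le ?_ hz.2)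
    positivity
  · show χ z * q7t i (infDist z D) = 0
    by_cases h : z ∈ closedBall x r₂
    · have h3 : ¬ ((2 : ℝ) ^ (i + 1))⁻¹ ≤ infDist z D := fun h3 => hz ⟨h, h3⟩
      rw [q7t_zero (not_le.1 h3).le, mul_zero]
    · rw [hχ0 z fun hb => h (ball_subset_closedBall hb), zero_mul]
  · show χ z * q7t i (infDist z D) = 0
    rw [hχ0 z hz, zero_mul]
  · have h3 := hpos' z hz
    obtain ⟨n, hn⟩ := exists_pow_lt_of_lt_one h3 (show (2 : ℝ)⁻¹ < 1 by norm_num)
    rw [inv_pow] at hn
    refine ⟨n, {y | ((2 : ℝ) ^ n)⁻¹ < infDist y D}, isOpen_lt continuous_const hdc, hn,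
      fun y hy => hpos y (lt_trans (by positivity) hy), fun y hy => ⟨fun i hi => ?_, ?_⟩⟩
    · obtain ⟨j, rfl⟩ : ∃ j, i = j + 1 := ⟨i - 1, by omega⟩
      show χ y * q7t (j + 1) (infDist y D) = 0
      rw [q7t_zero', mul_zero]
      refine le_trans ?_ (le_of_lt hy)
      exact inv_anti₀ (by positivity) (pow_le_pow_right₀ (by norm_num) (by omega))
    · show ∑ i ∈ Finset.range (n + 1), χ y * q7t i (infDist y D) = χ y
      rw [← Finset.mul_sum, q7t_sum, q7a_one (le_of_lt hy), mul_one]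

end Vale.Agent.P128.Q
end

section

set_option linter.all false

/-! Local connectivity of `K` in a flat zone, by compactness. -/

open MeasureTheory Set Metric Filter ComplexConjugate
open scoped ENNReal NNReal Topology Real ContDiff

namespace Vale.Agent.P128.Q1

open Vale.Agent.P128

/-- a compact set is split by a clopen subset as soon as a point is not in the component -/
theorem conn_split {X : Set ℂ} (hX : IsCompact X) {a b : ℂ} (ha : a ∈ X) (hb : b ∈ X)
    (h : b ∉ connectedComponentIn X a) :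
    ∃ A B : Set ℂ, IsCompact A ∧ IsCompact B ∧ Disjoint A B ∧ A ∪ B = X ∧ a ∈ A ∧ b ∈ B := by
  haveI : CompactSpace X := isCompact_iff_compactSpace.1 hX
  rw [connectedComponentIn_eq_image ha] at h
  have h1 : (⟨b, hb⟩ : X) ∉ connectedComponent (⟨a, ha⟩ : X) := fun hh => h ⟨_, hh, rfl⟩
  rw [connectedComponent_eq_iInter_isClopen] at h1
  simp only [mem_iInter, not_forall] at h1
  obtain ⟨⟨s, hs, has⟩, hbs⟩ := h1
  refine ⟨Subtype.val '' s, Subtype.val '' sᶜ, hs.1.isCompact.image continuous_subtype_val,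
    hs.compl.1.isCompact.image continuous_subtype_val, ?_, ?_, ⟨_, has, rfl⟩, ⟨⟨b, hb⟩, hbs, rfl⟩⟩
  · exact (disjoint_image_iff Subtype.val_injective).2 disjoint_compl_right
  · rw [← image_union, union_compl_self, image_univ, Subtype.range_val]

/-- the midpoint of two points of `K` is close to `K` -/
theorem conn_mid {K : Set ℂ} {δ : ℝ} {a b : ℂ} (hδ : δ ≤ 1 / 50) (hb : b ∈ K)
    (hd : 0 < dist a b) (h : LineAt K δ a (dist a b)) :
    ∃ c ∈ K, dist c a ≤ 13 / 25 * dist a b ∧ dist c b ≤ 27 / 50 * dist a b := by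
  obtain ⟨e, he, h1, h2⟩ := h
  set d := dist a b with hdd
  have hb1 := h1 b hb (by rw [dist_comm])
  set q := conj e * (b - a) with hq
  have hqn : ‖q‖ = d := by
    rw [hq, norm_mul, RCLike.norm_conj, he, one_mul, hdd, dist_eq_norm, norm_sub_rev]
  have hre : |q.re| ≤ d := by rw [← hqn]; exact Complex.abs_re_le_norm q
  obtain ⟨c, hc, hcd⟩ := h2 (q.re / 2) (by
    rw [abs_div, abs_of_pos (by norm_num : (0 : ℝ) < 2)]
    linarith only [hre, hd])
  have hδd : δ * d ≤ 1 / 50 * d := mul_le_mul_of_nonneg_right hδ hd.le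
  refine ⟨c, hc, ?_, ?_⟩
  · have e1 : dist (a + ((q.re / 2 : ℝ) : ℂ) * e) a ≤ d / 2 := by
      rw [dist_eq_norm, add_sub_cancel_left, norm_mul, he, mul_one, Complex.norm_real,
        Real.norm_eq_abs, abs_div, abs_of_pos (by norm_num : (0 : ℝ) < 2)]
      linarith only [hre]
    have := dist_triangle c (a + ((q.re / 2 : ℝ) : ℂ) * e) a
    linarith
  · have e1 : dist (a + ((q.re / 2 : ℝ) : ℂ) * e) b ≤ d / 2 + δ * d := by
      have hbq : b = a + q * e := by
        have hee : conj e * e = 1 := by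
          rw [mul_comm, Complex.mul_conj, Complex.normSq_eq_norm_sq, he]
          norm_num
        rw [hq, mul_right_comm, hee, one_mul]
        ring
      have e2 : a + ((q.re / 2 : ℝ) : ℂ) * e - b =
          -(((q.re / 2 : ℝ) : ℂ) + (q.im : ℂ) * Complex.I) * e := by
        nth_rewrite 1 [hbq]
        nth_rewrite 2 [← Complex.re_add_im q]
        push_cast
        ring
      rw [dist_eq_norm, e2, norm_mul, he, mul_one, norm_neg]
      refine (norm_add_le _ _).trans ?_
      rw [norm_mul, Complex.norm_I, mul_one, Complex.norm_real, Complex.norm_real,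
        Real.norm_eq_abs, Real.norm_eq_abs, abs_div, abs_of_pos (by norm_num : (0 : ℝ) < 2)]
      linarith only [hre, hb1]
    have := dist_triangle c (a + ((q.re / 2 : ℝ) : ℂ) * e) b
    linarith

variable {K : Set ℂ} {y₀ : ℂ} {ρ δ : ℝ}

theorem FlatZone.conn (Z : FlatZone K y₀ ρ δ) (hδ : δ ≤ 1 / 50) {a b : ℂ} (ha : a ∈ K)
    (hb : b ∈ K) (hay : dist a y₀ ≤ ρ / 4) (hab : dist a b ≤ ρ / 8) :
    b ∈ connectedComponentIn (K ∩ closedBall a (3 * dist a b)) a := by
  have hρ := Z.pos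
  have hr0 : 0 ≤ dist a b := dist_nonneg
  set r := dist a b with hr
  have haX : a ∈ K ∩ closedBall a (3 * r) := ⟨ha, mem_closedBall_self (by positivity)⟩
  have hbX : b ∈ K ∩ closedBall a (3 * r) := ⟨hb, by
    rw [mem_closedBall, dist_comm]; linarith only [hr0]⟩
  have hX : IsCompact (K ∩ closedBall a (3 * r)) := by
    have h1 : K ∩ closedBall a (3 * r) = (K ∩ closedBall y₀ (2 * ρ)) ∩ closedBall a (3 * r) := by
      ext z
      constructor
      · rintro ⟨h1, h2⟩
        refine ⟨⟨h1, ?_⟩, h2⟩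
        rw [mem_closedBall] at h2 ⊢
        have := dist_triangle z a y₀
        linarith only [this, h2, hab, hρ, hay]
      · rintro ⟨⟨h1, -⟩, h2⟩
        exact ⟨h1, h2⟩
    rw [h1]
    exact Z.comp.inter_right isClosed_closedBall
  by_contra hcon
  obtain ⟨A, B, hA, hB, hAB, hU, haA, hbB⟩ := conn_split hX haX hbX hcon
  have hAK : A ⊆ K := fun z hz => ((hU ▸ Or.inl hz : z ∈ K ∩ closedBall a (3 * r))).1
  have hBK : B ⊆ K := fun z hz => ((hU ▸ Or.inr hz : z ∈ K ∩ closedBall a (3 * r))).1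
  have hF : Continuous fun p : ℂ × ℂ => 2 * dist p.1 p.2 + dist p.1 a := by fun_prop
  obtain ⟨⟨a', b'⟩, ⟨ha', hb'⟩, hmin⟩ := (hA.prod hB).exists_isMinOn ⟨(a, b), haA, hbB⟩
    hF.continuousOn
  have ha' : a' ∈ A := ha'
  have hb' : b' ∈ B := hb'
  have hm : ∀ x ∈ A, ∀ y ∈ B, 2 * dist a' b' + dist a' a ≤ 2 * dist x y + dist x a :=
    fun x hx y hy => hmin (show (x, y) ∈ A ×ˢ B from ⟨hx, hy⟩)
  have hm0 := hm a haA b hbB
  rw [dist_self, add_zero, ← hr] at hm0
  have hd : 0 < dist a' b' := dist_pos.2 fun hh => (disjoint_left.1 hAB ha') (hh ▸ hb')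
  have ha'a : 0 ≤ dist a' a := dist_nonneg
  have hL : LineAt K δ a' (dist a' b') := by
    refine Z.flat a' (hAK ha') ?_ _ hd ?_
    · have := dist_triangle a' a y₀
      linarith only [this, ha'a, hd, hm0, hab, hay]
    · linarith only [ha'a, hd, hm0, hab]
  obtain ⟨c, hcK, hc1, hc2⟩ := conn_mid hδ (hBK hb') hd hL
  have hcX : c ∈ K ∩ closedBall a (3 * r) := by
    refine ⟨hcK, ?_⟩
    rw [mem_closedBall]
    have := dist_triangle c a' a
    linarith only [this, hc1, ha'a, hd, hm0]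
  rw [← hU] at hcX
  rcases hcX with hc | hc
  · have h1 := hm c hc b' hb'
    have := dist_triangle c a' a
    linarith only [this, h1, hc2, hc1, hd]
  · have h1 := hm a' ha' c hc
    rw [dist_comm a' c] at h1
    linarith only [h1, hc1, hd]

end Vale.Agent.P128.Q1
end

section

set_option linter.all false

/-! Part IV of the proof of Q1 (lines): `K` crosses every small circle on both sides. -/

open MeasureTheory Set Metric Filter ComplexConjugate
open scoped ENNReal NNReal Topology Real ContDiff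

namespace Vale.Agent.P128.Q1

open Vale.Agent.P128

variable {K : Set ℂ} {y₀ : ℂ} {ρ δ : ℝ}

private theorem cross_norm {e : ℂ} (he : ‖e‖ = 1) (w : ℂ) :
    (conj e * w).re ^ 2 + (conj e * w).im ^ 2 = ‖w‖ ^ 2 := by
  have h1 : ‖conj e * w‖ = ‖w‖ := by
    rw [norm_mul, RCLike.norm_conj, he, one_mul]
  rw [← h1, ← Complex.normSq_eq_norm_sq, Complex.normSq_apply]
  ring

private theorem cross_side (Z : FlatZone K y₀ ρ δ) (hδ : δ ≤ 1 / 200) {y : ℂ} (hy : y ∈ K)
    (hyy : dist y y₀ ≤ ρ / 8) {t : ℝ} (ht : 0 < t) (htρ : t ≤ ρ / 16) {e : ℂ} (he : ‖e‖ = 1)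
    (hA : ∀ z ∈ K, dist z y ≤ 8 * t → |(conj e * (z - y)).im| ≤ 8 * δ * t)
    (hB : ∀ τ : ℝ, |τ| ≤ 8 * t → ∃ z ∈ K, dist z (y + τ * e) ≤ 8 * δ * t) :
    ∃ p ∈ K, dist p y = t ∧ 0 < (conj e * (p - y)).re := by
  have hδt : 8 * δ * t ≤ 1 / 25 * t := by linarith only [mul_nonneg (sub_nonneg.2 hδ) (le_of_lt (sub_pos.2 ht))]
  have hρ := Z.pos
  obtain ⟨z, hz, hzd⟩ := hB (3 / 2 * t) (by rw [abs_of_pos (by positivity)]; linarith only [ht])
  have hee : conj e * e = 1 := by
    rw [mul_comm, Complex.mul_conj, Complex.normSq_eq_norm_sq, he]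
    norm_num
  -- the position of `z`
  have hre : 3 / 2 * t - 1 / 25 * t ≤ (conj e * (z - y)).re := by
    have e1 : conj e * (z - y) = ((3 / 2 * t : ℝ) : ℂ) + conj e * (z - (y + (3 / 2 * t : ℝ) * e)) := by
      linear_combination ((3 / 2 * t : ℝ) : ℂ) * hee
    have h2 : ‖conj e * (z - (y + (3 / 2 * t : ℝ) * e))‖ ≤ 1 / 25 * t := by
      rw [norm_mul, RCLike.norm_conj, he, one_mul, ← dist_eq_norm]
      exact hzd.trans hδt
    have h3 := (abs_le.1 (Complex.abs_re_le_norm (conj e * (z - (y + (3 / 2 * t : ℝ) * e))))).1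
    rw [e1, Complex.add_re, Complex.ofReal_re]
    linarith only [h3, h2]
  have hd1 : dist z y ≤ 3 / 2 * t + 1 / 25 * t := by
    have h1 := dist_triangle z (y + (3 / 2 * t : ℝ) * e) y
    have h2 : dist (y + (3 / 2 * t : ℝ) * e) y = 3 / 2 * t := by
      rw [dist_eq_norm, add_sub_cancel_left, norm_mul, he, mul_one, Complex.norm_real,
        Real.norm_eq_abs, abs_of_pos (by positivity)]
    linarith
  have hd2 : 3 / 2 * t - 1 / 25 * t ≤ dist z y := by
    refine hre.trans ?_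
    have h1 := Complex.re_le_norm (conj e * (z - y))
    rw [norm_mul, RCLike.norm_conj, he, one_mul, ← dist_eq_norm] at h1
    exact h1
  have hconn := Z.conn (by linarith only [hδ]) hy hz (by linarith only [htρ, ht, hyy]) (by rw [dist_comm]; linarith only [hd1, htρ, ht])
  set S := connectedComponentIn (K ∩ closedBall y (3 * dist y z)) y with hS
  have hSsub : S ⊆ K ∩ closedBall y (3 * dist y z) := connectedComponentIn_subset _ _
  have hySmem : y ∈ S := by
    refine mem_connectedComponentIn ⟨hy, ?_⟩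
    rw [mem_closedBall, dist_self]
    positivity
  have hpre : IsPreconnected S := isPreconnected_connectedComponentIn
  by_contra hcon
  push Not at hcon
  have hcont : Continuous fun w : ℂ => (conj e * (w - y)).re := by fun_prop
  have hcontd : Continuous fun w : ℂ => dist w y := by fun_prop
  have hU : IsOpen {w : ℂ | t < dist w y ∧ 0 < (conj e * (w - y)).re} :=
    (isOpen_lt continuous_const hcontd).inter (isOpen_lt continuous_const hcont)
  have hV : IsOpen {w : ℂ | dist w y < t ∨ (conj e * (w - y)).re < 0} :=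
    (isOpen_lt hcontd continuous_const).union (isOpen_lt hcont continuous_const)
  have hcov : S ⊆ {w : ℂ | t < dist w y ∧ 0 < (conj e * (w - y)).re} ∪
      {w : ℂ | dist w y < t ∨ (conj e * (w - y)).re < 0} := by
    intro w hw
    obtain ⟨hwK, hwb⟩ := hSsub hw
    rw [mem_closedBall] at hwb
    have hw8 : dist w y ≤ 8 * t := by
      rw [dist_comm y z] at hwb
      linarith only [hwb, hd1, ht]
    have him := (hA w hwK hw8).trans hδt
    rcases lt_or_ge (dist w y) t with h1 | h1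
    · exact Or.inr (Or.inl h1)
    · rcases lt_trichotomy ((conj e * (w - y)).re) 0 with h2 | h2 | h2
      · exact Or.inr (Or.inr h2)
      · exfalso
        have h3 := cross_norm he (w - y)
        rw [← dist_eq_norm, h2] at h3
        have h4 : (conj e * (w - y)).im ^ 2 ≤ (1 / 25 * t) ^ 2 := by
          rw [← sq_abs]
          exact pow_le_pow_left₀ (abs_nonneg _) him 2
        linarith only [mul_nonneg (sub_nonneg.2 h1) (sub_nonneg.2 h1), mul_nonneg (sub_nonneg.2 hw8) (sub_nonneg.2 h1), mul_pos (sub_pos.2 ht) (sub_pos.2 ht), mul_nonneg (mul_self_nonneg (1 : ℝ)) (sub_nonneg.2 h4), mul_eq_zero_of_left (sub_eq_zero.2 h3) (0 - (0 - 1 * 1))]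
      · refine Or.inl ⟨lt_of_le_of_ne h1 fun h3 => ?_, h2⟩
        exact absurd h2 (not_lt.2 (hcon w hwK h3.symm))
  obtain ⟨w, -, ⟨h1, h2⟩, h3⟩ := hpre _ _ hU hV hcov
    ⟨z, hconn, by
      constructor
      · linarith only [hd2, ht]
      · linarith only [hre, ht]⟩
    ⟨y, hySmem, Or.inl (by rw [dist_self]; exact ht)⟩
  rcases h3 with h3 | h3 <;> linarith

theorem FlatZone.cross (Z : FlatZone K y₀ ρ δ) (hδ : δ ≤ 1 / 200) {y : ℂ} (hy : y ∈ K)
    (hyy : dist y y₀ ≤ ρ / 8) {t : ℝ} (ht : 0 < t) (htρ : t ≤ ρ / 16) :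
    ∃ e : ℂ, ‖e‖ = 1 ∧
      (∀ z ∈ K, dist z y ≤ 8 * t → |(conj e * (z - y)).im| ≤ 8 * δ * t) ∧
      (∀ τ : ℝ, |τ| ≤ 8 * t → ∃ z ∈ K, dist z (y + τ * e) ≤ 8 * δ * t) ∧
      (∃ p ∈ K, dist p y = t ∧ 0 < (conj e * (p - y)).re) ∧
      ∃ q ∈ K, dist q y = t ∧ (conj e * (q - y)).re < 0 := by
  have hρ := Z.pos
  obtain ⟨e, he, hA, hB⟩ := Z.flat y hy (by linarith) (8 * t) (by positivity) (by linarith only [htρ, ht])
  have hA' : ∀ z ∈ K, dist z y ≤ 8 * t → |(conj e * (z - y)).im| ≤ 8 * δ * t := by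
    intro z hz hd
    have := hA z hz hd
    linarith
  have hB' : ∀ τ : ℝ, |τ| ≤ 8 * t → ∃ z ∈ K, dist z (y + τ * e) ≤ 8 * δ * t := by
    intro τ hτ
    obtain ⟨z, hz, hd⟩ := hB τ hτ
    exact ⟨z, hz, by linarith only [hd]⟩
  refine ⟨e, he, hA', hB', cross_side Z hδ hy hyy ht htρ he hA' hB', ?_⟩
  obtain ⟨q, hq, hqd, hqr⟩ := cross_side Z hδ hy hyy ht htρ (e := -e) (by rw [norm_neg, he])
    (by
      intro z hz hd
      have := hA' z hz hd
      rw [map_neg, neg_mul, Complex.neg_im, abs_neg]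
      exact this)
    (by
      intro τ hτ
      obtain ⟨z, hz, hd⟩ := hB' (-τ) (by rw [abs_neg]; exact hτ)
      refine ⟨z, hz, ?_⟩
      have e1 : y + (τ : ℂ) * -e = y + ((-τ : ℝ) : ℂ) * e := by
        push_cast
        ring
      rw [e1]
      exact hd)
  refine ⟨q, hq, hqd, ?_⟩
  rw [map_neg, neg_mul, Complex.neg_re] at hqr
  linarith only [hqr]

theorem FlatZone.two_le (Z : FlatZone K y₀ ρ δ) (hδ : δ ≤ 1 / 200) {y : ℂ} (hy : y ∈ K)
    (hyy : dist y y₀ ≤ ρ / 8) {t : ℝ} (ht : 0 < t) (htρ : t ≤ ρ / 16) :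
    2 ≤ (K ∩ sphere y t).encard := by
  obtain ⟨e, -, -, -, ⟨p, hp, hpd, hpr⟩, q, hq, hqd, hqr⟩ := Z.cross hδ hy hyy ht htρ
  have hne : p ≠ q := by
    rintro rfl
    linarith only [hqr, hpr]
  rw [← Set.encard_pair hne]
  refine Set.encard_le_encard ?_
  rintro w (rfl | rfl)
  · exact ⟨hp, hpd⟩
  · exact ⟨hq, hqd⟩

end Vale.Agent.P128.Q1
end

section

/-! `K` in a disk whose circle it crosses only twice is connected. -/

set_option linter.all false

open MeasureTheory Set Metric Filter ComplexConjugate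
open scoped ENNReal NNReal Topology Real ContDiff

namespace Vale.Agent.P128.Q1

open Vale.Agent.P128

variable {K : Set ℂ} {y₀ : ℂ} {ρ δ : ℝ}

/-- A connected part of `K` does not leave one half of a splitting of the disk. -/
theorem cb_sep {y : ℂ} {t : ℝ} {A B S : Set ℂ} (hA : IsClosed A) (hB : IsClosed B)
    (hX : K ∩ closedBall y t ⊆ A ∪ B) (hd : Disjoint A B) (hS : IsPreconnected S) (hSK : S ⊆ K)
    (hlt : ∀ w ∈ S, w ∈ A → dist w y < t) {a b : ℂ} (ha : a ∈ S) (haA : a ∈ A) (hb : b ∈ S)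
    (hbA : b ∉ A) : False := by
  have hD : IsClosed (B ∪ {w | t ≤ dist w y}) :=
    hB.union (isClosed_le continuous_const (continuous_id.dist continuous_const))
  have hcov : S ⊆ A ∪ (B ∪ {w | t ≤ dist w y}) := by
    intro w hw
    rcases le_or_gt t (dist w y) with h | h
    · exact Or.inr (Or.inr h)
    · rcases hX ⟨hSK hw, h.le⟩ with h1 | h1
      · exact Or.inl h1
      · exact Or.inr (Or.inl h1)
  have hb2 : b ∈ B ∪ {w | t ≤ dist w y} := (hcov hb).resolve_left hbA
  obtain ⟨w, hwS, hwA, hwD⟩ := isPreconnected_closed_iff.1 hS A _ hA hD hcov ⟨a, ha, haA⟩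
    ⟨b, hb, hb2⟩
  rcases hwD with h | h
  · exact disjoint_left.1 hd hwA h
  · exact absurd (hlt w hwS hwA) (not_lt.2 h)

theorem cb_norm {e z : ℂ} (he : ‖e‖ = 1) : ‖conj e * z‖ = ‖z‖ := by
  rw [norm_mul, RCLike.norm_conj, he, one_mul]

theorem cb_mul {e : ℂ} (he : ‖e‖ = 1) : conj e * e = 1 := by
  rw [Complex.conj_mul', he]; simp

/-- a crossing point is close to the end of the diameter -/
theorem cb_close {e y p : ℂ} {t η : ℝ} (he : ‖e‖ = 1) (hp : dist p y = t)
    (him : |(conj e * (p - y)).im| ≤ η) (hre : 0 < (conj e * (p - y)).re) :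
    dist p (y + ((t - η : ℝ) : ℂ) * e) ≤ 2 * η ∧ t - η ≤ (conj e * (p - y)).re := by
  set w := conj e * (p - y) with hw
  have h1 : ‖w‖ = t := by rw [hw, cb_norm he, ← dist_eq_norm, hp]
  have h2 : t ≤ w.re + |w.im| := by
    rw [← h1]
    calc ‖w‖ ≤ |w.re| + |w.im| := Complex.norm_le_abs_re_add_abs_im w
      _ = w.re + |w.im| := by rw [abs_of_pos hre]
  have h3 : w.re ≤ t := by rw [← h1]; exact (le_abs_self _).trans (Complex.abs_re_le_norm w)
  refine ⟨?_, by linarith⟩
  have h4 : ‖p - (y + ((t - η : ℝ) : ℂ) * e)‖ = ‖w - ((t - η : ℝ) : ℂ)‖ := by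
    rw [← cb_norm he (z := p - (y + ((t - η : ℝ) : ℂ) * e))]
    congr 1
    rw [hw]
    linear_combination (-((t - η : ℝ) : ℂ)) * cb_mul he
  rw [dist_eq_norm, h4]
  refine (Complex.norm_le_abs_re_add_abs_im _).trans ?_
  simp only [Complex.sub_re, Complex.sub_im, Complex.ofReal_re, Complex.ofReal_im, sub_zero]
  have h5 : |w.re - (t - η)| ≤ η := by
    rw [abs_le]; constructor <;> linarith
  linarith

theorem cb_aux (Z : FlatZone K y₀ ρ δ) (hδ : δ ≤ 1 / 200) {y : ℂ}
    (hyy : dist y y₀ ≤ ρ / 8) {t : ℝ} (ht : 0 < t) (htρ : t ≤ ρ / 16) {e : ℂ} (he : ‖e‖ = 1)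
    (hex : ∀ τ : ℝ, |τ| ≤ 8 * t → ∃ z ∈ K, dist z (y + τ * e) ≤ 8 * δ * t) (hδ0 : 0 ≤ δ)
    {p q : ℂ} (hp : dist p y = t) (hq : dist q y = t)
    (hpi : |(conj e * (p - y)).im| ≤ 8 * δ * t) (hqi : |(conj e * (q - y)).im| ≤ 8 * δ * t)
    (hpr : 0 < (conj e * (p - y)).re) (hqr : (conj e * (q - y)).re < 0)
    (hpq : K ∩ sphere y t ⊆ {p, q}) {A B : Set ℂ} (hA : IsCompact A) (hB : IsCompact B)
    (hX : K ∩ closedBall y t = A ∪ B) (hd : Disjoint A B) (hpA : p ∈ A) (hqB : q ∈ B) :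
    False := by
  have hAK : A ⊆ K ∩ closedBall y t := hX ▸ subset_union_left
  have hBK : B ⊆ K ∩ closedBall y t := hX ▸ subset_union_right
  set T : ℝ := t - 8 * δ * t with hT
  have hη0 : 0 ≤ 8 * δ * t := by (clear * - hδ0 ht; positivity)
  have hη1 : 8 * δ * t ≤ t / 25 := by linarith only [mul_nonneg (sub_nonneg.2 hδ) (le_of_lt (sub_pos.2 ht))]
  have hT0 : 0 < T := by rw [hT]; linarith only [hη1, ht]
  obtain ⟨c1, c2⟩ := cb_close he hp hpi hpr
  have hqr' : 0 < (conj (-e) * (q - y)).re := by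
    rw [map_neg, neg_mul, Complex.neg_re]; linarith only [hqr]
  have hqi' : |(conj (-e) * (q - y)).im| ≤ 8 * δ * t := by
    rw [map_neg, neg_mul, Complex.neg_im, abs_neg]; exact hqi
  obtain ⟨d1, d2⟩ := cb_close (by rw [norm_neg, he]) hq hqi' hqr'
  -- close points of `A` and `B`
  have hcl : ∀ C : Set ℂ, IsClosed {τ : ℝ | infDist (y + τ * e) C ≤ 2 * (8 * δ * t)} := fun C =>
    isClosed_le ((continuous_infDist_pt C).comp (by fun_prop)) continuous_const
  obtain ⟨τ, -, hτA, hτB⟩ := isPreconnected_closed_iff.1 (isPreconnected_Icc (a := -T) (b := T))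
    {τ : ℝ | infDist (y + τ * e) A ≤ 2 * (8 * δ * t)}
    {τ : ℝ | infDist (y + τ * e) B ≤ 2 * (8 * δ * t)} (hcl A) (hcl B)
    (by
      intro τ hτ
      have h1 : |τ| ≤ T := abs_le.2 hτ
      obtain ⟨z, hzK, hz⟩ := hex τ (h1.trans (by rw [hT]; linarith only [hT0, hη0]))
      have h2 : dist z y ≤ t := by
        calc dist z y ≤ dist z (y + τ * e) + dist (y + τ * e) y := dist_triangle _ _ _
          _ ≤ 8 * δ * t + |τ| := by
            refine add_le_add hz (le_of_eq ?_)
            rw [dist_eq_norm, add_sub_cancel_left, norm_mul, he, mul_one, Complex.norm_real,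
              Real.norm_eq_abs]
          _ ≤ t := by rw [hT] at h1; linarith only [h1]
      have h3 : z ∈ A ∪ B := hX ▸ ⟨hzK, h2⟩
      rcases h3 with h3 | h3
      · left
        have := infDist_le_dist_of_mem (x := y + τ * e) h3
        rw [dist_comm] at this
        show infDist (y + τ * e) A ≤ 2 * (8 * δ * t)
        linarith only [this, hz, hη0]
      · right
        have := infDist_le_dist_of_mem (x := y + τ * e) h3
        rw [dist_comm] at this
        show infDist (y + τ * e) B ≤ 2 * (8 * δ * t)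
        linarith only [this, hz, hη0])
    ⟨T, ⟨by linarith only [hT0], le_rfl⟩, by
      have := infDist_le_dist_of_mem (x := y + (T : ℂ) * e) hpA
      rw [dist_comm] at this
      exact this.trans c1⟩
    ⟨-T, ⟨le_rfl, by linarith only [hT0]⟩, by
      have := infDist_le_dist_of_mem (x := y + ((-T : ℝ) : ℂ) * e) hqB
      rw [dist_comm] at this
      refine this.trans ?_
      have e1 : y + ((-T : ℝ) : ℂ) * e = y + ((t - 8 * δ * t : ℝ) : ℂ) * (-e) := by
        rw [hT]; push_cast; ring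
      rw [e1]
      exact d1⟩
  obtain ⟨a, haA, ha⟩ := hA.exists_infDist_eq_dist ⟨p, hpA⟩ (y + τ * e)
  obtain ⟨b, hbB, hb⟩ := hB.exists_infDist_eq_dist ⟨q, hqB⟩ (y + τ * e)
  have hab : dist a b ≤ 4 * (8 * δ * t) := by
    have h1 : dist (y + τ * e) a ≤ 2 * (8 * δ * t) := by rw [← ha]; exact hτA
    have h2 : dist (y + τ * e) b ≤ 2 * (8 * δ * t) := by rw [← hb]; exact hτB
    calc dist a b ≤ dist a (y + τ * e) + dist (y + τ * e) b := dist_triangle _ _ _
      _ ≤ 4 * (8 * δ * t) := by rw [dist_comm a]; linarith only [h2, h1]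
  -- a connected set joining them
  have hay : dist a y₀ ≤ ρ / 4 := by
    calc dist a y₀ ≤ dist a y + dist y y₀ := dist_triangle _ _ _
      _ ≤ ρ / 4 := by
        have := (hAK haA).2
        rw [mem_closedBall] at this
        linarith only [this, hT0, hη0, htρ, hyy]
  have hS := Z.conn (hδ.trans (by norm_num)) (hAK haA).1 (hBK hbB).1 hay (by linarith only [hab, hT0, hη1, htρ])
  set S := connectedComponentIn (K ∩ closedBall a (3 * dist a b)) a with hSdef
  have haX : a ∈ K ∩ closedBall a (3 * dist a b) :=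
    ⟨(hAK haA).1, mem_closedBall_self (by (clear * -; positivity))⟩
  have haS : a ∈ S := mem_connectedComponentIn haX
  have hSc : IsPreconnected S := isPreconnected_connectedComponentIn
  have hSsub : S ⊆ K ∩ closedBall a (3 * dist a b) := connectedComponentIn_subset _ _
  have hpqd : 2 * T ≤ dist p q := by
    have h1 : dist p q = ‖conj e * (p - q)‖ := by rw [cb_norm he, dist_eq_norm]
    rw [h1]
    have h2 : conj e * (p - q) = conj e * (p - y) - conj e * (q - y) := by ring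
    have h3 : (conj e * (p - q)).re ≤ ‖conj e * (p - q)‖ :=
      (le_abs_self _).trans (Complex.abs_re_le_norm _)
    rw [map_neg, neg_mul, Complex.neg_re] at d2
    have h4 : (conj e * (p - q)).re = (conj e * (p - y)).re - (conj e * (q - y)).re := by
      rw [h2, Complex.sub_re]
    rw [h4] at h3
    linarith only [h3, d2, c2]
  have hnot : p ∉ S ∨ q ∉ S := by
    by_contra hcon
    push Not at hcon
    have h1 := (hSsub hcon.1).2
    have h2 := (hSsub hcon.2).2
    rw [mem_closedBall] at h1 h2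
    have h3 : dist p q ≤ dist p a + dist q a := dist_triangle_right _ _ _
    rw [hT] at hpqd
    linarith only [h3, h2, h1, hpqd, hab, hT0, hη1]
  have hbA : b ∉ A := fun h => disjoint_left.1 hd h hbB
  have haB : a ∉ B := fun h => disjoint_left.1 hd haA h
  have hsph : ∀ w ∈ K ∩ closedBall y t, w ≠ p → w ≠ q → dist w y < t := by
    intro w hw h1 h2
    refine lt_of_le_of_ne hw.2 fun h3 => ?_
    rcases hpq ⟨hw.1, h3⟩ with h4 | h4
    · exact h1 h4
    · exact h2 h4
  rcases hnot with hn | hn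
  · refine cb_sep hA.isClosed hB.isClosed hX.subset hd hSc (hSsub.trans inter_subset_left)
      (fun w hwS hwA => hsph w (hAK hwA) ?_ ?_) haS haA hS hbA
    · rintro rfl; exact hn hwS
    · rintro rfl; exact disjoint_left.1 hd hwA hqB
  · refine cb_sep hB.isClosed hA.isClosed (by rw [union_comm, ← hX]) hd.symm hSc
      (hSsub.trans inter_subset_left)
      (fun w hwS hwB => hsph w (hBK hwB) ?_ ?_) hS hbB haS haB
    · rintro rfl; exact disjoint_left.1 hd hpA hwB
    · rintro rfl; exact hn hwS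

/-- each half of a splitting meets the circle -/
theorem cb_meets (Z : FlatZone K y₀ ρ δ) (hδ : δ ≤ 1 / 200) {y : ℂ}
    (hyy : dist y y₀ ≤ ρ / 8) {t : ℝ} (ht : 0 < t) (htρ : t ≤ ρ / 16)
    {p q : ℂ} (hpK : p ∈ K) (hp : dist p y = t) 
    (hpq : K ∩ sphere y t ⊆ {p, q}) {A B : Set ℂ} (hA : IsCompact A) (hB : IsCompact B)
    (hX : K ∩ closedBall y t = A ∪ B) (hd : Disjoint A B) (hne : A.Nonempty) (hpA : p ∉ A)
    (hqA : q ∉ A) : False := by
  obtain ⟨a, haA⟩ := hne
  have hAK : A ⊆ K ∩ closedBall y t := hX ▸ subset_union_left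
  have haK := hAK haA
  have h1 : dist a p ≤ ρ / 8 := by
    calc dist a p ≤ dist a y + dist p y := dist_triangle_right _ _ _
      _ ≤ ρ / 8 := by
        have := haK.2
        rw [mem_closedBall] at this
        linarith only [this, hp, htρ]
  have hay : dist a y₀ ≤ ρ / 4 := by
    calc dist a y₀ ≤ dist a y + dist y y₀ := dist_triangle _ _ _
      _ ≤ ρ / 4 := by
        have := haK.2
        rw [mem_closedBall] at this
        linarith only [this, htρ, ht, hyy]
  have hS := Z.conn (hδ.trans (by norm_num)) haK.1 hpK hay h1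
  set S := connectedComponentIn (K ∩ closedBall a (3 * dist a p)) a with hSdef
  have haS : a ∈ S := mem_connectedComponentIn ⟨haK.1, mem_closedBall_self (by (clear * -; positivity))⟩
  refine cb_sep hA.isClosed hB.isClosed hX.subset hd isPreconnected_connectedComponentIn
    ((connectedComponentIn_subset _ _).trans inter_subset_left) (fun w hwS hwA => ?_) haS haA hS hpA
  refine lt_of_le_of_ne (hAK hwA).2 fun h3 => ?_
  rcases hpq ⟨(hAK hwA).1, h3⟩ with h4 | h4
  · exact hpA (h4 ▸ hwA)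
  · exact hqA (h4 ▸ hwA)

theorem FlatZone.conn_ball (Z : FlatZone K y₀ ρ δ) (hδ : δ ≤ 1 / 200) {y : ℂ} (hy : y ∈ K)
    (hyy : dist y y₀ ≤ ρ / 8) {t : ℝ} (ht : 0 < t) (htρ : t ≤ ρ / 16)
    (h2 : (K ∩ sphere y t).encard ≤ 2) : IsPreconnected (K ∩ closedBall y t) := by
  obtain ⟨e, he, him, hex, ⟨p, hpK, hpt, hpre⟩, ⟨q, hqK, hqt, hqre⟩⟩ := Z.cross hδ hy hyy ht htρ
  have hne : p ≠ q := by rintro rfl; linarith only [hqre, hpre]
  have hδ0 : 0 ≤ δ := by
    have h1 := him y hy (by rw [dist_self]; positivity)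
    have h3 : 0 ≤ 8 * δ * t := (abs_nonneg _).trans h1
    by_contra hcon
    push Not at hcon
    linarith only [mul_pos (sub_pos.2 ht) (sub_pos.2 hcon), mul_nonneg (mul_self_nonneg (1 : ℝ)) (sub_nonneg.2 h3)]
  have hpq : K ∩ sphere y t ⊆ {p, q} := by
    have hsub : ({p, q} : Set ℂ) ⊆ K ∩ sphere y t := by
      rintro w (rfl | rfl)
      · exact ⟨hpK, hpt⟩
      · exact ⟨hqK, hqt⟩
    have hfin : (K ∩ sphere y t).Finite := by
      rw [← encard_ne_top_iff]
      exact ne_top_of_le_ne_top (by simp) h2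
    have hc : ({p, q} : Set ℂ).encard = 2 := encard_pair hne
    exact ((Finite.eq_of_subset_of_encard_le (toFinite _) hsub (by rw [hc]; exact h2)).symm).subset
  have hcomp : IsCompact (K ∩ closedBall y t) := by
    have h1 : K ∩ closedBall y t = (K ∩ closedBall y₀ (2 * ρ)) ∩ closedBall y t := by
      ext w
      simp only [mem_inter_iff, mem_closedBall]
      constructor
      · rintro ⟨a1, a2⟩
        refine ⟨⟨a1, ?_⟩, a2⟩
        calc dist w y₀ ≤ dist w y + dist y y₀ := dist_triangle _ _ _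
          _ ≤ 2 * ρ := by linarith only [a2, htρ, ht, hyy]
      · rintro ⟨⟨a1, -⟩, a2⟩
        exact ⟨a1, a2⟩
    rw [h1]
    exact Z.comp.inter_right isClosed_closedBall
  rw [isPreconnected_iff_subset_of_fully_disjoint_closed hcomp.isClosed]
  intro U V hU hV hUV hdis
  by_contra hcon
  push Not at hcon
  obtain ⟨hcU, hcV⟩ := hcon
  rw [not_subset] at hcU hcV
  obtain ⟨b₀, hb₀, hb₀U⟩ := hcU
  obtain ⟨a₀, ha₀, ha₀V⟩ := hcV
  set A := K ∩ closedBall y t ∩ U with hAdef
  set B := K ∩ closedBall y t ∩ V with hBdef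
  have hA : IsCompact A := hcomp.inter_right hU
  have hB : IsCompact B := hcomp.inter_right hV
  have hX : K ∩ closedBall y t = A ∪ B := by
    rw [hAdef, hBdef, ← inter_union_distrib_left, inter_eq_left.2 hUV]
  have hd : Disjoint A B := hdis.mono inter_subset_right inter_subset_right
  have hAne : A.Nonempty := ⟨a₀, ha₀, (hUV ha₀).resolve_right ha₀V⟩
  have hBne : B.Nonempty := ⟨b₀, hb₀, (hUV hb₀).resolve_left hb₀U⟩
  have hX' : K ∩ closedBall y t = B ∪ A := by rw [hX, union_comm]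
  have hpX : p ∈ A ∪ B := hX ▸ ⟨hpK, hpt.le⟩
  have hqX : q ∈ A ∪ B := hX ▸ ⟨hqK, hqt.le⟩
  have hpi := him p hpK (by rw [hpt]; linarith only [ht])
  have hqi := him q hqK (by rw [hqt]; linarith only [ht])
  have hA1 : p ∈ A ∨ q ∈ A := by
    by_contra hc
    push Not at hc
    exact cb_meets Z hδ hyy ht htρ hpK hpt hpq hA hB hX hd hAne hc.1 hc.2
  have hB1 : p ∈ B ∨ q ∈ B := by
    by_contra hc
    push Not at hc
    exact cb_meets Z hδ hyy ht htρ hpK hpt hpq hB hA hX' hd.symm hBne hc.1 hc.2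
  rcases hA1 with hpA | hqA
  · rcases hB1 with hpB | hqB
    · exact disjoint_left.1 hd hpA hpB
    · exact cb_aux Z hδ hyy ht htρ he hex hδ0 hpt hqt hpi hqi hpre hqre hpq hA hB hX hd hpA hqB
  · rcases hB1 with hpB | hqB
    · exact cb_aux Z hδ hyy ht htρ he hex hδ0 hpt hqt hpi hqi hpre hqre hpq hB hA hX' hd.symm
        hpB hqA
    · exact disjoint_left.1 hd hqA hqB

end Vale.Agent.P128.Q1
end

section

/-! P128, Q1: reference angles. -/

open Set Metric Filter ComplexConjugate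
open scoped Topology Real

namespace Vale.Agent.P128.Q1

open Vale.Agent.P128

variable {K : Set ℂ} {x : ℂ} {m : ℕ} {R c A : ℝ}

theorem uc_add_turn (t : ℝ) (q : ℤ) : uc (t + 2 * π * q) = uc t := by
  unfold uc
  rw [Complex.exp_eq_exp_iff_exists_int]
  exact ⟨q, by push_cast; ring⟩

theorem uc_eq_iff {s t : ℝ} (h : uc s = uc t) : ∃ n : ℤ, s = t + 2 * π * n := by
  unfold uc at h
  rw [Complex.exp_eq_exp_iff_exists_int] at h
  obtain ⟨n, hn⟩ := h
  have h1 : (s : ℂ) = t + n * (2 * π) := by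
    have hI := Complex.I_ne_zero
    have : (s : ℂ) * Complex.I = (t + n * (2 * π)) * Complex.I := by rw [hn]; ring
    exact mul_right_cancel₀ hI this
  refine ⟨n, ?_⟩
  have h2 : s = t + n * (2 * π) := by exact_mod_cast h1
  rw [h2]; ring

theorem norm_uc_sub_uc (s t : ℝ) : ‖uc s - uc t‖ ≤ |s - t| := by
  have h1 : uc s - uc t = uc t * (uc (s - t) - 1) := by
    rw [mul_sub, ← uc_add, mul_one, show t + (s - t) = s by ring]
  rw [h1, norm_mul, norm_uc, one_mul]
  have h2 : ‖uc (s - t) - 1‖ ≤ |s - t| := by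
    unfold uc
    have h3 := Real.norm_exp_I_mul_ofReal_sub_one_le (x := s - t)
    rw [mul_comm] at h3
    exact h3
  exact h2

/-- A unit vector close to `uc θ` has an angle close to `θ`. -/
theorem exists_angle {q : ℂ} {θ ε : ℝ} (hq : ‖q‖ = 1) (h : ‖q - uc θ‖ ≤ ε) :
    ∃ φ : ℝ, q = uc φ ∧ |φ - θ| ≤ 2 * ε := by
  have hπ := Real.pi_pos
  set p := q * uc (-θ) with hp
  have hp1 : ‖p‖ = 1 := by rw [hp, norm_mul, hq, norm_uc, mul_one]
  have hp0 : p ≠ 0 := by rw [← norm_ne_zero_iff, hp1]; exact one_ne_zero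
  have hpε : ‖p - 1‖ ≤ ε := by
    have h1 : p - 1 = (q - uc θ) * uc (-θ) := by
      rw [sub_mul, ← hp, mul_comm (uc θ), uc_neg_mul]
    rw [h1, norm_mul, norm_uc, mul_one]
    exact h
  refine ⟨θ + p.arg, ?_, ?_⟩
  · rw [uc_add, uc_arg hp1, hp]
    have := uc_neg_mul θ
    linear_combination (-q) * this
  · rw [add_sub_cancel_left]
    have h2 := (Complex.norm_sub_mem_Icc_angle (x := 1) (y := p) norm_one hp1).1
    rw [Complex.angle_one_left hp0] at h2
    have h3 : ‖(1 : ℂ) - p‖ ≤ ε := by rw [norm_sub_rev]; exact hpε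
    have h4 : 2 / π * |p.arg| ≤ ε := h2.trans h3
    have h5 : |p.arg| ≤ π / 2 * ε := by
      have h6 := mul_le_mul_of_nonneg_left h4 (by positivity : 0 ≤ π / 2)
      have e1 : π / 2 * (2 / π * |p.arg|) = |p.arg| := by field_simp
      linarith only [e1, h6]
    have h7 : 0 ≤ ε := (norm_nonneg _).trans hpε
    have h8 : π / 2 ≤ 2 := by linarith only [Real.pi_lt_d2]
    exact h5.trans (mul_le_mul_of_nonneg_right h8 h7)

/-- Two rays of the family at distance less than one are equal. -/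
theorem ray_eq_of_near (hm : m = 1 ∨ m = 2 ∨ m = 3) (θ : ℝ) (j k : ℤ)
    (h : ‖uc (θ + 2 * π * j / m) - uc (θ + 2 * π * k / m)‖ < 1) :
    uc (θ + 2 * π * j / m) = uc (θ + 2 * π * k / m) := by
  rcases ray_cases hm θ j k with heq | hre
  · exact heq
  exfalso
  set a := uc (θ + 2 * π * j / m) with ha
  set b := uc (θ + 2 * π * k / m) with hb
  have ha1 : ‖a‖ = 1 := norm_uc _
  have hb1 : ‖b‖ = 1 := norm_uc _
  have h1 : ‖a - b‖ = ‖1 - conj a * b‖ := by
    have haa := conj_mul_self_of_norm ha1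
    have h2 : conj a * (a - b) = 1 - conj a * b := by linear_combination haa
    rw [← h2, norm_mul, Complex.norm_conj, ha1, one_mul]
  have h3 : (1 : ℝ) ≤ ‖1 - conj a * b‖ := by
    refine le_trans ?_ (Complex.abs_re_le_norm _)
    refine le_trans ?_ (le_abs_self _)
    rw [Complex.sub_re, Complex.one_re]
    linarith only [hre]
  rw [h1] at h
  linarith only [h3, h]

/-- The rays at two comparable scales. -/
theorem NearRays.compare {θ θ' r δ : ℝ} (hr : 0 < r) (hδ0 : 0 < δ) (hδ : δ ≤ 1 / 100) (hm : 0 < m)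
    (h : NearRays K x m θ r δ) (h' : NearRays K x m θ' (r / 2) δ) :
    ∃ n : ℤ, |θ' + 2 * π * n / m - θ| ≤ 16 * δ := by
  have hπ := Real.pi_pos
  have hm0 : (m : ℝ) ≠ 0 := by exact_mod_cast hm.ne'
  obtain ⟨y, hy, hyd⟩ := h'.2 0 (r / 2) (by positivity) le_rfl
  simp only [Int.cast_zero, mul_zero, zero_div, add_zero] at hyd
  have hy1 : dist (x + (r / 2 : ℝ) * uc θ') x = r / 2 := by
    rw [dist_eq_norm, add_sub_cancel_left, norm_mul, norm_uc, Complex.norm_real,
      Real.norm_of_nonneg (by positivity), mul_one]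
  have hδr : δ * r ≤ r / 100 := by nlinarith
  have hyx : dist y x ≤ r := by
    have := dist_triangle y (x + (r / 2 : ℝ) * uc θ') x
    linarith only [this, hδr, hy1, hyd, hr]
  obtain ⟨k, ρ, hρ, hyk⟩ := h.1 y hy hyx
  set w := uc (θ + 2 * π * k / m) with hw
  have hw1 : ‖w‖ = 1 := norm_uc _
  have h1 : dist (x + (r / 2 : ℝ) * uc θ') (x + ρ * w) ≤ δ * (r / 2) + δ * r := by
    have := dist_triangle (x + (r / 2 : ℝ) * uc θ') y (x + ρ * w)
    rw [dist_comm (x + (r / 2 : ℝ) * uc θ') y] at this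
    linarith only [this, hyk, hyd]
  have hρw : dist (x + ρ * w) x = ρ := by
    rw [dist_eq_norm, add_sub_cancel_left, norm_mul, hw1, Complex.norm_real,
      Real.norm_of_nonneg hρ, mul_one]
  have h2 : |r / 2 - ρ| ≤ 3 / 2 * (δ * r) := by
    rw [abs_le]
    have t1 := dist_triangle (x + (r / 2 : ℝ) * uc θ') (x + ρ * w) x
    have t2 := dist_triangle (x + ρ * w) (x + (r / 2 : ℝ) * uc θ') x
    rw [dist_comm (x + ρ * w) (x + (r / 2 : ℝ) * uc θ')] at t2
    rw [hy1, hρw] at t1 t2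
    constructor <;> linarith
  have h3 : ‖uc θ' - w‖ ≤ 8 * δ := by
    have e1 : ((r / 2 : ℝ) : ℂ) * (uc θ' - w) =
        ((x + (r / 2 : ℝ) * uc θ') - (x + ρ * w)) - ((r / 2 - ρ : ℝ) : ℂ) * w := by
      push_cast; ring
    have h4 : r / 2 * ‖uc θ' - w‖ ≤ 3 * (δ * r) := by
      have h5 : ‖((r / 2 : ℝ) : ℂ) * (uc θ' - w)‖ = r / 2 * ‖uc θ' - w‖ := by
        rw [norm_mul, Complex.norm_real, Real.norm_of_nonneg (by positivity)]
      rw [← h5, e1]
      refine (norm_sub_le _ _).trans ?_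
      rw [← dist_eq_norm, norm_mul, hw1, mul_one, Complex.norm_real, Real.norm_eq_abs]
      linarith only [h2, h1]
    have h6 : r * ‖uc θ' - w‖ ≤ r * (8 * δ) := by (by_contra nlg; linarith only [nlg, mul_nonneg (sub_nonneg.2 hδ) (sub_nonneg.2 h4), mul_nonneg (le_of_lt (sub_pos.2 hδ0)) (sub_nonneg.2 h4), mul_pos (sub_pos.2 hr) (sub_pos.2 hδ0), mul_nonneg (le_of_lt (sub_pos.2 (not_le.1 nlg))) (sub_nonneg.2 hδ), mul_pos (sub_pos.2 (not_le.1 nlg)) (sub_pos.2 hδ0)])
    exact le_of_mul_le_mul_left h6 hr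
  obtain ⟨φ, hφ, hφ1⟩ := exists_angle (norm_uc θ') h3
  obtain ⟨n, hn⟩ := uc_eq_iff hφ
  refine ⟨-(n * m) - k, ?_⟩
  have e2 : θ' + 2 * π * ((-(n * m) - k : ℤ) : ℝ) / m - θ = φ - (θ + 2 * π * k / m) := by
    rw [hn]
    push_cast
    field_simp
    ring
  rw [e2]
  linarith only [hφ1]

theorem NearRays.shift {θ r δ : ℝ} (h : NearRays K x m θ r δ) (n : ℤ) :
    NearRays K x m (θ + 2 * π * n / m) r δ := by
  constructor
  · intro y hy hyr
    obtain ⟨k, ρ, hρ, hd⟩ := h.1 y hy hyr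
    refine ⟨k - n, ρ, hρ, ?_⟩
    rw [show θ + 2 * π * n / m + 2 * π * ((k - n : ℤ) : ℝ) / m = θ + 2 * π * k / m by
      push_cast; ring]
    exact hd
  · intro k ρ h0 h1
    obtain ⟨y, hy, hd⟩ := h.2 (k + n) ρ h0 h1
    refine ⟨y, hy, ?_⟩
    rw [show θ + 2 * π * n / m + 2 * π * k / m = θ + 2 * π * ((k + n : ℤ) : ℝ) / m by
      push_cast; ring]
    exact hd

/-- Reference angles at all small scales. -/
theorem Cone.exists_theta (h : Cone K x m R c A) {δ : ℝ} (hδ0 : 0 < δ) (hδ : δ ≤ 1 / 100) :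
    ∃ r₂ > 0, ∃ Θ : ℝ → ℝ,
      (∀ y ∈ K, y ≠ x → dist y x ≤ r₂ → ∃ (k : ℤ) (φ : ℝ), y = x + dist y x * uc φ ∧
        |φ - (Θ (dist y x) + 2 * π * k / m)| ≤ δ) ∧
      (∀ s, 0 < s → s ≤ r₂ → ∀ k : ℤ, ∃ y ∈ K, dist y (x + s * uc (Θ s + 2 * π * k / m)) ≤ δ * s) ∧
      ∀ s s', 0 < s' → s' ≤ s → s ≤ r₂ → s ≤ 2 * s' → |Θ s - Θ s'| ≤ δ := by
  have hm : 0 < m := by rcases h.hm with rfl | rfl | rfl <;> norm_num
  obtain ⟨η, hη⟩ : ∃ η, η = δ / 16 := ⟨_, rfl⟩
  have hη0 : 0 < η := by rw [hη]; positivity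
  have hη1 : η ≤ 1 / 100 := by rw [hη]; linarith
  obtain ⟨r₂, hr₂, hrays⟩ := h.rays η hη0
  have hk : ∀ k : ℕ, 0 < r₂ / 2 ^ k ∧ r₂ / 2 ^ k ≤ r₂ := by
    intro k
    refine ⟨by positivity, ?_⟩
    rw [div_le_iff₀ (by positivity)]
    have : (1 : ℝ) ≤ 2 ^ k := one_le_pow₀ (by norm_num)
    (by_contra nlg; linarith only [nlg, mul_nonneg (le_of_lt (sub_pos.2 hr₂)) (sub_nonneg.2 this), mul_nonneg (le_of_lt (sub_pos.2 (not_le.1 nlg))) (sub_nonneg.2 hη1), mul_pos (sub_pos.2 (not_le.1 nlg)) (sub_pos.2 hη0)])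
  choose θ' hθ' using fun k : ℕ => hrays (r₂ / 2 ^ k) (hk k).1 (hk k).2
  have hcmp : ∀ k : ℕ, ∃ n : ℤ, |θ' (k + 1) + 2 * π * n / m - θ' k| ≤ 16 * η := by
    intro k
    refine NearRays.compare (hk k).1 hη0 hη1 hm (hθ' k) ?_
    have := hθ' (k + 1)
    rwa [show r₂ / 2 ^ (k + 1) = r₂ / 2 ^ k / 2 by rw [pow_succ]; field_simp] at this
  choose n hn using hcmp
  obtain ⟨θ, hθ⟩ : ∃ θ : ℕ → ℝ, θ = fun k =>
    θ' k + 2 * π * ((∑ j ∈ Finset.range k, n j : ℤ) : ℝ) / m := ⟨_, rfl⟩
  have hθrays : ∀ k, NearRays K x m (θ k) (r₂ / 2 ^ k) η := fun k => by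
    rw [hθ]; exact (hθ' k).shift _
  have hθstep : ∀ k, |θ (k + 1) - θ k| ≤ δ := by
    intro k
    have e1 : θ (k + 1) - θ k = θ' (k + 1) + 2 * π * n k / m - θ' k := by
      rw [hθ]
      simp only
      rw [Finset.sum_range_succ]
      push_cast
      ring
    rw [e1]
    refine (hn k).trans_eq ?_
    rw [hη]; ring
  -- the dyadic index
  have hidx : ∀ s : ℝ, 0 < s → s ≤ r₂ → ∃ k : ℕ, r₂ / 2 ^ (k + 1) < s ∧ s ≤ r₂ / 2 ^ k := by
    intro s hs hs2
    obtain ⟨k, hk1, hk2⟩ := exists_nat_pow_near_of_lt_one (x := s / r₂) (y := (1 / 2 : ℝ))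
      (by positivity) ((div_le_one hr₂).2 hs2) (by norm_num) (by norm_num)
    rw [lt_div_iff₀ hr₂] at hk1
    rw [div_le_iff₀ hr₂] at hk2
    refine ⟨k, ?_, ?_⟩
    · rw [one_div, inv_pow] at hk1
      rw [div_eq_inv_mul]; exact hk1
    · rw [one_div, inv_pow] at hk2
      rw [div_eq_inv_mul]; exact hk2
  obtain ⟨κ, hκ⟩ : ∃ κ : ℝ → ℕ, ∀ s : ℝ, 0 < s → s ≤ r₂ →
      r₂ / 2 ^ (κ s + 1) < s ∧ s ≤ r₂ / 2 ^ κ s := by
    refine ⟨fun s => if hs : 0 < s ∧ s ≤ r₂ then (hidx s hs.1 hs.2).choose else 0, ?_⟩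
    intro s hs1 hs2
    simp only [hs1, hs2, and_self, dif_pos]
    exact (hidx s hs1 hs2).choose_spec
  refine ⟨r₂, hr₂, fun s => θ (κ s), ?_, ?_, ?_⟩
  · intro y hy hyx hyr
    have hs : 0 < dist y x := dist_pos.2 hyx
    obtain ⟨k1, k2⟩ := hκ _ hs hyr
    obtain ⟨s, hsd⟩ : ∃ s, s = dist y x := ⟨_, rfl⟩
    rw [← hsd] at hs k1 k2 ⊢
    obtain ⟨k, ρ, hρ, hyk⟩ := (hθrays (κ s)).1 y hy (by rw [← hsd]; exact k2)
    set w := uc (θ (κ s) + 2 * π * k / m) with hw
    have hw1 : ‖w‖ = 1 := norm_uc _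
    have hr2s : r₂ / 2 ^ κ s ≤ 2 * s := by
      have e1 : r₂ / 2 ^ (κ s + 1) = r₂ / 2 ^ κ s / 2 := by rw [pow_succ]; field_simp
      rw [e1] at k1
      linarith only [k1]
    have h1 : dist y (x + ρ * w) ≤ 2 * η * s := by
      refine hyk.trans ?_
      have := mul_le_mul_of_nonneg_left hr2s hη0.le
      linarith only [this]
    obtain ⟨q, hq1, hyq⟩ := exists_unit hs hsd.symm
    have hρw : dist (x + ρ * w) x = ρ := by
      rw [dist_eq_norm, add_sub_cancel_left, norm_mul, hw1, Complex.norm_real,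
        Real.norm_of_nonneg hρ, mul_one]
    have h2 : |s - ρ| ≤ 2 * η * s := by
      rw [abs_le]
      have t1 := dist_triangle y (x + ρ * w) x
      have t2 := dist_triangle (x + ρ * w) y x
      rw [dist_comm (x + ρ * w) y] at t2
      rw [hρw, ← hsd] at t1 t2
      constructor <;> linarith
    have h3 : ‖q - w‖ ≤ 4 * η := by
      have e1 : (s : ℂ) * (q - w) = (y - (x + ρ * w)) - ((s - ρ : ℝ) : ℂ) * w := by
        push_cast
        linear_combination -hyq
      have h5 : ‖(s : ℂ) * (q - w)‖ = s * ‖q - w‖ := by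
        rw [norm_mul, Complex.norm_real, Real.norm_of_nonneg hs.le]
      have h4 : s * ‖q - w‖ ≤ s * (4 * η) := by
        rw [← h5, e1]
        refine (norm_sub_le _ _).trans ?_
        rw [← dist_eq_norm, norm_mul, hw1, mul_one, Complex.norm_real, Real.norm_eq_abs]
        linarith only [h2, h1]
      exact le_of_mul_le_mul_left h4 hs
    obtain ⟨φ, hφ, hφ1⟩ := exists_angle hq1 h3
    refine ⟨k, φ, ?_, ?_⟩
    · rw [← hφ, ← hyq]; ring
    · refine hφ1.trans ?_
      rw [hη]; linarith only [hη0, hη]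
  · intro s hs hs2 k
    obtain ⟨k1, k2⟩ := hκ s hs hs2
    obtain ⟨y, hy, hyd⟩ := (hθrays (κ s)).2 k s hs.le k2
    refine ⟨y, hy, hyd.trans ?_⟩
    have e1 : r₂ / 2 ^ (κ s + 1) = r₂ / 2 ^ κ s / 2 := by rw [pow_succ]; field_simp
    rw [e1] at k1
    have h1 : η * (r₂ / 2 ^ κ s) ≤ η * (2 * s) := mul_le_mul_of_nonneg_left (by linarith only [k1]) hη0.le
    refine h1.trans ?_
    rw [hη]
    (by_contra nlg; linarith only [nlg, mul_nonneg (le_of_lt (sub_pos.2 hη0)) (sub_nonneg.2 k2), mul_pos (sub_pos.2 hη0) (sub_pos.2 k1), mul_eq_zero_of_left (sub_eq_zero.2 hη) (r₂ / 2 ^ κ s - (s)), mul_eq_zero_of_left (sub_eq_zero.2 hη) (s - (r₂ / 2 ^ κ s / 2)), mul_nonneg (le_of_lt (sub_pos.2 (not_le.1 nlg))) (sub_nonneg.2 hη1), mul_pos (sub_pos.2 (not_le.1 nlg)) (sub_pos.2 hη0)])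
  · intro s s' hs' hss hs2 h2
    have hs : 0 < s := lt_of_lt_of_le hs' hss
    obtain ⟨k1, k2⟩ := hκ s hs hs2
    obtain ⟨k1', k2'⟩ := hκ s' hs' (hss.trans hs2)
    have hmono : ∀ a b : ℕ, a ≤ b → r₂ / 2 ^ b ≤ r₂ / 2 ^ a := by
      intro a b hab
      exact div_le_div_of_nonneg_left hr₂.le (by positivity)
        (pow_le_pow_right₀ (by norm_num) hab)
    have c1 : κ s ≤ κ s' := by
      by_contra hcon
      push Not at hcon
      have := hmono (κ s' + 1) (κ s) hcon
      linarith only [this, k1', k2, hss]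
    have c2 : κ s' ≤ κ s + 1 := by
      by_contra hcon
      push Not at hcon
      have h3 := hmono (κ s + 2) (κ s') hcon
      have e1 : r₂ / 2 ^ (κ s + 2) = r₂ / 2 ^ (κ s + 1) / 2 := by
        rw [show κ s + 2 = (κ s + 1) + 1 by ring, pow_succ]; field_simp
      rw [e1] at h3
      linarith only [h3, k2', k1, h2]
    rcases Nat.lt_or_ge (κ s) (κ s') with hlt | hge
    · have : κ s' = κ s + 1 := by omega
      simp only
      rw [this, abs_sub_comm]
      exact hθstep _
    · have : κ s' = κ s := by omega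
      simp only
      rw [this, sub_self, abs_zero]
      exact hδ0.le

end Vale.Agent.P128.Q1
end

section

/-! Part VI.2: the length of the displaced set. -/

open MeasureTheory Set Metric Filter
open scoped ENNReal NNReal ContDiff Topology Real

namespace Vale.Agent.P128.Q1

open Vale.Agent.P128

variable {Ω : Set ℂ} {g u : ℂ → ℝ} {G : ℂ → ℂ} {K : Set ℂ} {M : ℝ} {x₀ : ℂ} {R₀ : ℝ}
variable {x e : ℂ} {s η t : ℝ} {Ψ : ℂ ≃ₜ ℂ}

/-- the Lipschitz estimate for two points of the annulus. -/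
theorem tpl_pair (hD : Disp x e s η t Ψ) {c ε : ℝ} (hε : 0 ≤ ε) (hεc : ε < c) {z z' : ℂ}
    (h1 : s ≤ dist z x) (h2 : dist z x ≤ s + η) (h1' : s ≤ dist z' x) (h2' : dist z' x ≤ s + η)
    (hle : dist z x ≤ dist z' x)
    (hin : -((1 + ε) * (dist z' x - dist z x)) ≤ inner ℝ (z' - z) e)
    (hlow : (c - ε) * (dist z' x - dist z x) ≤ dist z z') :
    dist (Ψ z) (Ψ z') ≤ (1 + t / η * ((1 + ε) / (c - ε) ^ 2) + (t / η) ^ 2 / 2) * dist z z' := by
  have hη := hD.η0
  have ht := hD.t0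
  have hc : 0 < c - ε := sub_pos.2 hεc
  set ρ := dist z' x - dist z x with hρ
  have hρ0 : 0 ≤ ρ := sub_nonneg.2 hle
  have hρd : ρ ≤ dist z z' := by
    have := dist_triangle z' z x
    rw [dist_comm z' z] at this
    linarith
  have hu0 : 0 < t / η := div_pos ht hη
  have hdiff : Ψ z' - Ψ z = (z' - z) - (t / η * ρ) • e := by
    rw [hD.mid_eq h1 h2, hD.mid_eq h1' h2', Complex.real_smul, hρ]
    push_cast
    ring
  have hdist : dist (Ψ z) (Ψ z') = ‖(z' - z) - (t / η * ρ) • e‖ := by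
    rw [dist_comm, dist_eq_norm, hdiff]
  have hd : dist z z' = ‖z' - z‖ := by rw [dist_comm, dist_eq_norm]
  rw [hd] at hlow hρd
  rw [hdist, hd]
  set d := z' - z with hdd
  have hd0 : 0 ≤ ‖d‖ := norm_nonneg _
  have hτ : ‖(t / η * ρ) • e‖ = t / η * ρ := by
    rw [norm_smul, hD.e1, mul_one, Real.norm_eq_abs, abs_of_nonneg (mul_nonneg hu0.le hρ0)]
  have hsq : ‖d - (t / η * ρ) • e‖ ^ 2 = ‖d‖ ^ 2 - 2 * (t / η * ρ * inner ℝ d e) +
      (t / η * ρ) ^ 2 := by
    rw [norm_sub_sq_real, real_inner_smul_right, hτ]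
  set a := t / η * ((1 + ε) / (c - ε) ^ 2) with ha
  have ha0 : 0 ≤ a := by (clear * - ht hη hε hεc; positivity)
  have e1 : t / η * ρ * ((1 + ε) * ρ) ≤ a * ‖d‖ ^ 2 := by
    have h3 : ((c - ε) * ρ) ^ 2 ≤ ‖d‖ ^ 2 := pow_le_pow_left₀ (mul_nonneg hc.le hρ0) hlow 2
    have h4 : t / η * ρ * ((1 + ε) * ρ) = a * ((c - ε) * ρ) ^ 2 := by
      rw [ha]
      field_simp
    rw [h4]
    exact mul_le_mul_of_nonneg_left h3 ha0
  have e2 : (t / η * ρ) ^ 2 ≤ (t / η) ^ 2 * ‖d‖ ^ 2 := by
    rw [mul_pow]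
    exact mul_le_mul_of_nonneg_left (pow_le_pow_left₀ hρ0 hρd 2) (sq_nonneg _)
  have e3 : -(t / η * ρ * inner ℝ d e) ≤ t / η * ρ * ((1 + ε) * ρ) := by
    have := mul_le_mul_of_nonneg_left hin (mul_nonneg hu0.le hρ0)
    linarith only [this]
  apply le_of_sq_le_sq _ (by (clear * - ht hη hε hεc; positivity))
  rw [hsq]
  have e4 : ((1 + a + (t / η) ^ 2 / 2) * ‖d‖) ^ 2 =
      (1 + 2 * a + (t / η) ^ 2) * ‖d‖ ^ 2 + (a + (t / η) ^ 2 / 2) ^ 2 * ‖d‖ ^ 2 := by ring
  rw [e4]
  have e5 : 0 ≤ (a + (t / η) ^ 2 / 2) ^ 2 * ‖d‖ ^ 2 := by (clear * - ht hη hε hεc; positivity)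
  linarith only [e5, e3, e2, e1]

theorem tp_length (hK : MeasurableSet K) (hfin : μH[1] K ≠ ⊤) (hD : Disp x e s η t Ψ)
    {γ : ℝ → ℂ} {c ε : ℝ} (hε : 0 ≤ ε) (hεc : ε < c)
    (hann : ∀ z ∈ K, s ≤ dist z x → dist z x ≤ s + η → z = γ (dist z x))
    (hγ : ∀ r ∈ Icc s (s + η), dist (γ r) x = r)
    (hlow : ∀ r ∈ Icc s (s + η), ∀ r' ∈ Icc s (s + η), (c - ε) * |r' - r| ≤ dist (γ r) (γ r'))
    (hup : ∀ r ∈ Icc s (s + η), ∀ r' ∈ Icc s (s + η), dist (γ r) (γ r') ≤ (c + ε) * |r' - r|)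
    (hdir : ∀ r ∈ Icc s (s + η), ∀ r' ∈ Icc s (s + η), r ≤ r' →
      -((1 + ε) * (r' - r)) ≤ inner ℝ (γ r' - γ r) e) :
    Hn (Ψ '' K) x (s + η) ≤ Hn K x (s + η) + t * ((1 + ε) * (c + ε) / (c - ε) ^ 2) +
      t ^ 2 / (2 * η) * (c + ε) := by
  have hη := hD.η0
  have ht := hD.t0
  have hc : 0 < c - ε := sub_pos.2 hεc
  have hce : 0 ≤ c + ε := by linarith
  set K₁ := K ∩ closedBall x s with hK₁
  set K₂ := (K ∩ closedBall x (s + η)) \ closedBall x s with hK₂
  have hsplit : K ∩ closedBall x (s + η) = K₁ ∪ K₂ := by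
    ext z
    rw [hK₁, hK₂]
    constructor
    · intro hz
      by_cases h : z ∈ closedBall x s
      · exact Or.inl ⟨hz.1, h⟩
      · exact Or.inr ⟨hz, h⟩
    · rintro (hz | hz)
      · exact ⟨hz.1, closedBall_subset_closedBall (by linarith) hz.2⟩
      · exact hz.1
  have hdisj : Disjoint K₁ K₂ := by
    rw [Set.disjoint_left]
    intro z hz hz'
    exact hz'.2 hz.2
  have hm₂ : MeasurableSet K₂ := (hK.inter measurableSet_closedBall).diff measurableSet_closedBall
  have hf₁ : μH[1] K₁ ≠ ⊤ := ne_top_of_le_ne_top hfin (measure_mono inter_subset_left)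
  have hf₂ : μH[1] K₂ ≠ ⊤ := ne_top_of_le_ne_top hfin
    (measure_mono (sdiff_subset.trans inter_subset_left))
  have hHn : Hn K x (s + η) = (μH[1] K₁).toReal + (μH[1] K₂).toReal := by
    unfold Hn
    rw [hsplit, measure_union hdisj hm₂, ENNReal.toReal_add hf₁ hf₂]
  -- the image
  have himg : Ψ '' K ∩ closedBall x (s + η) ⊆ Ψ '' K₁ ∪ Ψ '' K₂ := by
    rintro w ⟨⟨z, hz, rfl⟩, hw⟩
    rw [← image_union, ← hsplit]
    refine ⟨z, ⟨hz, ?_⟩, rfl⟩
    by_contra hcon
    rw [mem_closedBall, not_le] at hcon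
    rw [hD.outer_eq hcon.le, mem_closedBall] at hw
    exact absurd hw (not_le.2 hcon)
  have hL₁ : μH[1] (Ψ '' K₁) ≤ μH[1] K₁ := by
    have h : LipschitzOnWith 1 Ψ K₁ := by
      refine LipschitzOnWith.of_dist_le_mul fun z hz z' hz' => ?_
      rw [hD.inner_eq hz.2, hD.inner_eq hz'.2, dist_add_right, NNReal.coe_one, one_mul]
    have h2 := h.hausdorffMeasure_image_le (d := 1) zero_le_one
    rw [ENNReal.coe_one, ENNReal.one_rpow, one_mul] at h2
    exact h2
  set Λ : ℝ := 1 + t / η * ((1 + ε) / (c - ε) ^ 2) + (t / η) ^ 2 / 2 with hΛ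
  have hΛ0 : 0 ≤ Λ := by (clear * - ht hη hε hεc; positivity)
  have hmem : ∀ z ∈ K₂, dist z x ∈ Icc s (s + η) := fun z hz =>
    ⟨(not_le.1 fun h => hz.2 (mem_closedBall.2 h)).le, mem_closedBall.1 hz.1.2⟩
  have hzγ : ∀ z ∈ K₂, z = γ (dist z x) := fun z hz =>
    hann z hz.1.1 (hmem z hz).1 (hmem z hz).2
  have hpair : ∀ z ∈ K₂, ∀ z' ∈ K₂, dist z x ≤ dist z' x →
      dist (Ψ z) (Ψ z') ≤ Λ * dist z z' := by
    intro z hz z' hz' hle
    have hm := hmem z hz
    have hm' := hmem z' hz'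
    refine tpl_pair hD hε hεc hm.1 hm.2 hm'.1 hm'.2 hle ?_ ?_
    · have h := hdir _ hm _ hm' hle
      rw [← hzγ z hz, ← hzγ z' hz'] at h
      exact h
    · have h := hlow _ hm _ hm'
      rw [← hzγ z hz, ← hzγ z' hz', abs_of_nonneg (sub_nonneg.2 hle)] at h
      exact h
  have hL₂ : μH[1] (Ψ '' K₂) ≤ ENNReal.ofReal Λ * μH[1] K₂ := by
    have h : LipschitzOnWith (Real.toNNReal Λ) Ψ K₂ := by
      refine LipschitzOnWith.of_dist_le_mul fun z hz z' hz' => ?_
      rw [Real.coe_toNNReal Λ hΛ0]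
      rcases le_total (dist z x) (dist z' x) with hle | hle
      · exact hpair z hz z' hz' hle
      · rw [dist_comm (Ψ z), dist_comm z]
        exact hpair z' hz' z hz hle
    have h2 := h.hausdorffMeasure_image_le (d := 1) zero_le_one
    rw [ENNReal.rpow_one] at h2
    exact h2
  have hL₃ : (μH[1] K₂).toReal ≤ (c + ε) * η := by
    have h : LipschitzOnWith (Real.toNNReal (c + ε)) γ (Icc s (s + η)) := by
      refine LipschitzOnWith.of_dist_le_mul fun r hr r' hr' => ?_
      rw [Real.coe_toNNReal _ hce, Real.dist_eq, abs_sub_comm]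
      exact hup r hr r' hr'
    have h2 := h.hausdorffMeasure_image_le (d := 1) zero_le_one
    rw [ENNReal.rpow_one, hausdorffMeasure_real, Real.volume_Icc] at h2
    have h3 : μH[1] K₂ ≤ ENNReal.ofReal (c + ε) * ENNReal.ofReal (s + η - s) := by
      refine le_trans (measure_mono ?_) h2
      intro z hz
      exact ⟨dist z x, hmem z hz, (hzγ z hz).symm⟩
    rw [← ENNReal.ofReal_mul hce] at h3
    have h4 := ENNReal.toReal_mono ENNReal.ofReal_ne_top h3
    rw [ENNReal.toReal_ofReal (by linarith only [mul_pos (sub_pos.2 hη) (sub_pos.2 hc), mul_nonneg (sub_nonneg.2 hε) (le_of_lt (sub_pos.2 hη))]), add_sub_cancel_left] at h4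
    exact h4
  have hmain : μH[1] (Ψ '' K ∩ closedBall x (s + η)) ≤
      μH[1] K₁ + ENNReal.ofReal Λ * μH[1] K₂ :=
    (measure_mono himg).trans ((measure_union_le _ _).trans (add_le_add hL₁ hL₂))
  have hmul : ENNReal.ofReal Λ * μH[1] K₂ ≠ ⊤ := ENNReal.mul_ne_top ENNReal.ofReal_ne_top hf₂
  have hreal : Hn (Ψ '' K) x (s + η) ≤ (μH[1] K₁).toReal + Λ * (μH[1] K₂).toReal := by
    have h := ENNReal.toReal_mono (ENNReal.add_ne_top.2 ⟨hf₁, hmul⟩) hmain
    rw [ENNReal.toReal_add hf₁ hmul, ENNReal.toReal_mul, ENNReal.toReal_ofReal hΛ0] at h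
    exact h
  refine hreal.trans ?_
  rw [hHn]
  have h5 : (Λ - 1) * (μH[1] K₂).toReal ≤ (Λ - 1) * ((c + ε) * η) := by
    apply mul_le_mul_of_nonneg_left hL₃
    rw [hΛ]
    have : 0 ≤ t / η * ((1 + ε) / (c - ε) ^ 2) + (t / η) ^ 2 / 2 := by (clear * - ht hη hε hεc; positivity)
    linarith only [this]
  have h6 : (Λ - 1) * ((c + ε) * η) = t * ((1 + ε) * (c + ε) / (c - ε) ^ 2) +
      t ^ 2 / (2 * η) * (c + ε) := by
    rw [hΛ]
    field_simp
    ring
  linarith

end Vale.Agent.P128.Q1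
end
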