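import Vale.Agent.P128.MathlibUsed
import Vale.Agent.P128.Bdl.B4
import Vale.Agent.P128.Bdl.B12
import Vale.Agent.P128.Bdl.B9
import Vale.Agent.P128.Bdl.B6
import Vale.Agent.P128.Bdl.B14

set_option linter.all false

section

open MeasureTheory Set Metric Filter
open scoped ENNReal NNReal Topology Real ContDiff

namespace Vale.Agent.P128

end Vale.Agent.P128
end

section

open MeasureTheory Set Metric Filter
open scoped ENNReal NNReal Topology Real ContDiff

namespace Vale.Agent.P128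

end Vale.Agent.P128
end

section

open MeasureTheory Set Metric Filter
open scoped ENNReal NNReal Topology Real ContDiff

namespace Vale.Agent.P128

end Vale.Agent.P128
end

section

open MeasureTheory Set Metric Filter
open scoped Topology Real

namespace Vale.Agent.P128

variable {E H e n T Nn : ℝ → ℝ} {R C Λ c : ℝ} {Z B S : Set ℝ}

end Vale.Agent.P128
end

section

open MeasureTheory Set Metric Filter
open scoped Topology Real

namespace Vale.Agent.P128

variable {E H e n T Nn : ℝ → ℝ} {R C Λ c : ℝ} {Z B S : Set ℝ}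

/-- The error function. -/
noncomputable def etaf (E H e n : ℝ → ℝ) (C Λ c : ℝ) (B : Set ℝ) (s : ℝ) : ℝ :=
  E s / s + 2 * C * s + (1 + 1 / c) * ∫ r in (0 : ℝ)..s, defect E H e n C Λ B r / r

end Vale.Agent.P128
end

section

open MeasureTheory Set Metric Filter
open scoped ENNReal NNReal Topology Real ContDiff

namespace Vale.Agent.P128

end Vale.Agent.P128
end

section

open MeasureTheory Set Metric Filter
open scoped ENNReal NNReal Topology Real ContDiff

namespace Vale.Agent.P128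

end Vale.Agent.P128
end

section

open MeasureTheory Set Metric Filter
open scoped Topology Real

namespace Vale.Agent.P128

variable {E e : ℝ → ℝ} {R C Λ : ℝ} {B : Set ℝ}

/-- The derivative of `E(s)/s`, in integrated form. -/
theorem ratio_identity {E e : ℝ → ℝ} {a b : ℝ} (ha : 0 < a) (hab : a ≤ b)
    (he : IntervalIntegrable e volume a b)
    (hE : ∀ s, a ≤ s → s ≤ b → E s = E a + ∫ r in a..s, e r) :
    E b / b - E a / a = ∫ s in a..b, (e s - E s / s) / s := by
  have hcont : ContDiffOn ℝ 1 (fun s : ℝ => s⁻¹) (uIcc a b) := by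
    rw [uIcc_of_le hab]
    exact contDiffOn_id.inv fun s hs => (lt_of_lt_of_le ha hs.1).ne'
  have h1 : AbsolutelyContinuousOnInterval (fun s : ℝ => s⁻¹) a b :=
    hcont.absolutelyContinuousOnInterval
  have h2 : AbsolutelyContinuousOnInterval (fun s => E a + ∫ r in a..s, e r) a b := by
    have hconst : AbsolutelyContinuousOnInterval (fun _ : ℝ => E a) a b :=
      contDiffOn_const.absolutelyContinuousOnInterval
    exact hconst.add (he.absolutelyContinuousOnInterval_intervalIntegral left_mem_uIcc)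
  set X : ℝ → ℝ := fun s => (E a + ∫ r in a..s, e r) * s⁻¹ with hX
  have h3 : AbsolutelyContinuousOnInterval X a b := h2.mul h1
  have h5 := h3.integral_deriv_eq_sub
  have hXE : ∀ s, a ≤ s → s ≤ b → X s = E s / s := by
    intro s hs hs'
    rw [hX, hE s hs hs', div_eq_mul_inv]
  rw [hXE a le_rfl hab, hXE b hab le_rfl] at h5
  rw [← h5]
  refine intervalIntegral.integral_congr_ae ?_
  filter_upwards [he.ae_hasDerivAt_integral] with s hs hs'
  rw [uIoc_of_le hab] at hs'
  have hsI : s ∈ uIcc a b := by rw [uIcc_of_le hab]; exact ⟨hs'.1.le, hs'.2⟩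
  have hs0 : s ≠ 0 := (ha.trans hs'.1).ne'
  have d1 : HasDerivAt (fun s => E a + ∫ r in a..s, e r) (e s) s := by
    have := (hs hsI a left_mem_uIcc).const_add (E a)
    exact this
  have d2 : HasDerivAt X (e s * s⁻¹ + (E a + ∫ r in a..s, e r) * (-(s ^ 2)⁻¹)) s :=
    d1.mul (hasDerivAt_inv hs0)
  rw [d2.deriv]
  have e2 : E a + ∫ r in a..s, e r = E s := (hE s hs'.1.le hs'.2).symm
  rw [e2]
  field_simp
  ring

end Vale.Agent.P128
end

section

open MeasureTheory Set Metric Filter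
open scoped ENNReal NNReal Topology Real ContDiff

namespace Vale.Agent.P128

theorem ibp_cos_half (φ : ℝ → ℝ) (k1 : ContDiff ℝ ∞ φ) (h0 : φ 0 = 0) (h1 : φ (2 * π) = 0) :
    ∫ t in Ioo 0 (2 * π), Real.cos (t / 2) * deriv φ t =
      - ∫ t in Ioo 0 (2 * π), -(1 / 2 * Real.sin (t / 2)) * φ t := by
  have hπ := Real.pi_pos
  rw [← ii_eq (by linarith), ← ii_eq (by linarith)]
  have := intervalIntegral.integral_mul_deriv_eq_deriv_mul (a := 0) (b := 2 * π)
    (u := fun t : ℝ => Real.cos (t / 2)) (v := φ) (u' := fun t => -(1 / 2 * Real.sin (t / 2)))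
    (v' := deriv φ) (fun t _ => by
      have h2 : HasDerivAt (fun t : ℝ => t / 2) (1 / 2) t := (hasDerivAt_id t).div_const 2
      exact h2.cos.congr_deriv (by ring))
    (fun t _ => ((k1.differentiable (by simp)) t).hasDerivAt)
    (Continuous.intervalIntegrable (by fun_prop) _ _)
    ((k1.continuous_deriv (by simp)).intervalIntegrable _ _)
  rw [this, h0, h1]
  ring

/-- The first mode of a function on the cut circle. -/
theorem first_mode {F H : ℝ → ℝ} (hF : MemLp F 2 (volume.restrict (Ioo 0 (2 * π))))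
    (hH : MemLp H 2 (volume.restrict (Ioo 0 (2 * π))))
    (hw : ∀ φ : ℝ → ℝ, ContDiff ℝ ∞ φ → HasCompactSupport φ → tsupport φ ⊆ Ioo 0 (2 * π) →
      ∫ t in Ioo 0 (2 * π), F t * deriv φ t = - ∫ t in Ioo 0 (2 * π), H t * φ t)
    {M : ℝ} (hM : ∀ᵐ t ∂(volume.restrict (Ioo 0 (2 * π))), |F t| ≤ M) {A : ℝ}
    (hA : A = π⁻¹ * ∫ t in Ioo 0 (2 * π), F t * Real.cos (t / 2)) {m : ℝ}
    (hm : m = (2 * π)⁻¹ * ∫ t in Ioo 0 (2 * π), F t) :
    (∫ t in Ioo 0 (2 * π), (H t + A / 2 * Real.sin (t / 2)) ^ 2 =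
      (∫ t in Ioo 0 (2 * π), H t ^ 2) - A ^ 2 * π / 4) ∧
    (∫ t in Ioo 0 (2 * π), (F t - m - A * Real.cos (t / 2)) ^ 2 =
      (∫ t in Ioo 0 (2 * π), (F t - m) ^ 2) - A ^ 2 * π) ∧
    1.7 * ∫ t in Ioo 0 (2 * π), (H t + A / 2 * Real.sin (t / 2)) ^ 2 ≤
      4 * (∫ t in Ioo 0 (2 * π), H t ^ 2) - ∫ t in Ioo 0 (2 * π), (F t - m) ^ 2 := by
  have hπ := Real.pi_pos
  have f0 := finite_Ioo 0 (2 * π)
  have hcL : MemLp (fun t : ℝ => Real.cos (t / 2)) 2 (volume.restrict (Ioo 0 (2 * π))) :=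
    memLp_cos_half _ _
  have hsL : MemLp (fun t : ℝ => Real.sin (t / 2)) 2 (volume.restrict (Ioo 0 (2 * π))) :=
    memLp_cont (by fun_prop) _ _
  have hFi : Integrable F (volume.restrict (Ioo 0 (2 * π))) := hF.integrable (by norm_num)
  have hci : Integrable (fun t : ℝ => Real.cos (t / 2)) (volume.restrict (Ioo 0 (2 * π))) :=
    hcL.integrable (by norm_num)
  have hcsq : ∫ t in Ioo 0 (2 * π), Real.cos (t / 2) ^ 2 = π := by
    rw [← ii_eq (by linarith) (fun t => Real.cos (t / 2) ^ 2), integral_cos_half_sq]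
  have hssq : ∫ t in Ioo 0 (2 * π), Real.sin (t / 2) ^ 2 = π := by
    rw [← ii_eq (by linarith) (fun t => Real.sin (t / 2) ^ 2), integral_sin_half_sq]
  have hc0 : ∫ t in Ioo 0 (2 * π), Real.cos (t / 2) = 0 := by
    rw [← ii_eq (by linarith) (fun t => Real.cos (t / 2)), integral_cos_half,
      show 2 * π / 2 = π by ring, Real.sin_pi]
    simp
  have hFc : Integrable (fun t => F t * Real.cos (t / 2)) (volume.restrict (Ioo 0 (2 * π))) :=
    hF.integrable_mul hcL
  have hHs : Integrable (fun t => H t * Real.sin (t / 2)) (volume.restrict (Ioo 0 (2 * π))) :=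
    hH.integrable_mul hsL
  have hAF : ∫ t in Ioo 0 (2 * π), F t * Real.cos (t / 2) = π * A := by
    rw [hA]; field_simp
  have hmF : ∫ t in Ioo 0 (2 * π), F t = 2 * π * m := by
    rw [hm]; field_simp
  -- test with `sin (t / 2)`
  have hHsin : ∫ t in Ioo 0 (2 * π), H t * Real.sin (t / 2) = - (π * A / 2) := by
    obtain ⟨k, kc, kb, kf, kw⟩ := exists_ext (by positivity : 0 < 2 * π) le_rfl le_rfl hF hH hw hM
    simp only [zero_add, add_zero, sub_zero] at kf kw
    have h1 := kw (fun t => Real.sin (t / 2)) (by fun_prop) (by simp) (by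
      rw [show 2 * π / 2 = π by ring]; exact Real.sin_pi)
    have hd : ∀ t : ℝ, deriv (fun t : ℝ => Real.sin (t / 2)) t = 1 / 2 * Real.cos (t / 2) := by
      intro t
      have h2 : HasDerivAt (fun t : ℝ => t / 2) (1 / 2) t := (hasDerivAt_id t).div_const 2
      rw [h2.sin.deriv]; ring
    simp only [hd] at h1
    have e1 : ∫ t in Ioo 0 (2 * π), k t * (1 / 2 * Real.cos (t / 2)) = 1 / 2 * (π * A) := by
      rw [← hAF, ← integral_const_mul]
      refine integral_congr_ae ?_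
      filter_upwards [kf] with t ht
      rw [ht]; ring
    have e2 : ∫ t in Ioo 0 (2 * π), (Ioo 0 (2 * π)).indicator H t * Real.sin (t / 2) =
        ∫ t in Ioo 0 (2 * π), H t * Real.sin (t / 2) := by
      refine setIntegral_congr_fun measurableSet_Ioo fun t ht => ?_
      simp only [indicator_of_mem ht]
    rw [e1] at h1
    have h3 := h1.trans (congrArg Neg.neg e2)
    linarith
  -- the rest
  have hR : MemLp (fun t => F t - m - A * Real.cos (t / 2)) 2 (volume.restrict (Ioo 0 (2 * π))) :=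
    (hF.sub (memLp_const m)).sub (hcL.const_mul A)
  have hR' : MemLp (fun t => H t + A / 2 * Real.sin (t / 2)) 2
      (volume.restrict (Ioo 0 (2 * π))) := hH.add (hsL.const_mul (A / 2))
  have hFm : Integrable (fun t => F t - m) (volume.restrict (Ioo 0 (2 * π))) :=
    hFi.sub (integrable_const m)
  have hmm : ∫ t in Ioo 0 (2 * π), (F t - m) = 0 := by
    rw [integral_sub hFi (integrable_const m), hmF]
    simp only [integral_const, measureReal_def, Measure.restrict_apply_univ, Real.volume_Ioo,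
      smul_eq_mul]
    rw [ENNReal.toReal_ofReal (by linarith)]
    ring
  have r0 : ∫ t in Ioo 0 (2 * π), (F t - m - A * Real.cos (t / 2)) = 0 := by
    rw [integral_sub hFm (hci.const_mul A), hmm, integral_const_mul, hc0]; ring
  have hFmc : ∫ t in Ioo 0 (2 * π), (F t - m) * Real.cos (t / 2) = π * A := by
    have e1 : ∀ t, (F t - m) * Real.cos (t / 2) = F t * Real.cos (t / 2) -
        m * Real.cos (t / 2) := fun t => by ring
    simp only [e1]
    rw [integral_sub hFc (hci.const_mul m), integral_const_mul, hc0, hAF]; ring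
  have iFmc : Integrable (fun t => (F t - m) * Real.cos (t / 2))
      (volume.restrict (Ioo 0 (2 * π))) := (hF.sub (memLp_const m)).integrable_mul hcL
  have icc : Integrable (fun t : ℝ => Real.cos (t / 2) ^ 2) (volume.restrict (Ioo 0 (2 * π))) :=
    hcL.integrable_sq
  have iss : Integrable (fun t : ℝ => Real.sin (t / 2) ^ 2) (volume.restrict (Ioo 0 (2 * π))) :=
    hsL.integrable_sq
  have r1 : ∫ t in Ioo 0 (2 * π), (F t - m - A * Real.cos (t / 2)) * Real.cos (t / 2) = 0 := by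
    have e1 : ∀ t, (F t - m - A * Real.cos (t / 2)) * Real.cos (t / 2) =
        (F t - m) * Real.cos (t / 2) - A * Real.cos (t / 2) ^ 2 := fun t => by ring
    simp only [e1]
    rw [integral_sub iFmc (icc.const_mul A), integral_const_mul, hcsq, hFmc]; ring
  have hsec := second_mode hR hR' (fun φ k1 k2 k3 => by
    have hφ0 : φ 0 = 0 := image_eq_zero_of_notMem_tsupport fun hc => lt_irrefl _ (k3 hc).1
    have hφ1 : φ (2 * π) = 0 := image_eq_zero_of_notMem_tsupport fun hc => lt_irrefl _ (k3 hc).2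
    have hdc : Continuous (deriv φ) := k1.continuous_deriv (by simp)
    have hφL : MemLp φ 2 (volume.restrict (Ioo 0 (2 * π))) := memLp_cont k1.continuous _ _
    have hdL : MemLp (deriv φ) 2 (volume.restrict (Ioo 0 (2 * π))) := memLp_cont hdc _ _
    have i1 : Integrable (fun t => F t * deriv φ t) (volume.restrict (Ioo 0 (2 * π))) :=
      hF.integrable_mul hdL
    have i2 : Integrable (deriv φ) (volume.restrict (Ioo 0 (2 * π))) :=
      hdL.integrable (by norm_num)
    have i3 : Integrable (fun t => Real.cos (t / 2) * deriv φ t)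
        (volume.restrict (Ioo 0 (2 * π))) := hcL.integrable_mul hdL
    have i4 : Integrable (fun t => H t * φ t) (volume.restrict (Ioo 0 (2 * π))) :=
      hH.integrable_mul hφL
    have i5 : Integrable (fun t => -(1 / 2 * Real.sin (t / 2)) * φ t)
        (volume.restrict (Ioo 0 (2 * π))) :=
      ((hsL.const_mul (1 / 2)).neg).integrable_mul hφL
    have k4 := hw φ k1 k2 k3
    have k5 := ibp_cos_half φ k1 hφ0 hφ1
    have k6 : ∫ t in Ioo 0 (2 * π), deriv φ t = 0 := by
      rw [← ii_eq (by linarith), intervalIntegral.integral_deriv_eq_sub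
        (fun t _ => (k1.differentiable (by simp)) t) (hdc.intervalIntegrable _ _), hφ0, hφ1,
        sub_zero]
    have e1 : ∫ t in Ioo 0 (2 * π), (F t - m - A * Real.cos (t / 2)) * deriv φ t =
        (∫ t in Ioo 0 (2 * π), F t * deriv φ t) - m * (∫ t in Ioo 0 (2 * π), deriv φ t) -
          A * ∫ t in Ioo 0 (2 * π), Real.cos (t / 2) * deriv φ t := by
      have i12 : Integrable (fun t => F t * deriv φ t - m * deriv φ t)
        (volume.restrict (Ioo 0 (2 * π))) := i1.sub (i2.const_mul m)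
      rw [← integral_const_mul, ← integral_const_mul, ← integral_sub i1 (i2.const_mul m),
        ← integral_sub i12 (i3.const_mul A)]
      exact integral_congr_ae (Eventually.of_forall fun t => by simp only; ring)
    have e2 : ∫ t in Ioo 0 (2 * π), (H t + A / 2 * Real.sin (t / 2)) * φ t =
        (∫ t in Ioo 0 (2 * π), H t * φ t) -
          A * ∫ t in Ioo 0 (2 * π), -(1 / 2 * Real.sin (t / 2)) * φ t := by
      rw [← integral_const_mul, ← integral_sub i4 (i5.const_mul A)]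
      exact integral_congr_ae (Eventually.of_forall fun t => by simp only; ring)
    rw [e1, e2, k4, k5, k6]
    ring) r0 r1
  have s1 : ∫ t in Ioo 0 (2 * π), (F t - m - A * Real.cos (t / 2)) ^ 2 =
      (∫ t in Ioo 0 (2 * π), (F t - m) ^ 2) - A ^ 2 * π := by
    have e1 : ∀ t, (F t - m - A * Real.cos (t / 2)) ^ 2 = (F t - m) ^ 2 -
        (2 * A * ((F t - m) * Real.cos (t / 2)) - A ^ 2 * Real.cos (t / 2) ^ 2) :=
      fun t => by ring
    have j1 : Integrable (fun t => 2 * A * ((F t - m) * Real.cos (t / 2)) -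
      A ^ 2 * Real.cos (t / 2) ^ 2) (volume.restrict (Ioo 0 (2 * π))) :=
      (iFmc.const_mul _).sub (icc.const_mul _)
    have j2 : Integrable (fun t => (F t - m) ^ 2) (volume.restrict (Ioo 0 (2 * π))) :=
      (hF.sub (memLp_const m)).integrable_sq
    simp only [e1]
    rw [integral_sub j2 j1, integral_sub (iFmc.const_mul _) (icc.const_mul _),
      integral_const_mul, integral_const_mul, hFmc, hcsq]
    ring
  have s2 : ∫ t in Ioo 0 (2 * π), (H t + A / 2 * Real.sin (t / 2)) ^ 2 =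
      (∫ t in Ioo 0 (2 * π), H t ^ 2) - A ^ 2 * π / 4 := by
    have e1 : ∀ t, (H t + A / 2 * Real.sin (t / 2)) ^ 2 = H t ^ 2 +
        (A * (H t * Real.sin (t / 2)) + A ^ 2 / 4 * Real.sin (t / 2) ^ 2) :=
      fun t => by ring
    have j1 : Integrable (fun t => A * (H t * Real.sin (t / 2)) +
      A ^ 2 / 4 * Real.sin (t / 2) ^ 2) (volume.restrict (Ioo 0 (2 * π))) :=
      (hHs.const_mul _).add (iss.const_mul _)
    simp only [e1]
    rw [integral_add hH.integrable_sq j1, integral_add (hHs.const_mul _) (iss.const_mul _),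
      integral_const_mul, integral_const_mul, hHsin, hssq]
    ring
  refine ⟨s2, s1, ?_⟩
  obtain ⟨P, hP⟩ : ∃ P : ℝ, P = ∫ t in Ioo 0 (2 * π), (H t + A / 2 * Real.sin (t / 2)) ^ 2 :=
    ⟨_, rfl⟩
  rw [← hP] at s2 hsec ⊢
  rw [s1] at hsec
  have hP0 : 0 ≤ P := by rw [hP]; exact integral_nonneg fun _ => sq_nonneg _
  have hπ2 : π ^ 2 ≤ 10 := by (by_contra nlg; linarith only [nlg, mul_pos (sub_pos.2 Real.pi_lt_d2) (sub_pos.2 Real.pi_lt_d2), mul_pos (sub_pos.2 hπ) (sub_pos.2 Real.pi_lt_d2), mul_pos (sub_pos.2 (not_le.1 nlg)) (sub_pos.2 Real.pi_lt_d2), mul_pos (sub_pos.2 (not_le.1 nlg)) (sub_pos.2 hπ)])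
  have h5 : (1 + π ^ 2 / 8) * P ≤ (1 + 10 / 8) * P :=
    mul_le_mul_of_nonneg_right (by linarith only [hπ2]) hP0
  linarith only [h5, hP0, s2, hsec]

end Vale.Agent.P128
end

section

open MeasureTheory Set Metric Filter
open scoped ENNReal NNReal Topology Real ContDiff

namespace Vale.Agent.P128

/-- The direction of the only point of `K` on a circle. -/
theorem exists_dir_one {K : Set ℂ} {x : ℂ} {s : ℝ} (hs0 : 0 < s)
    (hone : (K ∩ sphere x s).Subsingleton) :
    ∃ p : ℂ, ‖p‖ = 1 ∧ ∀ w : ℂ, ‖w‖ = 1 → x + s • w ∈ K → w = p := by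
  have hsph : ∀ w : ℂ, ‖w‖ = 1 → x + s • w ∈ sphere x s := by
    intro w hw
    rw [mem_sphere, dist_eq_norm, add_sub_cancel_left, norm_smul, hw, mul_one,
      Real.norm_of_nonneg hs0.le]
  by_cases hne : ∃ w : ℂ, ‖w‖ = 1 ∧ x + s • w ∈ K
  · obtain ⟨p, hp, hpK⟩ := hne
    refine ⟨p, hp, fun w hw hwK => ?_⟩
    have := hone ⟨hwK, hsph w hw⟩ ⟨hpK, hsph p hp⟩
    exact smul_right_injective ℂ hs0.ne' (add_left_cancel this)
  · refine ⟨1, norm_one, fun w hw hwK => absurd ⟨w, hw, hwK⟩ hne⟩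

end Vale.Agent.P128
end

section

open MeasureTheory Set Metric Filter
open scoped ENNReal NNReal Topology Real ContDiff

namespace Vale.Agent.P128

end Vale.Agent.P128
end

section

open MeasureTheory Set Metric Filter
open scoped ENNReal NNReal Topology Real ContDiff

namespace Vale.Agent.P128

/-- The radial part of the defect. -/
noncomputable def radJ (u : ℂ → ℝ) (G : ℂ → ℂ) (x : ℂ) (s : ℝ) : ℝ :=
  ∫ θ in ang, ((u (circleMap x s θ) - cmean u x s) / 2 - nsl G x s θ) ^ 2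

/-- The hypotheses of the crack-tip theorem. -/
structure TipPt (Ω : Set ℂ) (g u : ℂ → ℝ) (G : ℂ → ℂ) (K : Set ℂ) (M : ℝ) (x : ℂ) (R : ℝ)
    (B : Set ℝ) : Prop where
  N : Nice Ω g u G K M
  red : IsReduced Ω K
  mem : x ∈ K
  R0 : 0 < R
  sub : closedBall x (2 * R) ⊆ Ω
  ub : ∀ z ∈ ball x (2 * R), |u z| ≤ M
  mB : MeasurableSet (B ∩ Ioc 0 R)
  bad : IntegrableOn (fun s => B.indicator (fun _ => (1 : ℝ)) s * s⁻¹) (Ioc 0 R)
  one : ∀ s ∈ Ioo 0 R, s ∉ B → (K ∩ sphere x s).Subsingleton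

variable {Ω K : Set ℂ} {g u : ℂ → ℝ} {G : ℂ → ℂ} {M : ℝ} {x : ℂ} {R : ℝ} {B : Set ℝ}

/-- Good radii. -/
structure TipRad (u : ℂ → ℝ) (G : ℂ → ℂ) (K : Set ℂ) (x : ℂ) (ε₀ δ r : ℝ) : Prop where
  r0 : 0 < r
  small : r ≤ δ
  one : (K ∩ sphere x r).Subsingleton
  E : |En G x r / r - ε₀| ≤ δ
  e : |(eT G x r + eN G x r) - ε₀| ≤ δ
  T : |2 * eT G x r - ε₀| ≤ δ
  V0 : 0 ≤ eT G x r - cvar u x r / (4 * r)
  V : eT G x r - cvar u x r / (4 * r) ≤ δ
  J : radJ u G x r / r ≤ δ

end Vale.Agent.P128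
end

section

open MeasureTheory Set Metric Filter
open scoped ENNReal NNReal Topology Real ContDiff

namespace Vale.Agent.P128

variable {Ω K : Set ℂ} {g u : ℂ → ℝ} {G : ℂ → ℂ} {M : ℝ} {x : ℂ} {R : ℝ} {B : Set ℝ}

end Vale.Agent.P128
end

section

/-! Part VI.1: on a slit circle, the translation functional and the energy agree up to the defect.
`F` is the trace of `u`, `H` its angular derivative, `g = s ∂_ν u`, `t ∈ (0, 2π)` the angle from the
crack. -/

open MeasureTheory Set Metric Filter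
open scoped ENNReal NNReal ContDiff Topology Real

namespace Vale.Agent.P128.Q1

open Vale.Agent.P128

theorem tip_pt {A c s k h q g H D : ℝ} (hcs : s ^ 2 + c ^ 2 = 1)
    (hg : g = A / 2 * c + (h / 2 + q)) (hH : H = -(A / 2 * s) + k) (hD : D = A * c + h) :
    |(g ^ 2 - H ^ 2) * (c ^ 2 - s ^ 2) - 2 * (g * H) * (2 * s * c) -
        D * g - (A ^ 2 / 4 - A ^ 2 / 2 * c ^ 2 - A * (k * s) - A / 2 * (h * c))| ≤
      5 / 4 * h ^ 2 + 3 * q ^ 2 + k ^ 2 := by
  obtain ⟨ρ, hρ⟩ : ∃ ρ, ρ = h / 2 + q := ⟨_, rfl⟩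
  rw [← hρ] at hg
  have key : (g ^ 2 - H ^ 2) * (c ^ 2 - s ^ 2) - 2 * (g * H) * (2 * s * c) -
      D * g - (A ^ 2 / 4 - A ^ 2 / 2 * c ^ 2 - A * (k * s) - A / 2 * (h * c)) =
      (ρ * c - k * s) ^ 2 - (ρ * s + k * c) ^ 2 - h * ρ := by
    rw [hg, hH, hD]
    linear_combination (A ^ 2 / 4 * (s ^ 2 + c ^ 2 + 1) + A * (ρ * c - k * s)) * hcs
  rw [key, abs_le]
  have hsum : (ρ * c - k * s) ^ 2 + (ρ * s + k * c) ^ 2 = ρ ^ 2 + k ^ 2 := by
    have : (ρ * c - k * s) ^ 2 + (ρ * s + k * c) ^ 2 = (ρ ^ 2 + k ^ 2) * (s ^ 2 + c ^ 2) := by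
      ring
    rw [this, hcs, mul_one]
  have hρ2 : ρ ^ 2 ≤ h ^ 2 / 2 + 2 * q ^ 2 := by
    rw [hρ]; linarith only [sq_nonneg (h / 2 - q)]
  have p1 := sq_nonneg (ρ * c - k * s)
  have p2 := sq_nonneg (ρ * s + k * c)
  have p3 : h * ρ ≤ (h ^ 2 + ρ ^ 2) / 2 := by linarith only [sq_nonneg (h - ρ)]
  have p4 : -(h * ρ) ≤ (h ^ 2 + ρ ^ 2) / 2 := by linarith only [sq_nonneg (h + ρ)]
  constructor <;> linarith

theorem tip_circle {F H g : ℝ → ℝ} (hF : MemLp F 2 (volume.restrict (Ioo 0 (2 * π))))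
    (hH : MemLp H 2 (volume.restrict (Ioo 0 (2 * π))))
    (hg : MemLp g 2 (volume.restrict (Ioo 0 (2 * π)))) {A m : ℝ}
    (h1 : ∫ t in Ioo 0 (2 * π), (H t + A / 2 * Real.sin (t / 2)) ^ 2 =
      (∫ t in Ioo 0 (2 * π), H t ^ 2) - A ^ 2 * π / 4)
    (h2 : ∫ t in Ioo 0 (2 * π), (F t - m - A * Real.cos (t / 2)) ^ 2 =
      (∫ t in Ioo 0 (2 * π), (F t - m) ^ 2) - A ^ 2 * π)
    (h3 : 1.7 * ∫ t in Ioo 0 (2 * π), (H t + A / 2 * Real.sin (t / 2)) ^ 2 ≤
      4 * (∫ t in Ioo 0 (2 * π), H t ^ 2) - ∫ t in Ioo 0 (2 * π), (F t - m) ^ 2) :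
    |(∫ t in Ioo 0 (2 * π), ((g t ^ 2 - H t ^ 2) * Real.cos t - 2 * (g t * H t) * Real.sin t)) -
        ∫ t in Ioo 0 (2 * π), (F t - m) * g t| ≤
      10 * ((∫ t in Ioo 0 (2 * π), H t ^ 2) + (∫ t in Ioo 0 (2 * π), g t ^ 2) -
        ∫ t in Ioo 0 (2 * π), (F t - m) * g t) := by
  have hπ := Real.pi_pos
  have f0 := finite_Ioo 0 (2 * π)
  have mC : MemLp (fun t : ℝ => Real.cos (t / 2)) 2 (volume.restrict (Ioo 0 (2 * π))) :=
    memLp_cos_half _ _
  have mS : MemLp (fun t : ℝ => Real.sin (t / 2)) 2 (volume.restrict (Ioo 0 (2 * π))) :=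
    memLp_cont (by fun_prop) _ _
  obtain ⟨h, hh⟩ : ∃ h : ℝ → ℝ, h = fun t => F t - m - A * Real.cos (t / 2) := ⟨_, rfl⟩
  obtain ⟨k, hk⟩ : ∃ k : ℝ → ℝ, k = fun t => H t + A / 2 * Real.sin (t / 2) := ⟨_, rfl⟩
  obtain ⟨q, hq⟩ : ∃ q : ℝ → ℝ, q = fun t => g t - (F t - m) / 2 := ⟨_, rfl⟩
  have mF : MemLp (fun t => F t - m) 2 (volume.restrict (Ioo 0 (2 * π))) :=
    hF.sub (memLp_const m)
  have mh : MemLp h 2 (volume.restrict (Ioo 0 (2 * π))) := by
    rw [hh]; exact mF.sub (mC.const_mul A)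
  have mk : MemLp k 2 (volume.restrict (Ioo 0 (2 * π))) := by
    rw [hk]; exact hH.add (mS.const_mul (A / 2))
  have mq : MemLp q 2 (volume.restrict (Ioo 0 (2 * π))) := by
    rw [hq]
    have : (fun t => g t - (F t - m) / 2) = fun t => g t - (2 : ℝ)⁻¹ * (F t - m) := by
      funext t; ring
    rw [this]
    exact hg.sub (mF.const_mul (2 : ℝ)⁻¹)
  have vC : ∫ t in Ioo 0 (2 * π), Real.cos (t / 2) ^ 2 = π := by
    rw [← ii_eq (by linarith only [hπ]) (fun t => Real.cos (t / 2) ^ 2), integral_cos_half_sq]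
  have vS : ∫ t in Ioo 0 (2 * π), Real.sin (t / 2) ^ 2 = π := by
    rw [← ii_eq (by linarith only [hπ]) (fun t => Real.sin (t / 2) ^ 2), integral_sin_half_sq]
  have ihh := mh.integrable_sq
  have ikk := mk.integrable_sq
  have iqq := mq.integrable_sq
  have iCC := mC.integrable_sq
  have iSS := mS.integrable_sq
  have iFF := mF.integrable_sq
  have iHH := hH.integrable_sq
  have igg := hg.integrable_sq
  have iFg : Integrable (fun t => (F t - m) * g t) (volume.restrict (Ioo 0 (2 * π))) :=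
    mF.integrable_mul hg
  have igH : Integrable (fun t => g t * H t) (volume.restrict (Ioo 0 (2 * π))) :=
    hg.integrable_mul hH
  have ikS : Integrable (fun t => k t * Real.sin (t / 2)) (volume.restrict (Ioo 0 (2 * π))) :=
    mk.integrable_mul mS
  have ihC : Integrable (fun t => h t * Real.cos (t / 2)) (volume.restrict (Ioo 0 (2 * π))) :=
    mh.integrable_mul mC
  -- orthogonality
  have o1 : A * ∫ t in Ioo 0 (2 * π), k t * Real.sin (t / 2) = 0 := by
    have e1 : ∀ t, H t ^ 2 = k t ^ 2 - A * (k t * Real.sin (t / 2)) +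
        A ^ 2 / 4 * Real.sin (t / 2) ^ 2 := by
      intro t; rw [hk]; ring
    have e2 : ∫ t in Ioo 0 (2 * π), H t ^ 2 = (∫ t in Ioo 0 (2 * π), k t ^ 2) -
        A * (∫ t in Ioo 0 (2 * π), k t * Real.sin (t / 2)) + A ^ 2 / 4 * π := by
      simp only [e1]
      have j1 : Integrable (fun t => k t ^ 2 - A * (k t * Real.sin (t / 2)))
        (volume.restrict (Ioo 0 (2 * π))) := ikk.sub (ikS.const_mul A)
      rw [integral_add j1 (iSS.const_mul _),
        integral_sub ikk (ikS.const_mul A), integral_const_mul, integral_const_mul, vS]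
    have e3 : ∫ t in Ioo 0 (2 * π), k t ^ 2 = (∫ t in Ioo 0 (2 * π), H t ^ 2) - A ^ 2 * π / 4 := by
      rw [← h1, hk]
    linarith
  have o2 : A * ∫ t in Ioo 0 (2 * π), h t * Real.cos (t / 2) = 0 := by
    have e1 : ∀ t, (F t - m) ^ 2 = h t ^ 2 + 2 * A * (h t * Real.cos (t / 2)) +
        A ^ 2 * Real.cos (t / 2) ^ 2 := by
      intro t; rw [hh]; ring
    have e2 : ∫ t in Ioo 0 (2 * π), (F t - m) ^ 2 = (∫ t in Ioo 0 (2 * π), h t ^ 2) +
        2 * A * (∫ t in Ioo 0 (2 * π), h t * Real.cos (t / 2)) + A ^ 2 * π := by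
      simp only [e1]
      have j1 : Integrable (fun t => h t ^ 2 + 2 * A * (h t * Real.cos (t / 2)))
        (volume.restrict (Ioo 0 (2 * π))) := ihh.add (ihC.const_mul (2 * A))
      rw [integral_add j1 (iCC.const_mul _),
        integral_add ihh (ihC.const_mul (2 * A)), integral_const_mul, integral_const_mul, vC]
    have e3 : ∫ t in Ioo 0 (2 * π), h t ^ 2 = (∫ t in Ioo 0 (2 * π), (F t - m) ^ 2) - A ^ 2 * π := by
      rw [← h2, hh]
    linarith
  -- the defect
  have dW : (∫ t in Ioo 0 (2 * π), H t ^ 2) + (∫ t in Ioo 0 (2 * π), g t ^ 2) -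
      ∫ t in Ioo 0 (2 * π), (F t - m) * g t = (∫ t in Ioo 0 (2 * π), q t ^ 2) +
        (∫ t in Ioo 0 (2 * π), H t ^ 2) - 1 / 4 * ∫ t in Ioo 0 (2 * π), (F t - m) ^ 2 := by
    have e1 : ∀ t, q t ^ 2 = g t ^ 2 - (F t - m) * g t + 1 / 4 * (F t - m) ^ 2 := by
      intro t; rw [hq]; ring
    have e2 : ∫ t in Ioo 0 (2 * π), q t ^ 2 = (∫ t in Ioo 0 (2 * π), g t ^ 2) -
        (∫ t in Ioo 0 (2 * π), (F t - m) * g t) + 1 / 4 * ∫ t in Ioo 0 (2 * π), (F t - m) ^ 2 := by
      simp only [e1]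
      have j1 : Integrable (fun t => g t ^ 2 - (F t - m) * g t)
        (volume.restrict (Ioo 0 (2 * π))) := igg.sub iFg
      rw [integral_add j1 (iFF.const_mul _), integral_sub igg iFg, integral_const_mul]
    linarith
  -- the difference
  have icos : Integrable (fun t => (g t ^ 2 - H t ^ 2) * Real.cos t)
      (volume.restrict (Ioo 0 (2 * π))) := by
    refine (igg.sub iHH).mul_bdd (c := 1) Real.continuous_cos.aestronglyMeasurable ?_
    exact Eventually.of_forall fun t => Real.abs_cos_le_one t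
  have isin : Integrable (fun t => 2 * (g t * H t) * Real.sin t)
      (volume.restrict (Ioo 0 (2 * π))) := by
    refine (igH.const_mul 2).mul_bdd (c := 1) Real.continuous_sin.aestronglyMeasurable ?_
    exact Eventually.of_forall fun t => Real.abs_sin_le_one t
  have iY : Integrable (fun t => A ^ 2 / 4 - A ^ 2 / 2 * Real.cos (t / 2) ^ 2 -
      A * (k t * Real.sin (t / 2)) - A / 2 * (h t * Real.cos (t / 2)))
      (volume.restrict (Ioo 0 (2 * π))) :=
    (((integrable_const _).sub (iCC.const_mul _)).sub (ikS.const_mul A)).sub (ihC.const_mul _)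
  have vY : ∫ t in Ioo 0 (2 * π), (A ^ 2 / 4 - A ^ 2 / 2 * Real.cos (t / 2) ^ 2 -
      A * (k t * Real.sin (t / 2)) - A / 2 * (h t * Real.cos (t / 2))) = 0 := by
    have j1 : Integrable (fun t : ℝ => A ^ 2 / 4 - A ^ 2 / 2 * Real.cos (t / 2) ^ 2)
      (volume.restrict (Ioo 0 (2 * π))) := (integrable_const _).sub (iCC.const_mul _)
    have j2 : Integrable (fun t : ℝ => A ^ 2 / 4 - A ^ 2 / 2 * Real.cos (t / 2) ^ 2 -
      A * (k t * Real.sin (t / 2)))
      (volume.restrict (Ioo 0 (2 * π))) := j1.sub (ikS.const_mul A)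
    rw [integral_sub j2 (ihC.const_mul _), integral_sub j1 (ikS.const_mul A),
      integral_sub (integrable_const _) (iCC.const_mul _), integral_const_mul, integral_const_mul,
      integral_const_mul, vC, o1]
    have e1 : A / 2 * ∫ t in Ioo 0 (2 * π), h t * Real.cos (t / 2) = 0 := by linarith
    rw [e1]
    simp [Real.volume_real_Ioo_of_le (by linarith only [hπ] : (0 : ℝ) ≤ 2 * π)]
    ring
  have hdiff : (∫ t in Ioo 0 (2 * π), ((g t ^ 2 - H t ^ 2) * Real.cos t -
      2 * (g t * H t) * Real.sin t)) - ∫ t in Ioo 0 (2 * π), (F t - m) * g t =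
      ∫ t in Ioo 0 (2 * π), ((g t ^ 2 - H t ^ 2) * Real.cos t - 2 * (g t * H t) * Real.sin t -
        (F t - m) * g t - (A ^ 2 / 4 - A ^ 2 / 2 * Real.cos (t / 2) ^ 2 -
      A * (k t * Real.sin (t / 2)) - A / 2 * (h t * Real.cos (t / 2)))) := by
    have j1 := icos.sub isin
    have j2 := j1.sub iFg
    have e1 := integral_sub j2 iY
    have e2 := integral_sub j1 iFg
    simp only [Pi.sub_apply] at e1 e2
    rw [e1, e2, vY, sub_zero]
  have hbound : |∫ t in Ioo 0 (2 * π), ((g t ^ 2 - H t ^ 2) * Real.cos t -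
        2 * (g t * H t) * Real.sin t -
        (F t - m) * g t - (A ^ 2 / 4 - A ^ 2 / 2 * Real.cos (t / 2) ^ 2 -
      A * (k t * Real.sin (t / 2)) - A / 2 * (h t * Real.cos (t / 2))))| ≤
      ∫ t in Ioo 0 (2 * π), (5 / 4 * h t ^ 2 + 3 * q t ^ 2 + k t ^ 2) := by
    have j1 : Integrable (fun t => 5 / 4 * h t ^ 2 + 3 * q t ^ 2 + k t ^ 2)
      (volume.restrict (Ioo 0 (2 * π))) := ((ihh.const_mul _).add (iqq.const_mul _)).add ikk
    rw [← Real.norm_eq_abs]
    refine norm_integral_le_of_norm_le j1 (Eventually.of_forall fun t => ?_)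
    have hcos : Real.cos t = Real.cos (t / 2) ^ 2 - Real.sin (t / 2) ^ 2 := by
      have := Real.cos_two_mul (t / 2)
      rw [show 2 * (t / 2) = t by ring] at this
      rw [this, Real.sin_sq]; ring
    have hsin : Real.sin t = 2 * Real.sin (t / 2) * Real.cos (t / 2) := by
      have := Real.sin_two_mul (t / 2)
      rwa [show 2 * (t / 2) = t by ring] at this
    rw [hcos, hsin, Real.norm_eq_abs]
    exact tip_pt (Real.sin_sq_add_cos_sq _) (by rw [hq, hh]; ring) (by rw [hk]; ring)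
      (by rw [hh]; ring)
  rw [hdiff]
  refine hbound.trans ?_
  have j1 : Integrable (fun t => 5 / 4 * h t ^ 2 + 3 * q t ^ 2)
      (volume.restrict (Ioo 0 (2 * π))) := (ihh.const_mul _).add (iqq.const_mul _)
  rw [integral_add j1 ikk, integral_add (ihh.const_mul _) (iqq.const_mul _), integral_const_mul,
    integral_const_mul, dW]
  clear hbound hdiff j1 iY vY
  have e3 : ∫ t in Ioo 0 (2 * π), k t ^ 2 = (∫ t in Ioo 0 (2 * π), H t ^ 2) - A ^ 2 * π / 4 := by
    rw [← h1, hk]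
  have e4 : ∫ t in Ioo 0 (2 * π), h t ^ 2 = (∫ t in Ioo 0 (2 * π), (F t - m) ^ 2) - A ^ 2 * π := by
    rw [← h2, hh]
  have e5 : 1.7 * ∫ t in Ioo 0 (2 * π), k t ^ 2 ≤
      4 * (∫ t in Ioo 0 (2 * π), H t ^ 2) - ∫ t in Ioo 0 (2 * π), (F t - m) ^ 2 := by
    rw [hk]; exact h3
  have e6 : 0 ≤ ∫ t in Ioo 0 (2 * π), k t ^ 2 := integral_nonneg fun _ => sq_nonneg _
  have e7 : 0 ≤ ∫ t in Ioo 0 (2 * π), q t ^ 2 := integral_nonneg fun _ => sq_nonneg _
  rw [show (1.7 : ℝ) = 17 / 10 by norm_num] at e5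
  linarith only [e7, e6, e5, e4, e3]

end Vale.Agent.P128.Q1
end
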