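import Vale.Agent.P128.MathlibUsed
import Vale.Agent.P128.Bdl.B5
import Vale.Agent.P128.Bdl.B12
import Vale.Agent.P128.Bdl.B13
import Vale.Agent.P128.Bdl.B11
import Vale.Agent.P128.Bdl.B16
import Vale.Agent.P128.Bdl.B15
import Vale.Agent.P128.Bdl.B2
import Vale.Agent.P128.Bdl.B8
import Vale.Agent.P128.Bdl.B14
import Vale.Agent.P128.Bdl.B17
import Vale.Agent.P128.Bdl.B1
import Vale.Agent.P128.Bdl.B3

set_option linter.all false

section

/-! Minimality of `(u, K)` against adding a compact wall, with Sobolev test functions. -/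

open MeasureTheory Set Metric Filter
open scoped ENNReal NNReal ContDiff Topology Real

namespace Vale.Agent.P128.GM

open Vale.Agent.P128

variable {u : ℂ → ℝ} {K : Set ℂ}

namespace GMin

theorem sob (h : GMin u K) : Sob Kᶜ u (grad u) :=
  ⟨h.isOpen_compl, fun C hC hc => h.gm.sobolev.memLp C hc hC,
    fun C hC hc => h.gm.sobolev.grad_memLp C hc hC, h.gm.sobolev.weak⟩

theorem wallMin (h : GMin u K) : WallMin K (grad u) := by
  intro L ξ Ξ hL hLf hξ hΞ hw hs
  obtain ⟨ρ, hρ⟩ := hs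
  obtain ⟨R0, hR0⟩ := hL.isBounded.subset_closedBall (0 : ℂ)
  obtain ⟨R', hR'⟩ : ∃ R', R' = max R0 ρ := ⟨_, rfl⟩
  have hR1 : R0 ≤ R' := hR' ▸ le_max_left _ _
  have hR2 : ρ ≤ R' := hR' ▸ le_max_right _ _
  have hKL : IsClosed (K ∪ L) := h.closed.union hL.isClosed
  have hU : IsOpen (K ∪ L)ᶜ := hKL.isOpen_compl
  have hsu : Sob (K ∪ L)ᶜ u (grad u) :=
    h.sob.mono hU (compl_subset_compl.2 subset_union_left)
  have hsξ : Sob (K ∪ L)ᶜ ξ Ξ :=
    ⟨hU, fun C _ _ => hξ.mono_measure Measure.restrict_le_self,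
      fun C _ _ => hΞ.mono_measure Measure.restrict_le_self, hw⟩
  have hsum := hsu.add hsξ
  have hW : W12loc (K ∪ L)ᶜ (fun z => u z + ξ z) (fun z => grad u z + Ξ z) :=
    ⟨fun C hc hC => hsum.ul C hC hc, fun C hc hC => hsum.gl C hC hc, hsum.weak⟩
  have hcmp := h.gm.compare h.conn (x := 0) (r := R' + 1) (C := closedBall 0 R') hKL hW
    (isCompact_closedBall _ _) (closedBall_subset_ball (by linarith)) (by
      intro z hz
      rcases hz with ⟨hz, hz'⟩ | ⟨hz, hz'⟩
      · rcases hz with hz | hz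
        · exact absurd hz hz'
        · exact closedBall_subset_closedBall hR1 (hR0 hz)
      · exact absurd (Or.inl hz) hz') (Eventually.of_forall fun z hz => by
      rw [mem_closedBall, dist_zero_right, not_le] at hz
      show u z + ξ z = u z
      rw [(hρ z (by linarith)).1, add_zero])
  obtain ⟨B, hB⟩ : ∃ B : Set ℂ, B = ball 0 (R' + 1) := ⟨_, rfl⟩
  rw [← hB] at hcmp
  have hKB : μH[1] (K ∩ B) ≠ ⊤ := hB ▸ h.len_fin 0 (R' + 1)
  have hi1 : IntegrableOn (fun z => ‖grad u z‖ ^ 2) B := hB ▸ h.integrableOn' 0 (R' + 1)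
  have hm1 : MemLp (grad u) 2 (volume.restrict B) := hB ▸ h.memLp 0 (R' + 1)
  have hm2 : MemLp Ξ 2 (volume.restrict B) := hΞ.mono_measure Measure.restrict_le_self
  have hi2 : IntegrableOn (fun z => ‖Ξ z‖ ^ 2) B := hm2.norm.integrable_sq
  have hi3 : IntegrableOn (fun z => ‖grad u z + Ξ z‖ ^ 2) B := (hm1.add hm2).norm.integrable_sq
  have hi4 : IntegrableOn (fun z => (inner ℝ (grad u z) (Ξ z) : ℝ)) B := by
    refine Integrable.mono' (hi1.add hi2)
      (hm1.1.inner hm2.1) (Eventually.of_forall fun z => ?_)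
    refine (norm_inner_le' _ _).trans ?_
    show _ ≤ ‖grad u z‖ ^ 2 + ‖Ξ z‖ ^ 2
    linarith only [mul_nonneg (norm_nonneg (grad u z)) (norm_nonneg (Ξ z)), sq_nonneg (‖grad u z‖ - ‖Ξ z‖)]
  unfold genergy at hcmp
  rw [h.gm.restrict_compl] at hcmp
  have e1 : ∫⁻ z in B, ENNReal.ofReal (‖grad u z‖ ^ 2) =
      ENNReal.ofReal (∫ z in B, ‖grad u z‖ ^ 2) :=
    (ofReal_integral_eq_lintegral_ofReal hi1 (Eventually.of_forall fun _ => by (clear * -; positivity))).symm
  have e2 : ∫⁻ z in B, ENNReal.ofReal (‖grad u z + Ξ z‖ ^ 2) =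
      ENNReal.ofReal (∫ z in B, ‖grad u z + Ξ z‖ ^ 2) :=
    (ofReal_integral_eq_lintegral_ofReal hi3 (Eventually.of_forall fun _ => by (clear * -; positivity))).symm
  have e3 : μH[1] ((K ∪ L) ∩ B) ≤ μH[1] (K ∩ B) + μH[1] L := by
    rw [union_inter_distrib_right]
    exact (measure_union_le _ _).trans (add_le_add le_rfl (measure_mono inter_subset_left))
  have h1 : ENNReal.ofReal (∫ z in B, ‖grad u z‖ ^ 2) + μH[1] (K ∩ B) ≤
      (ENNReal.ofReal (∫ z in B, ‖grad u z + Ξ z‖ ^ 2) + μH[1] L) + μH[1] (K ∩ B) := by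
    rw [← e1, ← e2]
    refine hcmp.trans ?_
    have e4 : ∫⁻ z in B \ (K ∪ L), ENNReal.ofReal (‖grad u z + Ξ z‖ ^ 2) ≤
        ∫⁻ z in B, ENNReal.ofReal (‖grad u z + Ξ z‖ ^ 2) := lintegral_mono_set sdiff_subset
    calc _ ≤ (∫⁻ z in B, ENNReal.ofReal (‖grad u z + Ξ z‖ ^ 2)) + (μH[1] (K ∩ B) + μH[1] L) :=
          add_le_add e4 e3
      _ = _ := by ring
  have h2 := (ENNReal.add_le_add_iff_right hKB).1 h1
  rw [← ENNReal.ofReal_toReal hLf, ← ENNReal.ofReal_add (by (clear * -; positivity)) (by positivity),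
    ENNReal.ofReal_le_ofReal_iff (by (clear * -; positivity))] at h2
  have e5 : ∫ z in B, ‖grad u z + Ξ z‖ ^ 2 = (∫ z in B, ‖grad u z‖ ^ 2) +
      2 * (∫ z in B, (inner ℝ (grad u z) (Ξ z) : ℝ)) + ∫ z in B, ‖Ξ z‖ ^ 2 := by
    have i12 : IntegrableOn (fun z => ‖grad u z‖ ^ 2 + 2 * (inner ℝ (grad u z) (Ξ z) : ℝ)) B :=
      hi1.add (hi4.const_mul 2)
    rw [← integral_const_mul, ← integral_add hi1 (hi4.const_mul 2), ← integral_add i12 hi2]
    refine integral_congr_ae (Eventually.of_forall fun z => ?_)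
    exact norm_add_sq_real _ _
  have hout : ∀ z, z ∉ B → Ξ z = 0 := by
    intro z hz
    rw [hB, mem_ball, dist_zero_right, not_lt] at hz
    exact (hρ z (by linarith)).2
  have e6 : ∫ z in B, (inner ℝ (grad u z) (Ξ z) : ℝ) = ∫ z, (inner ℝ (grad u z) (Ξ z) : ℝ) :=
    setIntegral_eq_integral_of_forall_compl_eq_zero fun z hz => by rw [hout z hz, inner_zero_right]
  have e7 : ∫ z in B, ‖Ξ z‖ ^ 2 = ∫ z, ‖Ξ z‖ ^ 2 :=
    setIntegral_eq_integral_of_forall_compl_eq_zero fun z hz => by rw [hout z hz]; simp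
  rw [e5, e6, e7] at h2
  linarith only [h2]

end GMin

end Vale.Agent.P128.GM
end

section

/-! D-04 (GM/D/NoBdd.lean, helper559) : D1, the complement of `K` has no bounded component.

At almost every point `y` of the boundary of a bounded component `D` there is a small circle with at
most two crossings, one arc of which is in `D`; `u` hardly oscillates on the other one. Change the
constant on `D` and remove `K` near `y`. -/

open MeasureTheory Set Metric Filter InnerProductSpace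
open scoped ENNReal NNReal ContDiff Topology Real

namespace Vale.Agent.P128.GM

open Vale.Agent.P128

variable {u : ℂ → ℝ} {G : ℂ → ℂ} {K L A W : Set ℂ} {η w : ℂ → ℝ} {δ : ℝ}

/-! ### the good radius -/

theorem CMin.differentiableAt (h : CMin u K) {z : ℂ} (hz : z ∉ K) : DifferentiableAt ℝ u z :=
  ((InnerProductSpace.HarmonicOnNhd.contDiffOn h.harm).contDiffAt
    (h.isOpen_compl.mem_nhds hz)).differentiableAt (by norm_num)

theorem CMin.nb_radius (h : CMin u K) {y : ℂ} {d ε : ℝ} (hd : 0 < d) (hε : 0 < ε)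
    (hH : μH[1] (K ∩ closedBall y (8 * d)) ≤ ENNReal.ofReal ((2 + 1 / 10) * (8 * d)))
    (hE : ∫ z in ball y (8 * d), ‖grad u z‖ ^ 2 ≤ ε * (8 * d)) :
    ∃ r : ℝ, 2 * d < r ∧ r < 8 * d ∧ (K ∩ sphere y r).encard ≤ 2 ∧
      ∀ I : Set ℂ, IsPreconnected I → I ⊆ sphere y r → Disjoint I K → ∀ a ∈ I, ∀ b ∈ I,
        (u a - u b) ^ 2 ≤ 1400 * ε * d := by
  have hπ := Real.pi_pos
  set u' : ℂ → ℝ := shift y u with hu'
  set U : Set ℂ := (fun z : ℂ => z + y) ⁻¹' Kᶜ with hUdef
  have hUo : IsOpen U := h.isOpen_compl.preimage (by fun_prop)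
  have hl : LocLip U u' := by
    have := h.locLip.translate (-y)
    simp only [sub_neg_eq_add] at this
    exact this
  have hdf : ∀ z ∈ U, DifferentiableAt ℝ u' z := by
    intro z hz
    have h1 : DifferentiableAt ℝ u (z + y) := h.differentiableAt hz
    exact h1.comp z (f := fun z => z + y) (by fun_prop)
  have hi : ∀ R : ℝ, IntegrableOn (fun z => ‖grad u' z‖ ^ 2) (ball 0 R) := by
    intro R
    have e : ball (0 : ℂ) R = (fun z : ℂ => z + y) ⁻¹' (ball y R) := by
      ext z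
      simp [mem_ball, dist_eq_norm]
    rw [e]
    simp only [hu', shp_grad]
    exact ((shp_mp y).integrableOn_comp_preimage (shp_emb y)).2 (h.integrableOn' y R)
  obtain ⟨hInt, hEq⟩ := polar_of_integrable hi (a := 2 * d) (b := 8 * d) (by positivity)
    (by linarith)
  have hEn8 : En u' (8 * d) ≤ ε * (8 * d) := by rw [hu', En_shift]; exact hE
  have hEn2 : 0 ≤ En u' (2 * d) := integral_nonneg fun z => by positivity
  -- the bad sets
  set J : Set ℝ := Ioo (2 * d) (8 * d) with hJ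
  set S₁ : Set ℝ := {s | s ∈ J ∧ 3 ≤ (K ∩ sphere y s).encard} with hS₁
  set S₂ : Set ℝ := {s | s ∈ J ∧ 27 * ε ≤ NN u' s + TT u' s} with hS₂
  have hv₁ : volume S₁ ≤ ENNReal.ofReal (28 / 5 * d) := by
    have h1 := eilenberg (X := ℂ) (f := fun z => dist z y) (LipschitzWith.dist_left y) (E := K)
      (m := 3) (S := S₁) (fun s hs => by
        have e : (fun z : ℂ => dist z y) ⁻¹' {s} = sphere y s := by
          ext z; rfl
        rw [e]
        exact_mod_cast hs.2)
    have h2 : μH[1] (K ∩ (fun z => dist z y) ⁻¹' S₁) ≤ μH[1] (K ∩ closedBall y (8 * d)) := by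
      refine measure_mono ?_
      rintro z ⟨hz, hz'⟩
      exact ⟨hz, mem_closedBall.2 hz'.1.2.le⟩
    have h3 := (h1.trans h2).trans hH
    have h4 : ENNReal.ofReal ((2 + 1 / 10) * (8 * d)) =
        ((3 : ℕ) : ℝ≥0∞) * ENNReal.ofReal (28 / 5 * d) := by
      rw [show ((3 : ℕ) : ℝ≥0∞) = ENNReal.ofReal 3 by norm_num,
        ← ENNReal.ofReal_mul (by norm_num)]
      congr 1
      ring
    rw [h4] at h3
    exact (ENNReal.mul_le_mul_iff_right (by norm_num) (by norm_num)).1 h3
  have hv₂ : volume S₂ ≤ ENNReal.ofReal (8 / 27 * d) := by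
    have hInt' : IntegrableOn (fun s => NN u' s + TT u' s) (Ioc (2 * d) (8 * d)) :=
      (intervalIntegrable_iff_integrableOn_Ioc_of_le (by linarith only [hd])).1 hInt
    have hmeas : AEMeasurable (fun s => ENNReal.ofReal (NN u' s + TT u' s))
        (volume.restrict (Ioc (2 * d) (8 * d))) :=
      hInt'.aestronglyMeasurable.aemeasurable.ennreal_ofReal
    have h1 := mul_meas_ge_le_lintegral₀ hmeas (ENNReal.ofReal (27 * ε))
    have hnn : 0 ≤ᵐ[volume.restrict (Ioc (2 * d) (8 * d))] fun s => NN u' s + TT u' s := by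
      rw [EventuallyLE, ae_restrict_iff' measurableSet_Ioc]
      refine Eventually.of_forall fun s hs => ?_
      have hs0 : 0 ≤ s := by linarith [hs.1]
      exact add_nonneg (NN_nonneg u' hs0) (TT_nonneg u' hs0)
    rw [← ofReal_integral_eq_lintegral_ofReal hInt' hnn,
      ← intervalIntegral.integral_of_le (by linarith), ← hEq] at h1
    have h2 : volume S₂ ≤ (volume.restrict (Ioc (2 * d) (8 * d)))
        {s | ENNReal.ofReal (27 * ε) ≤ ENNReal.ofReal (NN u' s + TT u' s)} := by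
      refine le_trans (measure_mono ?_) (Measure.le_restrict_apply _ _)
      intro s hs
      exact ⟨ENNReal.ofReal_le_ofReal hs.2, ⟨hs.1.1, hs.1.2.le⟩⟩
    have h3 : ENNReal.ofReal (27 * ε) * volume S₂ ≤ ENNReal.ofReal (ε * (8 * d)) :=
      (mul_le_mul_right h2 _).trans (h1.trans (ENNReal.ofReal_le_ofReal (by linarith)))
    have h4 : ENNReal.ofReal (ε * (8 * d)) =
        ENNReal.ofReal (27 * ε) * ENNReal.ofReal (8 / 27 * d) := by
      rw [← ENNReal.ofReal_mul (by positivity)]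
      congr 1
      ring
    rw [h4] at h3
    exact (ENNReal.mul_le_mul_iff_right (ENNReal.ofReal_pos.2 (by positivity)).ne'
      ENNReal.ofReal_ne_top).1 h3
  have hae := osc_arc_gen hUo hl hdf hi
  set S₃ : Set ℝ := {s | ¬ (0 < s → ∀ I : Set ℂ, IsPreconnected I →
      I ⊆ sphere 0 s ∩ U → ∀ a ∈ I, ∀ b ∈ I, (u' a - u' b) ^ 2 ≤ 2 * π * s * TT u' s)} with hS₃
  have hv₃ : volume S₃ = 0 := hae
  have hex : ∃ s ∈ J, s ∉ S₁ ∧ s ∉ S₂ ∧ s ∉ S₃ := by
    by_contra hcon
    push Not at hcon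
    have hsub : J ⊆ S₁ ∪ S₂ ∪ S₃ := by
      intro s hs
      by_cases h1 : s ∈ S₁
      · exact Or.inl (Or.inl h1)
      by_cases h2 : s ∈ S₂
      · exact Or.inl (Or.inr h2)
      · exact Or.inr (hcon s hs h1 h2)
    have h1 : volume J ≤ ENNReal.ofReal (28 / 5 * d) + ENNReal.ofReal (8 / 27 * d) + 0 := by
      refine (measure_mono hsub).trans ((measure_union_le _ _).trans ?_)
      refine add_le_add ((measure_union_le _ _).trans (add_le_add hv₁ hv₂)) hv₃.le
    rw [add_zero, ← ENNReal.ofReal_add (by positivity) (by positivity), hJ, Real.volume_Ioo,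
      ENNReal.ofReal_le_ofReal_iff (by positivity)] at h1
    linarith only [h1, hd]
  obtain ⟨r, hrJ, h1, h2, h3⟩ := hex
  have hr0 : 0 < r := by linarith [hrJ.1]
  refine ⟨r, hrJ.1, hrJ.2, ?_, ?_⟩
  · by_contra hcon
    apply h1
    refine ⟨hrJ, ?_⟩
    have h4 : (2 : ℕ∞) + 1 ≤ (K ∩ sphere y r).encard := Order.add_one_le_of_lt (not_le.1 hcon)
    exact le_trans (by norm_num) h4
  · intro I hI hIs hIK a ha b hb
    have h4 : (0 < r → ∀ I : Set ℂ, IsPreconnected I →
      I ⊆ sphere 0 r ∩ U → ∀ a ∈ I, ∀ b ∈ I, (u' a - u' b) ^ 2 ≤ 2 * π * r * TT u' r) := by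
      by_contra hcon
      exact h3 hcon
    have h5 : NN u' r + TT u' r < 27 * ε := by
      by_contra hcon
      exact h2 ⟨hrJ, not_lt.1 hcon⟩
    have hT : TT u' r ≤ 27 * ε := by linarith [NN_nonneg u' hr0.le]
    have hT0 := TT_nonneg u' hr0.le
    have h6 := h4 hr0 ((fun z => z - y) '' I) (hI.image _ (by fun_prop)) (by
      rintro z ⟨x, hx, rfl⟩
      refine ⟨?_, ?_⟩
      · have := hIs hx
        rw [mem_sphere, dist_eq_norm] at this
        rw [mem_sphere, dist_zero_right]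
        exact this
      · show x - y + y ∈ Kᶜ
        rw [sub_add_cancel]
        exact Set.disjoint_left.1 hIK hx) (a - y) ⟨a, ha, rfl⟩ (b - y) ⟨b, hb, rfl⟩
    simp only [hu', shift, sub_add_cancel] at h6
    refine h6.trans ?_
    have h7 : 2 * π * r * TT u' r ≤ 2 * π * (8 * d) * (27 * ε) := by
      have : 2 * π * r ≤ 2 * π * (8 * d) := by linarith only [mul_pos (sub_pos.2 hπ) (sub_pos.2 hrJ.2)]
      exact mul_le_mul this hT hT0 (by positivity)
    refine h7.trans ?_
    have h8 : 2 * π * (8 * d) * (27 * ε) = 432 * π * (ε * d) := by ring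
    rw [h8]
    have h9 : 432 * π ≤ 1400 := by linarith only [Real.pi_lt_d2]
    (by_contra nlg; linarith only [nlg, mul_nonneg (sub_nonneg.2 h9) (le_of_lt (sub_pos.2 (mul_pos hε hd))), mul_nonneg (le_of_lt (sub_pos.2 (not_le.1 nlg))) (sub_nonneg.2 h9), mul_pos (sub_pos.2 (not_le.1 nlg)) (sub_pos.2 hπ)])

/-! ### clamping -/

/-- truncation at level `c` -/
noncomputable def nbCl (c t : ℝ) : ℝ := max (-c) (min c t)

theorem nbCl_lip (c : ℝ) : LipschitzWith 1 (nbCl c) := by
  refine LipschitzWith.of_dist_le_mul fun x y => ?_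
  rw [NNReal.coe_one, one_mul, Real.dist_eq, Real.dist_eq]
  unfold nbCl
  have h1 := abs_max_sub_max_le_max (-c) (min c x) (-c) (min c y)
  have h2 := abs_min_sub_min_le_max c x c y
  have e1 : max |(-c : ℝ) - -c| |min c x - min c y| = |min c x - min c y| := by
    rw [sub_self, abs_zero]
    exact max_eq_right (abs_nonneg _)
  have e2 : max |c - c| |x - y| = |x - y| := by
    rw [sub_self, abs_zero]
    exact max_eq_right (abs_nonneg _)
  rw [e1] at h1
  rw [e2] at h2
  exact h1.trans h2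

theorem nbCl_abs {c : ℝ} (hc : 0 ≤ c) (t : ℝ) : |nbCl c t| ≤ c := by
  unfold nbCl
  rw [abs_le]
  exact ⟨le_max_left _ _, max_le (by linarith) (min_le_left _ _)⟩

theorem nbCl_eq {c t : ℝ} (h : |t| ≤ c) : nbCl c t = t := by
  obtain ⟨h1, h2⟩ := abs_le.1 h
  unfold nbCl
  rw [min_eq_right h2, max_eq_right h1]

/-- chain rule inequality for a 1-Lipschitz function -/
theorem nb_grad_comp {f : ℝ → ℝ} (hf : LipschitzWith 1 f) {g : ℂ → ℝ} {z : ℂ}
    (hg : DifferentiableAt ℝ g z) : ‖grad (fun w => f (g w)) z‖ ≤ ‖grad g z‖ := by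
  rw [norm_grad, norm_grad]
  by_cases hd : DifferentiableAt ℝ (fun w => f (g w)) z
  swap
  · rw [fderiv_zero_of_not_differentiableAt hd, norm_zero]
    exact norm_nonneg _
  refine le_of_forall_pos_le_add fun ε hε => ?_
  have h1 : ∀ᶠ w in 𝓝 z, ‖g w - g z - fderiv ℝ g z (w - z)‖ ≤ ε * ‖w - z‖ :=
    hg.hasFDerivAt.isLittleO.def hε
  refine hd.hasFDerivAt.le_of_lip' (by positivity) ?_
  filter_upwards [h1] with w hw
  have h2 : ‖f (g w) - f (g z)‖ ≤ ‖g w - g z‖ := by
    have := hf.dist_le_mul (g w) (g z)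
    rw [NNReal.coe_one, one_mul, dist_eq_norm, dist_eq_norm] at this
    exact this
  have h3 : ‖g w - g z‖ ≤ ‖g w - g z - fderiv ℝ g z (w - z)‖ + ‖fderiv ℝ g z (w - z)‖ := by
    have := norm_add_le (g w - g z - fderiv ℝ g z (w - z)) (fderiv ℝ g z (w - z))
    rwa [sub_add_cancel] at this
  have h4 := (fderiv ℝ g z).le_opNorm (w - z)
  calc ‖f (g w) - f (g z)‖ ≤ ‖g w - g z‖ := h2
    _ ≤ ε * ‖w - z‖ + ‖fderiv ℝ g z‖ * ‖w - z‖ := by linarith
    _ = (‖fderiv ℝ g z‖ + ε) * ‖w - z‖ := by ring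

/-! ### the competitor -/

open Classical in
/-- the competitor -/
noncomputable def nbV (u : ℂ → ℝ) (D : Set ℂ) (y : ℂ) (d r m c : ℝ) (z : ℂ) : ℝ :=
  if z ∈ D then m else if dist z y < r then m + rpChi y d z * nbCl c (u z - m) else u z

section

variable {D : Set ℂ} {y : ℂ} {d r m c : ℝ}

theorem nbV_D {z : ℂ} (hz : z ∈ D) : nbV u D y d r m c z = m := by
  unfold nbV; rw [if_pos hz]

theorem nbV_in {z : ℂ} (hz : z ∉ D) (hr : dist z y < r) :
    nbV u D y d r m c z = m + rpChi y d z * nbCl c (u z - m) := by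
  unfold nbV; rw [if_neg hz, if_pos hr]

theorem nbV_out {z : ℂ} (hz : z ∉ D) (hr : r ≤ dist z y) : nbV u D y d r m c z = u z := by
  unfold nbV; rw [if_neg hz, if_neg (not_lt.2 hr)]

theorem nbV_near (hd : 0 < d) {z : ℂ} (hr : dist z y ≤ 3 * d / 2) (hdr : 2 * d < r) :
    nbV u D y d r m c z = m := by
  by_cases hz : z ∈ D
  · exact nbV_D hz
  · rw [nbV_in hz (by linarith only [hdr, hr, hd]), rpChi_zero hd hr]
    ring

theorem nbV_sph (hd : 0 < d) {z : ℂ} (hz : z ∉ D) (h2 : 2 * d ≤ dist z y)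
    (hm : |u z - m| ≤ c) : nbV u D y d r m c z = u z := by
  by_cases hzr : dist z y < r
  · rw [nbV_in hz hzr, rpChi_one hd h2, nbCl_eq hm]
    ring
  · exact nbV_out hz (not_lt.1 hzr)

/-- the union of the other components is open -/
theorem nb_open_rest (hK : IsClosed K) (z₀ : ℂ) :
    IsOpen (Kᶜ \ connectedComponentIn Kᶜ z₀) := by
  rw [isOpen_iff_mem_nhds]
  intro p hp
  have hU : IsOpen Kᶜ := hK.isOpen_compl
  refine mem_of_superset (hU.connectedComponentIn.mem_nhds (mem_connectedComponentIn hp.1)) ?_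
  intro q hq
  refine ⟨connectedComponentIn_subset _ _ hq, fun hq2 => hp.2 ?_⟩
  rw [connectedComponentIn_eq hq2, ← connectedComponentIn_eq hq]
  exact mem_connectedComponentIn hp.1

theorem CMin.nbV_locLip (h : CMin u K) {z₀ : ℂ} (hD : D = connectedComponentIn Kᶜ z₀)
    (hd : 0 < d) (hdr : 2 * d < r)
    (hosc : ∀ z ∈ sphere y r, z ∉ K → z ∉ D → |u z - m| < c) :
    LocLip (K \ ball y (3 * d / 2))ᶜ (nbV u D y d r m c) := by
  have hU := h.isOpen_compl
  have hDo : IsOpen D := by rw [hD]; exact hU.connectedComponentIn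
  have hDK : D ⊆ Kᶜ := by rw [hD]; exact connectedComponentIn_subset _ _
  have hRo : IsOpen (Kᶜ \ D) := by rw [hD]; exact nb_open_rest h.closed z₀
  have hRK : Kᶜ \ D ⊆ Kᶜ := sdiff_subset
  have hLo : IsOpen (K \ ball y (3 * d / 2))ᶜ := (h.closed.sdiff isOpen_ball).isOpen_compl
  have hA : LocLip (ball y (3 * d / 2)) (nbV u D y d r m c) :=
    (LocLip.const isOpen_ball m).congr fun z hz => (nbV_near hd (le_of_lt hz) hdr).symm
  have hB : LocLip D (nbV u D y d r m c) :=
    (LocLip.const hDo m).congr fun z hz => (nbV_D hz).symm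
  have hC : LocLip ((Kᶜ \ D) ∩ ball y r) (nbV u D y d r m c) := by
    have ho : IsOpen ((Kᶜ \ D) ∩ ball y r) := hRo.inter isOpen_ball
    have h1 : LocLip ((Kᶜ \ D) ∩ ball y r) fun z => nbCl c (u z - m) := by
      have h2 : LocLip ((Kᶜ \ D) ∩ ball y r) fun z => u z - m :=
        (h.locLip.mono ho (inter_subset_left.trans hRK)).sub (LocLip.const ho m)
      exact h2.comp_lipschitz (nbCl_lip c)
    refine ((LocLip.const ho m).add ((rp_locLip (rpChi_lip (x := y) hd) ho).mul h1)).congr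
      fun z hz => ?_
    exact (nbV_in hz.1.2 hz.2).symm
  have hE : LocLip ((Kᶜ \ D) ∩ (closedBall y r)ᶜ) (nbV u D y d r m c) := by
    refine (h.locLip.mono (hRo.inter isClosed_closedBall.isOpen_compl)
      (inter_subset_left.trans hRK)).congr fun z hz => ?_
    have := hz.2
    rw [mem_compl_iff, mem_closedBall, not_le] at this
    exact (nbV_out hz.1.2 this.le).symm
  set N : Set ℂ := (Kᶜ \ D) ∩ ((closedBall y (2 * d))ᶜ ∩ {z | z ∈ Kᶜ ∧ |u z - m| < c}) with hN
  have hNo : IsOpen N := by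
    refine hRo.inter (isClosed_closedBall.isOpen_compl.inter ?_)
    have hc : ContinuousOn (fun z => |u z - m|) Kᶜ :=
      (h.locLip.continuousOn.sub continuousOn_const).abs
    exact hc.isOpen_inter_preimage hU isOpen_Iio
  have hF : LocLip N (nbV u D y d r m c) := by
    refine (h.locLip.mono hNo (inter_subset_left.trans hRK)).congr fun z hz => ?_
    have h1 := hz.2.1
    rw [mem_compl_iff, mem_closedBall, not_le] at h1
    exact (nbV_sph hd hz.1.2 h1.le hz.2.2.2.le).symm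
  refine ((((hA.union hB).union hC).union hE).union hF).mono hLo fun z hz => ?_
  by_cases hzb : z ∈ ball y (3 * d / 2)
  · exact Or.inl (Or.inl (Or.inl (Or.inl hzb)))
  have hzK : z ∉ K := fun hc => hz ⟨hc, hzb⟩
  by_cases hzD : z ∈ D
  · exact Or.inl (Or.inl (Or.inl (Or.inr hzD)))
  rcases lt_trichotomy (dist z y) r with h1 | h1 | h1
  · exact Or.inl (Or.inl (Or.inr ⟨⟨hzK, hzD⟩, h1⟩))
  · refine Or.inr ⟨⟨hzK, hzD⟩, ?_, hzK, hosc z h1 hzK hzD⟩
    rw [mem_compl_iff, mem_closedBall, not_le, h1]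
    exact hdr
  · refine Or.inl (Or.inr ⟨⟨hzK, hzD⟩, ?_⟩)
    rw [mem_compl_iff, mem_closedBall, not_le]
    exact h1

theorem CMin.nbV_grad (h : CMin u K) {z₀ : ℂ} (hD : D = connectedComponentIn Kᶜ z₀)
    (hd : 0 < d) (hc : 0 ≤ c) :
    ∀ᵐ z : ℂ, ‖grad (nbV u D y d r m c) z‖ ^ 2 ≤ ‖grad u z‖ ^ 2 +
      (ball y r).indicator (fun z => ‖grad u z‖ ^ 2 + 8 * c ^ 2 / d ^ 2) z := by
  have hU := h.isOpen_compl
  have hDo : IsOpen D := by rw [hD]; exact hU.connectedComponentIn
  have hRo : IsOpen (Kᶜ \ D) := by rw [hD]; exact nb_open_rest h.closed z₀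
  have hsph : ∀ᵐ z : ℂ, z ∉ sphere y r := by
    have h0 : {z : ℂ | ¬ z ∉ sphere y r} = sphere y r := by
      ext z
      simp only [mem_ofPred_eq, not_not]
    rw [ae_iff, h0]
    exact Measure.addHaar_sphere (volume : Measure ℂ) y r
  have hlc : LocLip Kᶜ fun z => nbCl c (u z - m) :=
    (h.locLip.sub (LocLip.const hU m)).comp_lipschitz (nbCl_lip c)
  filter_upwards [hsph, h.ae_compl, hlc.ae_diff hU,
    (rp_locLip (rpChi_lip (x := y) hd) isOpen_univ).ae_diff isOpen_univ] with z hz hzK hcl hchi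
  have hnn : 0 ≤ (ball y r).indicator (fun z => ‖grad u z‖ ^ 2 + 8 * c ^ 2 / d ^ 2) z :=
    indicator_nonneg (fun z _ => by (clear * - hd; positivity)) z
  by_cases hzD : z ∈ D
  · have hev : nbV u D y d r m c =ᶠ[𝓝 z] fun _ => m := by
      filter_upwards [hDo.mem_nhds hzD] with w hw using nbV_D hw
    rw [grad_congr hev, grad_const, norm_zero]
    have : 0 ≤ ‖grad u z‖ ^ 2 := by (clear * -; positivity)
    linarith only [this, hnn]
  by_cases hzb : z ∈ ball y r
  · rw [indicator_of_mem hzb]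
    have hev : nbV u D y d r m c =ᶠ[𝓝 z] fun w => m + rpChi y d w * nbCl c (u w - m) := by
      filter_upwards [hRo.mem_nhds ⟨hzK, hzD⟩, isOpen_ball.mem_nhds hzb] with w hw1 hw2
      exact nbV_in hw1.2 hw2
    have hchi' := hchi (mem_univ z)
    have hcl' := hcl hzK
    have e1 : grad (fun w => m + rpChi y d w * nbCl c (u w - m)) z =
        grad (fun _ => m) z + grad (fun w => rpChi y d w * nbCl c (u w - m)) z :=
      grad_add (differentiableAt_const m) (hchi'.mul hcl')
    have e2 : grad (fun w => rpChi y d w * nbCl c (u w - m)) z =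
        rpChi y d z • grad (fun w => nbCl c (u w - m)) z +
          nbCl c (u z - m) • grad (rpChi y d) z := grad_mul hchi' hcl'
    have hum : DifferentiableAt ℝ (fun w => u w - m) z := (h.differentiableAt hzK).sub_const m
    have e3 : grad (fun w => u w - m) z = grad u z := by
      have : grad (fun w => u w - m) z = grad u z - grad (fun _ => m) z :=
        grad_sub (h.differentiableAt hzK) (differentiableAt_const m)
      rw [this, grad_const, sub_zero]
    have h1 : ‖grad (nbV u D y d r m c) z‖ ≤ ‖grad u z‖ + c * (2 / d) := by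
      rw [grad_congr hev, e1, e2, grad_const, zero_add]
      refine (norm_add_le _ _).trans (add_le_add ?_ ?_)
      · rw [norm_smul, Real.norm_of_nonneg (rpChi_nonneg _ _ _)]
        refine (mul_le_of_le_one_left (norm_nonneg _) (rpChi_le_one _ _ _)).trans ?_
        have := nb_grad_comp (nbCl_lip c) hum
        rwa [e3] at this
      · rw [norm_smul, Real.norm_eq_abs]
        exact mul_le_mul (nbCl_abs hc _) (rpChi_grad hd z) (norm_nonneg _) hc
    have h2 : 0 ≤ c * (2 / d) := by (clear * - hc hd; positivity)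
    have h3 : ‖grad (nbV u D y d r m c) z‖ ^ 2 ≤ (‖grad u z‖ + c * (2 / d)) ^ 2 :=
      pow_le_pow_left₀ (norm_nonneg _) h1 2
    have h4 : (c * (2 / d)) ^ 2 = 4 * c ^ 2 / d ^ 2 := by
      field_simp
      ring
    have h5 : 8 * c ^ 2 / d ^ 2 = 2 * (4 * c ^ 2 / d ^ 2) := by ring
    rw [h5, ← h4]
    linarith only [sq_nonneg (‖grad u z‖ - c * (2 / d)), h3]
  · rw [indicator_of_notMem hzb, add_zero]
    have h1 : r < dist z y := by
      rw [mem_ball, not_lt] at hzb
      rw [mem_sphere] at hz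
      exact lt_of_le_of_ne hzb (Ne.symm hz)
    have hev : nbV u D y d r m c =ᶠ[𝓝 z] u := by
      filter_upwards [hRo.mem_nhds ⟨hzK, hzD⟩,
        (isOpen_lt continuous_const (continuous_id.dist continuous_const)).mem_nhds h1]
        with w hw1 hw2
      exact nbV_out hw1.2 (le_of_lt hw2)
    rw [grad_congr hev]

end

/-! ### the comparison -/

/-- If `K` has length more than `9 d / 10` in `closedBall y d`, the energy of `u` in `ball y (8 d)`
cannot be too small when a circle of radius `r ∈ (2 d, 8 d)` meets `K` in two points at most and has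
one arc in the bounded component `D`, `u` being almost constant on the other one. -/
theorem CMin.nb_compare (h : CMin u K) {z₀ y : ℂ} {d r m c ε : ℝ}
    (hb : Bornology.IsBounded (connectedComponentIn Kᶜ z₀)) (hd : 0 < d) (hc : 0 ≤ c)
    (hdr : 2 * d < r) (hr8 : r < 8 * d)
    (hosc : ∀ z ∈ sphere y r, z ∉ K → z ∉ connectedComponentIn Kᶜ z₀ → |u z - m| < c)
    (hconn : ∀ a b : ℂ, a ∈ sphere y r → a ∉ K → a ∉ connectedComponentIn Kᶜ z₀ →
      b ∈ sphere y r → b ∉ K → b ∉ connectedComponentIn Kᶜ z₀ → b ∈ connectedComponentIn Kᶜ a)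
    (hE : ∫ z in ball y (8 * d), ‖grad u z‖ ^ 2 ≤ ε * (8 * d)) :
    (μH[1] (K ∩ ball y (3 * d / 2))).toReal ≤ ε * (8 * d) + 512 * π * c ^ 2 := by
  have hπ := Real.pi_pos
  have hr0 : 0 < r := by linarith
  set D := connectedComponentIn Kᶜ z₀ with hD
  obtain ⟨R₁, hR₁⟩ := hb.subset_ball y
  set R : ℝ := max R₁ (r + 1) with hR
  have hDR : D ⊆ ball y R := hR₁.trans (ball_subset_ball (le_max_left _ _))
  have hrR : r < R := lt_of_lt_of_le (by linarith) (le_max_right R₁ (r + 1))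
  have hDo : IsOpen D := by rw [hD]; exact h.isOpen_compl.connectedComponentIn
  -- a compact set containing all the changes
  set R' : ℝ := R + 1 with hR'
  set L : Set ℂ := K \ ball y (3 * d / 2) with hL
  have hLc : IsClosed L := h.closed.sdiff isOpen_ball
  have hLK : L ⊆ K := sdiff_subset
  have hlip : LocLip Lᶜ (nbV u D y d r m c) := h.nbV_locLip hD hd hdr hosc
  have hgrad := h.nbV_grad (y := y) (r := r) (m := m) hD hd hc
  have hbr : ball y r ⊆ ball y R' := ball_subset_ball (by linarith only [hrR])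
  have iu : IntegrableOn (fun z => ‖grad u z‖ ^ 2) (ball y R') := h.integrableOn' y R'
  have iur : IntegrableOn (fun z => ‖grad u z‖ ^ 2) (ball y r) := h.integrableOn' y r
  set cst : ℝ := 8 * c ^ 2 / d ^ 2 with hcst
  have ic : IntegrableOn (fun _ : ℂ => cst) (ball y r) := integrableOn_const measure_ball_lt_top.ne
  have i2 : IntegrableOn (fun z => ‖grad u z‖ ^ 2 + cst) (ball y r) := iur.add ic
  have i3 : IntegrableOn ((ball y r).indicator fun z => ‖grad u z‖ ^ 2 + cst) (ball y R') :=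
    ((integrable_indicator_iff measurableSet_ball).2 i2).integrableOn
  have i4 : IntegrableOn (fun z => ‖grad u z‖ ^ 2 +
      (ball y r).indicator (fun z => ‖grad u z‖ ^ 2 + cst) z) (ball y R') := iu.add i3
  have iv : IntegrableOn (fun z => ‖grad (nbV u D y d r m c) z‖ ^ 2) (ball y R') := by
    refine Integrable.mono' i4
      ((measurable_grad _).norm.pow_const 2).aestronglyMeasurable ?_
    filter_upwards [ae_restrict_of_ae hgrad] with z hz
    rw [Real.norm_of_nonneg (by positivity)]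
    exact hz
  have hLfin : μH[1] (L ∩ ball y R') ≠ ⊤ :=
    (lt_of_le_of_lt (measure_mono (inter_subset_inter_left _ hLK))
      (lt_top_iff_ne_top.2 (h.len_fin y R'))).ne
  have hsep : SepOut K L (ball y R') := by
    refine SepOut.of_single h.closed (y := y) (r := r) ?_ hbr ?_
    · intro z hz
      exact ⟨hz.1, fun hzb => hz.2 (ball_subset_ball (by linarith only [hdr, hd]) hzb)⟩
    · intro p q hp hq hpK hqK hpb hqb
      have key : ∀ p : ℂ, p ∉ ball y R' → p ∉ K →
          (connectedComponentIn Kᶜ p ∩ ball y r).Nonempty →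
          ∃ a ∈ connectedComponentIn Kᶜ p, a ∈ sphere y r ∧ a ∉ K ∧ a ∉ D := by
        intro p hp hpK hpb
        have h1 : (connectedComponentIn Kᶜ p \ ball y r).Nonempty :=
          ⟨p, mem_connectedComponentIn hpK, fun hpr => hp (hbr hpr)⟩
        obtain ⟨a, ha1, ha2⟩ := nb_pre_frontier
          (isPreconnected_connectedComponentIn (F := Kᶜ) (x := p)) isOpen_ball hpb h1
        rw [frontier_ball y hr0.ne'] at ha2
        refine ⟨a, ha1, ha2, connectedComponentIn_subset _ _ ha1, fun haD => hp ?_⟩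
        have h2 : p ∈ D := by
          rw [hD, connectedComponentIn_eq haD, ← connectedComponentIn_eq ha1]
          exact mem_connectedComponentIn hpK
        exact ball_subset_ball (by linarith) (hDR h2)
      obtain ⟨a, ha1, ha2, ha3, ha4⟩ := key p hp hpK hpb
      obtain ⟨b, hb1, hb2, hb3, hb4⟩ := key q hq hqK hqb
      have h3 := hconn a b ha2 ha3 ha4 hb2 hb3 hb4
      rw [connectedComponentIn_eq ha1, connectedComponentIn_eq h3, ← connectedComponentIn_eq hb1]
      exact mem_connectedComponentIn hqK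
  have hcmp := h.compare_real (x := y) (r := R') hLc hlip (isCompact_closedBall y R)
    (closedBall_subset_ball (by linarith)) (by
      intro z hz
      rcases hz with hz | hz
      · exact (hz.2 (hLK hz.1)).elim
      · have hzb : z ∈ ball y (3 * d / 2) := by
          by_contra hcon
          exact hz.2 ⟨hz.1, hcon⟩
        exact ball_subset_closedBall (ball_subset_ball (by linarith) hzb)) (fun z hz _ => by
        have hzR : R < dist z y := by rwa [mem_closedBall, not_le] at hz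
        refine nbV_out (fun hzD => ?_) (by linarith)
        exact absurd (mem_ball.1 (hDR hzD)) (not_lt.2 hzR.le)) iv hLfin hsep
  -- energies
  have hEv : ∫ z in ball y R', ‖grad (nbV u D y d r m c) z‖ ^ 2 ≤
      (∫ z in ball y R', ‖grad u z‖ ^ 2) + (ε * (8 * d) + 512 * π * c ^ 2) := by
    have h1 : ∫ z in ball y R', ‖grad (nbV u D y d r m c) z‖ ^ 2 ≤
        ∫ z in ball y R', (‖grad u z‖ ^ 2 +
          (ball y r).indicator (fun z => ‖grad u z‖ ^ 2 + cst) z) :=
      integral_mono_ae iv i4 (ae_restrict_of_ae hgrad)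
    have h2 : ∫ z in ball y R', (‖grad u z‖ ^ 2 +
          (ball y r).indicator (fun z => ‖grad u z‖ ^ 2 + cst) z) =
        (∫ z in ball y R', ‖grad u z‖ ^ 2) + ∫ z in ball y r, (‖grad u z‖ ^ 2 + cst) := by
      rw [integral_add iu i3, setIntegral_indicator measurableSet_ball,
        inter_eq_self_of_subset_right hbr]
    have h3 : ∫ z in ball y r, (‖grad u z‖ ^ 2 + cst) =
        (∫ z in ball y r, ‖grad u z‖ ^ 2) + cst * (volume (ball y r)).toReal := by
      rw [integral_add iur ic, setIntegral_const, smul_eq_mul, mul_comm]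
      rfl
    have h4 : ∫ z in ball y r, ‖grad u z‖ ^ 2 ≤ ε * (8 * d) := by
      refine le_trans (setIntegral_mono_set (h.integrableOn' y (8 * d))
        (Eventually.of_forall fun z => by (clear * -; positivity))
        (ball_subset_ball hr8.le).eventuallyLE) hE
    have h5 : (volume (ball y r)).toReal = π * r ^ 2 := by
      rw [Complex.volume_ball, ENNReal.toReal_mul, ENNReal.toReal_pow,
        ENNReal.toReal_ofReal hr0.le]
      simp [mul_comm]
    have h6 : cst * (π * r ^ 2) ≤ 512 * π * c ^ 2 := by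
      have h7 : r ^ 2 ≤ 64 * d ^ 2 := by linarith only [mul_pos (sub_pos.2 hr8) (sub_pos.2 hr0), mul_pos (sub_pos.2 hr8) (sub_pos.2 hr8)]
      have h8 : cst * (π * r ^ 2) ≤ cst * (π * (64 * d ^ 2)) := by
        refine mul_le_mul_of_nonneg_left ?_ (by (clear * - hd; positivity))
        exact mul_le_mul_of_nonneg_left h7 hπ.le
      refine h8.trans (le_of_eq ?_)
      rw [hcst]
      field_simp
      ring
    rw [h2, h3, h5] at h1
    linarith only [h6, h4, h1]
  -- lengths
  have hsplit : (μH[1] (K ∩ ball y R')).toReal =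
      (μH[1] (K ∩ ball y (3 * d / 2))).toReal + (μH[1] (L ∩ ball y R')).toReal := by
    rw [← ENNReal.toReal_add (h.len_fin y _) hLfin]
    congr 1
    rw [← measure_inter_add_sdiff (μ := μH[1]) (K ∩ ball y R')
      (measurableSet_ball (x := y) (ε := 3 * d / 2))]
    congr 2
    · ext z
      constructor
      · rintro ⟨⟨h1, _⟩, h3⟩
        exact ⟨h1, h3⟩
      · rintro ⟨h1, h3⟩
        exact ⟨⟨h1, ball_subset_ball (by linarith only [hrR, hdr, hd]) h3⟩, h3⟩
    · ext z
      constructor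
      · rintro ⟨⟨h1, h2⟩, h3⟩
        exact ⟨⟨h1, h3⟩, h2⟩
      · rintro ⟨⟨h1, h3⟩, h2⟩
        exact ⟨⟨h1, h2⟩, h3⟩
  rw [hsplit] at hcmp
  linarith only [hEv, hcmp]

/-- D1 -/
theorem CMin.noBdd (h : CMin u K) : NoBdd K := by
  intro z₀ hz₀ hb
  have hπ := Real.pi_pos
  have hfin : ∀ R : ℝ, μH[1] (K ∩ ball 0 R) < ⊤ := fun R => h.len_lt R
  -- the energy measure
  set ν : Measure ℂ := volume.withDensity fun z => ENNReal.ofReal (‖grad u z‖ ^ 2) with hν
  have hνfin : ∀ (x : ℂ) (r : ℝ), ν (ball x r) = ENNReal.ofReal (∫ z in ball x r, ‖grad u z‖ ^ 2) := by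
    intro x r
    rw [hν, withDensity_apply _ measurableSet_ball,
      ← ofReal_integral_eq_lintegral_ofReal (h.integrableOn' x r)
        (Eventually.of_forall fun _ => by positivity)]
  have hνloc : IsLocallyFiniteMeasure ν := ⟨fun x => ⟨ball x 1, ball_mem_nhds x one_pos, by
    rw [hνfin]; exact ENNReal.ofReal_lt_top⟩⟩
  have hνK : ν K = 0 := by
    rw [hν]
    exact withDensity_absolutelyContinuous _ _ h.volume_zero
  have ae1 := ae_upper_density h.closed hfin
  have ae2 := ae_lower_density h.closed hfin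
  have ae3 := ae_zero_density h.closed hfin hνK
  -- a good point on the boundary of the component
  have hex : ∃ y ∈ K ∩ closure (connectedComponentIn Kᶜ z₀),
      (∀ ε : ℝ, 0 < ε → ∃ δ : ℝ, 0 < δ ∧
        ∀ r : ℝ, 0 < r → r < δ → μH[1] (K ∩ closedBall y r) ≤ ENNReal.ofReal ((2 + ε) * r)) ∧
      (∀ t : ℝ, 0 < t → t < 1 → ∀ δ : ℝ, 0 < δ →
        ∃ r : ℝ, 0 < r ∧ r < δ ∧ ENNReal.ofReal (t * r) < μH[1] (K ∩ closedBall y r)) ∧
      (∀ ε : ℝ, 0 < ε → ∃ δ : ℝ, 0 < δ ∧
        ∀ r : ℝ, 0 < r → r < δ → ν (closedBall y r) ≤ ENNReal.ofReal (ε * r)) := by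
    have hpos := nb_pos h.closed hz₀ hb
    have hall := ae1.and (ae2.and ae3)
    by_contra hcon
    push Not at hcon
    have h0 : (μH[1] : Measure ℂ).restrict K
        (K ∩ closure (connectedComponentIn Kᶜ z₀)) = 0 := by
      refine measure_mono_null ?_ (ae_iff.1 hall)
      intro y hy hgood
      obtain ⟨ε, hε, hbad⟩ := hcon y hy hgood.1 hgood.2.1
      obtain ⟨δ, hδ, h1⟩ := hgood.2.2 ε hε
      obtain ⟨r, hr, hrδ, h2⟩ := hbad δ hδ
      exact absurd (h1 r hr hrδ) (not_le.2 h2)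
    rw [Measure.restrict_apply' h.closed.measurableSet] at h0
    have h1 : μH[1] (K ∩ closure (connectedComponentIn Kᶜ z₀)) = 0 := by
      refine measure_mono_null ?_ h0
      intro z hz
      exact ⟨hz, hz.1⟩
    rw [h1] at hpos
    exact lt_irrefl _ hpos
  obtain ⟨y, ⟨hyK, hyD⟩, hup, hlow, hzero⟩ := hex
  obtain ⟨δ₁, hδ₁, h1⟩ := hup (1 / 10) (by norm_num)
  obtain ⟨δ₂, hδ₂, h2⟩ := hzero (1 / 10000000) (by norm_num)
  obtain ⟨δ₃, hδ₃, h3⟩ := nb_meets h.closed hz₀ hyK hyD
  obtain ⟨d, hd, hdδ, hdlen⟩ := hlow (9 / 10) (by norm_num) (by norm_num)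
    (min δ₁ (min δ₂ δ₃) / 8) (by (clear * - hδ₁ hδ₂ hδ₃; positivity))
  have hd1 : 8 * d < δ₁ := by
    have := min_le_left δ₁ (min δ₂ δ₃)
    linarith only [this, hdδ]
  have hd2 : 8 * d < δ₂ := by
    have := (min_le_right δ₁ (min δ₂ δ₃)).trans (min_le_left _ _)
    linarith only [this, hdδ]
  have hd3 : 8 * d < δ₃ := by
    have := (min_le_right δ₁ (min δ₂ δ₃)).trans (min_le_right _ _)
    linarith
  have hE : ∫ z in ball y (8 * d), ‖grad u z‖ ^ 2 ≤ 1 / 10000000 * (8 * d) := by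
    have h4 := (measure_mono (ball_subset_closedBall (x := y) (ε := 8 * d))).trans
      (h2 (8 * d) (by positivity) hd2)
    rw [hνfin] at h4
    exact (ENNReal.ofReal_le_ofReal_iff (by positivity)).1 h4
  obtain ⟨r, hr2, hr8, hcard, hosc⟩ := h.nb_radius hd (show (0 : ℝ) < 1 / 10000000 by norm_num)
    (h1 (8 * d) (by positivity) hd1) hE
  have hr0 : 0 < r := by linarith only [hr2, hd]
  obtain ⟨d₀, hd₀, hd₀s⟩ := h3 r hr0 (by linarith only [hr8, hd3])
  -- the level
  set c : ℝ := √(1500 * (1 / 10000000) * d) with hc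
  have hc0 : 0 ≤ c := Real.sqrt_nonneg _
  have hc2 : c ^ 2 = 1500 * (1 / 10000000) * d := Real.sq_sqrt (by positivity)
  have hcl : ∀ a b : ℂ, a ∈ sphere y r → a ∉ K → a ∉ connectedComponentIn Kᶜ z₀ →
      b ∈ sphere y r → b ∉ K → b ∉ connectedComponentIn Kᶜ z₀ → |u b - u a| < c := by
    intro a b ha haK haD hb hbK hbD
    obtain ⟨I, hI, hIs, hIK, haI, hbI⟩ := nb_arc hr0 hcard hd₀ hd₀s ha haK haD hb hbK hbD
    have h4 := hosc I hI hIs hIK b hbI a haI
    refine abs_lt_of_sq_lt_sq ?_ hc0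
    rw [hc2]
    refine lt_of_le_of_lt h4 ?_
    linarith only [hd]
  have hm : ∃ m : ℝ, ∀ z ∈ sphere y r, z ∉ K → z ∉ connectedComponentIn Kᶜ z₀ → |u z - m| < c := by
    by_cases hne : ∃ a ∈ sphere y r, a ∉ K ∧ a ∉ connectedComponentIn Kᶜ z₀
    · obtain ⟨a, ha, haK, haD⟩ := hne
      exact ⟨u a, fun z hz hzK hzD => hcl a z ha haK haD hz hzK hzD⟩
    · push Not at hne
      exact ⟨0, fun z hz hzK hzD => absurd (hne z hz hzK) hzD⟩
  obtain ⟨m, hm⟩ := hm
  have hconn : ∀ a b : ℂ, a ∈ sphere y r → a ∉ K → a ∉ connectedComponentIn Kᶜ z₀ →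
      b ∈ sphere y r → b ∉ K → b ∉ connectedComponentIn Kᶜ z₀ →
      b ∈ connectedComponentIn Kᶜ a := by
    intro a b ha haK haD hb hbK hbD
    obtain ⟨I, hI, hIs, hIK, haI, hbI⟩ := nb_arc hr0 hcard hd₀ hd₀s ha haK haD hb hbK hbD
    exact hI.subset_connectedComponentIn haI (fun z hz => Set.disjoint_left.1 hIK hz) hbI
  have hfinal := h.nb_compare hb hd hc0 hr2 hr8 hm hconn hE
  have hlen : 9 / 10 * d ≤ (μH[1] (K ∩ ball y (3 * d / 2))).toReal := by
    have h5 : ENNReal.ofReal (9 / 10 * d) ≤ μH[1] (K ∩ ball y (3 * d / 2)) :=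
      hdlen.le.trans (measure_mono (inter_subset_inter_right _
        (closedBall_subset_ball (by linarith only [hd]))))
    rw [← ENNReal.toReal_ofReal (show 0 ≤ 9 / 10 * d by positivity)]
    exact ENNReal.toReal_mono (h.len_fin y _) h5
  rw [hc2] at hfinal
  have hpi : π < 3.15 := Real.pi_lt_d2
  linarith only [mul_nonneg (sub_nonneg.2 hlen) (le_of_lt (sub_pos.2 hpi)), mul_nonneg (sub_nonneg.2 hfinal) (le_of_lt (sub_pos.2 hpi)), mul_pos (sub_pos.2 hd) (sub_pos.2 hpi), mul_pos (sub_pos.2 hπ) (sub_pos.2 (mul_pos hπ hd)), mul_nonneg (le_of_lt (sub_pos.2 hπ)) (sub_nonneg.2 hlen), mul_nonneg (le_of_lt (sub_pos.2 hπ)) (sub_nonneg.2 hfinal)]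

end Vale.Agent.P128.GM
end

section

/-! Interior gradient estimates for the minimizer (task A3). -/

open MeasureTheory Set Metric Filter InnerProductSpace
open scoped ENNReal NNReal ContDiff Topology Real

namespace Vale.Agent.P128.Q

open Vale.Agent.P128
open Vale.Agent.P128.GM

/-- `w_x - i w_y` -/
noncomputable def geF (w : ℂ → ℝ) (z : ℂ) : ℂ :=
  (fderiv ℝ w z 1 : ℂ) - Complex.I * (fderiv ℝ w z Complex.I : ℂ)

theorem ge_grad_eq (w : ℂ → ℝ) (z : ℂ) : grad w z = (starRingEnd ℂ) (geF w z) := by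
  apply Complex.ext <;> simp [grad, geF]

theorem ge_meas (w : ℂ → ℝ) : Measurable (geF w) := by
  have h : geF w = fun z => (starRingEnd ℂ) (grad w z) := by
    funext z
    rw [ge_grad_eq, Complex.conj_conj]
  rw [h]
  exact Complex.continuous_conj.measurable.comp (measurable_grad w)

/-- Mean value over circles. -/
theorem ge_circle {f : ℂ → ℂ} {y : ℂ} {ρ s : ℝ} (hf : DifferentiableOn ℂ f (ball y ρ))
    (hs : 0 < s) (hsρ : s < ρ) :
    ENNReal.ofReal (2 * π * ‖f y‖ ^ 2) ≤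
      ∫⁻ θ in ang, ENNReal.ofReal (‖f (circleMap y s θ)‖ ^ 2) := by
  have hsub : closedBall y |s| ⊆ ball y ρ := by
    rw [abs_of_pos hs]
    exact closedBall_subset_ball hsρ
  have hcont : Continuous fun θ : ℝ => f (circleMap y s θ) := by
    have h1 : ContinuousOn f (closedBall y |s|) := hf.continuousOn.mono hsub
    refine h1.comp_continuous (continuous_circleMap y s) fun θ => ?_
    rw [abs_of_pos hs]
    exact circleMap_mem_closedBall y hs.le θ
  have hd : DiffContOnCl ℂ (fun z => f z ^ 2) (ball y |s|) := by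
    have h1 : DifferentiableOn ℂ (fun z => f z ^ 2) (ball y ρ) := hf.pow 2
    exact h1.diffContOnCl_ball hsub
  have h1 := hd.circleAverage
  unfold Real.circleAverage at h1
  have h2 : ‖f y‖ ^ 2 = (2 * π)⁻¹ * ‖∫ θ in (0 : ℝ)..2 * π, f (circleMap y s θ) ^ 2‖ := by
    rw [← norm_pow, ← h1, norm_smul, Real.norm_of_nonneg (by positivity)]
  have h3 : 2 * π * ‖f y‖ ^ 2 ≤ ∫ θ in (0 : ℝ)..2 * π, ‖f (circleMap y s θ)‖ ^ 2 := by
    rw [h2]
    have h4 := intervalIntegral.norm_integral_le_integral_norm (μ := volume)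
      (f := fun θ => f (circleMap y s θ) ^ 2) (a := 0) (b := 2 * π) (by positivity)
    simp only [norm_pow] at h4
    have h5 : 2 * π * ((2 * π)⁻¹ * ‖∫ θ in (0 : ℝ)..2 * π, f (circleMap y s θ) ^ 2‖) =
        ‖∫ θ in (0 : ℝ)..2 * π, f (circleMap y s θ) ^ 2‖ := by
      rw [← mul_assoc, mul_inv_cancel₀ (by positivity), one_mul]
    rw [h5]
    exact h4
  have hper : Function.Periodic (fun θ : ℝ => ‖f (circleMap y s θ)‖ ^ 2) (2 * π) := by
    intro θ
    simp only [periodic_circleMap y s θ]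
  have h6 := hper.intervalIntegral_add_eq 0 (-π)
  rw [zero_add, show -π + 2 * π = π by ring] at h6
  rw [h6, intervalIntegral.integral_of_le (by linarith only [Real.pi_pos]),
    integral_Ioc_eq_integral_Ioo] at h3
  have hi : Integrable (fun θ : ℝ => ‖f (circleMap y s θ)‖ ^ 2) (volume.restrict ang) :=
    ((hcont.norm.pow 2).continuousOn.integrableOn_Icc (a := -π) (b := π)).mono_set
      Ioo_subset_Icc_self
  rw [← ofReal_integral_eq_lintegral_ofReal hi (Eventually.of_forall fun _ => by (clear * -; positivity))]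
  exact ENNReal.ofReal_le_ofReal h3

/-- Mean value over disks. -/
theorem ge_area {f : ℂ → ℂ} (hm : Measurable f) {y : ℂ} {ρ : ℝ} (hρ : 0 < ρ)
    (hf : DifferentiableOn ℂ f (ball y ρ))
    (hi : IntegrableOn (fun z => ‖f z‖ ^ 2) (ball y ρ)) :
    π * ρ ^ 2 * ‖f y‖ ^ 2 ≤ ∫ z in ball y ρ, ‖f z‖ ^ 2 := by
  have hmF : Measurable fun z => ENNReal.ofReal (‖f z‖ ^ 2) := (hm.norm.pow_const 2).ennreal_ofReal
  have h1 := lintegral_polar_set y hmF (S := Ioo 0 ρ) measurableSet_Ioo fun s hs => hs.1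
  have h2 : ∫⁻ s in Ioo 0 ρ, ENNReal.ofReal s * ENNReal.ofReal (2 * π * ‖f y‖ ^ 2) ≤
      ∫⁻ z in ball y ρ, ENNReal.ofReal (‖f z‖ ^ 2) := by
    calc ∫⁻ s in Ioo 0 ρ, ENNReal.ofReal s * ENNReal.ofReal (2 * π * ‖f y‖ ^ 2)
        ≤ ∫⁻ s in Ioo 0 ρ, ENNReal.ofReal s *
          ∫⁻ θ in ang, ENNReal.ofReal (‖f (circleMap y s θ)‖ ^ 2) := by
          refine setLIntegral_mono' measurableSet_Ioo fun s hs => ?_
          exact mul_le_mul_right (ge_circle hf hs.1 hs.2) _
      _ = ∫⁻ z in {z | dist z y ∈ Ioo 0 ρ}, ENNReal.ofReal (‖f z‖ ^ 2) := h1.symm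
      _ ≤ ∫⁻ z in ball y ρ, ENNReal.ofReal (‖f z‖ ^ 2) :=
          lintegral_mono_set fun z hz => mem_ball.2 hz.2
  rw [lintegral_mul_const _ ENNReal.measurable_ofReal,
    ← ofReal_integral_eq_lintegral_ofReal hi (Eventually.of_forall fun _ => by positivity)] at h2
  have h3 : ∫⁻ s in Ioo 0 ρ, ENNReal.ofReal s = ENNReal.ofReal (ρ ^ 2 / 2) := by
    rw [← ofReal_integral_eq_lintegral_ofReal]
    · congr 1
      rw [← integral_Ioc_eq_integral_Ioo, ← intervalIntegral.integral_of_le hρ.le, integral_id]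
      ring
    · exact (continuous_id.continuousOn.integrableOn_Icc (a := 0) (b := ρ)).mono_set
        Ioo_subset_Icc_self
    · refine (ae_restrict_iff' measurableSet_Ioo).2 (Eventually.of_forall fun s hs => hs.1.le)
  rw [h3, ← ENNReal.ofReal_mul (by positivity)] at h2
  have h4 := (ENNReal.ofReal_le_ofReal_iff (by positivity)).1 h2
  calc π * ρ ^ 2 * ‖f y‖ ^ 2 = ρ ^ 2 / 2 * (2 * π * ‖f y‖ ^ 2) := by ring
    _ ≤ _ := h4

/-- Green's formula against test functions for locally Lipschitz functions. -/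
theorem ge_green {U : Set ℂ} (hU : IsOpen U) {v : ℂ → ℝ} (hv : LocLip U v)
    {φ : ℂ → ℝ} (hφ : ContDiff ℝ ∞ φ) (hφc : HasCompactSupport φ) (hs : tsupport φ ⊆ U) :
    Integrable (fun z => v z * lap φ z) ∧
    Integrable (fun z => (inner ℝ (grad v z) (grad φ z) : ℝ)) ∧
    ∫ z, v z * lap φ z = - ∫ z, (inner ℝ (grad v z) (grad φ z) : ℝ) := by
  have W := hv.w12loc hU
  have c : ∀ a : ℂ, ContDiff ℝ ∞ fun z => fderiv ℝ φ z a := contDiff_fderiv_apply hφ
  have s : ∀ a : ℂ, HasCompactSupport fun z => fderiv ℝ φ z a := hasCompactSupport_fderiv_apply hφc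
  have ts : ∀ a : ℂ, tsupport (fun z => fderiv ℝ φ z a) ⊆ U := fun a => (clTsupp a).trans hs
  have e : ∀ a : ℂ, ∫ z, v z * fderiv ℝ (fun w => fderiv ℝ φ w a) z a =
      - ∫ z, inner ℝ (grad v z) a * fderiv ℝ φ z a := fun a =>
    W.weak.test (c a) (s a) (ts a) a
  have i : ∀ a : ℂ, Integrable fun z => v z * fderiv ℝ (fun w => fderiv ℝ φ w a) z a := fun a =>
    clInt W.memLp (contDiff_fderiv_apply (c a) a).continuous
      (hasCompactSupport_fderiv_apply (s a) a) ((clTsupp a).trans (ts a))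
  have j : ∀ a : ℂ, Integrable fun z => inner ℝ (grad v z) a * fderiv ℝ φ z a := fun a =>
    clInt (fun C hC hCU => clInner (W.grad_memLp C hC hCU) a) (c a).continuous (s a) (ts a)
  have h2' : (fun z => (inner ℝ (grad v z) (grad φ z) : ℝ)) = fun z =>
      inner ℝ (grad v z) 1 * fderiv ℝ φ z 1 +
        inner ℝ (grad v z) Complex.I * fderiv ℝ φ z Complex.I := by
    funext z
    simp only [inner_eq, grad_re, grad_im, Complex.one_re, Complex.one_im, Complex.I_re,
      Complex.I_im]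
    ring
  have h3' : (fun z => v z * lap φ z) = fun z => v z * fderiv ℝ (fun w => fderiv ℝ φ w 1) z 1 +
      v z * fderiv ℝ (fun w => fderiv ℝ φ w Complex.I) z Complex.I := by
    funext z
    simp only [lap]
    ring
  refine ⟨?_, ?_, ?_⟩
  · rw [h3']
    exact (i 1).add (i Complex.I)
  · rw [h2']
    exact (j 1).add (j Complex.I)
  · rw [h3', h2', integral_add (i 1) (i Complex.I), integral_add (j 1) (j Complex.I), e 1,
      e Complex.I]
    ring

theorem ge_eqOn {B : Set ℂ} (hB : IsOpen B) {f g : ℂ → ℝ} (hf : ContinuousOn f B)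
    (hg : ContinuousOn g B) (h : ∀ᵐ z ∂(volume.restrict B), f z = g z) : EqOn f g B :=
  Measure.eqOn_open_of_ae_eq h hB hf hg

/-- The gradient of `u` is a holomorphic function up to a bounded error. -/
theorem ge_split {Ω K : Set ℂ} {g u : ℂ → ℝ} {M R₀ : ℝ} {x₀ : ℂ} (S : MS Ω g u K M x₀ R₀)
    {z : ℂ} {d : ℝ} (hd : 0 < d) (hB : ball z (2 * d) ⊆ ball x₀ (2 * R₀) \ K) :
    ∃ F : ℂ → ℂ, ∃ W : ℂ → ℂ, Measurable F ∧ DifferentiableOn ℂ F (ball z (2 * d)) ∧
      (∀ x, ‖W x‖ ≤ 16 * M * d) ∧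
      ∀ x ∈ ball z (2 * d), grad u x = (starRingEnd ℂ) (F x) + W x := by
  set B : Set ℂ := ball z (2 * d) with hBdef
  have hBo : IsOpen B := isOpen_ball
  have hBx : B ⊆ ball x₀ (2 * R₀) := fun x hx => (hB hx).1
  have hBΩ : B ⊆ Ω := hBx.trans (ball_subset_closedBall.trans S.sub)
  have hBK : B ⊆ Ω \ K := fun x hx => ⟨hBΩ hx, (hB hx).2⟩
  have hΩK : IsOpen (Ω \ K) := S.nice.min.1.isOpen_diff S.nice.isOpen
  set f : ℂ → ℝ := B.indicator fun x => u x - g x with hf
  have hfm : Measurable f := (S.nice.um.sub S.nice.gm).indicator hBo.measurableSet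
  have hfb : ∀ x, |f x| ≤ 2 * M := by
    intro x
    by_cases hx : x ∈ B
    · rw [hf, indicator_of_mem hx]
      have h1 := S.bdd x (hBx hx)
      have h2 := S.nice.gb x
      have h3 := abs_sub (u x) (g x)
      linarith only [h1, h2, h3]
    · rw [hf, indicator_of_notMem hx, abs_zero]
      linarith only [S.one_le]
  obtain ⟨w₁, hw1, hw2, hw3⟩ := exists_c1pot (f := fun x => f (x + z)) (m := 2 * M) (ρ := 2 * d)
    (hfm.comp (measurable_id.add_const z)) (by linarith only [hd]) (fun x => hfb _) (by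
      intro x hx
      have h1 : x + z ∉ B := by
        rw [hBdef, mem_ball, dist_eq_norm, add_sub_cancel_right]
        exact not_lt.2 hx.le
      simp only [hf, indicator_of_notMem h1])
  set w : ℂ → ℝ := fun x => w₁ (x - z) with hw
  have hwC : ContDiff ℝ 1 w := hw1.comp (contDiff_id.sub contDiff_const)
  have hwg : ∀ x, grad w x = grad w₁ (x - z) := fun x => grad_translate w₁ z x
  have hwb : ∀ x, ‖grad w x‖ ≤ 16 * M * d := by
    intro x
    rw [hwg]
    refine (hw2 _).trans (le_of_eq ?_)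
    ring
  have hwt : ∀ φ : ℂ → ℝ, ContDiff ℝ ∞ φ → HasCompactSupport φ →
      ∫ x, (inner ℝ (grad w x) (grad φ x) : ℝ) = - ∫ x, f x * φ x := by
    intro φ h1 h2
    have e1 := hw3 (fun x => φ (x + z)) (h1.comp (contDiff_id.add contDiff_const))
      (h2.comp_homeomorph (Homeomorph.addRight z))
    have e2 : ∀ x, grad (fun x => φ (x + z)) x = grad φ (x + z) := by
      intro x
      have := grad_translate φ (-z) x
      simpa only [sub_neg_eq_add] using this
    simp only [e2] at e1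
    have e3 := integral_sub_right_eq_self (μ := (volume : Measure ℂ))
      (fun x => (inner ℝ (grad w₁ x) (grad φ (x + z)) : ℝ)) z
    simp only [sub_add_cancel] at e3
    have e4 := integral_add_right_eq_self (μ := (volume : Measure ℂ)) (fun x => f x * φ x) z
    simp only [hwg]
    rw [e3, e1, e4]
  have hu1 : LocLip B u :=
    LocLip.of_contDiffOn hBo (S.smooth.mono hBK)
  have hw1' : LocLip B w := LocLip.of_contDiffOn hBo hwC.contDiffOn
  have hv : LocLip B fun x => u x - w x := hu1.sub hw1'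
  have key : ∀ φ : ℂ → ℝ, ContDiff ℝ ∞ φ → HasCompactSupport φ → tsupport φ ⊆ B →
      ∫ x, (u x - w x) * lap φ x = 0 := by
    intro φ h1 h2 h3
    obtain ⟨a1, a2, a3⟩ := ge_green hBo hu1 h1 h2 h3
    obtain ⟨b1, b2, b3⟩ := ge_green hBo hw1' h1 h2 h3
    have e0 : ∫ x, (u x - w x) * lap φ x = (∫ x, u x * lap φ x) - ∫ x, w x * lap φ x := by
      rw [← integral_sub a1 b1]
      refine integral_congr_ae (Eventually.of_forall fun x => ?_)
      simp only []
      ring
    rw [e0, a3, b3, hwt φ h1 h2]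
    obtain ⟨R, hR, hR2⟩ := exists_lt_subset_ball (isClosed_tsupport φ) h3
    have hRΩ : closedBall z R ⊆ Ω := (closedBall_subset_ball hR).trans hBΩ
    have e1 := S.nice.first_variation hRΩ (ξ := φ) (Ξ := grad φ)
      (h1.continuous.memLp_of_hasCompactSupport h2)
      (by
        have := clMemGrad h1 h2 univ
        rwa [Measure.restrict_univ] at this)
      ((LocLip.of_contDiff h1 hΩK).isWeakGrad hΩK) (C := tsupport φ) h2.isCompact hR2
      (fun x hx => image_eq_zero_of_notMem_tsupport hx)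
      (fun x hx => grad_eq_zero_of_notMem hx)
    have e2 : (∫ x, (inner ℝ ((Ω \ K).indicator (grad u) x) (grad φ x) : ℝ)) =
        ∫ x, (inner ℝ (grad u x) (grad φ x) : ℝ) := by
      refine integral_congr_ae (Eventually.of_forall fun x => ?_)
      by_cases hx : x ∈ tsupport φ
      · simp only [indicator_of_mem (hBK (h3 hx))]
      · simp only [grad_eq_zero_of_notMem hx, inner_zero_right]
    have e3 : (∫ x, (u x - g x) * φ x) = ∫ x, f x * φ x := by
      refine integral_congr_ae (Eventually.of_forall fun x => ?_)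
      by_cases hx : x ∈ tsupport φ
      · simp only [hf, indicator_of_mem (h3 hx)]
      · simp only [image_eq_zero_of_notMem_tsupport hx, mul_zero]
    rw [e2, e3] at e1
    linarith only [e1]
  have hvc : ContinuousOn (fun x => u x - w x) B := hv.continuousOn
  obtain ⟨q, hq1, hq2⟩ := clWeyl hBo (hvc.locallyIntegrableOn hBo.measurableSet) key
  have hqc : ContinuousOn q B := (HarmonicOnNhd.smooth hq1).continuousOn
  have heq : EqOn (fun x => u x - w x) q B := ge_eqOn hBo hvc hqc hq2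
  refine ⟨geF q, grad w, ge_meas q, ?_, hwb, ?_⟩
  · intro x hx
    exact (HarmonicAt.analyticAt_complex_partial (hq1 x hx)).differentiableAt.differentiableWithinAt
  · intro x hx
    have hux : DifferentiableAt ℝ u x :=
      ((S.smooth.contDiffAt (hΩK.mem_nhds (hBK hx))).differentiableAt (by norm_num))
    have hwx : DifferentiableAt ℝ w x := hwC.differentiable (by norm_num) x
    have e1 : grad (fun y => u y - w y) x = grad q x := by
      apply grad_congr
      filter_upwards [hBo.mem_nhds hx] with y hy using heq hy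
    rw [grad_sub hux hwx] at e1
    rw [← ge_grad_eq, ← e1, sub_add_cancel]

theorem ge_int {Ω K : Set ℂ} {g u : ℂ → ℝ} {M R₀ : ℝ} {x₀ : ℂ} (S : MS Ω g u K M x₀ R₀)
    {B : Set ℂ} (hB : MeasurableSet B) (hBK : B ⊆ Ω \ K) :
    IntegrableOn (fun x => ‖grad u x‖ ^ 2) B := by
  have h1 : IntegrableOn (fun x => ‖(Ω \ K).indicator (grad u) x‖ ^ 2) B :=
    (S.nice.G_memLp.norm.integrable_sq).integrableOn
  refine h1.congr_fun (fun x hx => ?_) hB
  simp only [indicator_of_mem (hBK hx)]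

/-- Pointwise bound of the holomorphic part. -/
theorem ge_F_le {Ω K : Set ℂ} {g u : ℂ → ℝ} {M R₀ : ℝ} {x₀ : ℂ} (S : MS Ω g u K M x₀ R₀)
    {z : ℂ} {d : ℝ} (hd : 0 < d) (hB : ball z (2 * d) ⊆ ball x₀ (2 * R₀) \ K)
    {F W : ℂ → ℂ} (hFm : Measurable F) (hF : DifferentiableOn ℂ F (ball z (2 * d)))
    (hW : ∀ x, ‖W x‖ ≤ 16 * M * d)
    (hFW : ∀ x ∈ ball z (2 * d), grad u x = (starRingEnd ℂ) (F x) + W x)
    {y : ℂ} (hy : dist y z ≤ 3 / 2 * d) :
    ‖F y‖ ≤ 2 * (√(dir u z (2 * d)) / d) + 24 * (M * d) := by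
  have hM := S.one_le
  have hBK : ball z (2 * d) ⊆ Ω \ K := fun x hx =>
    ⟨S.sub (ball_subset_closedBall (hB hx).1), (hB hx).2⟩
  have hsub : ball y (d / 2) ⊆ ball z (2 * d) := ball_subset_ball' (by linarith only [hy])
  have hint : IntegrableOn (fun x => ‖grad u x‖ ^ 2) (ball z (2 * d)) :=
    ge_int S isOpen_ball.measurableSet hBK
  have hint' : IntegrableOn (fun x => ‖grad u x‖ ^ 2) (ball y (d / 2)) := hint.mono_set hsub
  have hle : ∀ x ∈ ball y (d / 2), ‖F x‖ ^ 2 ≤ 2 * ‖grad u x‖ ^ 2 + 2 * (16 * M * d) ^ 2 := by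
    intro x hx
    have h1 := hFW x (hsub hx)
    have h2 : ‖F x‖ = ‖grad u x - W x‖ := by
      rw [h1, add_sub_cancel_right, RCLike.norm_conj]
    have h3 : ‖F x‖ ≤ ‖grad u x‖ + ‖W x‖ := by
      rw [h2]
      exact norm_sub_le _ _
    have h4 : ‖F x‖ ≤ ‖grad u x‖ + 16 * M * d := h3.trans (by linarith only [hW x])
    have h5 : ‖F x‖ ^ 2 ≤ (‖grad u x‖ + 16 * M * d) ^ 2 :=
      pow_le_pow_left₀ (norm_nonneg _) h4 2
    have h6 := sq_nonneg (‖grad u x‖ - 16 * M * d)
    linarith only [h5, h6]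
  have hfin : volume (ball y (d / 2)) < ⊤ := measure_ball_lt_top
  have hc : IntegrableOn (fun _ : ℂ => 2 * (16 * M * d) ^ 2) (ball y (d / 2)) :=
    integrableOn_const hfin.ne
  have hsum : IntegrableOn (fun x => 2 * ‖grad u x‖ ^ 2 + 2 * (16 * M * d) ^ 2)
      (ball y (d / 2)) := (hint'.const_mul 2).add hc
  have hiF : IntegrableOn (fun x => ‖F x‖ ^ 2) (ball y (d / 2)) := by
    refine Integrable.mono' hsum (hFm.norm.pow_const 2).aestronglyMeasurable ?_
    refine (ae_restrict_iff' isOpen_ball.measurableSet).2 (Eventually.of_forall fun x hx => ?_)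
    rw [Real.norm_of_nonneg (by positivity)]
    exact hle x hx
  have h1 := ge_area hFm (half_pos hd) (hF.mono hsub) hiF
  have h2 : ∫ x in ball y (d / 2), ‖F x‖ ^ 2 ≤
      ∫ x in ball y (d / 2), (2 * ‖grad u x‖ ^ 2 + 2 * (16 * M * d) ^ 2) :=
    setIntegral_mono_on hiF hsum isOpen_ball.measurableSet hle
  have hvol : (volume : Measure ℂ).real (ball y (d / 2)) = π * (d / 2) ^ 2 := by
    rw [Measure.real, Complex.volume_ball, ENNReal.toReal_mul, ENNReal.toReal_pow,
      ENNReal.toReal_ofReal (half_pos hd).le]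
    simp only [ENNReal.coe_toReal, NNReal.coe_real_pi]
    ring
  have h3 : ∫ x in ball y (d / 2), (2 * ‖grad u x‖ ^ 2 + 2 * (16 * M * d) ^ 2) =
      2 * (∫ x in ball y (d / 2), ‖grad u x‖ ^ 2) + π * (d / 2) ^ 2 * (2 * (16 * M * d) ^ 2) := by
    rw [integral_add (hint'.const_mul 2) hc, integral_const_mul, setIntegral_const, hvol,
      smul_eq_mul]
  have h4 : ∫ x in ball y (d / 2), ‖grad u x‖ ^ 2 ≤ dir u z (2 * d) :=
    setIntegral_mono_set hint (Eventually.of_forall fun _ => by positivity)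
      (Eventually.of_forall hsub)
  have hE : 0 ≤ dir u z (2 * d) := integral_nonneg fun _ => by positivity
  set E := dir u z (2 * d) with hEdef
  have h5 : π * (d / 2) ^ 2 * (‖F y‖ ^ 2 - 2 * (16 * M * d) ^ 2) ≤ 2 * E := by
    have := h1.trans (h2.trans h3.le)
    linarith only [this, h4]
  have h6 : ‖F y‖ ^ 2 ≤ 4 * (E / d ^ 2) + 2 * (16 * M * d) ^ 2 := by
    by_contra hcon
    push Not at hcon
    have h7 : 4 * (E / d ^ 2) < ‖F y‖ ^ 2 - 2 * (16 * M * d) ^ 2 := by linarith only [hcon]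
    have h8 : 3 * (d / 2) ^ 2 * (4 * (E / d ^ 2)) = 3 * E := by
      field_simp
      ring
    have h9 : 0 ≤ 4 * (E / d ^ 2) := by (clear * - hE hd; positivity)
    have hd2 : 0 < (d / 2) ^ 2 := by positivity
    have h10 : 3 * (d / 2) ^ 2 * (4 * (E / d ^ 2)) <
        3 * (d / 2) ^ 2 * (‖F y‖ ^ 2 - 2 * (16 * M * d) ^ 2) :=
      mul_lt_mul_of_pos_left h7 (by positivity)
    have h11 : 3 * (d / 2) ^ 2 * (‖F y‖ ^ 2 - 2 * (16 * M * d) ^ 2) ≤
        π * (d / 2) ^ 2 * (‖F y‖ ^ 2 - 2 * (16 * M * d) ^ 2) := by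
      apply mul_le_mul_of_nonneg_right
      · exact mul_le_mul_of_nonneg_right Real.pi_gt_three.le hd2.le
      · linarith only [h9, h7]
    rw [h8] at h10
    linarith only [h10, h11, h5, hE]
  have h7 : ‖F y‖ ^ 2 ≤ (2 * (√E / d) + 24 * (M * d)) ^ 2 := by
    refine h6.trans ?_
    have e1 : (2 * (√E / d) + 24 * (M * d)) ^ 2 =
        4 * (E / d ^ 2) + 96 * (√E / d * (M * d)) + 576 * (M * d) ^ 2 := by
      have : √E ^ 2 = E := Real.sq_sqrt hE
      calc (2 * (√E / d) + 24 * (M * d)) ^ 2 =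
          4 * (√E ^ 2 / d ^ 2) + 96 * (√E / d * (M * d)) + 576 * (M * d) ^ 2 := by ring
        _ = _ := by rw [this]
    rw [e1]
    have h8 : 0 ≤ √E / d * (M * d) := by (clear * - hd hM; positivity)
    have h9 := sq_nonneg (M * d)
    have h10 : (2 : ℝ) * (16 * M * d) ^ 2 = 512 * (M * d) ^ 2 := by ring
    rw [h10]
    linarith only [h8, h9]
  exact le_of_sq_le_sq (by simpa only using h7) (by (clear * - hd hM; positivity))

/-- A3: interior gradient estimates. -/
theorem exists_grad_est : ∃ c₁ : ℝ, 0 < c₁ ∧ ∀ {Ω K : Set ℂ} {g u : ℂ → ℝ} {M R₀ : ℝ} {x₀ : ℂ},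
    MS Ω g u K M x₀ R₀ → ∀ (z : ℂ) (d : ℝ), 0 < d → ball z (2 * d) ⊆ ball x₀ (2 * R₀) \ K →
    ∀ a ∈ ball z d, ∀ b ∈ ball z d,
      ‖grad u a‖ ≤ c₁ * (√(dir u z (2 * d)) / d + M * d) ∧
      ‖grad u a - grad u b‖ ≤ c₁ * (√(dir u z (2 * d)) / d ^ 2 * ‖a - b‖ + M * d) := by
  refine ⟨224, by norm_num, ?_⟩
  intro Ω K g u M R₀ x₀ S z d hd hB a ha b hb
  obtain ⟨F, W, hFm, hF, hW, hFW⟩ := ge_split S hd hB
  have hM := S.one_le
  have hMd : 0 < M * d := by positivity
  have hbd : ∀ y, dist y z ≤ 3 / 2 * d →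
      ‖F y‖ ≤ 2 * (√(dir u z (2 * d)) / d) + 24 * (M * d) := fun y hy =>
    ge_F_le S hd hB hFm hF hW hFW hy
  set Q : ℝ := √(dir u z (2 * d)) with hQ
  have hQ0 : 0 ≤ Q := Real.sqrt_nonneg _
  have hQd : 0 ≤ Q / d := by positivity
  have hin : ∀ x ∈ ball z d, x ∈ ball z (2 * d) := fun x hx =>
    ball_subset_ball (by linarith only [hd]) hx
  have hg : ∀ x ∈ ball z d, ‖grad u x‖ ≤ 2 * (Q / d) + 40 * (M * d) := by
    intro x hx
    rw [hFW x (hin x hx)]
    have h1 := norm_add_le ((starRingEnd ℂ) (F x)) (W x)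
    rw [RCLike.norm_conj] at h1
    have h2 := hbd x (by linarith only [mem_ball.1 hx, hd])
    have h3 := hW x
    linarith only [h1, h2, h3]
  have hder : ∀ x ∈ ball z d, ‖deriv F x‖ ≤ 8 * (Q / d ^ 2) + 96 * M := by
    intro x hx
    have hx' := mem_ball.1 hx
    have h1 : closedBall x (d / 4) ⊆ ball z (2 * d) :=
      closedBall_subset_ball' (by linarith only [hx', hd])
    have h2 := Complex.norm_deriv_le_of_forall_mem_sphere_norm_le (c := x) (R := d / 4)
      (C := 2 * (Q / d) + 24 * (M * d)) (f := F) (by positivity)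
      ((hF.diffContOnCl_ball h1)) (fun y hy => hbd y (by
        have h3 := dist_triangle y x z
        have h4 := mem_sphere.1 hy
        linarith only [h3, h4, hx', hd]))
    refine h2.trans (le_of_eq ?_)
    field_simp
    ring
  have hdiff : ‖F a - F b‖ ≤ (8 * (Q / d ^ 2) + 96 * M) * ‖a - b‖ := by
    refine Convex.norm_image_sub_le_of_norm_deriv_le (s := ball z d) (fun x hx => ?_) hder
      (convex_ball z d) hb ha
    exact (hF x (hin x hx)).differentiableAt (isOpen_ball.mem_nhds (hin x hx))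
  have hab : ‖a - b‖ ≤ 2 * d := by
    have h1 := dist_triangle_right a b z
    rw [dist_eq_norm] at h1
    linarith only [h1, mem_ball.1 ha, mem_ball.1 hb]
  refine ⟨(hg a ha).trans ?_, ?_⟩
  · linarith only [hMd, hQd]
  · rw [hFW a (hin a ha), hFW b (hin b hb)]
    have e1 : (starRingEnd ℂ) (F a) + W a - ((starRingEnd ℂ) (F b) + W b) =
        (starRingEnd ℂ) (F a - F b) + (W a - W b) := by
      rw [map_sub]
      ring
    have h1 := norm_add_le ((starRingEnd ℂ) (F a - F b)) (W a - W b)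
    rw [RCLike.norm_conj] at h1
    have h2 := norm_sub_le (W a) (W b)
    have h3 := hW a
    have h4 := hW b
    rw [e1]
    have h5 : (8 * (Q / d ^ 2) + 96 * M) * ‖a - b‖ ≤
        8 * (Q / d ^ 2 * ‖a - b‖) + 192 * (M * d) := by
      have h6 : 96 * M * ‖a - b‖ ≤ 96 * M * (2 * d) :=
        mul_le_mul_of_nonneg_left hab (by positivity)
      linarith only [h6]
    have h7 : 0 ≤ Q / d ^ 2 * ‖a - b‖ := by (clear * - hd; positivity)
    linarith only [hdiff, h7, h5, h4, h3, h2, h1]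

end Vale.Agent.P128.Q
end

section

/-! P128-Q, C3: basic properties of limits of almost minimizers. -/

set_option linter.all false

open MeasureTheory Set Metric Filter
open scoped ENNReal NNReal ContDiff Topology Real

namespace Vale.Agent.P128.Q

open Vale.Agent.P128
open Vale.Agent.P128.GM (LocLip genergy IsGlobalMin W12loc)

theorem limBasic_dir_nonneg (v : ℂ → ℝ) (x : ℂ) (s : ℝ) : 0 ≤ dir v x s :=
  integral_nonneg fun _ => by positivity

theorem limBasic_intOn {c₁ R κ : ℝ} {v : ℂ → ℝ} {K : Set ℂ} (h : AMin c₁ R κ v K) {x : ℂ}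
    {s : ℝ} (hx : ‖x‖ + s ≤ R) : IntegrableOn (fun z => ‖grad v z‖ ^ 2) (ball x s) := by
  refine h.int.mono_set fun z hz => ?_
  rw [mem_ball, dist_eq_norm] at hz
  rw [mem_ball_zero_iff]
  have := norm_le_insert' z x
  linarith [norm_sub_rev z x]

theorem limBasic_len_ne {c₁ R κ : ℝ} {v : ℂ → ℝ} {K : Set ℂ} (h : AMin c₁ R κ v K) {x : ℂ}
    {s : ℝ} (hx : ‖x‖ + s ≤ R) : μH[1] (K ∩ ball x s) < ⊤ := by
  refine lt_of_le_of_lt (measure_mono (inter_subset_inter_right _ fun z hz => ?_)) h.fin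
  rw [mem_ball, dist_eq_norm] at hz
  rw [mem_ball_zero_iff]
  have := norm_le_insert' z x
  linarith [norm_sub_rev z x]

/-- Superadditivity on disjoint balls. -/
theorem limBasic_sum_le {c₁ R κ : ℝ} {v : ℂ → ℝ} {K : Set ℂ} (h : AMin c₁ R κ v K) {x : ℂ}
    {r s : ℝ} (hx : ‖x‖ + r ≤ R) (F : Finset ℂ) (p : ℂ → ℂ)
    (hd : (F : Set ℂ).PairwiseDisjoint fun y => ball (p y) s)
    (hsub : ∀ y ∈ F, ball (p y) s ⊆ ball x r) :
    ∑ y ∈ F, (dir v (p y) s + len K (p y) s) ≤ dir v x r + len K x r := by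
  rw [Finset.sum_add_distrib]
  have hU : ⋃ y ∈ F, ball (p y) s ⊆ ball x r := iUnion₂_subset hsub
  refine add_le_add ?_ ?_
  · unfold dir
    rw [← integral_biUnion_finset F (fun y _ => measurableSet_ball) hd
      (fun y hy => (limBasic_intOn h hx).mono_set (hsub y hy))]
    exact setIntegral_mono_set (limBasic_intOn h hx) (ae_of_all _ fun _ => by positivity)
      (HasSubset.Subset.eventuallyLE hU)
  · unfold len
    have hfin := limBasic_len_ne h hx
    rw [← ENNReal.toReal_sum (fun y hy =>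
      (lt_of_le_of_lt (measure_mono (inter_subset_inter_right _ (hsub y hy))) hfin).ne)]
    refine ENNReal.toReal_mono hfin.ne ?_
    have e : ∀ s : Set ℂ, MeasurableSet s → μH[1] (K ∩ s) = (μH[1].restrict K) s := by
      intro s hs
      rw [Measure.restrict_apply hs, inter_comm]
    rw [e _ measurableSet_ball, Finset.sum_congr rfl fun y _ => e _ measurableSet_ball,
      ← measure_biUnion_finset hd fun y _ => measurableSet_ball]
    exact measure_mono hU

variable {c₁ : ℝ} {R κ : ℕ → ℝ} {v : ℕ → ℂ → ℝ} {Kj : ℕ → Set ℂ} {u₀ : ℂ → ℝ} {K₀ : Set ℂ}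
  {c : ℕ → ℂ → ℝ}

theorem limBasic_up (hS : Seq c₁ R κ v Kj) (x : ℂ) {r : ℝ} (hr : 0 < r) :
    ∀ᶠ j in atTop, ‖x‖ + r < R j ∧
      dir (v j) x r + len (Kj j) x r ≤ 2 * π * r + (2 * r) ^ 2 := by
  filter_upwards [hS.Rinf.eventually_gt_atTop (‖x‖ + r),
    hS.κ0.eventually_lt_const one_pos] with j h1 h2
  refine ⟨h1, ((hS.am j).up hr h1).trans ?_⟩
  have : κ j * (2 * r) ^ 2 ≤ 1 * (2 * r) ^ 2 := mul_le_mul_of_nonneg_right h2.le (by positivity)
  linarith

/-- Separated finite subsets of the limit have few points. -/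
theorem limBasic_card (hS : Seq c₁ R κ v Kj) (h : Lim v Kj u₀ K₀ c) (x : ℂ) {r δ : ℝ}
    (hr : 0 < r) (hδ : 0 < δ) (hδ1 : δ ≤ 1) (F : Finset ℂ) (hF : ∀ y ∈ F, y ∈ K₀ ∩ ball x r)
    (hsep : ∀ y ∈ F, ∀ y' ∈ F, y ≠ y' → δ ≤ dist y y') :
    F.card * (δ / 8) ≤ 2 * π * (r + 1) + (2 * (r + 1)) ^ 2 := by
  have h1 : ∀ᶠ j in atTop, ∀ y ∈ F, ∃ q ∈ Kj j, dist q y < δ / 8 :=
    (Filter.eventually_all_finset F).2 fun y hy => h.near y (hF y hy).1 (δ / 8) (by linarith only [hδ])
  obtain ⟨j, h1, h2, h3⟩ := (h1.and (limBasic_up hS x (by linarith : 0 < r + 1))).exists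
  choose! p hp hpd using h1
  have hsub : ∀ y ∈ F, ball (p y) (δ / 4) ⊆ ball x (r + 1) := by
    intro y hy z hz
    rw [mem_ball] at hz ⊢
    have h4 := (hF y hy).2
    rw [mem_ball] at h4
    have h5 := hpd y hy
    have h6 := dist_triangle z (p y) x
    have h7 := dist_triangle (p y) y x
    linarith only [h7, h6, h5, h4, hz, hδ1]
  have hd : (F : Set ℂ).PairwiseDisjoint fun y => ball (p y) (δ / 4) := by
    intro y hy y' hy' hne
    refine ball_disjoint_ball ?_
    have h4 := hsep y hy y' hy' hne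
    have h5 := hpd y hy
    have h6 := hpd y' hy'
    have h7 := dist_triangle y (p y) y'
    have h8 := dist_triangle (p y) (p y') y'
    rw [dist_comm] at h5
    linarith
  refine le_trans ?_ ((limBasic_sum_le (hS.am j) h2.le F p hd hsub).trans h3)
  rw [← nsmul_eq_mul]
  refine Finset.card_nsmul_le_sum F _ _ fun y hy => ?_
  have h4 : ‖p y‖ + δ / 4 < R j := by
    have h4 := (hF y hy).2
    rw [mem_ball] at h4
    have h5 := hpd y hy
    have h7 := dist_triangle (p y) y x
    have h8 : ‖p y‖ ≤ ‖x‖ + dist (p y) x := by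
      rw [dist_eq_norm]
      exact norm_le_insert' _ _
    linarith
  have h5 := (hS.am j).low (p y) (hp y hy) (δ / 4) (by linarith) h4
  linarith

/-- Finite nets of the limit. -/
theorem limBasic_net (hS : Seq c₁ R κ v Kj) (h : Lim v Kj u₀ K₀ c) (x : ℂ) {r δ : ℝ}
    (hr : 0 < r) (hδ : 0 < δ) (hδ1 : δ ≤ 1) :
    ∃ F : Finset ℂ, F.card * (δ / 8) ≤ 2 * π * (r + 1) + (2 * (r + 1)) ^ 2 ∧
      ∀ z ∈ K₀ ∩ ball x r, ∃ y ∈ F, dist z y < δ := by
  classical
  by_contra hcon
  push Not at hcon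
  have key : ∀ m : ℕ, ∃ F : Finset ℂ, F.card = m ∧ (∀ y ∈ F, y ∈ K₀ ∩ ball x r) ∧
      ∀ y ∈ F, ∀ y' ∈ F, y ≠ y' → δ ≤ dist y y' := by
    intro m
    induction m with
    | zero => exact ⟨∅, rfl, by simp, by simp⟩
    | succ m ih =>
      obtain ⟨F, hm, hF, hsep⟩ := ih
      obtain ⟨z, hz, hzF⟩ := hcon F (limBasic_card hS h x hr hδ hδ1 F hF hsep)
      have hzn : z ∉ F := by
        intro hz'
        have := hzF z hz'
        rw [dist_self] at this
        linarith
      refine ⟨insert z F, by rw [Finset.card_insert_of_notMem hzn, hm], ?_, ?_⟩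
      · intro y hy
        rcases Finset.mem_insert.1 hy with rfl | hy
        · exact hz
        · exact hF y hy
      · intro y hy y' hy' hne
        rcases Finset.mem_insert.1 hy with h3 | h3 <;>
          rcases Finset.mem_insert.1 hy' with h4 | h4
        · exact absurd (h3.trans h4.symm) hne
        · rw [h3]; exact hzF y' h4
        · rw [h4, dist_comm]; exact hzF y h3
        · exact hsep y h3 y' h4 hne
  obtain ⟨m, hm⟩ := exists_nat_gt ((2 * π * (r + 1) + (2 * (r + 1)) ^ 2) / (δ / 8))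
  obtain ⟨F, hFm, hF, hsep⟩ := key m
  have h1 := limBasic_card hS h x hr hδ hδ1 F hF hsep
  rw [hFm] at h1
  rw [div_lt_iff₀ (by linarith only [hδ])] at hm
  linarith

/-- C3 (Q/LimBasic.lean) -/
theorem Lim.len_fin (hS : Seq c₁ R κ v Kj) (h : Lim v Kj u₀ K₀ c) (x : ℂ) (r : ℝ) :
    μH[1] (K₀ ∩ ball x r) < ⊤ := by
  rcases le_or_gt r 0 with hr | hr
  · rw [ball_eq_empty.2 hr, inter_empty, measure_empty]
    exact ENNReal.zero_lt_top
  obtain ⟨B, hB⟩ : ∃ B, B = 2 * π * (r + 1) + (2 * (r + 1)) ^ 2 := ⟨_, rfl⟩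
  have hδ : ∀ m : ℕ, 0 < 1 / ((m : ℝ) + 1) ∧ 1 / ((m : ℝ) + 1) ≤ 1 := fun m =>
    ⟨by positivity, by rw [div_le_one (by positivity)]; linarith [Nat.cast_nonneg (α := ℝ) m]⟩
  choose F hF hcov using fun m : ℕ => limBasic_net hS h x hr (hδ m).1 (hδ m).2
  have h0 : Tendsto (fun m : ℕ => ENNReal.ofReal (2 * (1 / ((m : ℝ) + 1)))) atTop (𝓝 0) := by
    have h1 := (tendsto_one_div_add_atTop_nhds_zero_nat (𝕜 := ℝ)).const_mul 2
    rw [mul_zero] at h1
    have h2 := ENNReal.tendsto_ofReal h1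
    rwa [ENNReal.ofReal_zero] at h2
  have hdiam : ∀ (m : ℕ) (y : F m), ediam (ball (y : ℂ) (1 / ((m : ℝ) + 1))) ≤
      ENNReal.ofReal (2 * (1 / ((m : ℝ) + 1))) := by
    intro m y
    refine ediam_le fun a ha b hb => ?_
    rw [edist_dist]
    refine ENNReal.ofReal_le_ofReal ?_
    rw [mem_ball] at ha hb
    have := dist_triangle_right a b (y : ℂ)
    linarith only [this, hb, ha]
  refine lt_of_le_of_lt (Measure.hausdorffMeasure_le_liminf_sum (ι := fun m : ℕ => F m) 1
    (K₀ ∩ ball x r) (l := atTop) (fun m : ℕ => ENNReal.ofReal (2 * (1 / ((m : ℝ) + 1)))) h0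
    (fun m y => ball (y : ℂ) (1 / ((m : ℝ) + 1)))
    (Eventually.of_forall hdiam) (Eventually.of_forall fun m z hz => ?_)) ?_
  · obtain ⟨y, hy, hzy⟩ := hcov m z hz
    exact mem_iUnion.2 ⟨⟨y, hy⟩, hzy⟩
  · refine lt_of_le_of_lt (liminf_le_of_le (a := ENNReal.ofReal (16 * B))
      (by isBoundedDefault) fun b hb => ?_) ENNReal.ofReal_lt_top
    obtain ⟨m, hm⟩ := hb.exists
    refine hm.trans ?_
    calc ∑ i : F m, ediam (ball (i : ℂ) (1 / ((m : ℝ) + 1))) ^ (1 : ℝ)
        ≤ ∑ _i : F m, ENNReal.ofReal (2 * (1 / ((m : ℝ) + 1))) := by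
          refine Finset.sum_le_sum fun i _ => ?_
          rw [ENNReal.rpow_one]
          exact hdiam m i
      _ = ENNReal.ofReal ((F m).card * (2 * (1 / ((m : ℝ) + 1)))) := by
          rw [Finset.sum_const, Finset.card_univ, Fintype.card_coe, nsmul_eq_mul,
            ENNReal.ofReal_mul (p := ((F m).card : ℝ)) (Nat.cast_nonneg _),
            ENNReal.ofReal_natCast]
      _ ≤ ENNReal.ofReal (16 * B) := by
          refine ENNReal.ofReal_le_ofReal ?_
          have := hF m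
          rw [← hB] at this
          linarith only [this]

theorem Lim.vol_zero (hS : Seq c₁ R κ v Kj) (h : Lim v Kj u₀ K₀ c) : volume K₀ = 0 :=
  Vale.Agent.P128.GM.vol_zero_of_len h.closed fun R => Lim.len_fin hS h 0 R

/-- Fatou. -/
theorem limBasic_fatou (hS : Seq c₁ R κ v Kj) (h : Lim v Kj u₀ K₀ c) (x : ℂ) {r : ℝ}
    (hr : 0 < r) : ∫⁻ z in ball x r, ENNReal.ofReal (‖grad u₀ z‖ ^ 2) ≤
      liminf (fun j => ENNReal.ofReal (dir (v j) x r)) atTop := by
  have hm : ∀ f : ℂ → ℝ, Measurable fun z => ENNReal.ofReal (‖grad f z‖ ^ 2) := fun f =>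
    ((Vale.Agent.P128.GM.measurable_grad f).norm.pow_const 2).ennreal_ofReal
  have h1 : ∫⁻ z in ball x r, ENNReal.ofReal (‖grad u₀ z‖ ^ 2) =
      ∫⁻ z in ball x r, liminf (fun j => ENNReal.ofReal (‖grad (v j) z‖ ^ 2)) atTop := by
    refine lintegral_congr_ae (ae_restrict_of_ae ?_)
    have h2 : ∀ᵐ z : ℂ, z ∉ K₀ := by
      rw [ae_iff]
      simp only [not_not]
      exact Lim.vol_zero hS h
    filter_upwards [h2] with z hz
    have h3 : Tendsto (fun j => grad (v j) z) atTop (𝓝 (grad u₀ z)) :=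
      (h.gconv {z} isCompact_singleton (by simpa using hz)).tendsto_at (mem_singleton z)
    exact ((ENNReal.tendsto_ofReal (h3.norm.pow 2)).liminf_eq).symm
  rw [h1]
  refine (lintegral_liminf_le fun j => hm (v j)).trans (le_of_eq ?_)
  refine liminf_congr ?_
  filter_upwards [limBasic_up hS x hr] with j hj
  rw [dir, ofReal_integral_eq_lintegral_ofReal (limBasic_intOn (hS.am j) hj.1.le)
    (ae_of_all _ fun _ => by positivity)]

theorem limBasic_lt_top (hS : Seq c₁ R κ v Kj) (h : Lim v Kj u₀ K₀ c) (x : ℂ) {r : ℝ}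
    (hr : 0 < r) : ∫⁻ z in ball x r, ENNReal.ofReal (‖grad u₀ z‖ ^ 2) < ⊤ := by
  refine lt_of_le_of_lt (limBasic_fatou hS h x hr) (lt_of_le_of_lt
    (liminf_le_of_le (a := ENNReal.ofReal (2 * π * r + (2 * r) ^ 2))
      (by isBoundedDefault) fun b hb => ?_) ENNReal.ofReal_lt_top)
  obtain ⟨j, hj, hj2⟩ := (hb.and (limBasic_up hS x hr)).exists
  refine hj.trans (ENNReal.ofReal_le_ofReal ?_)
  have : 0 ≤ len (Kj j) x r := ENNReal.toReal_nonneg
  linarith [hj2.2]

theorem Lim.int (hS : Seq c₁ R κ v Kj) (h : Lim v Kj u₀ K₀ c) (x : ℂ) (r : ℝ) :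
    IntegrableOn (fun z => ‖grad u₀ z‖ ^ 2) (ball x r) := by
  rcases le_or_gt r 0 with hr | hr
  · rw [ball_eq_empty.2 hr]
    exact integrableOn_empty
  refine ⟨((Vale.Agent.P128.GM.measurable_grad u₀).norm.pow_const 2).aestronglyMeasurable, ?_⟩
  rw [hasFiniteIntegral_iff_ofReal (ae_of_all _ fun _ => by positivity)]
  exact limBasic_lt_top hS h x hr

theorem Lim.dir_le (hS : Seq c₁ R κ v Kj) (h : Lim v Kj u₀ K₀ c) (x : ℂ) (r : ℝ) {ε : ℝ}
    (hε : 0 < ε) : ∀ᶠ j in atTop, dir u₀ x r - ε < dir (v j) x r := by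
  rcases lt_or_ge (dir u₀ x r - ε) 0 with h0 | h0
  · exact Eventually.of_forall fun j => lt_of_lt_of_le h0 (limBasic_dir_nonneg _ _ _)
  rcases le_or_gt r 0 with hr | hr
  · exfalso
    have : dir u₀ x r = 0 := by rw [dir, ball_eq_empty.2 hr, setIntegral_empty]
    linarith
  have h1 : ENNReal.ofReal (dir u₀ x r - ε) <
      liminf (fun j => ENNReal.ofReal (dir (v j) x r)) atTop := by
    refine lt_of_lt_of_le ?_ (limBasic_fatou hS h x hr)
    rw [← ofReal_integral_eq_lintegral_ofReal (Lim.int hS h x r)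
      (ae_of_all _ fun _ => by positivity)]
    exact (ENNReal.ofReal_lt_ofReal_iff (by change 0 < dir u₀ x r; linarith)).2
      (by change dir u₀ x r - ε < dir u₀ x r; linarith)
  filter_upwards [eventually_lt_of_lt_liminf h1] with j hj
  exact (ENNReal.ofReal_lt_ofReal_iff_of_nonneg h0).1 hj

theorem Lim.zero_mem (hS : Seq c₁ R κ v Kj) (h : Lim v Kj u₀ K₀ c) : (0 : ℂ) ∈ K₀ := by
  by_contra hcon
  obtain ⟨j, hj⟩ := (h.far {0} isCompact_singleton (by simpa using hcon)).exists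
  exact (disjoint_singleton_left.1 hj) (hS.zero j)

end Vale.Agent.P128.Q
end

section

/-! The limit of a sequence of almost minimizers is a global minimizer: comparison with locally
Lipschitz competitors, and the reduction of `Lim.globalMin` to lower semicontinuity and
approximation by locally Lipschitz functions. -/

open MeasureTheory Set Metric Filter
open scoped ENNReal NNReal ContDiff Topology Real

namespace Vale.Agent.P128.Q

open Vale.Agent.P128
open Vale.Agent.P128.GM (LocLip genergy IsGlobalMin W12loc)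

/-- extended and real form of the energy -/
theorem c8_genergy_eq {w : ℂ → ℝ} {L : Set ℂ} (hv : volume L = 0) {x : ℂ} {s : ℝ}
    (hi : IntegrableOn (fun z => ‖grad w z‖ ^ 2) (ball x s)) (hl : μH[1] (L ∩ ball x s) < ⊤) :
    genergy (grad w) L (ball x s) = ENNReal.ofReal (dir w x s + len L x s) := by
  have h1 : volume.restrict (ball x s \ L) = (volume.restrict (ball x s) : Measure ℂ) := by
    rw [Measure.restrict_congr_set]
    exact sdiff_null_ae_eq_self hv
  have h2 : 0 ≤ dir w x s := integral_nonneg fun _ => by positivity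
  have h3 : 0 ≤ len L x s := ENNReal.toReal_nonneg
  unfold genergy
  rw [h1, GM.GMin.lintegral_grad hi, ENNReal.ofReal_add h2 h3]
  congr 1
  exact (ENNReal.ofReal_toReal hl.ne).symm

/-- additivity of the energy -/
theorem c8_genergy_split {G : ℂ → ℂ} {L : Set ℂ} (hL : IsClosed L) (x : ℂ) {r s : ℝ}
    (h : r ≤ s) :
    genergy G L (ball x s) = genergy G L (ball x r) + genergy G L (ball x s \ ball x r) := by
  have h0 : ball x r ⊆ ball x s := ball_subset_ball h
  have h1 : ball x s \ L = (ball x r \ L) ∪ ((ball x s \ ball x r) \ L) := by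
    rw [← union_sdiff_distrib, union_sdiff_cancel h0]
  have h2 : L ∩ ball x s = (L ∩ ball x r) ∪ (L ∩ (ball x s \ ball x r)) := by
    rw [← inter_union_distrib_left, union_sdiff_cancel h0]
  have hm : MeasurableSet (ball x s \ ball x r) := measurableSet_ball.diff measurableSet_ball
  unfold genergy
  rw [h1, h2, lintegral_union (hm.diff hL.measurableSet), measure_union _
    (hL.measurableSet.inter hm)]
  · ring
  · exact (disjoint_sdiff_right).mono inter_subset_right inter_subset_right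
  · exact (disjoint_sdiff_right).mono sdiff_subset sdiff_subset

/-- outside a compact set the energies coincide -/
theorem c8_genergy_out {u₀ w : ℂ → ℝ} {K₀ L C V : Set ℂ} (hK : IsClosed K₀) (hC : IsClosed C)
    (hLK : ∀ z, z ∉ C → (z ∈ L ↔ z ∈ K₀)) (hwu : ∀ z, z ∉ C → z ∉ K₀ → w z = u₀ z)
    (hV : Disjoint V C) (hVm : MeasurableSet V) :
    genergy (grad w) L V = genergy (grad u₀) K₀ V := by
  have hg : ∀ z, z ∉ C → z ∉ K₀ → grad w z = grad u₀ z := fun z h1 h2 => by
    refine GM.grad_congr ?_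
    filter_upwards [hC.isOpen_compl.mem_nhds h1, hK.isOpen_compl.mem_nhds h2] with y hy1 hy2
    exact hwu y hy1 hy2
  have hVC : ∀ z ∈ V, z ∉ C := fun z hz hz' => hV.le_bot ⟨hz, hz'⟩
  have h1 : V \ L = V \ K₀ := by
    ext z
    constructor
    · rintro ⟨hz, hz'⟩
      exact ⟨hz, fun h => hz' ((hLK z (hVC z hz)).2 h)⟩
    · rintro ⟨hz, hz'⟩
      exact ⟨hz, fun h => hz' ((hLK z (hVC z hz)).1 h)⟩
  have h2 : L ∩ V = K₀ ∩ V := by
    ext z
    constructor
    · rintro ⟨hz', hz⟩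
      exact ⟨(hLK z (hVC z hz)).1 hz', hz⟩
    · rintro ⟨hz', hz⟩
      exact ⟨(hLK z (hVC z hz)).2 hz', hz⟩
  unfold genergy
  rw [h1, h2]
  congr 1
  refine setLIntegral_congr_fun (hVm.diff hK.measurableSet) fun z hz => ?_
  rw [hg z (hVC z hz.1) hz.2]

variable {c₁ : ℝ} {R κ : ℕ → ℝ} {v : ℕ → ℂ → ℝ} {Kj : ℕ → Set ℂ} {u₀ : ℂ → ℝ} {K₀ : Set ℂ}
  {c : ℕ → ℂ → ℝ}

theorem c8_finite (hS : Seq c₁ R κ v Kj) (h : Lim v Kj u₀ K₀ c) (x : ℂ) (r : ℝ) :
    genergy (grad u₀) K₀ (ball x r) < ⊤ := by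
  rw [c8_genergy_eq (h.vol_zero hS) (h.int hS x r) (h.len_fin hS x r)]
  exact ENNReal.ofReal_lt_top

/-- comparison with locally Lipschitz competitors -/
theorem c8_compare (hS : Seq c₁ R κ v Kj) (h : Lim v Kj u₀ K₀ c)
    (hlow : ∀ (x : ℂ) (s : ℝ), 0 < s → ∀ ε : ℝ, 0 < ε →
      ∀ᶠ j in atTop, dir u₀ x s + len K₀ x s - ε ≤ dir (v j) x s + len (Kj j) x s)
    {x : ℂ} {r : ℝ} (hr : 0 ≤ r)
    {w : ℂ → ℝ} {L C : Set ℂ} (hL : IsClosed L) (hw : LocLip Lᶜ w)
    (hfin : genergy (grad w) L (ball x r) < ⊤)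
    (hC : IsCompact C) (hCr : C ⊆ ball x r) (hLK : ∀ z, z ∉ C → (z ∈ L ↔ z ∈ K₀))
    (hwu : ∀ z, z ∉ C → z ∉ K₀ → w z = u₀ z)
    (hsep : ∀ p q : ℂ, p ∉ ball x r ∪ K₀ → q ∉ ball x r ∪ K₀ →
      q ∉ connectedComponentIn K₀ᶜ p → q ∉ connectedComponentIn Lᶜ p) :
    genergy (grad u₀) K₀ (ball x r) ≤ genergy (grad w) L (ball x r) := by
  have hout : ∀ s, genergy (grad w) L (ball x s \ ball x r) =
      genergy (grad u₀) K₀ (ball x s \ ball x r) := fun s =>
    c8_genergy_out h.closed hC.isClosed hLK hwu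
      (disjoint_sdiff_left.mono_right hCr) (measurableSet_ball.diff measurableSet_ball)
  have hout' : ∀ s, genergy (grad u₀) K₀ (ball x s \ ball x r) < ⊤ := fun s => by
    refine lt_of_le_of_lt ?_ (c8_finite hS h x s)
    unfold genergy
    refine add_le_add (lintegral_mono_set (sdiff_subset_sdiff_left sdiff_subset))
      (measure_mono (inter_subset_inter_right _ sdiff_subset))
  have hge : ∀ s, genergy (grad w) L (ball x s) < ⊤ := by
    intro s
    rcases le_total r s with hrs | hrs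
    · rw [c8_genergy_split hL x hrs, hout]
      exact ENNReal.add_lt_top.2 ⟨hfin, hout' s⟩
    · refine lt_of_le_of_lt ?_ hfin
      unfold genergy
      exact add_le_add (lintegral_mono_set (sdiff_subset_sdiff_left (ball_subset_ball hrs)))
        (measure_mono (inter_subset_inter_right _ (ball_subset_ball hrs)))
  have hl : ∀ s, μH[1] (L ∩ ball x s) < ⊤ := fun s => lt_of_le_of_lt le_add_self (hge s)
  have hv : volume L = 0 := by
    have : L = ⋃ n : ℕ, L ∩ ball x (n : ℝ) := by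
      rw [← inter_iUnion, iUnion_ball_nat, inter_univ]
    rw [this]
    exact measure_iUnion_null fun n => GM.volume_eq_zero_of_hausdorff (hl n).ne
  have hi : ∀ s, IntegrableOn (fun z => ‖grad w z‖ ^ 2) (ball x s) := by
    intro s
    refine ⟨((GM.measurable_grad w).norm.pow_const 2).aestronglyMeasurable, ?_⟩
    rw [hasFiniteIntegral_iff_norm]
    have h1 : volume.restrict (ball x s \ L) = (volume.restrict (ball x s) : Measure ℂ) := by
      rw [Measure.restrict_congr_set]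
      exact sdiff_null_ae_eq_self hv
    have h2 := lt_of_le_of_lt le_self_add (hge s)
    rw [h1] at h2
    refine lt_of_le_of_lt (lintegral_mono fun z => ?_) h2
    rw [Real.norm_of_nonneg (by positivity)]
  -- a good radius
  obtain ⟨s, hs1, hs2⟩ := (Measure.dense_of_ae (ae_finite_sphere_of_len x
    (h.len_fin hS x))).exists_mem_open (isOpen_Ioo (a := r) (b := r + 1))
    (nonempty_Ioo.2 (by linarith))
  have hs0 : 0 < s := lt_of_le_of_lt hr hs2.1
  have key : dir u₀ x s + len K₀ x s ≤ dir w x s + len L x s := by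
    refine le_of_forall_pos_le_add fun ε hε => ?_
    have e1 := h.upper hS hr hL hw hi hl hC hCr hLK hwu hsep hs2.1 hs1 (half_pos hε)
    have e2 := hlow x s hs0 _ (half_pos hε)
    obtain ⟨j, hj1, hj2⟩ := (e1.and e2).exists
    linarith only [hj2, hj1]
  have key2 : genergy (grad u₀) K₀ (ball x s) ≤ genergy (grad w) L (ball x s) := by
    rw [c8_genergy_eq (h.vol_zero hS) (h.int hS x s) (h.len_fin hS x s),
      c8_genergy_eq hv (hi s) (hl s)]
    exact ENNReal.ofReal_le_ofReal key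
  rw [c8_genergy_split h.closed x hs2.1.le, c8_genergy_split hL x hs2.1.le, hout] at key2
  exact (ENNReal.add_le_add_iff_right (hout' s).ne).1 key2

/-- C8, reduced to lower semicontinuity and approximation -/
theorem Lim.globalMin_of (hS : Seq c₁ R κ v Kj) (h : Lim v Kj u₀ K₀ c)
    (hlow : ∀ (x : ℂ) (s : ℝ), 0 < s → ∀ ε : ℝ, 0 < ε →
      ∀ᶠ j in atTop, dir u₀ x s + len K₀ x s - ε ≤ dir (v j) x s + len (Kj j) x s)
    (happ : ∀ (L : Set ℂ) (v : ℂ → ℝ) (H : ℂ → ℂ), IsClosed L → W12loc Lᶜ v H → LocLip K₀ᶜ u₀ →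
      ∀ (x : ℂ) (r : ℝ) (C : Set ℂ), IsCompact C → C ⊆ ball x r →
      (∀ z, z ∉ C → (z ∈ L ↔ z ∈ K₀)) → (∀ᵐ z, z ∉ C → v z = u₀ z) →
      ∫⁻ z in ball x r \ L, ENNReal.ofReal (‖H z‖ ^ 2) < ⊤ → ∀ ε : ℝ≥0∞, 0 < ε →
      ∃ (w : ℂ → ℝ) (C' : Set ℂ), IsCompact C' ∧ C ⊆ C' ∧ C' ⊆ ball x r ∧ LocLip Lᶜ w ∧
        (∀ z, z ∉ C' → z ∉ K₀ → w z = u₀ z) ∧
        ∫⁻ z in ball x r \ L, ENNReal.ofReal (‖grad w z‖ ^ 2) ≤
          (∫⁻ z in ball x r \ L, ENNReal.ofReal (‖H z‖ ^ 2)) + ε) :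
    IsGlobalMin u₀ (grad u₀) K₀ := by
  have hlip : LocLip K₀ᶜ u₀ := LocLip.of_contDiffOn h.closed.isOpen_compl h.smooth
  refine ⟨h.closed, hlip.w12loc h.closed.isOpen_compl, c8_finite hS h, ?_⟩
  rintro x r v' H L hL hv' ⟨C, hC, hCr, hsd, hvu⟩ hsep
  rcases lt_or_ge r 0 with hr | hr
  · rw [ball_eq_empty.2 hr.le]
    simp [genergy]
  rcases eq_or_ne (genergy H L (ball x r)) ⊤ with htop | htop
  · rw [htop]
    exact le_top
  have hLK : ∀ z, z ∉ C → (z ∈ L ↔ z ∈ K₀) := by
    intro z hz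
    have h1 : z ∉ symmDiff L K₀ := fun hz' => hz (hsd hz')
    rw [mem_symmDiff] at h1
    tauto
  refine ENNReal.le_of_forall_pos_le_add fun ε hε _ => ?_
  have hε' : (0 : ℝ≥0∞) < ε := by exact_mod_cast hε
  have hfin : ∫⁻ z in ball x r \ L, ENNReal.ofReal (‖H z‖ ^ 2) < ⊤ :=
    lt_of_le_of_lt le_self_add (lt_top_iff_ne_top.2 htop)
  have hlen : μH[1] (L ∩ ball x r) < ⊤ :=
    lt_of_le_of_lt le_add_self (lt_top_iff_ne_top.2 htop)
  obtain ⟨w, C', hC', hCC', hC'r, hw, hwu, hle⟩ :=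
    happ L v' H hL hv' hlip x r C hC hCr hLK hvu hfin ε hε'
  have hLK' : ∀ z, z ∉ C' → (z ∈ L ↔ z ∈ K₀) := fun z hz => hLK z fun hz' => hz (hCC' hz')
  have hgw : genergy (grad w) L (ball x r) ≤ genergy H L (ball x r) + ε := by
    unfold genergy
    calc _ ≤ ((∫⁻ z in ball x r \ L, ENNReal.ofReal (‖H z‖ ^ 2)) + ε) + μH[1] (L ∩ ball x r) :=
          add_le_add_left hle _
      _ = _ := by ring
  have hgw' : genergy (grad w) L (ball x r) < ⊤ :=
    lt_of_le_of_lt hgw (ENNReal.add_lt_top.2 ⟨lt_top_iff_ne_top.2 htop, ENNReal.coe_lt_top⟩)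
  exact (c8_compare hS h hlow hr hL hw hgw' hC' hC'r hLK' hwu hsep).trans hgw

end Vale.Agent.P128.Q
end

section

/-! C5, part A: the clamp competitor for one almost minimizer. -/

open MeasureTheory Set Metric Filter
open scoped ENNReal NNReal ContDiff Topology Real

namespace Vale.Agent.P128.Q

open Vale.Agent.P128
open Vale.Agent.P128.GM (LocLip nbCl nbCl_lip nbCl_abs nbCl_eq nb_grad_comp rpChi rpChi_lip
  rpChi_zero rpChi_one rpChi_nonneg rpChi_le_one rpChi_grad rp_locLip grad_add grad_mul grad_sub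
  grad_const grad_congr measurable_grad)

theorem densA_norm_int {v : ℂ → ℝ} {x : ℂ} {s : ℝ}
    (h : IntegrableOn (fun z => ‖grad v z‖ ^ 2) (ball x s)) :
    IntegrableOn (fun z => ‖grad v z‖) (ball x s) := by
  have h1 : IntegrableOn (fun z => 1 + ‖grad v z‖ ^ 2) (ball x s) :=
    (integrableOn_const (by exact measure_ball_lt_top.ne)).add h
  refine Integrable.mono' h1 (measurable_grad v).norm.aestronglyMeasurable
    (Eventually.of_forall fun z => ?_)
  rw [norm_norm]
  linarith only [norm_nonneg (grad v z), sq_nonneg (‖grad v z‖ - 1)]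

theorem AMin.clamp_compare {c₁ R κ : ℝ} {v : ℂ → ℝ} {K : Set ℂ} (h : AMin c₁ R κ v K) {x : ℂ}
    {s : ℝ} (hs : 0 < s) (hx : ‖x‖ + s < R) {m om : ℝ} (hom : 0 ≤ om)
    (hosc : ∀ z ∈ sphere x s, z ∉ K → |v z - m| ≤ om) :
    dir v x (3 * s / 4) + len K x (3 * s / 4) ≤
      8 * om / s * (∫ z in ball x s, ‖grad v z‖) + 16 * π * om ^ 2 + κ * (2 * s) ^ 2 := by
  obtain ⟨s', h1, h2⟩ : ∃ s', s < s' ∧ s' < Min.min (2 * s) (R - ‖x‖) :=
    exists_between (lt_min (by linarith) (by linarith))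
  have h3 : s' < 2 * s := h2.trans_le (min_le_left _ _)
  have h4 : ‖x‖ + s' < R := by linarith [h2.trans_le (min_le_right _ _)]
  have hbR : ball x s' ⊆ ball (0 : ℂ) R := AMin.sub h4.le
  have hsub : ball x s ⊆ ball x s' := ball_subset_ball h1.le
  have hcb : closedBall x s ⊆ ball x s' := closedBall_subset_ball h1
  have hb3 : ball x (3 * s / 4) ⊆ ball x s := ball_subset_ball (by linarith)
  obtain ⟨d, hd⟩ : ∃ d, d = s / 2 := ⟨_, rfl⟩
  have hd0 : 0 < d := by rw [hd]; positivity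
  have hU : IsOpen (ball (0 : ℂ) R \ K) := h.isOpen
  have hv : LocLip (ball (0 : ℂ) R \ K) v := LocLip.of_contDiffOn hU h.smooth
  have hg : LocLip (ball (0 : ℂ) R \ K) fun z => nbCl om (v z - m) :=
    (hv.sub (LocLip.const hU m)).comp_lipschitz (nbCl_lip om)
  have hF : LocLip (ball (0 : ℂ) R \ K) fun z => m + rpChi x d z * nbCl om (v z - m) :=
    (LocLip.const hU m).add ((rp_locLip (rpChi_lip (x := x) hd0) hU).mul hg)
  obtain ⟨w, hw⟩ : ∃ w : ℂ → ℝ, w = fun z =>
    if ‖z - x‖ < s then m + rpChi x d z * nbCl om (v z - m) else v z := ⟨_, rfl⟩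
  obtain ⟨L, hL⟩ : ∃ L : Set ℂ, L = K \ ball x (3 * s / 4) := ⟨_, rfl⟩
  have hw1 : LocLip (ball (0 : ℂ) R \ K) w := by
    rw [hw]
    refine Up.glue hF hv fun z hz hzs => ?_
    have e1 : rpChi x d z = 1 := rpChi_one hd0 (by rw [dist_eq_norm, hzs, hd]; linarith only [])
    have e2 : |v z - m| ≤ om := hosc z (by rw [mem_sphere, dist_eq_norm, hzs]) hz.2
    rw [e1, nbCl_eq e2]
    ring
  have hwm : ∀ z ∈ ball x (3 * s / 4), w z = m := by
    intro z hz
    rw [mem_ball, dist_eq_norm] at hz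
    rw [hw]
    simp only
    rw [if_pos (by linarith only [hz, hd0, hd]), rpChi_zero hd0 (by rw [dist_eq_norm, hd]; linarith only [hz])]
    ring
  have hw2 : LocLip (ball x (3 * s / 4)) w :=
    (LocLip.const isOpen_ball m).congr fun z hz => (hwm z hz).symm
  have hset : ball (0 : ℂ) R \ L = (ball (0 : ℂ) R \ K) ∪ ball x (3 * s / 4) := by
    rw [hL]
    ext z
    constructor
    · rintro ⟨a1, a2⟩
      by_cases hz : z ∈ ball x (3 * s / 4)
      · exact Or.inr hz
      · exact Or.inl ⟨a1, fun hK => a2 ⟨hK, hz⟩⟩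
    · rintro (⟨a1, a2⟩ | a1)
      · exact ⟨a1, fun a3 => a2 a3.1⟩
      · exact ⟨hbR (hsub (hb3 a1)), fun a3 => a3.2 a1⟩
  have hwL : LocLip (ball (0 : ℂ) R \ L) w := by
    rw [hset]
    exact hw1.union hw2
  have hLc : ∀ z ∈ closure L, ‖z‖ < R → z ∈ L := by
    intro z hz hzR
    have a1 : z ∈ closure K := closure_mono (hL ▸ sdiff_subset) hz
    have a2 : L ⊆ (ball x (3 * s / 4))ᶜ := by
      rw [hL]
      exact fun y hy => hy.2
    have a3 : z ∈ (ball x (3 * s / 4))ᶜ :=
      (closure_minimal a2 isOpen_ball.isClosed_compl) hz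
    rw [hL]
    exact ⟨h.closed z a1 hzR, a3⟩
  -- the gradient of the competitor
  have hv2 : IntegrableOn (fun z => ‖grad v z‖ ^ 2) (ball x s') := h.int.mono_set hbR
  have hv1 : IntegrableOn (fun z => ‖grad v z‖) (ball x s) :=
    densA_norm_int (hv2.mono_set hsub)
  obtain ⟨A, hA⟩ : ∃ A : ℝ, A = 8 * om / s := ⟨_, rfl⟩
  obtain ⟨B, hB⟩ : ∃ B : ℝ, B = 16 * om ^ 2 / s ^ 2 := ⟨_, rfl⟩
  have hA0 : 0 ≤ A := by rw [hA]; (clear * - hom hs; positivity)
  have hB0 : 0 ≤ B := by rw [hB]; (clear * - hs; positivity)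
  have hK0 : volume (K ∩ ball 0 R) = 0 := GM.volume_eq_zero_of_hausdorff h.fin.ne
  have hKae : ∀ᵐ z : ℂ, z ∉ K ∩ ball 0 R := by
    have : {a : ℂ | ¬ a ∉ K ∩ ball 0 R} = K ∩ ball 0 R := by
      ext z
      exact not_not
    rw [ae_iff, this]
    exact hK0
  have hsph : ∀ r : ℝ, 0 < r → ∀ᵐ z : ℂ, z ∉ sphere x r := fun r hr => by
    have : {a : ℂ | ¬ a ∉ sphere x r} = sphere x r := by ext; simp
    rw [ae_iff, this]
    exact volume_sphere_zero x hr
  have hgr : ∀ᵐ z : ℂ, z ∈ ball x s' → ‖grad w z‖ ^ 2 ≤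
      (ball x (3 * s / 4))ᶜ.indicator (fun z => ‖grad v z‖ ^ 2) z +
        (ball x s).indicator (fun z => A * ‖grad v z‖ + B) z := by
    filter_upwards [hKae, hsph s hs, hsph (3 * s / 4) (by positivity), hg.ae_diff hU,
      hv.ae_diff hU, (rp_locLip (rpChi_lip (x := x) hd0) isOpen_univ).ae_diff isOpen_univ]
      with z hzK hzs hz3 hgd hvd hchi hzb
    have hzK' : z ∉ K := fun hc => hzK ⟨hc, hbR hzb⟩
    have hzU : z ∈ ball (0 : ℂ) R \ K := ⟨hbR hzb, hzK'⟩
    by_cases hz1 : z ∈ ball x (3 * s / 4)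
    · have e : grad w z = 0 := by
        rw [← grad_const m z]
        refine grad_congr ?_
        filter_upwards [isOpen_ball.mem_nhds hz1] with y hy using hwm y hy
      rw [e, norm_zero]
      have i1 : 0 ≤ (ball x (3 * s / 4))ᶜ.indicator (fun z => ‖grad v z‖ ^ 2) z :=
        indicator_nonneg (fun z _ => by (clear * -; positivity)) z
      have i2 : 0 ≤ (ball x s).indicator (fun z => A * ‖grad v z‖ + B) z :=
        indicator_nonneg (fun z _ => by (clear * - hA0 hB0; positivity)) z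
      have : (0 : ℝ) ^ 2 = 0 := by norm_num
      linarith only [i2, i1]
    rw [indicator_of_mem (show z ∈ (ball x (3 * s / 4))ᶜ from hz1)]
    by_cases hz2 : z ∈ ball x s
    · rw [indicator_of_mem hz2]
      have hev : w =ᶠ[𝓝 z] fun y => m + rpChi x d y * nbCl om (v y - m) := by
        filter_upwards [isOpen_ball.mem_nhds hz2] with y hy
        rw [mem_ball, dist_eq_norm] at hy
        rw [hw]
        simp only
        rw [if_pos hy]
      have hchi' := hchi (mem_univ z)
      have hcl' := hgd hzU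
      have e1 : grad (fun w => m + rpChi x d w * nbCl om (v w - m)) z =
          grad (fun _ => m) z + grad (fun w => rpChi x d w * nbCl om (v w - m)) z :=
        grad_add (differentiableAt_const m) (hchi'.mul hcl')
      have e2 : grad (fun w => rpChi x d w * nbCl om (v w - m)) z =
          rpChi x d z • grad (fun w => nbCl om (v w - m)) z +
            nbCl om (v z - m) • grad (rpChi x d) z := Vale.Agent.P128.GM.grad_mul hchi' hcl'
      have hum : DifferentiableAt ℝ (fun w => v w - m) z := (hvd hzU).sub_const m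
      have e3 : grad (fun w => v w - m) z = grad v z := by
        have : grad (fun w => v w - m) z = grad v z - grad (fun _ => m) z :=
          grad_sub (hvd hzU) (differentiableAt_const m)
        rw [this, grad_const, sub_zero]
      have a1 : ‖grad w z‖ ≤ ‖grad v z‖ + om * (2 / d) := by
        rw [grad_congr hev, e1, e2, grad_const, zero_add]
        refine (norm_add_le _ _).trans (add_le_add ?_ ?_)
        · rw [norm_smul, Real.norm_of_nonneg (rpChi_nonneg _ _ _)]
          refine (mul_le_of_le_one_left (norm_nonneg _) (rpChi_le_one _ _ _)).trans ?_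
          have := nb_grad_comp (nbCl_lip om) hum
          rwa [e3] at this
        · rw [norm_smul, Real.norm_eq_abs]
          exact mul_le_mul (nbCl_abs hom _) (rpChi_grad hd0 z) (norm_nonneg _) hom
      have a2 : ‖grad w z‖ ^ 2 ≤ (‖grad v z‖ + om * (2 / d)) ^ 2 :=
        pow_le_pow_left₀ (norm_nonneg _) a1 2
      have a3 : (‖grad v z‖ + om * (2 / d)) ^ 2 = ‖grad v z‖ ^ 2 + (A * ‖grad v z‖ + B) := by
        rw [hA, hB, hd]
        field_simp
        ring
      linarith only [a3, a2]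
    · rw [indicator_of_notMem hz2, add_zero]
      have a1 : s < dist z x := by
        rw [mem_ball, not_lt] at hz2
        rw [mem_sphere] at hzs
        exact lt_of_le_of_ne hz2 (Ne.symm hzs)
      have hev : w =ᶠ[𝓝 z] v := by
        filter_upwards [(isOpen_lt continuous_const
          (continuous_id.dist continuous_const)).mem_nhds a1] with y hy
        have hy' : s < dist y x := hy
        rw [dist_eq_norm] at hy'
        rw [hw]
        simp only
        rw [if_neg (by linarith)]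
      rw [grad_congr hev]
  have hI1 : IntegrableOn ((ball x (3 * s / 4))ᶜ.indicator (fun z => ‖grad v z‖ ^ 2))
      (ball x s') := hv2.indicator measurableSet_ball.compl
  have hI2' : IntegrableOn (fun z => A * ‖grad v z‖ + B) (ball x s) :=
    (hv1.const_mul A).add (integrableOn_const (by exact measure_ball_lt_top.ne))
  have hI2 : IntegrableOn ((ball x s).indicator (fun z => A * ‖grad v z‖ + B)) (ball x s') := by
    rw [integrableOn_indicator_iff measurableSet_ball]
    exact hI2'.mono_set inter_subset_left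
  have hwi : IntegrableOn (fun z => ‖grad w z‖ ^ 2) (ball x s') := by
    refine Integrable.mono' (hI1.add hI2)
      ((measurable_grad w).norm.pow_const 2).aestronglyMeasurable ?_
    rw [ae_restrict_iff' measurableSet_ball]
    filter_upwards [hgr] with z hz hzb
    rw [Real.norm_of_nonneg (by (clear * -; positivity))]
    exact hz hzb
  have hdw : dir w x s' ≤ (dir v x s' - dir v x (3 * s / 4)) +
      (A * (∫ z in ball x s, ‖grad v z‖) + B * (π * s ^ 2)) := by
    have i1 : dir w x s' ≤ ∫ z in ball x s',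
        ((ball x (3 * s / 4))ᶜ.indicator (fun z => ‖grad v z‖ ^ 2) z +
          (ball x s).indicator (fun z => A * ‖grad v z‖ + B) z) := by
      unfold dir
      exact setIntegral_mono_on_ae hwi (hI1.add hI2) measurableSet_ball hgr
    rw [integral_add hI1 hI2, setIntegral_indicator measurableSet_ball.compl,
      setIntegral_indicator measurableSet_ball, inter_eq_self_of_subset_right hsub] at i1
    have i2 : ∫ z in ball x s' ∩ (ball x (3 * s / 4))ᶜ, ‖grad v z‖ ^ 2 =
        dir v x s' - dir v x (3 * s / 4) := by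
      unfold dir
      rw [← Set.sdiff_eq, setIntegral_sdiff measurableSet_ball hv2 (hb3.trans hsub)]
    have i3 : ∫ z in ball x s, (A * ‖grad v z‖ + B) =
        A * (∫ z in ball x s, ‖grad v z‖) + B * (π * s ^ 2) := by
      rw [integral_add (hv1.const_mul A) (integrableOn_const (by exact measure_ball_lt_top.ne)),
        integral_const_mul, setIntegral_const, Measure.real, Complex.volume_ball]
      congr 1
      rw [ENNReal.toReal_mul, ENNReal.toReal_pow, ENNReal.toReal_ofReal hs.le, smul_eq_mul]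
      simp
      ring
    rw [i2, i3] at i1
    exact i1
  have hlenf : ∀ {r : ℝ}, ‖x‖ + r ≤ R → μH[1] (K ∩ ball x r) < ⊤ := fun {r} hr =>
    lt_of_le_of_lt (measure_mono (inter_subset_inter_right _ (AMin.sub hr))) h.fin
  have hLK : L ⊆ K := by rw [hL]; exact sdiff_subset
  have hLf : μH[1] (L ∩ ball x s') < ⊤ :=
    lt_of_le_of_lt (measure_mono (inter_subset_inter_left _ hLK)) (hlenf h4.le)
  have hlen : len L x s' + len K x (3 * s / 4) = len K x s' := by
    have e1 : K ∩ ball x s' = (L ∩ ball x s') ∪ (K ∩ ball x (3 * s / 4)) := by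
      rw [hL]
      ext z
      constructor
      · rintro ⟨a1, a2⟩
        by_cases hz : z ∈ ball x (3 * s / 4)
        · exact Or.inr ⟨a1, hz⟩
        · exact Or.inl ⟨⟨a1, hz⟩, a2⟩
      · rintro (⟨a1, a2⟩ | ⟨a1, a2⟩)
        · exact ⟨a1.1, a2⟩
        · exact ⟨a1, hsub (hb3 a2)⟩
    have e2 : μH[1] (K ∩ ball x s') = μH[1] (L ∩ ball x s') + μH[1] (K ∩ ball x (3 * s / 4)) := by
      have := measure_inter_add_sdiff (μ := (μH[1] : Measure ℂ)) (K ∩ ball x s')
        (measurableSet_ball (x := x) (ε := 3 * s / 4))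
      rw [← this, add_comm]
      congr 1
      · congr 1
        rw [hL]
        ext z
        constructor
        · rintro ⟨⟨a1, a2⟩, a3⟩
          exact ⟨⟨a1, a3⟩, a2⟩
        · rintro ⟨⟨a1, a3⟩, a2⟩
          exact ⟨⟨a1, a2⟩, a3⟩
      · congr 1
        ext z
        constructor
        · rintro ⟨⟨a1, -⟩, a3⟩
          exact ⟨a1, a3⟩
        · rintro ⟨a1, a3⟩
          exact ⟨⟨a1, hsub (hb3 a3)⟩, a3⟩
    unfold len
    rw [e2, ENNReal.toReal_add]
    · exact hLf.ne
    · exact (hlenf (by linarith only [hd0, hd, h4, h1])).ne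
  have hmin := h.min x s' (by linarith only [hd0, hd, h1]) h4 w L hLc hwL hwi
    hLf
    ⟨closedBall x s, isCompact_closedBall x s, hcb, fun z hz => by
      rw [hL]
      constructor
      · exact fun a => a.1
      · exact fun a => ⟨a, fun a2 => hz (ball_subset_closedBall (hb3 a2))⟩, fun z hz _ => by
      rw [mem_closedBall, dist_eq_norm, not_le] at hz
      rw [hw]
      simp only
      rw [if_neg (by linarith only [hz])]⟩
  have hκ := h.κ0
  have hfin : κ * s' ^ 2 ≤ κ * (2 * s) ^ 2 := by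
    have : s' ^ 2 ≤ (2 * s) ^ 2 := pow_le_pow_left₀ (by linarith only [hd0, hd, h1]) h3.le 2
    gcongr
  have hBs : B * (π * s ^ 2) = 16 * π * om ^ 2 := by
    rw [hB]
    field_simp
  rw [hBs, hA] at hdw
  linarith only [hfin, hmin, hlen, hdw]

end Vale.Agent.P128.Q
end

section

/-! C5, part C: selection of a good radius. -/

open MeasureTheory Set Metric Filter
open scoped ENNReal NNReal ContDiff Topology Real

namespace Vale.Agent.P128.Q

open Vale.Agent.P128
open Vale.Agent.P128.GM (measurable_grad)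

theorem densC_periodic (v : ℂ → ℝ) (x : ℂ) (s : ℝ) :
    Function.Periodic (fun θ : ℝ => ‖grad v (circleMap x s θ)‖) (2 * π) := by
  intro θ
  show ‖grad v (circleMap x s (θ + 2 * π))‖ = ‖grad v (circleMap x s θ)‖
  rw [periodic_circleMap x s θ]

theorem densC_ang {v : ℂ → ℝ} {x : ℂ} {s : ℝ}
    (h : ∫⁻ θ in ang, ENNReal.ofReal ‖grad v (circleMap x s θ)‖ < ⊤) :
    IntegrableOn (fun θ => ‖grad v (circleMap x s θ)‖) (Ioc 0 (2 * π)) ∧
      ENNReal.ofReal (∫ θ in Ioc 0 (2 * π), ‖grad v (circleMap x s θ)‖) =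
        ∫⁻ θ in ang, ENNReal.ofReal ‖grad v (circleMap x s θ)‖ := by
  have hπ := Real.pi_pos
  have hm : Measurable fun θ : ℝ => ‖grad v (circleMap x s θ)‖ :=
    (measurable_grad v).norm.comp (measurable_circleMap x s)
  have h1 : IntegrableOn (fun θ => ‖grad v (circleMap x s θ)‖) ang := by
    refine ⟨hm.aestronglyMeasurable, ?_⟩
    rw [hasFiniteIntegral_iff_norm]
    simpa using h
  have h2 : IntegrableOn (fun θ => ‖grad v (circleMap x s θ)‖) (Ioc (-π) π) := by
    rw [integrableOn_Ioc_iff_integrableOn_Ioo]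
    exact h1
  have h3 : IntervalIntegrable (fun θ => ‖grad v (circleMap x s θ)‖) volume (-π) (-π + 2 * π) := by
    rw [show -π + 2 * π = π by ring]
    exact (intervalIntegrable_iff_integrableOn_Ioc_of_le (by linarith)).2 h2
  have h4 : IntervalIntegrable (fun θ => ‖grad v (circleMap x s θ)‖) volume 0 (0 + 2 * π) :=
    (densC_periodic v x s).intervalIntegrable (by positivity) h3 _ _
  have h5 : ∫ θ in (-π)..(-π + 2 * π), ‖grad v (circleMap x s θ)‖ =
      ∫ θ in (0 : ℝ)..(0 + 2 * π), ‖grad v (circleMap x s θ)‖ :=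
    (densC_periodic v x s).intervalIntegral_add_eq _ _
  rw [zero_add] at h4 h5
  have h6 : IntegrableOn (fun θ => ‖grad v (circleMap x s θ)‖) (Ioc 0 (2 * π)) :=
    (intervalIntegrable_iff_integrableOn_Ioc_of_le (by positivity)).1 h4
  refine ⟨h6, ?_⟩
  rw [← intervalIntegral.integral_of_le (by positivity), ← h5,
    intervalIntegral.integral_of_le (by linarith), show -π + 2 * π = π by ring,
    integral_Ioc_eq_integral_Ioo]
  exact ofReal_integral_eq_lintegral_ofReal h1 (Eventually.of_forall fun θ => norm_nonneg _)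

theorem exists_good_radius {v : ℂ → ℝ} {K : Set ℂ} {x : ℂ} {r ε B : ℝ} (hr : 0 < r) (hε : 0 < ε)
    (hI : IntegrableOn (fun z => ‖grad v z‖) (ball x r))
    (hB : ∫ z in ball x r, ‖grad v z‖ < B) (hfin : μH[1] (K ∩ ball x r) < ⊤)
    (hlen : len K x r < 2 * (1 - ε) * r) :
    ∃ s : ℝ, ε * r / 4 < s ∧ s < r ∧ (K ∩ sphere x s).encard ≤ 1 ∧
      IntegrableOn (fun θ => ‖grad v (circleMap x s θ)‖) (Ioc 0 (2 * π)) ∧
      s * ∫ θ in Ioc 0 (2 * π), ‖grad v (circleMap x s θ)‖ ≤ 4 * B / (ε * r) := by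
  have hl0 : 0 ≤ len K x r := ENNReal.toReal_nonneg
  have hε1 : ε < 1 := by
    by_contra hcon
    push Not at hcon
    linarith only [mul_nonneg (le_of_lt (sub_pos.2 hr)) (sub_nonneg.2 hcon), hl0, hlen]
  have hI0 : 0 ≤ ∫ z in ball x r, ‖grad v z‖ := integral_nonneg fun _ => norm_nonneg _
  have hB0 : 0 < B := hI0.trans_lt hB
  obtain ⟨lam, hlam⟩ : ∃ lam : ℝ, lam = 4 * B / (ε * r) := ⟨_, rfl⟩
  have hlam0 : 0 < lam := by rw [hlam]; positivity
  set f : ℝ → ℝ≥0∞ := fun s => ENNReal.ofReal s *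
    ∫⁻ θ in ang, ENNReal.ofReal ‖grad v (circleMap x s θ)‖ with hf
  have hmG : Measurable fun z : ℂ => ENNReal.ofReal ‖grad v z‖ :=
    (measurable_grad v).norm.ennreal_ofReal
  have hfm : Measurable f := by
    refine ENNReal.measurable_ofReal.mul ?_
    exact (hmG.comp (continuous_circleMap_uncurry x).measurable).lintegral_prod_right'
  have htot : ∫⁻ s in Ioo 0 r, f s ≤ ENNReal.ofReal (∫ z in ball x r, ‖grad v z‖) := by
    have h1 := lintegral_polar_set x hmG (S := Ioo 0 r) measurableSet_Ioo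
      (fun s hs => hs.1)
    rw [← h1, ofReal_integral_eq_lintegral_ofReal hI
      (Eventually.of_forall fun θ => norm_nonneg _)]
    refine lintegral_mono_set fun z hz => ?_
    exact mem_ball.2 hz.2
  set J : Set ℝ := Ioo (ε * r / 4) r with hJ
  have hJ0 : J ⊆ Ioo 0 r := fun s hs => ⟨lt_trans (by positivity) hs.1, hs.2⟩
  set S₁ : Set ℝ := {s | s ∈ J ∧ 2 ≤ (K ∩ sphere x s).encard} with hS₁
  set S₂ : Set ℝ := {s | s ∈ J ∧ ENNReal.ofReal lam ≤ f s} with hS₂
  have hv₁ : volume S₁ ≤ ENNReal.ofReal ((1 - ε) * r) := by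
    have h1 := eilenberg (X := ℂ) (f := fun z => dist z x) (LipschitzWith.dist_left x) (E := K)
      (m := 2) (S := S₁) (fun s hs => by
        have e : (fun z : ℂ => dist z x) ⁻¹' {s} = sphere x s := by
          ext z; rfl
        rw [e]
        exact_mod_cast hs.2)
    have h2 : μH[1] (K ∩ (fun z => dist z x) ⁻¹' S₁) ≤ μH[1] (K ∩ ball x r) := by
      refine measure_mono ?_
      rintro z ⟨hz, hz'⟩
      exact ⟨hz, mem_ball.2 hz'.1.2⟩
    have h3 : μH[1] (K ∩ ball x r) = ENNReal.ofReal (len K x r) :=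
      (ENNReal.ofReal_toReal hfin.ne).symm
    have h4 : ENNReal.ofReal (len K x r) ≤ ((2 : ℕ) : ℝ≥0∞) * ENNReal.ofReal ((1 - ε) * r) := by
      rw [show ((2 : ℕ) : ℝ≥0∞) = ENNReal.ofReal 2 by norm_num,
        ← ENNReal.ofReal_mul (by norm_num)]
      exact ENNReal.ofReal_le_ofReal (by linarith only [hlen])
    have h5 := ((h1.trans h2).trans h3.le).trans h4
    exact (ENNReal.mul_le_mul_iff_right (by norm_num) (by norm_num)).1 h5
  have hv₂ : volume S₂ ≤ ENNReal.ofReal (ε * r / 4) := by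
    have h1 := mul_meas_ge_le_lintegral₀ (μ := volume.restrict (Ioo 0 r)) hfm.aemeasurable
      (ENNReal.ofReal lam)
    have h2 : volume S₂ ≤ (volume.restrict (Ioo 0 r)) {s | ENNReal.ofReal lam ≤ f s} := by
      refine le_trans (measure_mono ?_) (Measure.le_restrict_apply _ _)
      intro s hs
      exact ⟨hs.2, hJ0 hs.1⟩
    have h3 : ENNReal.ofReal lam * volume S₂ ≤ ENNReal.ofReal lam * ENNReal.ofReal (ε * r / 4) := by
      refine (mul_le_mul_right h2 _).trans (h1.trans (htot.trans ?_))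
      rw [← ENNReal.ofReal_mul hlam0.le]
      refine ENNReal.ofReal_le_ofReal (hB.le.trans ?_)
      rw [hlam]
      apply le_of_eq
      field_simp
    exact (ENNReal.mul_le_mul_iff_right (ENNReal.ofReal_pos.2 hlam0).ne'
      ENNReal.ofReal_ne_top).1 h3
  have hex : ∃ s ∈ J, s ∉ S₁ ∧ s ∉ S₂ := by
    by_contra hcon
    push Not at hcon
    have hsub : J ⊆ S₁ ∪ S₂ := by
      intro s hs
      by_cases h1 : s ∈ S₁
      · exact Or.inl h1
      · exact Or.inr (hcon s hs h1)
    have h1 : volume J ≤ ENNReal.ofReal ((1 - ε) * r) + ENNReal.ofReal (ε * r / 4) :=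
      (measure_mono hsub).trans ((measure_union_le _ _).trans (add_le_add hv₁ hv₂))
    rw [← ENNReal.ofReal_add (by linarith only [hl0, hlen]) (by positivity), hJ, Real.volume_Ioo,
      ENNReal.ofReal_le_ofReal_iff (by linarith only [hl0, hlen, hr])] at h1
    linarith only [mul_nonneg (le_of_lt (sub_pos.2 hε1)) (sub_nonneg.2 h1), mul_nonneg (le_of_lt (sub_pos.2 hε)) (sub_nonneg.2 hl0), mul_pos (sub_pos.2 hε) (sub_pos.2 hlen)]
  obtain ⟨s, hsJ, h1, h2⟩ := hex
  have hs0 : 0 < s := (hJ0 hsJ).1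
  have h3 : f s < ENNReal.ofReal lam := by
    by_contra hcon
    exact h2 ⟨hsJ, not_lt.1 hcon⟩
  have h4 : ∫⁻ θ in ang, ENNReal.ofReal ‖grad v (circleMap x s θ)‖ < ⊤ := by
    by_contra hcon
    rw [not_lt, top_le_iff] at hcon
    have : f s = ⊤ := by
      rw [hf]
      simp only
      rw [hcon, ENNReal.mul_top (ENNReal.ofReal_pos.2 hs0).ne']
    rw [this] at h3
    exact absurd h3 not_top_lt
  obtain ⟨h5, h6⟩ := densC_ang h4
  refine ⟨s, hsJ.1, hsJ.2, ?_, h5, ?_⟩
  · by_contra hcon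
    apply h1
    refine ⟨hsJ, ?_⟩
    have h7 : (1 : ℕ∞) + 1 ≤ (K ∩ sphere x s).encard := Order.add_one_le_of_lt (not_le.1 hcon)
    exact le_trans (by norm_num) h7
  · rw [← hlam]
    have h7 : ENNReal.ofReal (s * ∫ θ in Ioc 0 (2 * π), ‖grad v (circleMap x s θ)‖) <
        ENNReal.ofReal lam := by
      rw [ENNReal.ofReal_mul hs0.le, h6]
      exact h3
    exact ((ENNReal.ofReal_lt_ofReal_iff hlam0).1 h7).le

end Vale.Agent.P128.Q
end

section

/-! C5, part D: convergence of the `L¹` norms of the gradients (upper bound). -/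

open MeasureTheory Set Metric Filter
open scoped ENNReal NNReal ContDiff Topology Real

namespace Vale.Agent.P128.Q

open Vale.Agent.P128
open Vale.Agent.P128.GM (measurable_grad)

theorem Lim.norm_le {c₁ : ℝ} {R κ : ℕ → ℝ} {v : ℕ → ℂ → ℝ} {Kj : ℕ → Set ℂ} {u₀ : ℂ → ℝ}
    {K₀ : Set ℂ} {c : ℕ → ℂ → ℝ} (hS : Seq c₁ R κ v Kj) (h : Lim v Kj u₀ K₀ c) {x : ℂ} {r : ℝ}
    (hr : 0 < r) {a : ℝ} (ha : ∫ z in ball x r, ‖grad u₀ z‖ < a) :
    ∀ᶠ j in atTop, ∫ z in ball x r, ‖grad (v j) z‖ ≤ a := by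
  obtain ⟨gap, hgap⟩ : ∃ gap, gap = a - ∫ z in ball x r, ‖grad u₀ z‖ := ⟨_, rfl⟩
  have hg0 : 0 < gap := by rw [hgap]; linarith
  obtain ⟨D, hD⟩ : ∃ D : ℝ, D = 2 * π * r + (2 * r) ^ 2 := ⟨_, rfl⟩
  have hD0 : 0 < D := by rw [hD]; positivity
  obtain ⟨t, ht⟩ : ∃ t : ℝ, t = 4 * D / gap := ⟨_, rfl⟩
  have ht0 : 0 < t := by rw [ht]; positivity
  obtain ⟨V, hV⟩ : ∃ V : ℝ, V = (volume (ball x r)).toReal := ⟨_, rfl⟩
  have hVfin : volume (ball x r) < ⊤ := measure_ball_lt_top
  have hV0 : 0 ≤ V := by rw [hV]; exact ENNReal.toReal_nonneg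
  obtain ⟨τ, hτ⟩ : ∃ τ : ℝ, τ = gap / (4 * (V + 1)) := ⟨_, rfl⟩
  have hτ0 : 0 < τ := by rw [hτ]; positivity
  have hτV : τ * V ≤ gap / 4 := by
    rw [hτ, div_mul_eq_mul_div, div_le_iff₀ (by positivity)]
    linarith only [hg0]
  -- the compact set
  have hWo : IsOpen (ball x r \ K₀) := isOpen_ball.sdiff h.closed
  have hWv : volume (ball x r \ K₀) = volume (ball x r) :=
    measure_sdiff_null (h.vol_zero hS)
  obtain ⟨δ, hδ⟩ : ∃ δ : ℝ, δ = gap / (4 * t) := ⟨_, rfl⟩
  have hδ0 : 0 < δ := by rw [hδ]; positivity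
  obtain ⟨C, hCW, hC, hCv⟩ : ∃ C ⊆ ball x r \ K₀, IsCompact C ∧
      volume (ball x r) < volume C + ENNReal.ofReal δ := by
    have hlt : volume (ball x r) - ENNReal.ofReal δ < volume (ball x r \ K₀) := by
      rw [hWv]
      exact ENNReal.sub_lt_self hVfin.ne (measure_ball_pos volume x hr).ne'
        (ENNReal.ofReal_pos.2 hδ0).ne'
    obtain ⟨C, h1, h2, h3⟩ := hWo.exists_lt_isCompact hlt
    refine ⟨C, h1, h2, ?_⟩
    by_contra hcon
    push Not at hcon
    exact absurd (h3.trans_le (ENNReal.le_sub_of_add_le_right ENNReal.ofReal_ne_top hcon))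
      (lt_irrefl _)
  have hCb : C ⊆ ball x r := hCW.trans sdiff_subset
  have hCK : C ⊆ K₀ᶜ := fun z hz => (hCW hz).2
  have hCfin : volume C < ⊤ := (measure_mono hCb).trans_lt hVfin
  have hdiff : (volume (ball x r \ C)).toReal ≤ δ := by
    rw [measure_sdiff hCb hC.measurableSet.nullMeasurableSet hCfin.ne]
    refine ENNReal.toReal_le_of_le_ofReal hδ0.le ?_
    rw [tsub_le_iff_left]
    exact hCv.le
  have hui : IntegrableOn (fun z => ‖grad u₀ z‖) (ball x r) := densA_norm_int (h.int hS x r)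
  filter_upwards [Metric.tendstoUniformlyOn_iff.1 (h.gconv C hC hCK) τ hτ0,
    limBasic_up hS x hr] with j h1 h2
  have hvi2 : IntegrableOn (fun z => ‖grad (v j) z‖ ^ 2) (ball x r) :=
    limBasic_intOn (hS.am j) h2.1.le
  have hvi : IntegrableOn (fun z => ‖grad (v j) z‖) (ball x r) := densA_norm_int hvi2
  have hsplit : ∫ z in ball x r, ‖grad (v j) z‖ =
      (∫ z in C, ‖grad (v j) z‖) + ∫ z in ball x r \ C, ‖grad (v j) z‖ := by
    rw [setIntegral_sdiff hC.measurableSet hvi hCb]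
    ring
  have i1 : ∫ z in C, ‖grad (v j) z‖ ≤ (∫ z in ball x r, ‖grad u₀ z‖) + gap / 4 := by
    have e0 : IntegrableOn (fun _ : ℂ => τ) C := integrableOn_const (by exact hCfin.ne)
    have e1 : ∫ z in C, ‖grad (v j) z‖ ≤ ∫ z in C, (‖grad u₀ z‖ + τ) := by
      refine setIntegral_mono_on (hvi.mono_set hCb) ((hui.mono_set hCb).add e0)
        hC.measurableSet fun z hz => ?_
      have := h1 z hz
      rw [dist_eq_norm] at this
      have h3 : ‖grad (v j) z‖ ≤ ‖grad u₀ z‖ + ‖grad u₀ z - grad (v j) z‖ := by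
        have := norm_sub_norm_le (grad (v j) z) (grad u₀ z)
        rw [norm_sub_rev] at this
        linarith only [this]
      linarith only [h3, this]
    rw [integral_add (hui.mono_set hCb) e0, setIntegral_const, smul_eq_mul] at e1
    have e2 : ∫ z in C, ‖grad u₀ z‖ ≤ ∫ z in ball x r, ‖grad u₀ z‖ :=
      setIntegral_mono_set hui (Eventually.of_forall fun z => norm_nonneg _) hCb.eventuallyLE
    have e3 : volume.real C * τ ≤ gap / 4 := by
      have : volume.real C ≤ V := by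
        rw [hV]
        exact ENNReal.toReal_mono hVfin.ne (measure_mono hCb)
      linarith only [mul_nonneg (le_of_lt (sub_pos.2 hτ0)) (sub_nonneg.2 this), hτV]
    linarith only [e3, e2, e1]
  have i2 : ∫ z in ball x r \ C, ‖grad (v j) z‖ ≤ gap / 4 + gap / 4 := by
    have hdfin : volume (ball x r \ C) < ⊤ := (measure_mono sdiff_subset).trans_lt hVfin
    have e0 : IntegrableOn (fun _ : ℂ => t) (ball x r \ C) := integrableOn_const (by exact hdfin.ne)
    have e00 : IntegrableOn (fun z => ‖grad (v j) z‖ ^ 2 / t) (ball x r \ C) :=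
      (hvi2.mono_set sdiff_subset).div_const t
    have e1 : ∫ z in ball x r \ C, ‖grad (v j) z‖ ≤
        ∫ z in ball x r \ C, (t + ‖grad (v j) z‖ ^ 2 / t) := by
      refine setIntegral_mono_on (hvi.mono_set sdiff_subset) (e0.add e00)
        (measurableSet_ball.diff hC.measurableSet) fun z _ => ?_
      have h3 : t + ‖grad (v j) z‖ ^ 2 / t - ‖grad (v j) z‖ =
          ((t - ‖grad (v j) z‖) ^ 2 + t * ‖grad (v j) z‖) / t := by
        field_simp
        ring
      have h4 : 0 ≤ ((t - ‖grad (v j) z‖) ^ 2 + t * ‖grad (v j) z‖) / t := by (clear * - ht0; positivity)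
      linarith only [h4, h3]
    rw [integral_add e0 e00, setIntegral_const, smul_eq_mul, integral_div] at e1
    have e2 : volume.real (ball x r \ C) * t ≤ gap / 4 := by
      have : volume.real (ball x r \ C) ≤ δ := hdiff
      calc volume.real (ball x r \ C) * t ≤ δ * t := by gcongr
        _ = gap / 4 := by
            rw [hδ]
            field_simp
    have e3 : (∫ z in ball x r \ C, ‖grad (v j) z‖ ^ 2) / t ≤ gap / 4 := by
      have h5 : ∫ z in ball x r \ C, ‖grad (v j) z‖ ^ 2 ≤ dir (v j) x r :=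
        setIntegral_mono_set hvi2 (Eventually.of_forall fun z => by (clear * -; positivity))
          sdiff_subset.eventuallyLE
      have h6 : 0 ≤ len (Kj j) x r := ENNReal.toReal_nonneg
      have h7 : ∫ z in ball x r \ C, ‖grad (v j) z‖ ^ 2 ≤ D := by
        rw [hD]
        linarith only [h2.2, h6, h5]
      rw [div_le_iff₀ ht0]
      calc _ ≤ D := h7
        _ = gap / 4 * t := by
            rw [ht]
            field_simp
    linarith only [e3, e2, e1]
  rw [hsplit]
  linarith only [i2, i1, hg0, hgap]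

end Vale.Agent.P128.Q
end

section

/-! C5: concentration of length at the points of small energy density. -/

open MeasureTheory Set Metric Filter
open scoped ENNReal NNReal ContDiff Topology Real

namespace Vale.Agent.P128.Q

open Vale.Agent.P128
open Vale.Agent.P128.GM (measurable_grad)

/-- Cauchy-Schwarz for the gradient on a disk. -/
theorem dens_cs {u : ℂ → ℝ} {x : ℂ} {r t : ℝ} (hr : 0 < r) (ht : 0 < t)
    (hi : IntegrableOn (fun z => ‖grad u z‖ ^ 2) (ball x r)) :
    ∫ z in ball x r, ‖grad u z‖ ≤ t * (π * r ^ 2) + dir u x r / t := by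
  have h1 : IntegrableOn (fun z => t + ‖grad u z‖ ^ 2 / t) (ball x r) :=
    (integrableOn_const (by exact measure_ball_lt_top.ne)).add (hi.div_const t)
  have h2 : ∫ z in ball x r, ‖grad u z‖ ≤ ∫ z in ball x r, (t + ‖grad u z‖ ^ 2 / t) := by
    refine integral_mono (densA_norm_int hi) h1 fun z => ?_
    show ‖grad u z‖ ≤ t + ‖grad u z‖ ^ 2 / t
    have h3 : t + ‖grad u z‖ ^ 2 / t - ‖grad u z‖ =
        ((t - ‖grad u z‖) ^ 2 + t * ‖grad u z‖) / t := by
      field_simp
      ring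
    have h4 : 0 ≤ ((t - ‖grad u z‖) ^ 2 + t * ‖grad u z‖) / t := by positivity
    linarith
  refine h2.trans (le_of_eq ?_)
  have hc : IntegrableOn (fun _ : ℂ => t) (ball x r) :=
    integrableOn_const (by exact measure_ball_lt_top.ne)
  rw [integral_add hc (hi.div_const t),
    setIntegral_const, Measure.real, Complex.volume_ball, integral_div]
  unfold dir
  congr 1
  rw [ENNReal.toReal_mul, ENNReal.toReal_pow, ENNReal.toReal_ofReal hr.le, smul_eq_mul]
  simp
  ring

/-- the contradiction for one almost minimizer -/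
theorem AMin.dens_step {c₁ R κ : ℝ} {v : ℂ → ℝ} {K : Set ℂ} (h : AMin c₁ R κ v K) {x y : ℂ}
    {r ε : ℝ} (hr : 0 < r) (hx : ‖x‖ + r < R) (hε : 0 < ε) (hε1 : ε < 1) (hy : y ∈ K)
    (hyx : dist y x < ε * r / 16) (hκ : κ < ε / (256 * r))
    (hI : ∫ z in ball x r, ‖grad v z‖ < ε ^ 2 / 1000 * (r * √r)) :
    2 * (1 - ε) * r ≤ len K x r := by
  by_contra hcon
  push Not at hcon
  have hπ := Real.pi_pos
  have hπ4 := Real.pi_lt_four
  obtain ⟨B, hB⟩ : ∃ B : ℝ, B = ε ^ 2 / 1000 * (r * √r) := ⟨_, rfl⟩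
  rw [← hB] at hI
  have hsr : √r * √r = r := Real.mul_self_sqrt hr.le
  have hsr0 : 0 < √r := Real.sqrt_pos.2 hr
  have hB0 : 0 < B := by rw [hB]; positivity
  have hBB : B ^ 2 = ε ^ 4 / 1000000 * r ^ 3 := by
    rw [hB]
    calc (ε ^ 2 / 1000 * (r * √r)) ^ 2 = ε ^ 4 / 1000000 * (r ^ 2 * (√r * √r)) := by ring
      _ = _ := by rw [hsr]; ring
  have hbR : ball x r ⊆ ball (0 : ℂ) R := AMin.sub hx.le
  have hint : IntegrableOn (fun z => ‖grad v z‖ ^ 2) (ball x r) := h.int.mono_set hbR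
  have hint1 : IntegrableOn (fun z => ‖grad v z‖) (ball x r) := densA_norm_int hint
  have hfin : μH[1] (K ∩ ball x r) < ⊤ :=
    lt_of_le_of_lt (measure_mono (inter_subset_inter_right _ hbR)) h.fin
  obtain ⟨s, h1, h2, h3, h4, h5⟩ := exists_good_radius hr hε hint1 hI hfin hcon
  have hs0 : 0 < s := lt_trans (by positivity) h1
  have hxs : ‖x‖ + s < R := by linarith only [h2, hx]
  have hosc := circle_osc h.isOpen h.smooth hs0 hxs h3 h4
  obtain ⟨om, hom⟩ : ∃ om : ℝ, om = 4 * B / (ε * r) := ⟨_, rfl⟩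
  rw [← hom] at h5
  have hom0 : 0 < om := by rw [hom]; positivity
  obtain ⟨m, hm⟩ : ∃ m : ℝ, ∀ z ∈ sphere x s, z ∉ K → |v z - m| ≤ om := by
    by_cases hex : ∃ a ∈ sphere x s, a ∉ K
    · obtain ⟨a, ha, haK⟩ := hex
      exact ⟨v a, fun z hz hzK => (hosc z hz hzK a ha haK).trans h5⟩
    · push Not at hex
      exact ⟨0, fun z hz hzK => absurd (hex z hz) hzK⟩
  have h6 := h.clamp_compare hs0 hxs hom0.le hm
  have h7 : ∫ z in ball x s, ‖grad v z‖ ≤ B :=
    (setIntegral_mono_set hint1 (Eventually.of_forall fun z => norm_nonneg _)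
      (ball_subset_ball h2.le).eventuallyLE).trans hI.le
  -- lower bound
  have hyx' : dist y x < s / 4 := by linarith only [h1, hyx]
  have hsubb : ball y (s / 2) ⊆ ball x (3 * s / 4) := by
    refine ball_subset_ball' ?_
    linarith only [hyx']
  have hb34 : ball x (3 * s / 4) ⊆ ball x r := ball_subset_ball (by linarith only [hs0, h2])
  have hyR : ‖y‖ + s / 2 < R := by
    have : ‖y‖ ≤ ‖x‖ + dist y x := by
      rw [dist_eq_norm]
      calc ‖y‖ = ‖x + (y - x)‖ := by rw [add_sub_cancel]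
        _ ≤ ‖x‖ + ‖y - x‖ := norm_add_le _ _
    linarith only [this, hyx', hs0, h2, hx]
  have h8 := h.low y hy (s / 2) (by positivity) hyR
  have h9 : dir v y (s / 2) ≤ dir v x (3 * s / 4) :=
    setIntegral_mono_set (hint.mono_set hb34) (Eventually.of_forall fun z => by (clear * -; positivity))
      hsubb.eventuallyLE
  have h10 : len K y (s / 2) ≤ len K x (3 * s / 4) := by
    refine ENNReal.toReal_mono ?_ (measure_mono (inter_subset_inter_right _ hsubb))
    exact (lt_of_le_of_lt (measure_mono (inter_subset_inter_right _ hb34)) hfin).ne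
  -- upper bounds
  have h11 : 8 * om / s * (∫ z in ball x s, ‖grad v z‖) ≤ 128 * B ^ 2 / (ε ^ 2 * r ^ 2) := by
    have e1 : 8 * om / s ≤ 8 * om / (ε * r / 4) := by gcongr
    calc 8 * om / s * (∫ z in ball x s, ‖grad v z‖) ≤ 8 * om / (ε * r / 4) * B := by
          gcongr
      _ = 128 * B ^ 2 / (ε ^ 2 * r ^ 2) := by
          rw [hom]
          field_simp
          ring
  have h12 : 16 * π * om ^ 2 ≤ 1024 * B ^ 2 / (ε ^ 2 * r ^ 2) := by
    calc 16 * π * om ^ 2 ≤ 16 * 4 * om ^ 2 := by gcongr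
      _ = 1024 * B ^ 2 / (ε ^ 2 * r ^ 2) := by
          rw [hom]
          field_simp
          ring
  have h13 : κ * (2 * s) ^ 2 ≤ ε * r / 64 := by
    have hκ0 := h.κ0
    calc κ * (2 * s) ^ 2 ≤ ε / (256 * r) * (2 * r) ^ 2 := by gcongr
      _ = ε * r / 64 := by
          field_simp
          ring
  have h14 : 128 * B ^ 2 / (ε ^ 2 * r ^ 2) + 1024 * B ^ 2 / (ε ^ 2 * r ^ 2) ≤ ε * r / 64 := by
    rw [hBB]
    have e1 : 128 * (ε ^ 4 / 1000000 * r ^ 3) / (ε ^ 2 * r ^ 2) +
        1024 * (ε ^ 4 / 1000000 * r ^ 3) / (ε ^ 2 * r ^ 2) = 1152 / 1000000 * (ε * ε) * r := by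
      field_simp
      ring
    rw [e1]
    have e2 : ε * ε ≤ ε * 1 := by gcongr
    have e3 : 1152 / 1000000 * (ε * ε) * r ≤ 1152 / 1000000 * (ε * 1) * r := by gcongr
    have e4 : 0 < ε * r := by positivity
    linarith only [e4, e3]
  linarith only [h14, h13, h12, h11, h10, h9, h8, h6, hs0, h1]

/-- C5 (Q/Dens.lean) -/
theorem Lim.dens {c₁ : ℝ} {R κ : ℕ → ℝ} {v : ℕ → ℂ → ℝ} {Kj : ℕ → Set ℂ} {u₀ : ℂ → ℝ}
    {K₀ : Set ℂ} {c : ℕ → ℂ → ℝ} (hS : Seq c₁ R κ v Kj) (h : Lim v Kj u₀ K₀ c) {x : ℂ}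
    (hx : x ∈ K₀) (h0 : Tendsto (fun r => dir u₀ x r / r) (𝓝[>] 0) (𝓝 0)) {ε : ℝ} (hε : 0 < ε) :
    ∃ r₁ : ℝ, 0 < r₁ ∧ ∀ r : ℝ, 0 < r → r < r₁ → ∀ᶠ j in atTop,
      2 * (1 - ε) * r ≤ len (Kj j) x r := by
  by_cases hε1 : ε < 1
  swap
  · refine ⟨1, one_pos, fun r hr _ => Eventually.of_forall fun j => ?_⟩
    have h1 : 0 ≤ len (Kj j) x r := ENNReal.toReal_nonneg
    have h2 : 2 * (1 - ε) * r ≤ 0 := by
      have : 0 ≤ (ε - 1) * r := mul_nonneg (by linarith) hr.le
      linarith only [this]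
    linarith
  have hπ := Real.pi_pos
  have hπ4 := Real.pi_lt_four
  obtain ⟨η, hη⟩ : ∃ η : ℝ, η = ε ^ 2 / 1000 := ⟨_, rfl⟩
  have hη0 : 0 < η := by rw [hη]; positivity
  have hev : ∀ᶠ r in 𝓝[>] (0 : ℝ), dir u₀ x r / r < η ^ 2 / 100 :=
    h0.eventually_lt_const (by positivity)
  obtain ⟨r₁, hr₁, h1⟩ := mem_nhdsGT_iff_exists_Ioo_subset.1 hev
  refine ⟨r₁, hr₁, fun r hr hrr => ?_⟩
  have h2 : dir u₀ x r / r < η ^ 2 / 100 := h1 ⟨hr, hrr⟩
  have h3 : dir u₀ x r < η ^ 2 / 100 * r := by rwa [div_lt_iff₀ hr] at h2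
  have hsr : √r * √r = r := Real.mul_self_sqrt hr.le
  have hsr0 : 0 < √r := Real.sqrt_pos.2 hr
  have h4 : ∫ z in ball x r, ‖grad u₀ z‖ < η * (r * √r) / 2 := by
    refine (dens_cs hr (t := η / 10 / √r) (by positivity) (h.int hS x r)).trans_lt ?_
    have e1 : η / 10 / √r * (π * r ^ 2) = π / 10 * (η * (r * √r)) := by
      rw [show η / 10 / √r * (π * r ^ 2) = π / 10 * η * (r * (r / √r)) by ring]
      have : r / √r = √r := by
        rw [div_eq_iff hsr0.ne', hsr]
      rw [this]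
      ring
    have e2 : dir u₀ x r / (η / 10 / √r) ≤ 1 / 10 * (η * (r * √r)) := by
      rw [div_le_iff₀ (by positivity)]
      have : 1 / 10 * (η * (r * √r)) * (η / 10 / √r) = η ^ 2 / 100 * r := by
        field_simp
        ring
      rw [this]
      exact h3.le
    have e3 : 0 < η * (r * √r) := by positivity
    rw [e1]
    (by_contra nlg; linarith only [nlg, mul_pos (sub_pos.2 hπ4) (sub_pos.2 e3), mul_nonneg (le_of_lt (sub_pos.2 hπ4)) (sub_nonneg.2 e2), mul_nonneg (le_of_lt (sub_pos.2 hπ)) (sub_nonneg.2 e2), mul_nonneg (sub_nonneg.2 (not_lt.1 nlg)) (le_of_lt (sub_pos.2 hπ4)), mul_nonneg (sub_nonneg.2 (not_lt.1 nlg)) (le_of_lt (sub_pos.2 hπ))])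
  have h5 := Lim.norm_le hS h hr h4
  filter_upwards [h5, hS.Rinf.eventually_gt_atTop (‖x‖ + r),
    hS.κ0.eventually_lt_const (show (0 : ℝ) < ε / (256 * r) by positivity),
    h.near x hx (ε * r / 16) (by positivity)] with j g1 g2 g3 g4
  obtain ⟨y, hy, hyx⟩ := g4
  refine (hS.am j).dens_step hr g2 hε hε1 hy hyx g3 (g1.trans_lt ?_)
  rw [← hη]
  have : 0 < η * (r * √r) := by positivity
  linarith only [this]

end Vale.Agent.P128.Q
end

section

/-! Lower semicontinuity of the length and of the energy along a sequence of almost minimizers. -/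

open MeasureTheory Set Metric Filter
open scoped ENNReal NNReal ContDiff Topology Real

namespace Vale.Agent.P128.Q

open Vale.Agent.P128

variable {c₁ : ℝ} {R κ : ℕ → ℝ} {v : ℕ → ℂ → ℝ} {Kj : ℕ → Set ℂ} {u₀ : ℂ → ℝ} {K₀ : Set ℂ}
  {c : ℕ → ℂ → ℝ}

/-- The lengths in disjoint disks add up to at most the length in a disk containing them. -/
theorem sum_len_le {K : Set ℂ} {x : ℂ} {s : ℝ} (hK : μH[1] (K ∩ ball x s) < ⊤) (F : Finset ℂ)
    (r : ℂ → ℝ) (hd : (F : Set ℂ).PairwiseDisjoint fun y => ball y (r y))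
    (hs : ∀ y ∈ F, ball y (r y) ⊆ ball x s) :
    ∑ y ∈ F, len K y (r y) ≤ len K x s := by
  classical
  have h1 : ∀ y ∈ F, μH[1] (K ∩ ball y (r y)) ≠ ⊤ := fun y hy =>
    ((measure_mono (inter_subset_inter_right K (hs y hy))).trans_lt hK).ne
  unfold len
  rw [← ENNReal.toReal_sum h1]
  refine ENNReal.toReal_mono hK.ne ?_
  have h2 : ∀ y : ℂ, μH[1] (K ∩ ball y (r y)) =
      ((μH[1] : Measure ℂ).restrict K) (ball y (r y)) := fun y => by
    rw [Measure.restrict_apply measurableSet_ball, inter_comm]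
  simp_rw [h2]
  rw [← measure_biUnion_finset hd fun y _ => measurableSet_ball,
    Measure.restrict_apply (Finset.measurableSet_biUnion F fun y _ => measurableSet_ball),
    inter_comm]
  exact measure_mono (inter_subset_inter_right K (iUnion₂_subset hs))

set_option linter.unusedVariables false in
/-- C6: **lower semicontinuity of the length** along a converging sequence of almost
minimizers. -/
theorem Lim.len_lower (hS : Seq c₁ R κ v Kj) (h : Lim v Kj u₀ K₀ c) (x : ℂ) {s : ℝ} (hs : 0 < s)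
    {ε : ℝ} (hε : 0 < ε) :
    ∀ᶠ j in atTop, len K₀ x s - ε ≤ len (Kj j) x s := by
  classical
  by_cases hl : len K₀ x s ≤ ε
  · exact Eventually.of_forall fun j => (sub_nonpos.2 hl).trans ENNReal.toReal_nonneg
  push Not at hl
  have hfin := Lim.len_fin hS h x s
  set S : Set ℂ := K₀ ∩ ball x s with hSdef
  have hSm : MeasurableSet S := h.closed.measurableSet.inter measurableSet_ball
  set G : Set ℂ := {y ∈ S | Tendsto (fun r => dir u₀ y r / r) (𝓝[>] 0) (𝓝 0)} with hG
  have hnull : μH[1] (S \ G) = 0 := by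
    refine measure_mono_null ?_ (ae_dens_zero (f := fun z => ‖grad u₀ z‖ ^ 2)
      (fun z => by positivity) (Lim.int hS h) h.closed (Lim.vol_zero hS h) (Lim.len_fin hS h))
    rintro y ⟨hy, hyG⟩
    exact ⟨hy.1, fun ht => hyG ⟨hy, ht⟩⟩
  set ℓ : ℝ := len K₀ x s with hℓ
  set ε' : ℝ := min 1 (ε / (4 * ℓ)) with hε'
  have hℓ0 : 0 < ℓ := hε.trans hl
  have hε'0 : 0 < ε' := lt_min one_pos (by positivity)
  have hε'1 : ε' ≤ 1 := min_le_left _ _
  have hε'2 : ε' * ℓ ≤ ε / 4 := by
    have h1 : ε' ≤ ε / (4 * ℓ) := min_le_right _ _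
    calc ε' * ℓ ≤ ε / (4 * ℓ) * ℓ := by gcongr
      _ = ε / 4 := by field_simp
  have hex : ∀ y, ∃ ρ : ℝ, y ∈ G → 0 < ρ ∧ ∀ r : ℝ, 0 < r → r < ρ → ∀ᶠ j in atTop,
      2 * (1 - ε') * r ≤ len (Kj j) y r := by
    intro y
    by_cases hy : y ∈ G
    · obtain ⟨ρ, hρ, h1⟩ := Lim.dens hS h hy.1.1 hy.2 hε'0
      exact ⟨ρ, fun _ => ⟨hρ, h1⟩⟩
    · exact ⟨0, fun h => absurd h hy⟩
  choose ρ hρ using hex
  have ha : ENNReal.ofReal (ℓ - ε / 4) < μH[1] S := by
    rw [← ENNReal.ofReal_toReal hfin.ne]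
    exact (ENNReal.ofReal_lt_ofReal_iff hℓ0).2 (sub_lt_self ℓ (by positivity))
  obtain ⟨F, r, hF, hFd, hFs⟩ := exists_balls hSm hfin isOpen_ball (fun y hy => hy.1)
    inter_subset_right hnull (fun y hy => (hρ y hy).1) ha
  have hsum : ℓ - ε / 4 < ∑ y ∈ F, 2 * r y := by
    rw [← ENNReal.ofReal_sum_of_nonneg fun y hy => by
      have := (hF y hy).2.1
      positivity] at hFs
    exact (ENNReal.ofReal_lt_ofReal_iff_of_nonneg (by linarith only [hl, hε])).1 hFs
  have hev : ∀ᶠ j in atTop, ∀ y ∈ F, 2 * (1 - ε') * r y ≤ len (Kj j) y (r y) :=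
    (Filter.eventually_all_finset F).2 fun y hy => (hρ y (hF y hy).1).2 _ (hF y hy).2.1
      (hF y hy).2.2.1
  filter_upwards [hev, hS.Rinf.eventually_gt_atTop (‖x‖ + s)] with j hj hR
  have hfinj : μH[1] (Kj j ∩ ball x s) < ⊤ := by
    refine (measure_mono (inter_subset_inter_right _ ?_)).trans_lt (hS.am j).fin
    refine ball_subset_ball' ?_
    rw [dist_zero_right]
    linarith only [hR]
  have h1 : ∑ y ∈ F, len (Kj j) y (r y) ≤ len (Kj j) x s := by
    refine sum_len_le hfinj F r ?_ fun y hy => ball_subset_closedBall.trans (hF y hy).2.2.2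
    exact hFd.mono fun y => ball_subset_closedBall
  have h2 : (1 - ε') * ∑ y ∈ F, 2 * r y ≤ ∑ y ∈ F, len (Kj j) y (r y) := by
    rw [Finset.mul_sum]
    refine Finset.sum_le_sum fun y hy => ?_
    have := hj y hy
    linarith
  have h3 : (1 - ε') * (ℓ - ε / 4) ≤ (1 - ε') * ∑ y ∈ F, 2 * r y :=
    mul_le_mul_of_nonneg_left hsum.le (by linarith only [hε'1])
  (by_contra nlg; linarith only [nlg, mul_nonneg (sub_nonneg.2 hε'1) (sub_nonneg.2 h2), mul_nonneg (sub_nonneg.2 hε'1) (sub_nonneg.2 h1), mul_nonneg (sub_nonneg.2 hε'1) (le_of_lt (sub_pos.2 hsum)), mul_nonneg (sub_nonneg.2 hε'1) (sub_nonneg.2 hε'2), mul_nonneg (le_of_lt (sub_pos.2 hε'0)) (sub_nonneg.2 h2), mul_nonneg (le_of_lt (sub_pos.2 hε'0)) (sub_nonneg.2 h1), mul_nonneg (le_of_lt (sub_pos.2 hε'0)) (sub_nonneg.2 hε'2), mul_pos (sub_pos.2 hl) (sub_pos.2 hε'0), mul_pos (sub_pos.2 hε) (sub_pos.2 hε'0), mul_nonneg (le_of_lt (sub_pos.2 (not_le.1 nlg))) (sub_nonneg.2 hε'1), mul_pos (sub_pos.2 (not_le.1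 nlg)) (sub_pos.2 hε'0)])

/-- Lower semicontinuity of the sum of Dirichlet energy and length. -/
theorem Lim.lower (hS : Seq c₁ R κ v Kj) (h : Lim v Kj u₀ K₀ c) (x : ℂ) {s : ℝ} (hs : 0 < s)
    {ε : ℝ} (hε : 0 < ε) :
    ∀ᶠ j in atTop, dir u₀ x s + len K₀ x s - ε ≤ dir (v j) x s + len (Kj j) x s := by
  filter_upwards [Lim.len_lower hS h x hs (half_pos hε), Lim.dir_le hS h x s (half_pos hε)]
    with j h1 h2
  linarith

end Vale.Agent.P128.Q
end

section

/-! Limits of almost minimizers are reduced, if they are global minimizers. -/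

open MeasureTheory Set Metric Filter Function
open scoped ENNReal NNReal ContDiff Topology Real

namespace Vale.Agent.P128.Q

open Vale.Agent.P128
open Vale.Agent.P128.GM

variable {u : ℂ → ℝ} {K : Set ℂ}

/-- Almost every circle does not meet a set of zero length. -/
theorem lrc_ae {x : ℂ} {r : ℝ} (h0 : μH[1] (K ∩ ball x r) = 0) :
    ∀ᵐ s : ℝ, s < r → K ∩ sphere x s = ∅ := by
  set S : Set ℝ := {s | s < r ∧ K ∩ sphere x s ≠ ∅} with hS
  have h1 : volume S = 0 := by
    have := eilenberg (X := ℂ) (f := fun z => dist z x) (LipschitzWith.dist_left x)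
      (E := K ∩ ball x r) (m := 1) (S := S) fun s hs => by
        obtain ⟨z, hzK, hz⟩ := nonempty_iff_ne_empty.2 hs.2
        rw [Nat.cast_one, one_le_encard_iff_nonempty]
        refine ⟨z, ⟨hzK, ?_⟩, hz⟩
        rw [mem_ball, mem_sphere.1 hz]
        exact hs.1
    rw [Nat.cast_one, one_mul] at this
    exact le_antisymm (this.trans ((measure_mono inter_subset_left).trans h0.le)) bot_le
  have h2 : ∀ᵐ s : ℝ, s ∉ S := measure_eq_zero_iff_ae_notMem.1 h1
  filter_upwards [h2] with s hs hsr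
  by_contra hne
  exact hs ⟨hsr, hne⟩

theorem lrc_trans (x : ℂ) (s : ℝ) : GM.En (fun z => u (z - -x)) s = dir u x s := by
  unfold GM.En dir
  rw [← integral_indicator measurableSet_ball, ← integral_indicator measurableSet_ball,
    ← integral_add_right_eq_self ((ball x s).indicator fun z => ‖grad u z‖ ^ 2) x]
  refine integral_congr_ae (Eventually.of_forall fun z => ?_)
  simp only
  by_cases hz : z ∈ ball (0 : ℂ) s
  · have hz' : z + x ∈ ball x s := by
      rw [mem_ball, dist_eq_norm] at hz ⊢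
      simpa using hz
    rw [indicator_of_mem hz, indicator_of_mem hz', grad_translate, sub_neg_eq_add]
  · have hz' : z + x ∉ ball x s := by
      rw [mem_ball, dist_eq_norm] at hz ⊢
      simpa using hz
    rw [indicator_of_notMem hz, indicator_of_notMem hz']

theorem lrc_trans_int (h : IsGlobalMin u (grad u) K) (x : ℂ) (s : ℝ) :
    IntegrableOn (fun z => ‖grad (fun z => u (z - -x)) z‖ ^ 2) (ball 0 s) := by
  have h1 := lra_integrableOn h x s
  have h2 := (integrable_indicator_iff measurableSet_ball).2 h1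
  have h3 := h2.comp_add_right x
  rw [← integrable_indicator_iff measurableSet_ball]
  refine h3.congr (Eventually.of_forall fun z => ?_)
  simp only
  by_cases hz : z ∈ ball (0 : ℂ) s
  · have hz' : z + x ∈ ball x s := by
      rw [mem_ball, dist_eq_norm] at hz ⊢
      simpa using hz
    rw [indicator_of_mem hz, indicator_of_mem hz', grad_translate, sub_neg_eq_add]
  · have hz' : z + x ∉ ball x s := by
      rw [mem_ball, dist_eq_norm] at hz ⊢
      simpa using hz
    rw [indicator_of_notMem hz, indicator_of_notMem hz']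

/-- Decay of the energy in a disk in which the singular set has no length. -/
theorem lrc_decay (h : IsGlobalMin u (grad u) K) (hu : ContDiffOn ℝ 1 u Kᶜ) {x : ℂ} {r : ℝ}
    (h0 : μH[1] (K ∩ ball x r) = 0) {a b : ℝ} (ha : 0 < a) (hab : a < b) (hb : b ≤ r)
    (hpos : 0 < dir u x a) : dir u x a ≤ (a / b) ^ 2 * dir u x b := by
  have hK := h.closed
  set w : ℂ → ℝ := fun z => u (z - -x) with hw
  have hb0 : 0 < b := ha.trans hab
  have hpol := fun (s t : ℝ) (hs : 0 < s) (hst : s ≤ t) =>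
    polar_of_integrable (u := w) (lrc_trans_int h x) hs hst
  have hmono : ∀ s ∈ Icc a b, dir u x a ≤ dir u x s := by
    intro s hs
    exact setIntegral_mono_set (lra_integrableOn h x s)
      (Eventually.of_forall fun z => by positivity)
      (HasSubset.Subset.eventuallyLE (ball_subset_ball hs.1))
  have hNT : ∀ s, 0 < s → 0 ≤ NN w s + TT w s := by
    intro s hs
    have hpi : (-π) ≤ π := by linarith [Real.pi_pos]
    refine add_nonneg (mul_nonneg hs.le ?_) (mul_nonneg hs.le ?_) <;>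
    exact intervalIntegral.integral_nonneg hpi fun θ _ => sq_nonneg _
  have key := log_growth (V := fun s => GM.En w s) (q := fun s => NN w s + TT w s)
    (γ := fun s => 2 * s⁻¹) hab
    (fun s hs => by
      show 0 < GM.En w s
      rw [lrc_trans]; exact hpos.trans_le (hmono s hs))
    (hpol a b ha hab.le).1 (fun s hs => hNT s (ha.trans_le hs.1))
    (fun s t hs hst ht => ((hpol s t (ha.trans_le hs) hst).2).ge)
    ?_ ?_
  · have e1 : ∫ s in a..b, 2 * s⁻¹ = 2 * Real.log (b / a) := by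
      rw [intervalIntegral.integral_const_mul, integral_inv_of_pos ha hb0]
    rw [e1] at key
    simp only [hw, lrc_trans] at key
    have hVb : 0 < dir u x b := hpos.trans_le (hmono b ⟨hab.le, le_rfl⟩)
    rw [Real.log_div hb0.ne' ha.ne'] at key
    have h1 : Real.log (dir u x a) ≤ Real.log ((a / b) ^ 2 * dir u x b) := by
      rw [Real.log_mul (by positivity) hVb.ne', Real.log_pow, Real.log_div ha.ne' hb0.ne']
      push_cast
      linarith
    exact (Real.log_le_log_iff hpos (by positivity)).1 h1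
  · refine ContinuousOn.intervalIntegrable ?_
    rw [uIcc_of_le hab.le]
    refine continuousOn_const.mul (continuousOn_inv₀.mono fun s hs => ?_)
    exact (ha.trans_le hs.1).ne'
  · filter_upwards [lrc_ae h0] with s hs hsI
    have hs0 : 0 < s := ha.trans hsI.1
    have hsph := hs (hsI.2.trans_le hb)
    have hVs : 0 < GM.En w s := by
      rw [lrc_trans]; exact hpos.trans_le (hmono s ⟨hsI.1.le, hsI.2.le⟩)
    have hE := lra_half hK hu hs0 hsph (lrb_green h hu hs0 hsph)
    have hgc : Continuous fun θ : ℝ => grad u (circleMap x s θ) := by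
      refine continuousOn_univ.1 ?_
      exact (lra_grad_cont hK hu).comp (continuous_circleMap x s).continuousOn
        fun θ _ => lra_circle_mem hs0 hsph θ
    have e2 : ∀ θ : ℝ, grad w (circleMap 0 s θ) = grad u (circleMap x s θ) := by
      intro θ
      rw [hw, grad_translate]
      congr 1
      simp [circleMap, add_comm]
    have i1 : IntegrableOn (fun θ => ‖grad w (circleMap 0 s θ)‖ ^ 2) ang := by
      simp only [e2]
      exact lra_integrableOn_ang (hgc.norm.pow 2)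
    rw [le_div_iff₀ hVs, NN_add_TT i1]
    simp only [e2]
    rw [lrc_trans]
    calc 2 * s⁻¹ * dir u x s ≤ 2 * s⁻¹ *
          (s ^ 2 / 2 * ∫ θ in ang, ‖grad u (circleMap x s θ)‖ ^ 2) :=
        mul_le_mul_of_nonneg_left hE (by positivity)
      _ = s * ∫ θ in ang, ‖grad u (circleMap x s θ)‖ ^ 2 := by
        field_simp

/-- Lower bound for the energy of the limit on circles which do not meet the limit set. -/
theorem lrc_low {c₁ : ℝ} {R κ : ℕ → ℝ} {v : ℕ → ℂ → ℝ} {Kj : ℕ → Set ℂ} {u₀ : ℂ → ℝ}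
    {K₀ : Set ℂ} {c : ℕ → ℂ → ℝ} (hS : Seq c₁ R κ v Kj) (h : Lim v Kj u₀ K₀ c) {x : ℂ} (hx : x ∈ K₀)
    {s r : ℝ} (hs : 0 < s) (hsr : s < r) (h0 : μH[1] (K₀ ∩ ball x r) = 0)
    (hsph : K₀ ∩ sphere x s = ∅) : s / 2 ≤ dir u₀ x s := by
  have hlen : len K₀ x s = 0 := by
    unfold len
    rw [measure_mono_null (inter_subset_inter_right _ (ball_subset_ball hsr.le)) h0]
    rfl
  have main : ∀ ε : ℝ, 0 < ε → ε < s → (s - ε) / 2 ≤ dir u₀ x s + ε := by
    intro ε hε hεs
    have h1 := h.upper hS (x := x) (r := 0) le_rfl (w := u₀) (L := K₀) (C := ∅) h.closed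
      (LocLip.of_contDiffOn h.closed.isOpen_compl h.smooth) (h.int hS x) (h.len_fin hS x)
      isCompact_empty (empty_subset _) (fun _ _ => Iff.rfl) (fun _ _ _ => rfl)
      (fun p q _ _ hpq => hpq) hs (by rw [hsph]; exact finite_empty) hε
    obtain ⟨j, hj, hR, y, hy, hyx⟩ := (h1.and ((hS.Rinf.eventually_gt_atTop (‖x‖ + s)).and
      (h.near x hx ε hε))).exists
    have hny : ‖y‖ ≤ ‖x‖ + ‖y - x‖ := norm_le_insert' y x
    rw [dist_eq_norm] at hyx
    have h2 := (hS.am j).low y hy (s - ε) (by linarith) (by linarith)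
    have hsub : ball y (s - ε) ⊆ ball x s := by
      refine ball_subset_ball' ?_
      rw [dist_eq_norm]
      linarith
    have hfin := limBasic_len_ne (hS.am j) hR.le
    have h3 : dir (v j) y (s - ε) ≤ dir (v j) x s :=
      setIntegral_mono_set (limBasic_intOn (hS.am j) hR.le)
        (Eventually.of_forall fun z => by positivity) (HasSubset.Subset.eventuallyLE hsub)
    have h4 : len (Kj j) y (s - ε) ≤ len (Kj j) x s :=
      ENNReal.toReal_mono hfin.ne (measure_mono (inter_subset_inter_right _ hsub))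
    linarith only [h4, h3, h2, hj, hlen]
  by_contra hlt
  push Not at hlt
  set δ : ℝ := s / 2 - dir u₀ x s with hδ
  have hδ0 : 0 < δ := by linarith only [hδ, hlt]
  have hd0 : 0 ≤ dir u₀ x s := limBasic_dir_nonneg _ _ _
  have := main (δ / 2) (by linarith) (by linarith only [hd0, hδ0, hδ])
  linarith only [this, hδ0, hδ]

/-- A limit which is a global minimizer is reduced. -/
theorem lrc_reduced {c₁ : ℝ} {R κ : ℕ → ℝ} {v : ℕ → ℂ → ℝ} {Kj : ℕ → Set ℂ} {u₀ : ℂ → ℝ}
    {K₀ : Set ℂ} {c : ℕ → ℂ → ℝ} (hS : Seq c₁ R κ v Kj) (h : Lim v Kj u₀ K₀ c)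
    (hG : IsGlobalMin u₀ (grad u₀) K₀) : IsReduced univ K₀ := by
  intro x hx r hr _
  by_contra hne
  have h0 : μH[1] (K₀ ∩ ball x r) = 0 := by simpa using hne
  have hae := lrc_ae h0
  -- good radii are dense
  have hgood : ∀ ρ : ℝ, 0 < ρ → ∃ s, 0 < s ∧ s < ρ ∧ s < r ∧ K₀ ∩ sphere x s = ∅ := by
    intro ρ hρ
    have h1 : 0 < volume (Ioo 0 (min ρ r)) := by
      rw [Real.volume_Ioo]
      simp [hρ, hr]
    have h2 : ∃ᵐ s : ℝ, s ∈ Ioo 0 (min ρ r) := by
      intro hc
      have : volume (Ioo 0 (min ρ r)) = 0 := measure_eq_zero_iff_ae_notMem.2 hc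
      exact h1.ne' this
    obtain ⟨s, hs, hs'⟩ := (h2.and_eventually hae).exists
    exact ⟨s, hs.1, hs.2.trans_le (min_le_left _ _), hs.2.trans_le (min_le_right _ _),
      hs' (hs.2.trans_le (min_le_right _ _))⟩
  obtain ⟨b, hb0, -, hbr, hb⟩ := hgood r hr
  have hVb : b / 2 ≤ dir u₀ x b := lrc_low hS h hx hb0 hbr h0 hb
  have hVb0 : 0 < dir u₀ x b := by linarith only [hVb, hb0]
  obtain ⟨a, ha0, ha1, har, ha⟩ := hgood (min b (b ^ 2 / (4 * dir u₀ x b)))
    (lt_min hb0 (by positivity))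
  have hab : a < b := ha1.trans_le (min_le_left _ _)
  have ha2 : a < b ^ 2 / (4 * dir u₀ x b) := ha1.trans_le (min_le_right _ _)
  have hVa : a / 2 ≤ dir u₀ x a := lrc_low hS h hx ha0 har h0 ha
  have hd := lrc_decay hG h.smooth h0 ha0 hab hbr.le (by linarith)
  rw [lt_div_iff₀ (by positivity)] at ha2
  have h5 : a / 2 * b ^ 2 ≤ a ^ 2 * dir u₀ x b := by
    have h6 : (a / b) ^ 2 * dir u₀ x b * b ^ 2 = a ^ 2 * dir u₀ x b := by
      field_simp
    have h7 := mul_le_mul_of_nonneg_right (hVa.trans hd) (sq_nonneg b)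
    linarith only [h7, h6]
  have h8 : a * (a * (4 * dir u₀ x b)) < a * b ^ 2 := mul_lt_mul_of_pos_left ha2 ha0
  have h9 : 0 < a * b ^ 2 := by positivity
  linarith only [h9, h8, h5]

end Vale.Agent.P128.Q
end
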