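import Vale.Agent.P128.MathlibUsed
import Vale.Agent.P128.Bdl.B5
import Vale.Agent.P128.Bdl.B3
import Vale.Agent.P128.Bdl.K_GM_C_Defs
import Vale.Agent.P128.Bdl.B13
import Vale.Agent.P128.Bdl.B11
import Vale.Agent.P128.Bdl.B17
import Vale.Agent.P128.Bdl.B7
import Vale.Agent.P128.Bdl.B8
import Vale.Agent.P128.Bdl.B12
import Vale.Agent.P128.Bdl.B10

set_option linter.all false

section

/-! The trivial energy bound of a global minimizer. -/

open MeasureTheory Set Metric Filter InnerProductSpace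
open scoped ENNReal NNReal ContDiff Topology Real

namespace Vale.Agent.P128.GM

open Vale.Agent.P128

variable {u : ℂ → ℝ} {K : Set ℂ}

theorem GMin.growth (h : GMin u K) {R : ℝ} (hR : 0 < R) : En u R + Len K R ≤ 2 * π * R := by
  set L : Set ℂ := (K \ ball 0 R) ∪ sphere 0 R with hL
  set v : ℂ → ℝ := fun z => if ‖z‖ < R then 0 else u z with hv
  have hLc : IsClosed L := (h.closed.sdiff isOpen_ball).union isClosed_sphere
  have hv1 : ∀ z ∈ ball (0 : ℂ) R, v z = 0 := fun z hz => by
    rw [mem_ball_zero_iff] at hz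
    simp only [hv, if_pos hz]
  have hv2 : ∀ z, R ≤ ‖z‖ → v z = u z := fun z hz => by
    simp only [hv, if_neg (not_lt.2 hz)]
  have hLip : LocLip Lᶜ v := by
    have h1 : LocLip (ball (0 : ℂ) R) v :=
      (LocLip.const isOpen_ball 0).congr fun z hz => (hv1 z hz).symm
    have h2 : LocLip (Kᶜ ∩ (closedBall (0 : ℂ) R)ᶜ) v := by
      refine (h.locLip.mono (h.isOpen_compl.inter isClosed_closedBall.isOpen_compl)
        inter_subset_left).congr fun z hz => ?_
      have := hz.2
      rw [mem_compl_iff, mem_closedBall_zero_iff, not_le] at this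
      exact (hv2 z this.le).symm
    refine (h1.union h2).mono hLc.isOpen_compl fun z hz => ?_
    rw [hL, mem_compl_iff, mem_union, not_or] at hz
    by_cases hzb : z ∈ ball (0 : ℂ) R
    · exact Or.inl hzb
    · refine Or.inr ⟨fun hzK => hz.1 ⟨hzK, hzb⟩, fun hzc => hz.2 ?_⟩
      rw [mem_ball_zero_iff, not_lt] at hzb
      rw [mem_closedBall_zero_iff] at hzc
      rw [mem_sphere_zero_iff_norm]
      exact le_antisymm hzc hzb
  -- gradients
  have hg1 : ∀ z ∈ ball (0 : ℂ) R, grad v z = 0 := fun z hz => by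
    have : v =ᶠ[𝓝 z] fun _ => (0 : ℝ) := by
      filter_upwards [isOpen_ball.mem_nhds hz] with w hw using hv1 w hw
    rw [grad_congr this, grad_const]
  have hg2 : ∀ z, R < ‖z‖ → grad v z = grad u z := fun z hz => by
    have : v =ᶠ[𝓝 z] u := by
      filter_upwards [(isOpen_lt continuous_const continuous_norm).mem_nhds hz] with w hw
      exact hv2 w (le_of_lt hw)
    exact grad_congr this
  set B : Set ℂ := ball 0 (R + 1) with hB
  have hbB : ball (0 : ℂ) R ⊆ B := ball_subset_ball (by linarith)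
  have hsph : ∀ᵐ z : ℂ, z ∉ sphere (0 : ℂ) R := by
    have h0 : {z : ℂ | ¬ z ∉ sphere (0 : ℂ) R} = sphere 0 R := by
      ext z
      simp only [mem_ofPred_eq, not_not]
    rw [ae_iff, h0]
    exact Measure.addHaar_sphere (volume : Measure ℂ) 0 R
  have hae : ∀ᵐ z : ℂ, ‖grad v z‖ ^ 2 = (ball (0 : ℂ) R)ᶜ.indicator (fun z => ‖grad u z‖ ^ 2) z := by
    filter_upwards [hsph] with z hz
    by_cases hzb : z ∈ ball (0 : ℂ) R
    · rw [indicator_of_notMem (by simpa using hzb), hg1 z hzb]
      simp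
    · rw [indicator_of_mem (by simpa using hzb), hg2 z]
      rw [mem_ball_zero_iff, not_lt] at hzb
      rw [mem_sphere_zero_iff_norm] at hz
      exact lt_of_le_of_ne hzb (Ne.symm hz)
  have iu : IntegrableOn (fun z => ‖grad u z‖ ^ 2) B := h.integrableOn (R + 1)
  have iv : IntegrableOn (fun z => ‖grad v z‖ ^ 2) B := by
    have h1 : IntegrableOn ((ball (0 : ℂ) R)ᶜ.indicator (fun z => ‖grad u z‖ ^ 2)) B :=
      Integrable.indicator iu measurableSet_ball.compl
    exact h1.congr (ae_restrict_of_ae (hae.mono fun z hz => hz.symm))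
  have hLfin : μH[1] (L ∩ B) < ⊤ := by
    refine lt_of_le_of_lt (measure_mono (union_inter_distrib_right _ _ _).subset) ?_
    refine lt_of_le_of_lt (measure_union_le _ _) (ENNReal.add_lt_top.2 ⟨?_, ?_⟩)
    · exact lt_of_le_of_lt (measure_mono (inter_subset_inter_left _ sdiff_subset)) (h.len_lt _)
    · exact lt_of_le_of_lt ((measure_mono inter_subset_left).trans (hausdorff_sphere_le 0 hR.le))
        ENNReal.ofReal_lt_top
  have hcmp := h.compare (R := R + 1) hLc hLip iv hLfin
    ⟨closedBall 0 R, isCompact_closedBall _ _, closedBall_subset_ball (by linarith), by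
      intro z hz
      rcases hz with hz | hz
      · rcases hz.1 with h1 | h1
        · exact (hz.2 h1.1).elim
        · exact sphere_subset_closedBall h1
      · by_contra hzb
        exact hz.2 (Or.inl ⟨hz.1, fun h1 => hzb (ball_subset_closedBall h1)⟩), fun z hz hzK => by
        rw [mem_closedBall_zero_iff, not_le] at hz
        exact hv2 z hz.le⟩
  -- energies
  have hEv : En v (R + 1) = En u (R + 1) - En u R := by
    unfold En
    rw [integral_congr_ae (ae_restrict_of_ae hae),
      setIntegral_indicator measurableSet_ball.compl, ← Set.sdiff_eq,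
      setIntegral_sdiff measurableSet_ball iu hbB]
  -- lengths
  have hm : MeasurableSet (ball (0 : ℂ) R) := measurableSet_ball
  have hK1 : μH[1] (K ∩ B) = μH[1] (K ∩ ball 0 R) + μH[1] ((K ∩ B) \ ball 0 R) := by
    rw [← measure_inter_add_sdiff (μ := μH[1]) (K ∩ B) hm]
    congr 2
    rw [inter_assoc, inter_eq_self_of_subset_right hbB]
  have hKd : μH[1] ((K ∩ B) \ ball 0 R) ≠ ⊤ :=
    (lt_of_le_of_lt (measure_mono sdiff_subset) (h.len_lt _)).ne
  have hLK : Len K (R + 1) = Len K R + (μH[1] ((K ∩ B) \ ball 0 R)).toReal := by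
    unfold Len
    rw [← hB, hK1, ENNReal.toReal_add (h.len_lt _).ne hKd]
  have hLL : Len L (R + 1) ≤ (μH[1] ((K ∩ B) \ ball 0 R)).toReal + 2 * π * R := by
    unfold Len
    rw [← hB, ← ENNReal.toReal_ofReal (show 0 ≤ 2 * π * R by positivity),
      ← ENNReal.toReal_add hKd ENNReal.ofReal_ne_top]
    refine ENNReal.toReal_mono (ENNReal.add_ne_top.2 ⟨hKd, ENNReal.ofReal_ne_top⟩) ?_
    refine (measure_mono (union_inter_distrib_right _ _ _).subset).trans
      ((measure_union_le _ _).trans (add_le_add (measure_mono ?_) ?_))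
    · rintro z ⟨⟨h1, h2⟩, h3⟩
      exact ⟨⟨h1, h3⟩, h2⟩
    · exact (measure_mono inter_subset_left).trans (hausdorff_sphere_le 0 hR.le)
  rw [hEv, hLK] at hcmp
  linarith

end Vale.Agent.P128.GM
end

section

/-! Theorem C: the case of an empty set, and change of centre for crack-tip pairs. -/

open MeasureTheory Set Metric Filter InnerProductSpace
open scoped ENNReal NNReal ContDiff Topology Real

namespace Vale.Agent.P128.GM

open Vale.Agent.P128

theorem fin_circle {f : ℂ → ℂ} (hf : Differentiable ℂ f) (x : ℂ) (s : ℝ) :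
    2 * π * ‖f x‖ ^ 2 ≤ ∫ θ in ang, ‖f (circleMap x s θ)‖ ^ 2 := by
  have hpi := Real.pi_pos
  have hf2 : Differentiable ℂ (fun z => f z ^ 2) := hf.pow 2
  have h1 : Real.circleAverage (fun z => f z ^ 2) x s = f x ^ 2 :=
    circleAverage_of_differentiable_on_off_countable countable_empty
      hf2.continuous.continuousOn (fun z _ => hf2 z)
  have h2 : (∫ θ in (0 : ℝ)..2 * π, f (circleMap x s θ) ^ 2) = (2 * π : ℝ) • f x ^ 2 := by
    rw [← h1, Real.circleAverage_def, smul_smul, mul_inv_cancel₀ (by positivity), one_smul]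
  have h3 : ‖∫ θ in (0 : ℝ)..2 * π, f (circleMap x s θ) ^ 2‖ ≤
      ∫ θ in (0 : ℝ)..2 * π, ‖f (circleMap x s θ) ^ 2‖ :=
    intervalIntegral.norm_integral_le_integral_norm (by positivity)
  have hper : Function.Periodic (fun θ => ‖f (circleMap x s θ)‖ ^ 2) (2 * π) := fun θ => by
    simp [periodic_circleMap x s θ]
  have h4 := hper.intervalIntegral_add_eq 0 (-π)
  rw [zero_add, show -π + 2 * π = π by ring] at h4
  simp only [norm_pow] at h3
  rw [h4, h2, norm_smul, norm_pow, Real.norm_of_nonneg (by positivity),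
    intervalIntegral.integral_of_le (by linarith), integral_Ioc_eq_integral_Ioo] at h3
  exact h3

theorem fin_entire_zero {f : ℂ → ℂ} (hf : Differentiable ℂ f) {C : ℝ}
    (hb : ∀ R : ℝ, 0 < R → ∫ z in ball (0 : ℂ) R, ‖f z‖ ^ 2 ≤ C * R) (x : ℂ) : f x = 0 := by
  have hpi := Real.pi_pos
  have hc : Continuous fun z => ‖f z‖ ^ 2 := (hf.continuous.norm.pow 2)
  have key : ∀ R : ℝ, 0 < R → π * R ^ 2 * ‖f x‖ ^ 2 ≤ C * (R + ‖x‖) := by
    intro R hR
    have h0 : IntegrableOn (fun z => ‖f z‖ ^ 2) (ball x R) :=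
      (hc.continuousOn.integrableOn_compact (isCompact_closedBall x R)).mono_set
        ball_subset_closedBall
    have h0' : IntegrableOn (fun z => ‖f z‖ ^ 2) (ball 0 (R + ‖x‖)) :=
      (hc.continuousOn.integrableOn_compact (isCompact_closedBall 0 _)).mono_set
        ball_subset_closedBall
    have hsub : ball x R ⊆ ball (0 : ℂ) (R + ‖x‖) := by
      intro z hz
      rw [mem_ball, dist_zero_right]
      rw [mem_ball, dist_eq_norm] at hz
      have := norm_add_le (z - x) x
      rw [sub_add_cancel] at this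
      linarith
    have h1 : ∫ z in ball x R, ‖f z‖ ^ 2 ≤ ∫ z in ball (0 : ℂ) (R + ‖x‖), ‖f z‖ ^ 2 :=
      setIntegral_mono_set h0' (Eventually.of_forall fun z => by positivity)
        (LE.le.eventuallyLE hsub)
    have h2 := hb (R + ‖x‖) (by positivity)
    have hFm : Measurable ((ball x R).indicator fun z => ‖f z‖ ^ 2) :=
      hc.measurable.indicator measurableSet_ball
    have hF : Integrable ((ball x R).indicator fun z => ‖f z‖ ^ 2) :=
      (integrable_indicator_iff measurableSet_ball).mpr h0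
    have h3 := integral_polar x hFm hF
    rw [integral_indicator measurableSet_ball] at h3
    have h4 : ∫ s in Ioi (0 : ℝ), s * ∫ θ in ang, ((ball x R).indicator fun z => ‖f z‖ ^ 2)
        (circleMap x s θ) = ∫ s in Ioi (0 : ℝ), (Ioo 0 R).indicator
        (fun s => s * ∫ θ in ang, ‖f (circleMap x s θ)‖ ^ 2) s := by
      refine setIntegral_congr_fun measurableSet_Ioi fun s hs => ?_
      have hs0 : (0 : ℝ) < s := hs
      have hd : ∀ θ, dist (circleMap x s θ) x = s := fun θ => by
        rw [dist_eq_norm, circleMap_sub_center, norm_circleMap_zero, abs_of_pos hs0]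
      by_cases h : s < R
      · have h5 : ∀ θ, ((ball x R).indicator fun z => ‖f z‖ ^ 2) (circleMap x s θ) =
            ‖f (circleMap x s θ)‖ ^ 2 := fun θ =>
          indicator_of_mem (by rw [mem_ball, hd]; exact h) _
        simp only [h5, indicator_of_mem (show s ∈ Ioo 0 R from ⟨hs0, h⟩)]
      · have h5 : ∀ θ, ((ball x R).indicator fun z => ‖f z‖ ^ 2) (circleMap x s θ) = 0 :=
          fun θ => indicator_of_notMem (by rw [mem_ball, hd]; exact h) _
        simp only [h5, indicator_of_notMem (show s ∉ Ioo 0 R from fun h' => h h'.2)]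
        simp
    rw [h4, setIntegral_indicator measurableSet_Ioo,
      inter_eq_right.2 (show Ioo 0 R ⊆ Ioi (0 : ℝ) from fun s hs => hs.1)] at h3
    have hcc : Continuous fun s : ℝ => s * ∫ θ in ang, ‖f (circleMap x s θ)‖ ^ 2 := by
      have : (fun s : ℝ => s * ∫ θ in ang, ‖f (circleMap x s θ)‖ ^ 2) =
          fun s : ℝ => s * ∫ θ in (-π)..π, ‖f (circleMap x s θ)‖ ^ 2 := by
        funext s
        rw [intervalIntegral.integral_of_le (by linarith), integral_Ioc_eq_integral_Ioo]
      rw [this]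
      refine continuous_id.mul
        (intervalIntegral.continuous_parametric_intervalIntegral_of_continuous' ?_ _ _)
      exact hc.comp (continuous_circleMap_uncurry x)
    have h5 : ∫ s in Ioo 0 R, s * (2 * π * ‖f x‖ ^ 2) ≤
        ∫ s in Ioo 0 R, s * ∫ θ in ang, ‖f (circleMap x s θ)‖ ^ 2 := by
      refine setIntegral_mono_on ?_ ?_ measurableSet_Ioo ?_
      · exact ((continuous_id.mul continuous_const).continuousOn.integrableOn_compact
          isCompact_Icc).mono_set Ioo_subset_Icc_self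
      · exact (hcc.continuousOn.integrableOn_compact isCompact_Icc).mono_set Ioo_subset_Icc_self
      · intro s hs
        exact mul_le_mul_of_nonneg_left (fin_circle hf x s) hs.1.le
    have h6 : ∫ s in Ioo 0 R, s * (2 * π * ‖f x‖ ^ 2) = π * R ^ 2 * ‖f x‖ ^ 2 := by
      rw [← integral_Ioc_eq_integral_Ioo, ← intervalIntegral.integral_of_le hR.le,
        intervalIntegral.integral_mul_const, integral_id]
      ring
    linarith
  by_contra hne
  have hn : 0 < ‖f x‖ ^ 2 := by positivity
  have hC : 0 ≤ C := by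
    have := hb 1 one_pos
    have h1 : 0 ≤ ∫ z in ball (0 : ℂ) 1, ‖f z‖ ^ 2 := integral_nonneg fun _ => by positivity
    linarith
  set m := π * ‖f x‖ ^ 2 with hm
  have hm0 : 0 < m := by positivity
  set R := (C + 1) / m + ‖x‖ + 1 with hR
  have hq : (C + 1) / m * m = C + 1 := div_mul_cancel₀ _ hm0.ne'
  have hq0 : 0 < (C + 1) / m := by positivity
  have hR0 : 0 < R := by positivity
  have h1 := key R hR0
  have h2 : C + 1 + m * (‖x‖ + 1) = m * R := by rw [hR]; linear_combination -hq
  have hx := norm_nonneg x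
  have h3 : m * R ^ 2 ≤ C * (R + ‖x‖) := by rw [hm]; linarith only [h1]
  have h4 : m * R ^ 2 = (C + 1 + m * (‖x‖ + 1)) * R := by rw [h2]; ring
  have hRx : ‖x‖ + 1 ≤ R := by rw [hR]; linarith only [hq0]
  have h6 : C + 1 ≤ m * R := by
    rw [← h2]
    have : 0 ≤ m * (‖x‖ + 1) := by positivity
    linarith only [this]
  have h7 : (C + 1) * (‖x‖ + 1) ≤ m * R * (‖x‖ + 1) :=
    mul_le_mul_of_nonneg_right h6 (by linarith only [hx])
  linarith only [h7, h4, h3, hx, hq0, hC]

theorem GMin.const_of_empty {u : ℂ → ℝ} (h : GMin u ∅) : ∃ c : ℝ, ∀ z, u z = c := by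
  have hsm : ContDiff ℝ ∞ u := by
    have := HarmonicOnNhd.smooth h.harm
    rwa [compl_empty, contDiffOn_univ] at this
  set f : ℂ → ℂ := fun z => (fderiv ℝ u z 1 : ℂ) - Complex.I * (fderiv ℝ u z Complex.I : ℂ)
    with hfdef
  have hf : Differentiable ℂ f := fun z =>
    (HarmonicAt.analyticAt_complex_partial (h.harm z (by simp))).differentiableAt
  have hn : ∀ z, ‖f z‖ = ‖grad u z‖ := by
    intro z
    rw [← sq_eq_sq₀ (norm_nonneg _) (norm_nonneg _), Complex.sq_norm, Complex.sq_norm,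
      Complex.normSq_apply, Complex.normSq_apply]
    simp [hfdef, grad]
  have hb : ∀ R : ℝ, 0 < R → ∫ z in ball (0 : ℂ) R, ‖f z‖ ^ 2 ≤ 2 * π * R := by
    intro R hR
    have h1 := h.growth hR
    have h2 : 0 ≤ Len ∅ R := ENNReal.toReal_nonneg
    simp only [hn]
    have h3 : En u R = ∫ z in ball (0 : ℂ) R, ‖grad u z‖ ^ 2 := rfl
    linarith
  have h0 : ∀ z, fderiv ℝ u z = 0 := by
    intro z
    have h1 := hn z
    rw [fin_entire_zero hf hb z, norm_zero, eq_comm, norm_eq_zero] at h1
    ext v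
    rw [← inner_grad, h1]
    simp
  exact ⟨u 0, fun z => is_const_of_fderiv_eq_zero (hsm.differentiable (by simp)) h0 z 0⟩

theorem IsCrackTip.unshift {u : ℂ → ℝ} {K : Set ℂ} {x : ℂ}
    (h : IsCrackTip (shift x u) (shiftSet x K)) : IsCrackTip u K := by
  obtain ⟨y, a, σ, c, ha, hσ, hK, hu⟩ := h
  have hmem : ∀ z : ℂ, z ∈ K ↔ z - x ∈ shiftSet x K := by
    intro z
    show z ∈ K ↔ z - x + x ∈ K
    rw [sub_add_cancel]
  refine ⟨y + x, a, σ, c, ha, hσ, ?_, ?_⟩
  · ext z
    rw [hmem, hK]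
    constructor
    · rintro ⟨t, ht, h⟩
      exact ⟨t, ht, by linear_combination h⟩
    · rintro ⟨t, ht, h⟩
      exact ⟨t, ht, by linear_combination h⟩
  · intro z hz
    have h1 := hu (z - x) fun h' => hz ((hmem z).2 h')
    have h2 : shift x u (z - x) = u z := by
      show u (z - x + x) = u z
      rw [sub_add_cancel]
    rw [h2, show z - x - y = z - (y + x) by ring] at h1
    exact h1

/-- the harmonic representative agrees with `u` almost everywhere -/
theorem IsGlobalMin.exists_gmin_ae {u : ℂ → ℝ} {G : ℂ → ℂ} {K : Set ℂ} (h : IsGlobalMin u G K)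
    (hr : IsReduced univ K) (hc : IsPreconnected Kᶜ) :
    ∃ u', GMin u' K ∧ ∀ᵐ z, u z = u' z := by
  have hU : IsOpen Kᶜ := h.closed.isOpen_compl
  obtain ⟨u', hu', hae⟩ := clWeyl hU (clLI hU h.sobolev.memLp) fun φ h1 h2 h3 =>
    h.weak_harm hc h1 h2 h3
  rw [ae_restrict_iff' hU.measurableSet] at hae
  have hW : W12loc Kᶜ u' (grad u') :=
    (LocLip.of_contDiffOn hU ((HarmonicOnNhd.smooth hu').of_le (by simp))).w12loc hU
  have hG : ∀ᵐ z, z ∈ Kᶜ → G z = grad u' z := clUniq hU h.sobolev hW hae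
  have hen : ∀ (x : ℂ) (r : ℝ), genergy (grad u') K (ball x r) = genergy G K (ball x r) := by
    intro x r
    unfold genergy
    congr 1
    refine lintegral_congr_ae ?_
    rw [EventuallyEq, ae_restrict_iff' (measurableSet_ball.diff h.closed.measurableSet)]
    filter_upwards [hG] with z hz hz2
    rw [hz hz2.2]
  refine ⟨u', ⟨⟨h.closed, hW, fun x r => ?_, fun x r v H L hL hv hC hsep => ?_⟩, hu', hc,
    fun x hx r hr0 => hr x hx r hr0 (subset_univ _)⟩, ?_⟩
  · rw [hen]; exact h.finite x r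
  · rw [hen]
    refine h.minimal x r v H L hL hv ?_ hsep
    obtain ⟨C, h1, h2, h3, h4⟩ := hC
    refine ⟨C, h1, h2, h3, ?_⟩
    filter_upwards [h4, hae, h.ae_compl] with z a b c hz
    rw [a hz, b c]
  · filter_upwards [hae, h.ae_compl] with z b c
    exact b c

end Vale.Agent.P128.GM
end

section

/-! P128-GM, A7: the complex gradient `ff w` of the potential is holomorphic near the piece, and
`∫ (ff w)' ∇ψ = 0`. -/

open MeasureTheory Set Metric Filter InnerProductSpace
open scoped ENNReal NNReal ContDiff Topology Real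

namespace Vale.Agent.P128.GM

open Vale.Agent.P128

variable {u : ℂ → ℝ} {K A : Set ℂ} {η w : ℂ → ℝ} {δ : ℝ}

/-- `w_x - i w_y` -/
noncomputable def ff (w : ℂ → ℝ) (z : ℂ) : ℂ :=
  (fderiv ℝ w z 1 : ℂ) - Complex.I * (fderiv ℝ w z Complex.I : ℂ)

theorem orth_harm (P : Piece K A η δ) (hw : Pot (src u η) w) :
    HarmonicOnNhd w (thickening (2 * δ) A) :=
  harmonicOnNhd_of_lap isOpen_thickening (hw.smooth.of_le (by norm_cast)).contDiffOn
    fun z hz => by rw [hw.eqn, src_near P (thickening_subset_cthickening _ _ hz)]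

theorem ff_diff (P : Piece K A η δ) (hw : Pot (src u η) w) {z : ℂ}
    (hz : z ∈ thickening (2 * δ) A) : AnalyticAt ℂ (ff w) z :=
  HarmonicAt.analyticAt_complex_partial (orth_harm P hw z hz)

theorem orth_grad_eq (w : ℂ → ℝ) (z : ℂ) : grad w z = (starRingEnd ℂ) (ff w z) := by
  apply Complex.ext <;> simp [grad, ff]

theorem orth_grad_diff (hw : ContDiff ℝ ∞ w) : ContDiff ℝ ∞ (grad w) := by
  have h := hw.fderiv_right (m := ∞) (by simp)
  have h1 : ContDiff ℝ ∞ fun z => fderiv ℝ w z 1 := h.clm_apply contDiff_const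
  have h2 : ContDiff ℝ ∞ fun z => fderiv ℝ w z Complex.I := h.clm_apply contDiff_const
  have h3 : grad w = fun z => (fderiv ℝ w z 1) • (1 : ℂ) + (fderiv ℝ w z Complex.I) • Complex.I := by
    funext z
    apply Complex.ext <;> simp [grad]
  rw [h3]
  exact (h1.smul contDiff_const).add (h2.smul contDiff_const)

/-- derivative of the gradient in terms of `ff`. -/
theorem orth_fderiv {z : ℂ} (hz : AnalyticAt ℂ (ff w) z) (e : ℂ) :
    fderiv ℝ (grad w) z e = (starRingEnd ℂ) (deriv (ff w) z * e) := by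
  have h1 : HasFDerivAt (ff w) ((fderiv ℂ (ff w) z).restrictScalars ℝ) z :=
    hz.differentiableAt.hasFDerivAt.restrictScalars ℝ
  have h2 : HasFDerivAt (fun z => Complex.conjCLE (ff w z))
      ((Complex.conjCLE : ℂ →L[ℝ] ℂ).comp ((fderiv ℂ (ff w) z).restrictScalars ℝ)) z :=
    Complex.conjCLE.hasFDerivAt.comp z h1
  have h3 : grad w = fun z => Complex.conjCLE (ff w z) := funext fun z => orth_grad_eq w z
  rw [h3, h2.fderiv]
  simp [mul_comm]

theorem orth_gradψ {ψ : ℂ → ℝ} (hψ0 : ∀ z, z ∉ cthickening δ A → ψ z = 0) {z : ℂ}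
    (hz : z ∉ cthickening δ A) : grad ψ z = 0 := by
  have h1 : (cthickening δ A)ᶜ ∈ 𝓝 z := isClosed_cthickening.isOpen_compl.mem_nhds hz
  have h2 : ψ =ᶠ[𝓝 z] fun _ => (0 : ℝ) := by
    filter_upwards [h1] with y hy using hψ0 y hy
  unfold grad
  rw [h2.fderiv_eq]
  simp only [fderiv_fun_const, Pi.zero_apply, zero_apply]
  rfl

theorem orth_meas (ψ : ℂ → ℝ) : Measurable (grad ψ) := by
  have h1 : Measurable fun z => fderiv ℝ ψ z 1 := measurable_fderiv_apply_const ℝ ψ 1
  have h2 : Measurable fun z => fderiv ℝ ψ z Complex.I := measurable_fderiv_apply_const ℝ ψ _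
  have h3 : grad ψ = fun z => (fderiv ℝ ψ z 1 : ℂ) + (fderiv ℝ ψ z Complex.I : ℂ) * Complex.I := by
    funext z
    apply Complex.ext <;> simp [grad]
  rw [h3]
  fun_prop

theorem orth_int (hA : IsCompact A) {ψ : ℂ → ℝ} (hψ0 : ∀ z, z ∉ cthickening δ A → ψ z = 0)
    (hψi : Integrable (fun z => ‖grad ψ z‖ ^ 2)) : Integrable fun z => ‖grad ψ z‖ := by
  have hT : IsCompact (cthickening δ A) := hA.cthickening
  have h1 : Integrable (fun z => (1 : ℝ)) (volume.restrict (cthickening δ A)) :=
    (continuous_const.continuousOn (s := cthickening δ A)).integrableOn_compact hT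
  have h2 : Integrable (fun z => ‖grad ψ z‖) (volume.restrict (cthickening δ A)) := by
    refine (h1.add hψi.restrict).mono (orth_meas ψ).norm.aestronglyMeasurable ?_
    refine Eventually.of_forall fun z => ?_
    rw [Real.norm_of_nonneg (norm_nonneg _)]
    have h3 : ‖grad ψ z‖ ≤ 1 + ‖grad ψ z‖ ^ 2 := by nlinarith [sq_nonneg (‖grad ψ z‖ - 1)]
    exact h3.trans (le_abs_self _)
  have h3 : IntegrableOn (fun z => ‖grad ψ z‖) (cthickening δ A) := h2
  exact (integrableOn_iff_integrable_of_support_subset fun z hz => by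
    by_contra h
    exact hz (by simp [orth_gradψ hψ0 h])).1 h3

/-- differentiation under the integral sign. -/
theorem orth_dir (h : GMin u K) (P : Piece K A η δ) (hw : Pot (src u η) w)
    {ψ : ℂ → ℝ} (hψ : LocLip Aᶜ ψ) (hψ0 : ∀ z, z ∉ cthickening δ A → ψ z = 0)
    (hψi : Integrable (fun z => ‖grad ψ z‖ ^ 2)) (e : ℂ) (he : ‖e‖ = 1) :
    ∫ z, inner ℝ (fderiv ℝ (grad w) z e) (grad ψ z) = 0 := by
  have hgs := orth_grad_diff hw.smooth
  have hgi := orth_int P.cpt hψ0 hψi
  have hcd : Continuous fun z => fderiv ℝ (grad w) z e :=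
    (hgs.continuous_fderiv (by simp)).clm_apply continuous_const
  obtain ⟨R, hR⟩ := (P.cpt.cthickening (r := δ)).isBounded.subset_closedBall (0 : ℂ)
  obtain ⟨M, hM⟩ := (isCompact_closedBall (0 : ℂ) (R + 1)).exists_bound_of_continuousOn
    hcd.continuousOn
  have hmain := hasDerivAt_integral_of_dominated_loc_of_deriv_le (μ := (volume : Measure ℂ))
    (F := fun (s : ℝ) (z : ℂ) => inner ℝ (grad w (z + s • e) - grad w z) (grad ψ z))
    (F' := fun (s : ℝ) (z : ℂ) => inner ℝ (fderiv ℝ (grad w) (z + s • e) e) (grad ψ z))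
    (bound := fun z => M * ‖grad ψ z‖) (x₀ := (0 : ℝ)) (s := ball (0 : ℝ) 1)
    (ball_mem_nhds _ one_pos) ?_ ?_ ?_ ?_ ?_ ?_
  · have h1 := hmain.2
    have h2 : (fun s : ℝ => ∫ z, inner ℝ (grad w (z + s • e) - grad w z) (grad ψ z)) =ᶠ[𝓝 0]
        fun _ => (0 : ℝ) := by
      filter_upwards [ball_mem_nhds (0 : ℝ) P.pos] with s hs
      refine h.shifted P hw (t := s • e) ?_ hψ hψ0 hψi
      rw [norm_smul, he, mul_one]
      exact (mem_ball_zero_iff.1 hs).le
    have h3 := (hasDerivAt_const (0 : ℝ) (0 : ℝ)).congr_of_eventuallyEq h2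
    have h4 := h1.unique h3
    simpa using h4
  · refine Eventually.of_forall fun s => ?_
    refine AEStronglyMeasurable.inner ?_ (orth_meas ψ).aestronglyMeasurable
    exact ((hgs.continuous.comp (continuous_id.add continuous_const)).sub
      hgs.continuous).aestronglyMeasurable
  · simp
  · refine AEStronglyMeasurable.inner ?_ (orth_meas ψ).aestronglyMeasurable
    exact (hcd.comp (continuous_id.add continuous_const)).aestronglyMeasurable
  · refine Eventually.of_forall fun z s hs => ?_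
    by_cases hz : z ∈ cthickening δ A
    · refine (norm_inner_le_norm _ _).trans ?_
      refine mul_le_mul_of_nonneg_right (hM _ ?_) (norm_nonneg _)
      rw [mem_closedBall_zero_iff]
      have h1 := mem_closedBall_zero_iff.1 (hR hz)
      have h2 := mem_ball_zero_iff.1 hs
      calc ‖z + s • e‖ ≤ ‖z‖ + ‖s • e‖ := norm_add_le _ _
        _ ≤ R + 1 := by
          rw [norm_smul, he, mul_one]
          exact add_le_add h1 h2.le
    · simp [orth_gradψ hψ0 hz]
  · exact hgi.const_mul M
  · refine Eventually.of_forall fun z s _ => ?_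
    have h1 : HasDerivAt (fun s : ℝ => z + s • e) e s := by
      have := ((hasDerivAt_id s).smul_const e).const_add z
      simpa using this
    have h2 : HasFDerivAt (grad w) (fderiv ℝ (grad w) (z + s • e)) (z + s • e) :=
      (hgs.differentiable (by simp) _).hasFDerivAt
    have h3 : HasDerivAt (fun s : ℝ => grad w (z + s • e))
        (fderiv ℝ (grad w) (z + s • e) e) s :=
      HasFDerivAt.comp_hasDerivAt (f := fun s : ℝ => z + s • e) s h2 h1
    have h4 := (h3.sub_const (grad w z)).inner ℝ (hasDerivAt_const s (grad ψ z))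
    simpa using h4

theorem GMin.orth (h : GMin u K) (P : Piece K A η δ) (hw : Pot (src u η) w)
    {ψ : ℂ → ℝ} (hψ : LocLip Aᶜ ψ) (hψ0 : ∀ z, z ∉ cthickening δ A → ψ z = 0)
    (hψi : Integrable (fun z => ‖grad ψ z‖ ^ 2)) :
    ∫ z, deriv (ff w) z * grad ψ z = 0 := by
  have hgs := orth_grad_diff hw.smooth
  have hgi := orth_int P.cpt hψ0 hψi
  have hsub : cthickening δ A ⊆ thickening (2 * δ) A :=
    cthickening_subset_thickening' (by linarith [P.pos]) (by linarith [P.pos]) A
  have key : ∀ e z, inner ℝ (fderiv ℝ (grad w) z e) (grad ψ z) =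
      (deriv (ff w) z * grad ψ z * e).re := by
    intro e z
    by_cases hz : z ∈ cthickening δ A
    · rw [orth_fderiv (ff_diff P hw (hsub hz)), Complex.inner, Complex.conj_conj]
      congr 1
      ring
    · simp [orth_gradψ hψ0 hz]
  have hint : Integrable fun z => deriv (ff w) z * grad ψ z := by
    obtain ⟨R, hR⟩ := (P.cpt.cthickening (r := δ)).isBounded.subset_closedBall (0 : ℂ)
    have hcd : Continuous fun z => fderiv ℝ (grad w) z 1 :=
      (hgs.continuous_fderiv (by simp)).clm_apply continuous_const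
    obtain ⟨M, hM⟩ := (isCompact_closedBall (0 : ℂ) R).exists_bound_of_continuousOn
      hcd.continuousOn
    refine (hgi.const_mul M).mono' ?_ ?_
    · exact ((measurable_deriv (ff w)).mul (orth_meas ψ)).aestronglyMeasurable
    · refine Eventually.of_forall fun z => ?_
      by_cases hz : z ∈ cthickening δ A
      · rw [norm_mul]
        refine mul_le_mul_of_nonneg_right ?_ (norm_nonneg _)
        have h1 := hM z (hR hz)
        rw [orth_fderiv (ff_diff P hw (hsub hz)), mul_one, RCLike.norm_conj] at h1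
        exact h1
      · simp [orth_gradψ hψ0 hz]
  have h1 := orth_dir h P hw hψ hψ0 hψi 1 (by simp)
  have h2 := orth_dir h P hw hψ hψ0 hψi Complex.I (by simp)
  simp only [key] at h1 h2
  have h3 : (∫ z, deriv (ff w) z * grad ψ z).re = 0 := by
    rw [← h1]
    have := integral_re hint
    simpa using this.symm
  have h4 : (∫ z, deriv (ff w) z * grad ψ z).im = 0 := by
    have h5 := integral_im hint
    have h6 : ∀ z, (deriv (ff w) z * grad ψ z * Complex.I).re =
        -(deriv (ff w) z * grad ψ z).im := fun z => by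
      rw [Complex.mul_re, Complex.I_re, Complex.I_im]
      ring
    simp only [h6, integral_neg, neg_eq_zero] at h2
    have h7 : ∫ z, (deriv (ff w) z * grad ψ z).im = (∫ z, deriv (ff w) z * grad ψ z).im := h5
    rw [← h7, h2]
  exact Complex.ext h3 h4

end Vale.Agent.P128.GM
end

section

set_option linter.all false

open MeasureTheory Set Metric Filter InnerProductSpace
open scoped ENNReal NNReal ContDiff Topology Real

namespace Vale.Agent.P128.GM

open Vale.Agent.P128

variable {u : ℂ → ℝ} {K A : Set ℂ} {η w : ℂ → ℝ} {δ : ℝ}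

/-- the regularized function `u* = (1-η)u + w` -/
noncomputable def ct_us (u η w : ℂ → ℝ) (z : ℂ) : ℝ := (1 - η z) * u z + w z

lemma ct_infinite (h : GMin u K) (P : Piece K A η δ) (hA : A.Nonempty) : A.Infinite := by
  intro hfin
  obtain ⟨x, hx⟩ := hA
  have hxo : x ∈ (K \ A)ᶜ := fun hx' => hx'.2 hx
  obtain ⟨r, hr, hrs⟩ := Metric.isOpen_iff.1 P.out.isOpen_compl x hxo
  have h1 := h.red x (P.sub hx) r hr
  have h2 : K ∩ ball x r ⊆ A := by
    rintro z ⟨hzK, hzb⟩
    by_contra hzA
    exact hrs hzb ⟨hzK, hzA⟩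
  have : NullSingletonClass (μH[1] : Measure ℂ) :=
    Measure.nullSingletonClass_hausdorff ℂ one_pos
  have h3 : μH[1] A = 0 := hfin.measure_zero _
  exact absurd (measure_mono_null h2 h3) h1.ne'

lemma ct_dense (h : GMin u K) : closure Kᶜ = univ := by
  rw [closure_compl, Measure.interior_eq_empty_of_null h.vol_zero, compl_empty]

lemma ct_preconn (h : GMin u K) : IsPreconnected (K \ A)ᶜ := by
  refine h.conn.subset_closure (fun z hz hz' => hz hz'.1) ?_
  rw [ct_dense h]
  exact subset_univ _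

lemma ct_smooth (h : GMin u K) (P : Piece K A η δ) (hw : Pot (src u η) w) :
    ContDiffOn ℝ ∞ (ct_us u η w) (K \ A)ᶜ :=
  (a_smooth h P).add hw.smooth.contDiffOn

lemma ct_lap (h : GMin u K) (P : Piece K A η δ) (hw : Pot (src u η) w) {z : ℂ}
    (hz : z ∈ (K \ A)ᶜ) : lap (ct_us u η w) z = 0 := by
  have h1 : ContDiffAt ℝ 2 (fun z => (1 - η z) * u z) z :=
    ((a_smooth h P).contDiffAt (P.out.isOpen_compl.mem_nhds hz)).of_le (by norm_cast)
  have h2 : ContDiffAt ℝ 2 w z := hw.smooth.contDiffAt.of_le (by norm_cast)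
  have h3 : ContDiffAt ℝ 2 (ct_us u η w) z := h1.add h2
  rw [← lap_eq_laplacian h3]
  have e : ct_us u η w = (fun z => (1 - η z) * u z) + w := rfl
  rw [e, h1.laplacian_add h2, lap_eq_laplacian h1, lap_eq_laplacian h2, lap_a h P hz, hw.eqn]
  ring

lemma ct_harm (h : GMin u K) (P : Piece K A η δ) (hw : Pot (src u η) w) :
    HarmonicOnNhd (ct_us u η w) (K \ A)ᶜ :=
  harmonicOnNhd_of_lap P.out.isOpen_compl ((ct_smooth h P hw).of_le (by norm_cast))
    fun z hz => ct_lap h P hw hz

lemma ct_an (h : GMin u K) (P : Piece K A η δ) (hw : Pot (src u η) w) :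
    AnalyticOnNhd ℂ (ff (ct_us u η w)) (K \ A)ᶜ := fun z hz =>
  HarmonicAt.analyticAt_complex_partial (ct_harm h P hw z hz)

/-- near `A`, `u* = w` -/
lemma ct_near (P : Piece K A η δ) {z : ℂ} (hz : z ∈ thickening (2 * δ) A) :
    ct_us u η w =ᶠ[𝓝 z] w := by
  filter_upwards [isOpen_thickening.mem_nhds hz] with y hy
  unfold ct_us
  rw [P.one y (thickening_subset_cthickening _ _ hy)]
  ring

lemma ct_mem_thick (P : Piece K A η δ) {z : ℂ} (hz : z ∈ A) : z ∈ thickening (2 * δ) A :=
  self_subset_thickening (by have := P.pos; (clear * - this; positivity)) A hz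

lemma ct_ff_near (P : Piece K A η δ) {z : ℂ} (hz : z ∈ A) :
    ff (ct_us u η w) =ᶠ[𝓝 z] ff w := by
  filter_upwards [isOpen_thickening.mem_nhds (ct_mem_thick P hz)] with y hy
  unfold ff
  rw [(ct_near (u := u) (w := w) P hy).fderiv_eq]

lemma ct_const (h : GMin u K) (P : Piece K A η δ) (hw : Pot (src u η) w)
    (h0 : ∀ x ∈ A, deriv (ff w) x = 0) (hA : A.Nonempty) :
    ∃ c : ℂ, ∀ z ∈ (K \ A)ᶜ, ff (ct_us u η w) z = c := by
  have hinf := ct_infinite h P hA
  obtain ⟨x, hxA, hacc⟩ := hinf.exists_accPt_of_subset_isCompact P.cpt subset_rfl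
  have han := ct_an h P hw
  have hz : ∀ z ∈ A, deriv (ff (ct_us u η w)) z = 0 := by
    intro z hz
    rw [(ct_ff_near (u := u) (w := w) P hz).deriv_eq]
    exact h0 z hz
  have h1 : ∃ᶠ z in 𝓝[≠] x, deriv (ff (ct_us u η w)) z = 0 :=
    (accPt_iff_frequently_nhdsNE.1 hacc).mono hz
  have h2 := han.deriv.eqOn_zero_of_preconnected_of_frequently_eq_zero (ct_preconn h)
    (show x ∈ (K \ A)ᶜ from fun hx' => hx'.2 hxA) h1
  exact P.out.isOpen_compl.exists_is_const_of_deriv_eq_zero (ct_preconn h)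
    (fun z hz => (han z hz).differentiableAt.differentiableWithinAt) h2

/-- a radius beyond which `η` vanishes -/
lemma ct_rad (P : Piece K A η δ) : ∃ ρ : ℝ, 0 < ρ ∧ tsupport η ⊆ ball 0 ρ := by
  obtain ⟨ρ, hρ⟩ := P.supp.isCompact.isBounded.subset_closedBall (0 : ℂ)
  exact ⟨max (ρ + 1) 1, by positivity, fun z hz => by
    have := hρ hz
    rw [mem_closedBall, dist_zero_right] at this
    rw [mem_ball, dist_zero_right]
    exact lt_of_lt_of_le (by linarith only [this]) (le_max_left _ _)⟩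

lemma ct_eta_zero {ρ : ℝ} (hρ : tsupport η ⊆ ball 0 ρ) {z : ℂ} (hz : ρ ≤ ‖z‖) :
    η =ᶠ[𝓝 z] fun _ => 0 := by
  have hz' : z ∉ tsupport η := by
    intro hz'
    have := hρ hz'
    rw [mem_ball, dist_zero_right] at this
    linarith only [hz, this]
  exact notMem_tsupport_iff_eventuallyEq.1 hz'

lemma ct_diff (h : GMin u K) {z : ℂ} (hz : z ∉ K) : DifferentiableAt ℝ u z :=
  ((HarmonicOnNhd.smooth h.harm).contDiffAt (h.gm.closed.isOpen_compl.mem_nhds hz)).differentiableAt
    (by simp)

lemma ct_grad_far (h : GMin u K) (P : Piece K A η δ) (hw : Pot (src u η) w) {c : ℂ}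
    (hc : ∀ z ∈ (K \ A)ᶜ, ff (ct_us u η w) z = c) {ρ : ℝ} (hρ : tsupport η ⊆ ball 0 ρ) {z : ℂ}
    (hz : ρ ≤ ‖z‖) (hzK : z ∉ K) : grad u z = (starRingEnd ℂ) c - grad w z := by
  have h1 := hc z fun hz' => hzK hz'.1
  have h2 : ct_us u η w =ᶠ[𝓝 z] fun y => u y + w y := by
    filter_upwards [ct_eta_zero hρ hz] with y hy
    unfold ct_us
    rw [hy]
    ring
  have hdw : DifferentiableAt ℝ w z := (hw.smooth.differentiable (by simp)) z
  have h3 : fderiv ℝ (ct_us u η w) z = fderiv ℝ u z + fderiv ℝ w z := by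
    rw [h2.fderiv_eq]
    exact fderiv_fun_add (ct_diff h hzK) hdw
  unfold ff at h1
  rw [h3] at h1
  rw [← h1]
  apply Complex.ext
  · simp only [grad, add_apply, Complex.ofReal_add, map_sub, map_add, Complex.conj_ofReal, map_mul, Complex.conj_I, neg_mul, sub_neg_eq_add, Complex.sub_re, Complex.add_re, Complex.ofReal_re, Complex.mul_re, Complex.I_re, zero_mul, Complex.I_im, Complex.add_im, Complex.ofReal_im, add_zero, mul_zero, sub_self, add_sub_cancel_right]
  · simp only [grad, add_apply, Complex.ofReal_add, map_sub, map_add, Complex.conj_ofReal, map_mul, Complex.conj_I, neg_mul, sub_neg_eq_add, Complex.sub_im, Complex.add_im, Complex.ofReal_im, add_zero, Complex.mul_im, Complex.I_re, mul_zero, Complex.I_im, Complex.add_re, Complex.ofReal_re, one_mul, zero_add, add_sub_cancel_right]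

lemma ct_memball {R : ℝ} {z : ℂ} : z ∈ ball (0 : ℂ) R ↔ ‖z‖ < R := by
  rw [mem_ball, dist_zero_right]

/-- the growth bound excludes affine behaviour -/
lemma ct_c_zero (h : GMin u K) (P : Piece K A η δ) (hw : Pot (src u η) w) {c : ℂ}
    (hc : ∀ z ∈ (K \ A)ᶜ, ff (ct_us u η w) z = c) : c = 0 := by
  by_contra hc0
  have hcn : 0 < ‖c‖ := norm_pos_iff.2 hc0
  obtain ⟨ρ, hρ0, hρ⟩ := ct_rad P
  -- beyond some radius the gradient is at least ‖c‖/2
  obtain ⟨R₁, hR₁⟩ : ∃ R₁ : ℝ, ∀ z : ℂ, R₁ ≤ ‖z‖ → ‖grad w z‖ ≤ ‖c‖ / 2 := by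
    have h1 : ∀ᶠ z in cocompact ℂ, ‖grad w z‖ < ‖c‖ / 2 := by
      have := (tendsto_zero_iff_norm_tendsto_zero.1 hw.glim)
      exact this.eventually_lt_const (by positivity)
    rw [← Metric.cobounded_eq_cocompact, Filter.HasBasis.eventually_iff
      (Metric.hasBasis_cobounded_compl_closedBall (0 : ℂ))] at h1
    obtain ⟨R, -, hR⟩ := h1
    refine ⟨R + 1, fun z hz => (hR ?_).le⟩
    simp only [mem_compl_iff, mem_closedBall, dist_zero_right, not_le]
    linarith only [hz]
  set r := max ρ (max R₁ 1) with hr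
  have hr0 : 0 < r := lt_of_lt_of_le one_pos ((le_max_right _ _).trans (le_max_right _ _))
  have hgr : ∀ z : ℂ, r ≤ ‖z‖ → z ∉ K → ‖c‖ / 2 ≤ ‖grad u z‖ := by
    intro z hz hzK
    rw [ct_grad_far h P hw hc hρ ((le_max_left _ _).trans hz) hzK]
    have h1 : ‖(starRingEnd ℂ) c‖ = ‖c‖ := RCLike.norm_conj c
    have h2 := hR₁ z (((le_max_left _ _).trans (le_max_right _ _)).trans hz)
    have h3 := norm_sub_norm_le ((starRingEnd ℂ) c) (grad w z)
    rw [h1] at h3
    linarith only [h2, h3]
  set m := (‖c‖ / 2) ^ 2 with hm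
  have hm0 : 0 < m := by positivity
  have key : ∀ R : ℝ, r ≤ R → m * (π * R ^ 2) - m * (π * r ^ 2) ≤ 2 * π * R := by
    intro R hR
    have hR0 : 0 < R := lt_of_lt_of_le hr0 hR
    have h1 := h.growth hR0
    have h2 : (0 : ℝ) ≤ Len K R := ENNReal.toReal_nonneg
    have hvol : ∀ s : ℝ, 0 ≤ s → volume.real (ball (0 : ℂ) s) = π * s ^ 2 := by
      intro s hs
      rw [Measure.real, Complex.volume_ball, ENNReal.toReal_mul, ENNReal.toReal_pow,
        ENNReal.toReal_ofReal hs]
      simp [NNReal.coe_real_pi, mul_comm]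
    have hvolc : volume.real (ball (0 : ℂ) r) = π * r ^ 2 := hvol r hr0.le
    have h3 : ∫ z in ball (0 : ℂ) R, (m - (ball (0 : ℂ) r).indicator (fun _ => m) z)
        = m * (π * R ^ 2) - m * (π * r ^ 2) := by
      rw [integral_sub]
      · rw [setIntegral_const, hvol R hR0.le, setIntegral_indicator measurableSet_ball,
          setIntegral_const, inter_eq_self_of_subset_right (ball_subset_ball hR), hvolc]
        simp only [smul_eq_mul]
        ring
      · exact integrableOn_const (by finiteness)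
      · exact (integrableOn_const (by finiteness)).indicator measurableSet_ball
    have h4 : ∫ z in ball (0 : ℂ) R, (m - (ball (0 : ℂ) r).indicator (fun _ => m) z)
        ≤ En u R := by
      unfold En
      apply integral_mono_ae
      · exact (integrableOn_const (by finiteness)).sub
          ((integrableOn_const (by finiteness)).indicator measurableSet_ball)
      · exact h.integrableOn R
      · have hK0 : ∀ᵐ z : ℂ, z ∉ K := measure_eq_zero_iff_ae_notMem.1 h.vol_zero
        filter_upwards [ae_restrict_of_ae hK0] with z hz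
        by_cases hzr : z ∈ ball (0 : ℂ) r
        · rw [indicator_of_mem hzr, sub_self]
          (clear * -; positivity)
        · rw [indicator_of_notMem hzr, sub_zero]
          rw [ct_memball, not_lt] at hzr
          exact pow_le_pow_left₀ (by positivity) (hgr z hzr hz) 2
    linarith only [h1, h2, h3, h4]
  -- choose R large
  set R := max (max r 1) ((3 + m * r ^ 2) / m) with hRdef
  have hRr : r ≤ R := (le_max_left _ _).trans (le_max_left _ _)
  have hR1 : 1 ≤ R := (le_max_right _ _).trans (le_max_left _ _)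
  have hRm : 3 + m * r ^ 2 ≤ m * R := by
    have := le_max_right (max r 1) ((3 + m * r ^ 2) / m)
    rw [← hRdef, div_le_iff₀ hm0] at this
    linarith only [this]
  have h1 := key R hRr
  have h2 : m * R ^ 2 - m * r ^ 2 ≤ 2 * R := by
    have hpi := Real.pi_pos
    have : π * (m * R ^ 2 - m * r ^ 2) ≤ π * (2 * R) := by linarith only [h1]
    exact le_of_mul_le_mul_left this hpi
  have h3 : (3 + m * r ^ 2) * R ≤ m * R ^ 2 := by nlinarith only [hr0, hRm, hRr]
  have h4 : m * r ^ 2 ≤ m * r ^ 2 * R := by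
    have : 0 ≤ m * r ^ 2 := by positivity
    nlinarith only [hR1, this]
  linarith

lemma ct_fderiv_zero {f : ℂ → ℝ} {z : ℂ} (hf : ff f z = 0) : fderiv ℝ f z = 0 := by
  have h1 := congrArg Complex.re hf
  have h2 := congrArg Complex.im hf
  simp only [ff, Complex.sub_re, Complex.ofReal_re, Complex.mul_re, Complex.I_re, zero_mul, Complex.I_im, Complex.ofReal_im, mul_zero, sub_self, sub_zero, Complex.zero_re, Complex.sub_im, Complex.mul_im, one_mul, zero_add, zero_sub, Complex.zero_im, neg_eq_zero] at h1 h2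
  have hg : grad f z = 0 := by
    apply Complex.ext <;> simp [grad, h1, h2]
  ext v
  rw [← inner_grad, hg]
  simp

lemma ct_beta (h : GMin u K) (P : Piece K A η δ) (hw : Pot (src u η) w)
    (h0 : ∀ x ∈ A, deriv (ff w) x = 0) (hA : A.Nonempty) :
    ∃ β : ℝ, ∀ z, z ∉ K → u z - β = η z * u z - w z := by
  obtain ⟨c, hc⟩ := ct_const h P hw h0 hA
  have hc0 := ct_c_zero h P hw hc
  subst hc0
  obtain ⟨β, hβ⟩ := P.out.isOpen_compl.exists_is_const_of_fderiv_eq_zero (𝕜 := ℝ)
    (f := ct_us u η w) (ct_preconn h) ((ct_smooth h P hw).differentiableOn (by simp))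
    (fun z hz => ct_fderiv_zero (hc z hz))
  refine ⟨β, fun z hz => ?_⟩
  have := hβ z fun hz' => hz hz'.1
  unfold ct_us at this
  linarith only [this]

lemma ct_ae (h : GMin u K) : ∀ᵐ z : ℂ, z ∉ K := measure_eq_zero_iff_ae_notMem.1 h.vol_zero

lemma ct_grad_cont (h : GMin u K) : ContinuousOn (grad u) Kᶜ := by
  have h1 : ContinuousOn (fun z => fderiv ℝ u z) Kᶜ :=
    (HarmonicOnNhd.smooth h.harm).continuousOn_fderiv_of_isOpen h.gm.closed.isOpen_compl (by simp only [WithTop.one_le_coe, le_top])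
  have h2 : grad u = fun z => (fderiv ℝ u z 1 : ℂ) + (fderiv ℝ u z Complex.I : ℂ) * Complex.I := by
    funext z
    apply Complex.ext <;> simp [grad]
  rw [h2]
  have h3 : ContinuousOn (fun z => fderiv ℝ u z 1) Kᶜ := h1.clm_apply continuousOn_const
  have h4 : ContinuousOn (fun z => fderiv ℝ u z Complex.I) Kᶜ := h1.clm_apply continuousOn_const
  exact (Complex.continuous_ofReal.comp_continuousOn h3).add
    ((Complex.continuous_ofReal.comp_continuousOn h4).mul continuousOn_const)

lemma ct_grad_meas (h : GMin u K) : AEStronglyMeasurable (grad u) volume := by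
  have h1 := (ct_grad_cont h).aestronglyMeasurable (μ := volume)
    h.gm.closed.isOpen_compl.measurableSet
  have h2 : ∀ᵐ z : ℂ, z ∈ Kᶜ := ct_ae h
  rwa [Measure.restrict_eq_self_of_ae_mem h2] at h1

lemma ct_energy (h : GMin u K) (P : Piece K A η δ) (hw : Pot (src u η) w) {β : ℝ}
    (hβ : ∀ z, z ∉ K → u z - β = η z * u z - w z) {ρ : ℝ}
    (hρ : tsupport η ⊆ ball 0 ρ) {ε : ℝ} (hε : 0 < ε) : En u ρ ≤ 4 * ε := by
  obtain ⟨χ, hχ, hχc, hχ1, hχb, hχe⟩ := exists_cutoff hw.smooth.continuous hw.lim ρ hε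
  have hae := ct_ae h
  -- `grad χ = 0` on the ball
  have hgχ : ∀ z ∈ ball (0 : ℂ) ρ, grad χ z = 0 := by
    intro z hz
    have : χ =ᶠ[𝓝 z] fun _ => 1 := by
      filter_upwards [isOpen_ball.mem_nhds hz] with y hy using hχ1 y hy
    unfold grad
    rw [this.fderiv_eq]
    simp only [fderiv_fun_const, Pi.zero_apply, zero_apply, Complex.ext_iff, Complex.zero_re, Complex.zero_im, and_self]
  have hq : ∀ z, z ∉ K → (u z - β) • grad χ z = (- w z) • grad χ z := by
    intro z hz
    by_cases hzρ : z ∈ ball (0 : ℂ) ρ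
    · rw [hgχ z hzρ]; simp
    · rw [ct_memball, not_lt] at hzρ
      have : η z = 0 := (ct_eta_zero hρ hzρ).self_of_nhds
      rw [hβ z hz, this]
      congr 1
      ring
  set ψ : ℂ → ℝ := fun z => χ z ^ 2 * (u z - β) with hψdef
  have husm := HarmonicOnNhd.smooth h.harm
  have hψs : ContDiffOn ℝ ∞ ψ Kᶜ := (hχ.pow 2).contDiffOn.mul (husm.sub contDiffOn_const)
  have hψl : LocLip Kᶜ ψ :=
    LocLip.of_contDiffOn h.gm.closed.isOpen_compl (hψs.of_le (by norm_cast))
  obtain ⟨R, hR⟩ := hχc.isCompact.isBounded.subset_closedBall (0 : ℂ)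
  have hχ0 : ∀ z : ℂ, R < ‖z‖ → χ z = 0 := by
    intro z hz
    by_contra hne
    have := hR (subset_tsupport χ hne)
    rw [mem_closedBall, dist_zero_right] at this
    linarith only [hz, this]
  have hψg : ∀ z, z ∉ K → grad ψ z = (χ z ^ 2) • grad u z - (2 * χ z * w z) • grad χ z := by
    intro z hz
    have hdχ : DifferentiableAt ℝ χ z := (hχ.differentiable (by simp only [ne_eq, WithTop.coe_eq_zero, ENat.top_ne_zero, not_false_eq_true])) z
    have hdu := ct_diff h hz
    have h1 : fderiv ℝ ψ z = (χ z ^ 2) • fderiv ℝ u z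
        + (u z - β) • ((2 * χ z) • fderiv ℝ χ z) := by
      have h3 := (hdχ.hasFDerivAt.pow 2)
      have h4 := hdu.hasFDerivAt.sub_const β
      have h2 : HasFDerivAt ψ (χ z ^ 2 • fderiv ℝ u z
          + (u z - β) • (2 • χ z ^ (2 - 1)) • fderiv ℝ χ z) z := h3.mul h4
      rw [h2.fderiv]
      norm_num
    have h6 : grad ψ z = (χ z ^ 2) • grad u z + (2 * χ z) • ((u z - β) • grad χ z) := by
      unfold grad
      rw [h1]
      apply Complex.ext
      · simp only [Complex.add_re, Complex.smul_re, smul_eq_mul, ContinuousLinearMap.add_apply,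
          ContinuousLinearMap.smul_apply]
        ring
      · simp only [ContinuousLinearMap.add_apply, ContinuousLinearMap.smul_apply, smul_eq_mul, Complex.add_im, Complex.smul_im]
        ring
    rw [h6, hq z hz]
    module
  have hψae : grad ψ =ᵐ[volume] fun z => (χ z ^ 2) • grad u z - (2 * χ z * w z) • grad χ z := by
    filter_upwards [hae] with z hz using hψg z hz
  have hcχ : Continuous χ := hχ.continuous
  have hcw : Continuous w := hw.smooth.continuous
  have hcg : Continuous (grad χ) := continuous_grad hχ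
  have hgum := ct_grad_meas h
  have hψm : AEStronglyMeasurable (grad ψ) volume := by
    refine AEStronglyMeasurable.congr ?_ hψae.symm
    exact ((hcχ.pow 2).aestronglyMeasurable.smul hgum).sub
      (((continuous_const.mul hcχ).mul hcw).aestronglyMeasurable.smul hcg.aestronglyMeasurable)
  -- integrable pieces
  have i1 : Integrable (fun z => χ z ^ 2 * ‖grad u z‖ ^ 2) := by
    have h1 : Integrable (fun z => (ball (0 : ℂ) (R + 1)).indicator
        (fun z => ‖grad u z‖ ^ 2) z) :=
      (integrable_indicator_iff measurableSet_ball).2 (h.integrableOn (R + 1))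
    refine h1.mono' ((hcχ.pow 2).aestronglyMeasurable.mul (hgum.norm.pow 2)) ?_
    refine Eventually.of_forall fun z => ?_
    rw [Real.norm_of_nonneg (by (clear * -; positivity))]
    by_cases hz : z ∈ ball (0 : ℂ) (R + 1)
    · rw [indicator_of_mem hz]
      have h2 : χ z ^ 2 ≤ 1 := pow_le_one₀ (hχb z).1 (hχb z).2
      have h3 : 0 ≤ ‖grad u z‖ ^ 2 := by (clear * -; positivity)
      linarith only [mul_nonneg (sq_nonneg (‖grad u z‖ : ℝ)) (sub_nonneg.2 h2)]
    · rw [indicator_of_notMem hz, hχ0 z (by rw [ct_memball, not_lt] at hz; linarith)]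
      simp
  have hgc : HasCompactSupport (grad χ) := by
    refine HasCompactSupport.intro hχc.isCompact fun z hz => grad_eq_zero_of_notMem hz
  have i2 : Integrable (fun z => ‖grad χ z‖ ^ 2 * w z ^ 2) := by
    refine Continuous.integrable_of_hasCompactSupport ((hcg.norm.pow 2).mul (hcw.pow 2)) ?_
    refine HasCompactSupport.intro hχc.isCompact fun z hz => ?_
    rw [grad_eq_zero_of_notMem hz]
    simp
  have i3 : Integrable (fun z => ‖grad ψ z‖ ^ 2) := by
    have h1 : Integrable (fun z => 2 * (χ z ^ 2 * ‖grad u z‖ ^ 2)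
        + 8 * (‖grad χ z‖ ^ 2 * w z ^ 2)) := (i1.const_mul 2).add (i2.const_mul 8)
    refine h1.mono' (hψm.norm.pow 2) ?_
    filter_upwards [hψae] with z hz
    rw [Real.norm_of_nonneg (by (clear * -; positivity)), hz]
    have h2 : ‖(χ z ^ 2) • grad u z - (2 * χ z * w z) • grad χ z‖
        ≤ ‖(χ z ^ 2) • grad u z‖ + ‖(2 * χ z * w z) • grad χ z‖ := norm_sub_le _ _
    rw [norm_smul, norm_smul, Real.norm_of_nonneg (sq_nonneg (χ z)), Real.norm_eq_abs,
      abs_mul, abs_mul, abs_two, abs_of_nonneg (hχb z).1] at h2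
    have h3 := (hχb z).1
    have h4 := (hχb z).2
    have h5 : χ z ^ 2 * ‖grad u z‖ ≤ χ z * ‖grad u z‖ := by
      have : χ z ^ 2 ≤ χ z := by linarith only [mul_nonneg (sub_nonneg.2 h3) (sub_nonneg.2 h4)]
      exact mul_le_mul_of_nonneg_right this (norm_nonneg _)
    have h6 : 2 * χ z * |w z| * ‖grad χ z‖ ≤ 2 * (|w z| * ‖grad χ z‖) := by
      have : 0 ≤ |w z| * ‖grad χ z‖ := by (clear * -; positivity)
      linarith only [mul_nonneg (sub_nonneg.2 h4) (sub_nonneg.2 this)]
    have h7 : ‖(χ z ^ 2) • grad u z - (2 * χ z * w z) • grad χ z‖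
        ≤ χ z * ‖grad u z‖ + 2 * (|w z| * ‖grad χ z‖) := by linarith
    have h8 : ‖(χ z ^ 2) • grad u z - (2 * χ z * w z) • grad χ z‖ ^ 2
        ≤ (χ z * ‖grad u z‖ + 2 * (|w z| * ‖grad χ z‖)) ^ 2 :=
      pow_le_pow_left₀ (norm_nonneg _) h7 2
    refine h8.trans ?_
    have h9 : w z ^ 2 = |w z| ^ 2 := (sq_abs _).symm
    rw [h9]
    linarith only [sq_nonneg (χ z * ‖grad u z‖ - 2 * (|w z| * ‖grad χ z‖))]
  have hel := h.el hψl ⟨R + 1, fun z _ hz => by
    simp only [hψdef]
    rw [hχ0 z (by linarith only [hz])]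
    ring⟩ i3
  -- the pointwise inequality
  have hpt : ∀ z, z ∉ K → χ z ^ 2 * ‖grad u z‖ ^ 2
      ≤ 2 * inner ℝ (grad u z) (grad ψ z) + 4 * (‖grad χ z‖ ^ 2 * w z ^ 2) := by
    intro z hz
    rw [hψg z hz, inner_sub_right, inner_smul_right, inner_smul_right,
      real_inner_self_eq_norm_sq]
    have h1 := abs_real_inner_le_norm (grad u z) (grad χ z)
    have h2 := (hχb z).1
    have h3 : 2 * χ z * w z * inner ℝ (grad u z) (grad χ z)
        ≤ 2 * (χ z * ‖grad u z‖) * (|w z| * ‖grad χ z‖) := by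
      calc 2 * χ z * w z * inner ℝ (grad u z) (grad χ z)
          ≤ |2 * χ z * w z * inner ℝ (grad u z) (grad χ z)| := le_abs_self _
        _ = 2 * χ z * |w z| * |inner ℝ (grad u z) (grad χ z)| := by
            rw [abs_mul, abs_mul, abs_mul, abs_two, abs_of_nonneg h2]
        _ ≤ 2 * χ z * |w z| * (‖grad u z‖ * ‖grad χ z‖) := by
            (clear * - h1 h2; gcongr)
        _ = _ := by ring
    have h9 : w z ^ 2 = |w z| ^ 2 := (sq_abs _).symm
    rw [h9]
    linarith only [sq_nonneg (χ z * ‖grad u z‖ - 2 * (|w z| * ‖grad χ z‖)), h3]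
  have i4 : Integrable (fun z => inner ℝ (grad u z) (grad ψ z)) := by
    have h1 : Integrable (fun z => (3 / 2) * (χ z ^ 2 * ‖grad u z‖ ^ 2)
        + 2 * (‖grad χ z‖ ^ 2 * w z ^ 2)) := (i1.const_mul _).add (i2.const_mul _)
    refine h1.mono' (hgum.inner hψm) ?_
    filter_upwards [hae] with z hz
    rw [hψg z hz, inner_sub_right, inner_smul_right, inner_smul_right,
      real_inner_self_eq_norm_sq, Real.norm_eq_abs]
    have h1 := abs_real_inner_le_norm (grad u z) (grad χ z)
    have h2 := (hχb z).1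
    have h3 : |2 * χ z * w z * inner ℝ (grad u z) (grad χ z)|
        ≤ 2 * (χ z * ‖grad u z‖) * (|w z| * ‖grad χ z‖) := by
      calc |2 * χ z * w z * inner ℝ (grad u z) (grad χ z)|
          = 2 * χ z * |w z| * |inner ℝ (grad u z) (grad χ z)| := by
            rw [abs_mul, abs_mul, abs_mul, abs_two, abs_of_nonneg h2]
        _ ≤ 2 * χ z * |w z| * (‖grad u z‖ * ‖grad χ z‖) := by
            (clear * - h1 h2; gcongr)
        _ = _ := by ring
    have h9 : w z ^ 2 = |w z| ^ 2 := (sq_abs _).symm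
    rw [h9]
    have h4 : |χ z ^ 2 * ‖grad u z‖ ^ 2| = χ z ^ 2 * ‖grad u z‖ ^ 2 :=
      abs_of_nonneg (by (clear * -; positivity))
    have h5 := abs_sub (χ z ^ 2 * ‖grad u z‖ ^ 2)
      (2 * χ z * w z * inner ℝ (grad u z) (grad χ z))
    rw [h4] at h5
    linarith only [sq_nonneg (χ z * ‖grad u z‖ - 2 * (|w z| * ‖grad χ z‖)), h5, h3]
  have h1 : ∫ z, χ z ^ 2 * ‖grad u z‖ ^ 2 ≤ 4 * ε := by
    calc ∫ z, χ z ^ 2 * ‖grad u z‖ ^ 2
        ≤ ∫ z, (2 * inner ℝ (grad u z) (grad ψ z) + 4 * (‖grad χ z‖ ^ 2 * w z ^ 2)) := by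
          apply integral_mono_ae i1 ((i4.const_mul 2).add (i2.const_mul 4))
          filter_upwards [hae] with z hz using hpt z hz
      _ = 2 * (∫ z, inner ℝ (grad u z) (grad ψ z)) + 4 * ∫ z, ‖grad χ z‖ ^ 2 * w z ^ 2 := by
          rw [integral_add (i4.const_mul 2) (i2.const_mul 4), integral_const_mul,
            integral_const_mul]
      _ ≤ 4 * ε := by
          rw [hel]
          linarith
  refine le_trans ?_ h1
  unfold En
  calc ∫ z in ball (0 : ℂ) ρ, ‖grad u z‖ ^ 2
      = ∫ z in ball (0 : ℂ) ρ, χ z ^ 2 * ‖grad u z‖ ^ 2 := by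
        refine setIntegral_congr_fun measurableSet_ball fun z hz => ?_
        rw [hχ1 z hz]
        ring
    _ ≤ ∫ z, χ z ^ 2 * ‖grad u z‖ ^ 2 :=
        setIntegral_le_integral i1 (Eventually.of_forall fun z => by (clear * -; positivity))

lemma ct_u_const (h : GMin u K) (P : Piece K A η δ) (hw : Pot (src u η) w) {β : ℝ}
    (hβ : ∀ z, z ∉ K → u z - β = η z * u z - w z) : ∃ γ : ℝ, ∀ z, z ∉ K → u z = γ := by
  obtain ⟨ρ₀, hρ₀, hρ⟩ := ct_rad P
  have hE : ∀ ρ : ℝ, ρ₀ ≤ ρ → En u ρ = 0 := by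
    intro ρ hle
    have h1 : ∀ ε : ℝ, 0 < ε → En u ρ ≤ 4 * ε := fun ε hε =>
      ct_energy h P hw hβ (hρ.trans (ball_subset_ball hle)) hε
    have h2 : 0 ≤ En u ρ := integral_nonneg fun _ => by (clear * -; positivity)
    refine le_antisymm ?_ h2
    refine le_of_forall_pos_le_add fun ε hε => ?_
    have := h1 (ε / 4) (by positivity)
    linarith only [this]
  have hz : ∀ z ∈ Kᶜ, fderiv ℝ u z = 0 := by
    intro z hz
    set ρ := max ρ₀ (‖z‖ + 1) with hρdef
    have h1 := hE ρ (le_max_left _ _)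
    unfold En at h1
    rw [integral_eq_zero_iff_of_nonneg_ae (Eventually.of_forall fun _ => by (clear * -; positivity))
      (h.integrableOn ρ)] at h1
    set U : Set ℂ := ball 0 ρ ∩ Kᶜ with hU
    have hUo : IsOpen U := isOpen_ball.inter h.gm.closed.isOpen_compl
    have h2 : grad u =ᵐ[volume.restrict U] fun _ => 0 := by
      have h3 := ae_restrict_of_ae_restrict_of_subset (inter_subset_left : U ⊆ ball 0 ρ) h1
      filter_upwards [h3] with y hy
      have hy' : ‖grad u y‖ ^ 2 = 0 := hy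
      simpa using hy'
    have h3 := Measure.eqOn_open_of_ae_eq h2 hUo
      ((ct_grad_cont h).mono inter_subset_right) continuousOn_const
    have h4 : grad u z = 0 := h3 ⟨by
      rw [ct_memball]
      exact lt_of_lt_of_le (by linarith only []) (le_max_right _ _), hz⟩
    ext v
    rw [← inner_grad, h4]
    simp
  obtain ⟨γ, hγ⟩ := h.gm.closed.isOpen_compl.exists_is_const_of_fderiv_eq_zero (𝕜 := ℝ) h.conn
    ((HarmonicOnNhd.smooth h.harm).differentiableOn (by simp)) hz
  exact ⟨γ, hγ⟩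

theorem GMin.caseTwo (h : GMin u K) (P : Piece K A η δ) (hw : Pot (src u η) w)
    (h0 : ∀ x ∈ A, deriv (ff w) x = 0) : A = ∅ := by
  by_contra hne
  have hA : A.Nonempty := nonempty_iff_ne_empty.2 hne
  obtain ⟨β, hβ⟩ := ct_beta h P hw h0 hA
  obtain ⟨γ, hγ⟩ := ct_u_const h P hw hβ
  obtain ⟨R, hR⟩ := P.cpt.isBounded.subset_ball (0 : ℂ)
  have hg0 : ∀ z : ℂ, grad (fun _ => γ) z = 0 := by
    intro z
    simp only [grad, fderiv_fun_const, Pi.zero_apply, zero_apply, Complex.ext_iff, Complex.zero_re, Complex.zero_im, and_self]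
  have hLen : μH[1] ((K \ A) ∩ ball 0 R) < ⊤ :=
    lt_of_le_of_lt (measure_mono (inter_subset_inter_left _ diff_subset)) (h.len_lt R)
  have h1 := h.compare (R := R) (v := fun _ => γ) (L := K \ A) P.out
    (LocLip.of_contDiffOn P.out.isOpen_compl contDiffOn_const)
    (by simp only [hg0]; simp only [norm_zero, ne_eq, OfNat.ofNat_ne_zero, not_false_eq_true, zero_pow, enorm_zero, ENNReal.zero_ne_top, integrableOn_const_iff, Complex.volume_ball, true_or]) hLen
    ⟨A, P.cpt, hR, by
      intro z hz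
      rcases hz with ⟨h1, h2⟩ | ⟨h1, h2⟩
      · exact absurd h1.1 h2
      · by_contra hzA
        exact h2 ⟨h1, hzA⟩, fun z _ hzK => (hγ z hzK).symm⟩
  have h2 : En (fun _ => γ) R = 0 := by
    unfold En
    simp only [hg0]
    simp
  have h3 : 0 ≤ En u R := integral_nonneg fun _ => by (clear * -; positivity)
  rw [h2, zero_add] at h1
  -- the length drops
  obtain ⟨x, hx⟩ := hA
  have hxo : x ∈ (K \ A)ᶜ := fun hx' => hx'.2 hx
  obtain ⟨r, hr, hrs⟩ := Metric.isOpen_iff.1 P.out.isOpen_compl x hxo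
  have h4 : 0 < μH[1] (A ∩ ball 0 R) := by
    refine lt_of_lt_of_le (h.red x (P.sub hx) r hr) (measure_mono ?_)
    rintro z ⟨hzK, hzb⟩
    have hzA : z ∈ A := by
      by_contra hzA
      exact hrs hzb ⟨hzK, hzA⟩
    exact ⟨hzA, hR hzA⟩
  have h5 : μH[1] (K ∩ ball 0 R) = μH[1] ((K \ A) ∩ ball 0 R) + μH[1] (A ∩ ball 0 R) := by
    have e : K ∩ ball 0 R = ((K \ A) ∩ ball 0 R) ∪ (A ∩ ball 0 R) := by
      rw [← union_inter_distrib_right, diff_union_of_subset P.sub]
    rw [e, measure_union]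
    · rw [disjoint_left]
      rintro z ⟨hz1, _⟩ ⟨hz2, _⟩
      exact hz1.2 hz2
    · exact P.cpt.measurableSet.inter measurableSet_ball
  have h6 : μH[1] (A ∩ ball 0 R) < ⊤ :=
    lt_of_le_of_lt (measure_mono (inter_subset_inter_left _ P.sub)) (h.len_lt R)
  have h7 : Len K R = Len (K \ A) R + (μH[1] (A ∩ ball 0 R)).toReal := by
    unfold Len
    rw [h5, ENNReal.toReal_add hLen.ne h6.ne]
  have h8 : 0 < (μH[1] (A ∩ ball 0 R)).toReal := ENNReal.toReal_pos h4.ne' h6.ne
  (clear * - h1 h3 h7 h8; linarith)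

end Vale.Agent.P128.GM
end

section

/-! D-07 (GM/D/CPiece.lean, helper32) : copies of Piece, Tests, SrcInt, Energy -/

open MeasureTheory Set Metric Filter InnerProductSpace
open scoped ENNReal NNReal ContDiff Topology Real

namespace Vale.Agent.P128.GM

open Vale.Agent.P128

variable {u : ℂ → ℝ} {G : ℂ → ℂ} {K L A W : Set ℂ} {η w : ℂ → ℝ} {δ : ℝ}

namespace CMin

theorem contDiffAt_of_notMem (h : CMin u K) {z : ℂ} (hz : z ∉ K) : ContDiffAt ℝ ∞ u z :=
  (HarmonicOnNhd.smooth h.harm).contDiffAt (h.gm.closed.isOpen_compl.mem_nhds hz)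

theorem src_smooth (h : CMin u K) (P : Piece K A η δ) : ContDiff ℝ ∞ (src u η) := by
  rw [contDiff_iff_contDiffAt]
  intro z
  by_cases hz : z ∈ K
  · by_cases hzA : z ∈ A
    · refine contDiffAt_const.congr_of_eventuallyEq (f₁ := src u η) (f := fun _ => (0 : ℝ)) ?_
      filter_upwards [thick_mem_nhds P.pos hzA] with w hw
      exact src_near P hw
    · refine contDiffAt_const.congr_of_eventuallyEq (f₁ := src u η) (f := fun _ => (0 : ℝ)) ?_
      filter_upwards [thick_mem_nhds P.pos (show z ∈ K \ A from ⟨hz, hzA⟩)] with w hw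
      exact src_near' P hw
  · have hu := contDiffAt_of_notMem h hz
    have e : src u η = fun z => 2 * (fderiv ℝ u z 1 * fderiv ℝ η z 1 +
        fderiv ℝ u z Complex.I * fderiv ℝ η z Complex.I) + u z * lap η z := by
      funext z
      simp only [src, inner_eq, grad_re, grad_im]
    rw [e]
    exact (contDiffAt_const.mul (((contDiffAt_fderiv_apply hu 1).mul
      (contDiff_fderiv_apply P.smooth 1).contDiffAt).add ((contDiffAt_fderiv_apply hu Complex.I).mul
      (contDiff_fderiv_apply P.smooth Complex.I).contDiffAt))).add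
      (hu.mul (contDiff_lap P.smooth).contDiffAt)

theorem b_smooth (h : CMin u K) (P : Piece K A η δ) :
    ContDiffOn ℝ ∞ (fun z => η z * u z) Aᶜ := by
  intro z hz
  refine ContDiffAt.contDiffWithinAt ?_
  by_cases hzK : z ∈ K
  · refine contDiffAt_const.congr_of_eventuallyEq (f := fun _ => (0 : ℝ)) ?_
    filter_upwards [thick_mem_nhds P.pos (show z ∈ K \ A from ⟨hzK, hz⟩)] with w hw
    rw [P.zero w hw, zero_mul]
  · exact P.smooth.contDiffAt.mul (contDiffAt_of_notMem h hzK)

theorem a_smooth (h : CMin u K) (P : Piece K A η δ) :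
    ContDiffOn ℝ ∞ (fun z => (1 - η z) * u z) (K \ A)ᶜ := by
  intro z hz
  refine ContDiffAt.contDiffWithinAt ?_
  by_cases hzK : z ∈ K
  · have hzA : z ∈ A := by by_contra hA; exact hz ⟨hzK, hA⟩
    refine contDiffAt_const.congr_of_eventuallyEq (f := fun _ => (0 : ℝ)) ?_
    filter_upwards [thick_mem_nhds P.pos hzA] with w hw
    rw [P.one w hw, sub_self, zero_mul]
  · exact (contDiffAt_const.sub P.smooth.contDiffAt).mul (contDiffAt_of_notMem h hzK)

theorem lap_b (h : CMin u K) (P : Piece K A η δ) {z : ℂ} (hz : z ∉ A) :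
    lap (fun z => η z * u z) z = src u η z := by
  by_cases hzK : z ∈ K
  · have he : (fun z => η z * u z) =ᶠ[𝓝 z] fun _ => 0 := by
      filter_upwards [thick_mem_nhds P.pos (show z ∈ K \ A from ⟨hzK, hz⟩)] with w hw
      rw [P.zero w hw, zero_mul]
    rw [lap_congr he, lap_const, src_near' P (self_subset_cthickening _ ⟨hzK, hz⟩)]
  · have hu := contDiffAt_of_notMem h hzK
    rw [lap_mul (P.smooth.contDiffAt.of_le two_le_infty) (hu.of_le two_le_infty),
      HarmonicOnNhd.lap_eq h.harm hzK, src, real_inner_comm]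
    ring

theorem integrable_inner (h : CMin u K) {G : ℂ → ℂ} (hG : Continuous G)
    (hc : HasCompactSupport G) : Integrable (fun z => (inner ℝ (grad u z) (G z) : ℝ)) := by
  obtain ⟨R, hR⟩ := hc.isCompact.isBounded.subset_ball (0 : ℂ)
  have h2 : Integrable (fun z => ‖G z‖ ^ 2) :=
    (hG.norm.pow 2).integrable_of_hasCompactSupport
      (HasCompactSupport.intro hc fun z hz => by
        simp [image_eq_zero_of_notMem_tsupport hz])
  have h3 := integrable_inner_of (μ := volume.restrict (ball (0 : ℂ) R)) (measurable_grad u)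
    hG.measurable (h.integrableOn R) h2.integrableOn
  refine (integrableOn_iff_integrable_of_support_subset ?_).1 h3
  intro z hz
  apply hR
  by_contra hh
  apply hz
  simp only
  rw [image_eq_zero_of_notMem_tsupport hh, inner_zero_right]

theorem u_deta_smooth (h : CMin u K) (P : Piece K A η δ) (v : ℂ) :
    ContDiff ℝ ∞ fun z => u z * fderiv ℝ η z v := by
  rw [contDiff_iff_contDiffAt]
  intro z
  by_cases hz : z ∈ K
  · refine (contDiffAt_const (c := (0 : ℝ))).congr_of_eventuallyEq ?_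
    filter_upwards [fderiv_eq_zero_nhds P hz] with y hy
    rw [hy]; simp
  · exact (contDiffAt_of_notMem h hz).mul (contDiff_fderiv_apply P.smooth v).contDiffAt

theorem test_b (h : CMin u K) (P : Piece K A η δ) {φ : ℂ → ℝ} (h1 : ContDiff ℝ ∞ φ)
    (h2 : HasCompactSupport φ) :
    ∫ z, inner ℝ (grad (fun z => η z * u z) z) (grad φ z) = - ∫ z, src u η z * φ z := by
  have hηφ : ContDiff ℝ ∞ fun z => η z * φ z := P.smooth.mul h1
  have hηφc : HasCompactSupport fun z => η z * φ z := h2.mul_left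
  have hKo : IsOpen Kᶜ := h.gm.closed.isOpen_compl
  -- Euler-Lagrange
  have hel : ∫ z, inner ℝ (grad u z) (grad (fun z => η z * φ z) z) = 0 := by
    refine h.el (LocLip.of_contDiff hηφ hKo) ?_ ?_
    · obtain ⟨R, hR⟩ := hηφc.isCompact.isBounded.subset_ball (0 : ℂ)
      refine ⟨R, fun z _ hz => image_eq_zero_of_notMem_tsupport (f := fun z => η z * φ z) ?_⟩
      intro hh
      have := hR hh
      rw [mem_ball, dist_zero_right] at this
      linarith
    · exact integrable_grad_sq_cc hηφ hηφc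
  -- integration by parts
  have hp : ∀ v : ℂ, ∫ z, (u z * fderiv ℝ η z v) * fderiv ℝ φ z v
      = - ∫ z, fderiv ℝ (fun z => u z * fderiv ℝ η z v) z v * φ z := fun v =>
    ibp ((u_deta_smooth h P v).of_le (by simp)) (h1.of_le (by simp)) h2 v
  have cE : ∀ v : ℂ, Continuous fun z => u z * fderiv ℝ η z v := fun v =>
    (u_deta_smooth h P v).continuous
  have cE' : ∀ v : ℂ, Continuous fun z => fderiv ℝ (fun z => u z * fderiv ℝ η z v) z v := fun v =>
    (contDiff_fderiv_apply (u_deta_smooth h P v) v).continuous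
  have cφ : ∀ v : ℂ, Continuous fun z => fderiv ℝ φ z v := fun v =>
    (contDiff_fderiv_apply h1 v).continuous
  have i1 : ∀ v : ℂ, Integrable fun z => (u z * fderiv ℝ η z v) * fderiv ℝ φ z v := fun v =>
    ((cE v).mul (cφ v)).integrable_of_hasCompactSupport
      (hasCompactSupport_fderiv_apply h2 v).mul_left
  have i2 : ∀ v : ℂ, Integrable fun z =>
      fderiv ℝ (fun z => u z * fderiv ℝ η z v) z v * φ z := fun v =>
    ((cE' v).mul h1.continuous).integrable_of_hasCompactSupport h2.mul_left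
  have i3 : Integrable fun z => (inner ℝ (grad u z) (grad (fun z => η z * φ z) z) : ℝ) :=
    h.integrable_inner (continuous_grad hηφ)
      (HasCompactSupport.intro hηφc fun z hz => grad_eq_zero_of_notMem hz)
  have i4 : Integrable fun z => (inner ℝ (grad u z) (φ z • grad η z) : ℝ) :=
    h.integrable_inner (h1.continuous.smul (continuous_grad P.smooth))
      (HasCompactSupport.intro h2 fun z hz => by
        rw [image_eq_zero_of_notMem_tsupport hz, zero_smul])
  have hae : ∀ᵐ z : ℂ, z ∉ K := h.ae_compl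
  have e1 : ∫ z, inner ℝ (grad (fun z => η z * u z) z) (grad φ z)
      = ∫ z, ((inner ℝ (grad u z) (grad (fun z => η z * φ z) z) : ℝ)
        - inner ℝ (grad u z) (φ z • grad η z)
        + ((u z * fderiv ℝ η z 1) * fderiv ℝ φ z 1
          + (u z * fderiv ℝ η z Complex.I) * fderiv ℝ φ z Complex.I)) := by
    refine integral_congr_ae ?_
    filter_upwards [hae] with z hz
    have du : DifferentiableAt ℝ u z := (contDiffAt_of_notMem h hz).differentiableAt (by simp)
    have dη : DifferentiableAt ℝ η z := P.smooth.differentiable (by simp) z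
    have dφ : DifferentiableAt ℝ φ z := h1.differentiable (by simp) z
    rw [grad_mul dη du, grad_mul dη dφ]
    simp only [inner_add_left, inner_add_right, inner_smul_left, inner_smul_right, conj_trivial]
    rw [inner_grad_grad η φ]
    ring
  have e2 : ∫ z, src u η z * φ z
      = ∫ z, ((inner ℝ (grad u z) (φ z • grad η z) : ℝ)
        + (fderiv ℝ (fun z => u z * fderiv ℝ η z 1) z 1 * φ z
          + fderiv ℝ (fun z => u z * fderiv ℝ η z Complex.I) z Complex.I * φ z)) := by
    refine integral_congr_ae ?_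
    filter_upwards [hae] with z hz
    have du : DifferentiableAt ℝ u z := (contDiffAt_of_notMem h hz).differentiableAt (by simp)
    have dη : ∀ v : ℂ, DifferentiableAt ℝ (fun z => fderiv ℝ η z v) z := fun v =>
      (contDiff_fderiv_apply P.smooth v).differentiable (by simp) z
    rw [fderiv_fun_mul du (dη 1), fderiv_fun_mul du (dη Complex.I), inner_smul_right, src,
      inner_grad_grad u η, lap]
    simp only [add_apply, smul_apply, smul_eq_mul]
    ring
  have j1 : Integrable fun z => (inner ℝ (grad u z) (grad (fun z => η z * φ z) z) : ℝ)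
      - inner ℝ (grad u z) (φ z • grad η z) := i3.sub i4
  have j2 : Integrable fun z => (u z * fderiv ℝ η z 1) * fderiv ℝ φ z 1
      + (u z * fderiv ℝ η z Complex.I) * fderiv ℝ φ z Complex.I := (i1 1).add (i1 Complex.I)
  have j3 : Integrable fun z => fderiv ℝ (fun z => u z * fderiv ℝ η z 1) z 1 * φ z
      + fderiv ℝ (fun z => u z * fderiv ℝ η z Complex.I) z Complex.I * φ z :=
    (i2 1).add (i2 Complex.I)
  rw [e1, e2, integral_add j1 j2, integral_sub i3 i4, integral_add (i1 1) (i1 Complex.I),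
    integral_add i4 j3, integral_add (i2 1) (i2 Complex.I), hel, hp 1, hp Complex.I]
  ring

theorem test_a (h : CMin u K) (P : Piece K A η δ) {φ : ℂ → ℝ} (h1 : ContDiff ℝ ∞ φ)
    (h2 : HasCompactSupport φ) :
    ∫ z, inner ℝ (grad (fun z => (1 - η z) * u z) z) (grad φ z) = ∫ z, src u η z * φ z := by
  have hKo : IsOpen Kᶜ := h.gm.closed.isOpen_compl
  have hel : ∫ z, inner ℝ (grad u z) (grad φ z) = 0 := by
    refine h.el (LocLip.of_contDiff h1 hKo) ?_ ?_
    · obtain ⟨R, hR⟩ := h2.isCompact.isBounded.subset_ball (0 : ℂ)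
      refine ⟨R, fun z _ hz => image_eq_zero_of_notMem_tsupport ?_⟩
      intro hh
      have := hR hh
      rw [mem_ball, dist_zero_right] at this
      linarith
    · exact integrable_grad_sq_cc h1 h2
  have hae : ∀ᵐ z : ℂ, z ∉ K := h.ae_compl
  have i3 : Integrable fun z => (inner ℝ (grad u z) (grad φ z) : ℝ) :=
    h.integrable_inner (continuous_grad h1)
      (HasCompactSupport.intro h2 fun z hz => grad_eq_zero_of_notMem hz)
  have i4 : Integrable fun z => (inner ℝ (grad u z) (η z • grad φ z) : ℝ) :=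
    h.integrable_inner (P.smooth.continuous.smul (continuous_grad h1))
      (HasCompactSupport.intro h2 fun z hz => by
        rw [grad_eq_zero_of_notMem hz, smul_zero])
  have i5 : Integrable fun z =>
      (inner ℝ (grad (fun z => η z * u z) z) (grad φ z) : ℝ) := by
    have cE : ∀ v : ℂ, Continuous fun z => u z * fderiv ℝ η z v := fun v =>
      (u_deta_smooth h P v).continuous
    have cφ : ∀ v : ℂ, Continuous fun z => fderiv ℝ φ z v := fun v =>
      (contDiff_fderiv_apply h1 v).continuous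
    have i1 : ∀ v : ℂ, Integrable fun z => (u z * fderiv ℝ η z v) * fderiv ℝ φ z v := fun v =>
      ((cE v).mul (cφ v)).integrable_of_hasCompactSupport
        (hasCompactSupport_fderiv_apply h2 v).mul_left
    refine (i4.add ((i1 1).add (i1 Complex.I))).congr ?_
    filter_upwards [hae] with z hz
    have du : DifferentiableAt ℝ u z := (contDiffAt_of_notMem h hz).differentiableAt (by simp)
    have dη : DifferentiableAt ℝ η z := P.smooth.differentiable (by simp) z
    rw [grad_mul dη du]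
    simp only [Pi.add_apply, inner_add_left, inner_smul_left, inner_smul_right, conj_trivial]
    rw [inner_grad_grad η φ]
    ring
  have e1 : ∫ z, inner ℝ (grad (fun z => (1 - η z) * u z) z) (grad φ z)
      = ∫ z, ((inner ℝ (grad u z) (grad φ z) : ℝ)
        - inner ℝ (grad (fun z => η z * u z) z) (grad φ z)) := by
    refine integral_congr_ae ?_
    filter_upwards [hae] with z hz
    have du : DifferentiableAt ℝ u z := (contDiffAt_of_notMem h hz).differentiableAt (by simp)
    have dη : DifferentiableAt ℝ η z := P.smooth.differentiable (by simp) z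
    have d1 : DifferentiableAt ℝ (fun z => η z * u z) z := dη.mul du
    have : (fun z => (1 - η z) * u z) = fun z => u z - η z * u z := by funext y; ring
    rw [this, grad_sub du d1, inner_sub_left]
  rw [e1, integral_sub i3 i5, hel, test_b h P h1 h2]
  ring

theorem src_int (h : CMin u K) (P : Piece K A η δ) : ∫ z, src u η z = 0 := by
  obtain ⟨R, hR⟩ := P.supp.isCompact.isBounded.subset_ball (0 : ℂ)
  obtain ⟨χ, h1, h2, h3, -, -⟩ := exists_logcutoff R (ε := 1) one_pos
  have e := test_b h P h1 h2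
  have e1 : ∫ z, inner ℝ (grad (fun z => η z * u z) z) (grad χ z) = 0 := by
    rw [← integral_zero ℂ ℝ]
    refine integral_congr_ae (Eventually.of_forall fun z => ?_)
    by_cases hz : z ∈ tsupport η
    · have : grad χ z = 0 := by
        have he : χ =ᶠ[𝓝 z] fun _ => 1 := by
          filter_upwards [isOpen_ball.mem_nhds (hR hz)] with w hw
          exact h3 w hw
        rw [grad_congr he, grad_const]
      simp [this]
    · have he : (fun z => η z * u z) =ᶠ[𝓝 z] fun _ => 0 := by
        filter_upwards [notMem_tsupport_iff_eventuallyEq.1 hz] with w hw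
        rw [hw]; simp
      simp [grad_congr he, grad_const]
  have e2 : ∫ z, src u η z * χ z = ∫ z, src u η z := by
    refine integral_congr_ae (Eventually.of_forall fun z => ?_)
    simp only []
    by_cases hz : z ∈ tsupport η
    · rw [h3 z (hR hz), mul_one]
    · have he : η =ᶠ[𝓝 z] fun _ => 0 := notMem_tsupport_iff_eventuallyEq.1 hz
      have : src u η z = 0 := by simp [src, grad_congr he, lap_congr he, grad_const, lap_const]
      rw [this, zero_mul]
  rw [e1, e2] at e
  linarith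

theorem grad_a (h : CMin u K) (P : Piece K A η δ) {z : ℂ}
    (hz : z ∈ cthickening (2 * δ) A) : grad (fun z => (1 - η z) * u z) z = 0 := by
  have hU : IsOpen (K \ A)ᶜ := P.out.isOpen_compl
  have hc : ContinuousAt (grad (fun z => (1 - η z) * u z)) z :=
    (continuousOn_grad hU ((a_smooth h P).of_le (by simp))).continuousAt
      (hU.mem_nhds (P.notMem_out hz))
  by_contra hne
  have hcl : z ∈ closure (thickening (2 * δ) A) := by
    rwa [closure_thickening (by linarith [P.pos])]
  have hfr := mem_closure_iff_frequently.1 hcl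
  obtain ⟨y, hy1, hy2⟩ := (hfr.and_eventually (hc.eventually_ne hne)).exists
  apply hy2
  have : (fun z => (1 - η z) * u z) =ᶠ[𝓝 y] fun _ => 0 := by
    filter_upwards [isOpen_thickening.mem_nhds hy1] with x hx
    rw [P.one x (thickening_subset_cthickening _ _ hx)]; ring
  rw [grad_congr this, grad_const]

theorem b_lip (h : CMin u K) (P : Piece K A η δ) : LocLip Aᶜ (fun z => η z * u z) :=
  LocLip.of_contDiffOn P.cpt.isClosed.isOpen_compl ((b_smooth h P).of_le (by simp))

theorem a_lip (h : CMin u K) (P : Piece K A η δ) :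
    LocLip (K \ A)ᶜ (fun z => (1 - η z) * u z) :=
  LocLip.of_contDiffOn P.out.isOpen_compl ((a_smooth h P).of_le (by simp))

theorem grad_add (h : CMin u K) (P : Piece K A η δ) {z : ℂ} (hz : z ∉ K) :
    grad u z = grad (fun z => (1 - η z) * u z) z + grad (fun z => η z * u z) z := by
  have ha : DifferentiableAt ℝ (fun z => (1 - η z) * u z) z :=
    ((a_smooth h P).contDiffAt (P.out.isOpen_compl.mem_nhds fun h => hz h.1)).differentiableAt
      (by simp)
  have hb : DifferentiableAt ℝ (fun z => η z * u z) z :=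
    ((b_smooth h P).contDiffAt (P.cpt.isClosed.isOpen_compl.mem_nhds
      fun h => hz (P.sub h))).differentiableAt (by simp)
  rw [← GM.grad_add ha hb]
  congr 1
  funext w
  ring

theorem b_sq (h : CMin u K) (P : Piece K A η δ) :
    Integrable (fun z => ‖grad (fun z => η z * u z) z‖ ^ 2) := by
  have hT : IsCompact (tsupport η \ thickening (2 * δ) A) := P.supp.diff isOpen_thickening
  have hTA : tsupport η \ thickening (2 * δ) A ⊆ Aᶜ := fun z hz hzA =>
    hz.2 (self_subset_thickening (by linarith [P.pos]) A hzA)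
  obtain ⟨M, hM⟩ := (h.b_lip P).exists_bound P.cpt.isClosed.isOpen_compl hT hTA
  obtain ⟨R, hR⟩ := (P.cpt.isBounded.thickening (δ := 2 * δ)).subset_ball 0
  have h1 : Integrable ((ball (0 : ℂ) R).indicator fun z => ‖grad u z‖ ^ 2) :=
    (integrable_indicator_iff measurableSet_ball).2 (h.integrableOn R)
  have h2 : Integrable ((tsupport η \ thickening (2 * δ) A).indicator fun _ : ℂ => M ^ 2) :=
    (integrable_indicator_iff hT.measurableSet).2 (integrableOn_const hT.measure_lt_top.ne)
  refine Integrable.mono' (h1.add h2)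
    ((measurable_grad _).norm.pow_const 2).aestronglyMeasurable (Eventually.of_forall fun z => ?_)
  simp only [Pi.add_apply, Real.norm_eq_abs, abs_pow, abs_norm]
  by_cases hz1 : z ∈ thickening (2 * δ) A
  · rw [P.grad_b u hz1, indicator_of_mem (hR hz1)]
    have : 0 ≤ (tsupport η \ thickening (2 * δ) A).indicator (fun _ : ℂ => M ^ 2) z :=
      indicator_nonneg (fun _ _ => sq_nonneg M) z
    linarith
  · have h3 : 0 ≤ (ball (0 : ℂ) R).indicator (fun z => ‖grad u z‖ ^ 2) z :=
      indicator_nonneg (fun _ _ => sq_nonneg _) z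
    by_cases hz2 : z ∈ tsupport η
    · rw [indicator_of_mem (show z ∈ tsupport η \ thickening (2 * δ) A from ⟨hz2, hz1⟩)]
      have := hM z ⟨hz2, hz1⟩
      have := pow_le_pow_left₀ (norm_nonneg _) this 2
      linarith
    · rw [grad_eq_zero_of_notMem fun hh => hz2 (tsupport_mul_subset_left hh)]
      have h4 : (tsupport η \ thickening (2 * δ) A).indicator (fun _ : ℂ => M ^ 2) z = 0 :=
        indicator_of_notMem (fun hh => hz2 hh.1) _
      rw [h4]
      simpa using h3

theorem a_sq (h : CMin u K) (P : Piece K A η δ) (R : ℝ) :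
    IntegrableOn (fun z => ‖grad (fun z => (1 - η z) * u z) z‖ ^ 2) (ball 0 R) := by
  have h1 := integrable_sub_sq (measurable_grad u) (measurable_grad (fun z => η z * u z))
    (h.integrableOn R) (h.b_sq P).integrableOn
  refine h1.congr ?_
  have h0 : ∀ᵐ z ∂(volume.restrict (ball (0 : ℂ) R)), z ∉ K :=
    ae_restrict_of_ae (measure_eq_zero_iff_ae_notMem.1 h.vol_zero)
  filter_upwards [h0] with z hz
  rw [h.grad_add P hz]
  congr 2
  ring

theorem cross (h : CMin u K) (P : Piece K A η δ) {t : ℂ} (ht : ‖t‖ ≤ δ) :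
    ∫ z, inner ℝ (grad (fun z => (1 - η z) * u z) z) (grad (fun z => η z * u z) (z - t))
      = ∫ z, src u η z * (η (z - t) * u (z - t)) := by
  obtain ⟨θ, hθ, hθ0, hθ1⟩ := exists_theta A P.pos
  have hAo := P.cpt.isClosed.isOpen_compl
  have hbt : ∀ z, z ∉ cthickening δ A →
      ContDiffAt ℝ ∞ (fun z => η (z - t) * u (z - t)) z := by
    intro z hz
    have hzt : z - t ∈ Aᶜ := fun hh => hz (mem_cthickening_of_sub ht hh)
    have h1 := (b_smooth h P).contDiffAt (hAo.mem_nhds hzt)
    exact h1.comp z (contDiffAt_id.sub contDiffAt_const)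
  have hφ : ContDiff ℝ ∞ fun z => θ z * (η (z - t) * u (z - t)) := by
    rw [contDiff_iff_contDiffAt]
    intro z
    by_cases hz : z ∈ cthickening δ A
    · refine (contDiffAt_const (c := (0 : ℝ))).congr_of_eventuallyEq ?_
      filter_upwards [hθ0 z hz] with y hy
      rw [hy, zero_mul]
    · exact hθ.contDiffAt.mul (hbt z hz)
  have hφc : HasCompactSupport fun z => θ z * (η (z - t) * u (z - t)) :=
    ((hasCompactSupport_translate P.supp t).mul_right).mul_left
  have key := test_a h P hφ hφc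
  have e1 : ∀ z, inner ℝ (grad (fun z => (1 - η z) * u z) z)
      (grad (fun z => θ z * (η (z - t) * u (z - t))) z)
      = inner ℝ (grad (fun z => (1 - η z) * u z) z) (grad (fun z => η z * u z) (z - t)) := by
    intro z
    by_cases hz : z ∈ cthickening (2 * δ) A
    · rw [h.grad_a P hz, inner_zero_left, inner_zero_left]
    · congr 1
      rw [← grad_translate (fun z => η z * u z) t z]
      refine grad_congr ?_
      filter_upwards [hθ1 z fun hh => hz (thickening_subset_cthickening _ _ hh)] with y hy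
      rw [hy, one_mul]
  have e2 : ∀ z, src u η z * (θ z * (η (z - t) * u (z - t)))
      = src u η z * (η (z - t) * u (z - t)) := by
    intro z
    by_cases hz : z ∈ cthickening (2 * δ) A
    · rw [src_near P hz, zero_mul, zero_mul]
    · rw [(hθ1 z fun hh => hz (thickening_subset_cthickening _ _ hh)).self_of_nhds, one_mul]
  simp only [e1, e2] at key
  exact key

theorem test_bt (h : CMin u K) (P : Piece K A η δ) (t : ℂ) {c : ℂ → ℝ}
    (hc : ContDiff ℝ ∞ c) (hcc : HasCompactSupport c) :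
    ∫ z, inner ℝ (grad (fun z => η z * u z) (z - t)) (grad c z) =
      - ∫ z, src u η z * c (z + t) := by
  have h1 : ContDiff ℝ ∞ fun z => c (z + t) := hc.comp (contDiff_id.add contDiff_const)
  have h2 : HasCompactSupport fun z => c (z + t) := by
    have := hasCompactSupport_translate hcc (-t)
    simpa [sub_neg_eq_add] using this
  rw [← test_b h P h1 h2]
  rw [← integral_sub_right_eq_self (fun z => (inner ℝ (grad (fun z => η z * u z) z)
    (grad (fun z => c (z + t)) z) : ℝ)) t]
  refine integral_congr_ae (Eventually.of_forall fun z => ?_)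
  simp only
  congr 1
  have := grad_translate c (-t) (z - t)
  simp only [sub_neg_eq_add, sub_add_cancel] at this
  exact this.symm

theorem corr (h : CMin u K) (P : Piece K A η δ) (hw : Pot (src u η) w) {t : ℂ}
    (ht : ‖t‖ ≤ δ) {χ : ℂ → ℝ} (hχ : ContDiff ℝ ∞ χ) (hχc : HasCompactSupport χ) {ρ : ℝ}
    (hρ : ∀ z, η z ≠ 0 → ‖z‖ + δ < ρ) (hχ1 : ∀ z ∈ ball (0 : ℂ) ρ, χ z = 1) :
    2 * (∫ z, inner ℝ (grad (fun z => (1 - η z) * u z) z)
        (grad (fun z => χ z * (w z - w (z - t))) z))
      + 2 * (∫ z, inner ℝ (grad (fun z => η z * u z) (z - t))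
        (grad (fun z => χ z * (w z - w (z - t))) z))
      + ∫ z, ‖grad (fun z => χ z * (w z - w (z - t))) z‖ ^ 2
    = 2 * (∫ z, src u η z * w z) - 2 * (∫ z, src u η z * w (z - t))
      + ∫ z, ‖grad χ z‖ ^ 2 * (w z - w (z - t)) ^ 2 := by
  have hs := src_smooth h P
  have hsc : HasCompactSupport (src u η) := src_supp P
  have hwt : ContDiff ℝ ∞ fun z => w (z - t) := hw.smooth.comp (contDiff_id.sub contDiff_const)
  have hf : ContDiff ℝ ∞ fun z => w z - w (z - t) := hw.smooth.sub hwt
  have hc : ContDiff ℝ ∞ fun z => χ z * (w z - w (z - t)) := hχ.mul hf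
  have hcc : HasCompactSupport fun z => χ z * (w z - w (z - t)) := hχc.mul_right
  have hone : ∀ z, src u η z ≠ 0 → ∀ y : ℂ, ‖y‖ ≤ ‖z‖ + δ → χ y = 1 := by
    intro z hz y hy
    have h1 : z ∈ tsupport η := by
      by_contra h1
      exact hz (src_eq_zero_of_notMem h1)
    have h2 := supp_bound hρ h1
    exact chi_eq_one hχ.continuous (by linarith [P.pos, norm_nonneg z]) hχ1 (hy.trans h2)
  have T1 : ∫ z, inner ℝ (grad (fun z => (1 - η z) * u z) z)
      (grad (fun z => χ z * (w z - w (z - t))) z) = ∫ z, src u η z * (w z - w (z - t)) := by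
    rw [test_a h P hc hcc]
    refine integral_congr_ae (Eventually.of_forall fun z => ?_)
    by_cases hz : src u η z = 0
    · simp [hz]
    · simp only
      rw [hone z hz z (by linarith [P.pos]), one_mul]
  have T2 : ∫ z, inner ℝ (grad (fun z => η z * u z) (z - t))
      (grad (fun z => χ z * (w z - w (z - t))) z) = - ∫ z, src u η z * (w (z + t) - w z) := by
    rw [h.test_bt P t hc hcc]
    congr 1
    refine integral_congr_ae (Eventually.of_forall fun z => ?_)
    by_cases hz : src u η z = 0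
    · simp [hz]
    · simp only
      rw [hone z hz (z + t) ((norm_add_le _ _).trans (by linarith)), one_mul, add_sub_cancel_right]
  have T3 : ∫ z, lap (fun z => w z - w (z - t)) z * (χ z * χ z * (w z - w (z - t)))
      = ∫ z, (src u η z - src u η (z - t)) * (w z - w (z - t)) := by
    refine integral_congr_ae (Eventually.of_forall fun z => ?_)
    simp only
    rw [lap_shift hw.smooth, hw.eqn, hw.eqn]
    by_cases hz : src u η z = 0
    · by_cases hzt : src u η (z - t) = 0
      · simp [hz, hzt]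
      · have : ‖z‖ ≤ ‖z - t‖ + δ := by
          calc ‖z‖ = ‖(z - t) + t‖ := by congr 1; ring
            _ ≤ ‖z - t‖ + ‖t‖ := norm_add_le _ _
            _ ≤ _ := by linarith
        rw [hone (z - t) hzt z this]; ring
    · rw [hone z hz z (by linarith [P.pos])]; ring
  have i0 : Integrable fun z => src u η z * w z :=
    (hs.continuous.mul hw.smooth.continuous).integrable_of_hasCompactSupport hsc.mul_right
  have i1 : Integrable fun z => src u η z * w (z - t) :=
    (hs.continuous.mul hwt.continuous).integrable_of_hasCompactSupport hsc.mul_right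
  have hwp : Continuous fun z => w (z + t) := hw.smooth.continuous.comp (by fun_prop)
  have i2 : Integrable fun z => src u η z * w (z + t) :=
    (hs.continuous.mul hwp).integrable_of_hasCompactSupport hsc.mul_right
  have i3 : Integrable fun z => src u η z * (w (z + t) - w z) := by
    have := i2.sub i0
    refine this.congr (Eventually.of_forall fun z => ?_)
    simp only [Pi.sub_apply]; ring
  have i4 : Integrable fun z => src u η (z - t) * (w z - w (z - t)) := by
    have := i3.comp_sub_right t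
    refine this.congr (Eventually.of_forall fun z => ?_)
    simp only [sub_add_cancel]
  have i5 : Integrable fun z => src u η z * (w z - w (z - t)) := by
    have := i0.sub i1
    refine this.congr (Eventually.of_forall fun z => ?_)
    simp only [Pi.sub_apply]; ring
  have e1 : ∫ z, src u η z * (w z - w (z - t)) = (∫ z, src u η z * w z)
      - ∫ z, src u η z * w (z - t) := by
    rw [← integral_sub i0 i1]
    exact integral_congr_ae (Eventually.of_forall fun z => by simp only; ring)
  have e2 : ∫ z, src u η z * (w (z + t) - w z) = (∫ z, src u η z * w (z - t))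
      - ∫ z, src u η z * w z := by
    rw [hw.even t, ← integral_sub i2 i0]
    exact integral_congr_ae (Eventually.of_forall fun z => by simp only; ring)
  have e3 : ∫ z, src u η (z - t) * (w z - w (z - t)) = ∫ z, src u η z * (w (z + t) - w z) := by
    rw [← integral_sub_right_eq_self (fun z => src u η z * (w (z + t) - w z)) t]
    exact integral_congr_ae (Eventually.of_forall fun z => by simp only [sub_add_cancel])
  have e4 : ∫ z, (src u η z - src u η (z - t)) * (w z - w (z - t))
      = (∫ z, src u η z * (w z - w (z - t))) - ∫ z, src u η (z - t) * (w z - w (z - t)) := by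
    rw [← integral_sub i5 i4]
    exact integral_congr_ae (Eventually.of_forall fun z => by simp only; ring)
  rw [T1, T2, corr_sq hχ hχc hf, T3, e4, e3, e2, e1]
  ring

theorem src_b_integrable (h : CMin u K) (P : Piece K A η δ) {t : ℂ} (ht : ‖t‖ ≤ δ) :
    Integrable fun z => src u η z * (η (z - t) * u (z - t)) := by
  have hAo := P.cpt.isClosed.isOpen_compl
  have hsc : HasCompactSupport fun z => src u η z * (η (z - t) * u (z - t)) :=
    (src_supp P).mul_right
  refine Continuous.integrable_of_hasCompactSupport ?_ hsc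
  rw [continuous_iff_continuousAt]
  intro z
  by_cases hz : z ∈ cthickening δ A
  · refine ContinuousAt.congr (f := fun _ => (0 : ℝ)) continuousAt_const ?_
    have : z ∈ thickening (2 * δ) A :=
      cthickening_subset_thickening' (by linarith [P.pos]) (by linarith [P.pos]) A hz
    filter_upwards [isOpen_thickening.mem_nhds this] with y hy
    rw [src_near P (thickening_subset_cthickening _ _ hy), zero_mul]
  · have hzt : z - t ∈ Aᶜ := fun hh => hz (mem_cthickening_of_sub ht hh)
    have h1 := ((b_smooth h P).contDiffAt (hAo.mem_nhds hzt)).continuousAt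
    have h2 : ContinuousAt (fun z => η (z - t) * u (z - t)) z :=
      ContinuousAt.comp (f := fun z => z - t) (g := fun z => η z * u z) h1 (by fun_prop)
    exact (src_smooth h P).continuous.continuousAt.mul h2

theorem HH_eq (h : CMin u K) (P : Piece K A η δ) (hw : Pot (src u η) w) {t : ℂ}
    (ht : ‖t‖ ≤ δ) : HH u η w t = (∫ z, src u η z * (η (z - t) * u (z - t)))
      - ∫ z, src u η z * w (z - t) := by
  have hwt : Continuous fun z => w (z - t) := hw.smooth.continuous.comp (by fun_prop)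
  have i1 : Integrable fun z => src u η z * w (z - t) :=
    ((src_smooth h P).continuous.mul hwt).integrable_of_hasCompactSupport (src_supp P).mul_right
  unfold HH
  rw [← integral_sub (h.src_b_integrable P ht) i1]
  exact integral_congr_ae (Eventually.of_forall fun z => by simp only; ring)

end CMin

end Vale.Agent.P128.GM
end

section

/-! D-08 (GM/D/CEnergy.lean, helper32) : Earnshaw's inequality with a test function on `K \ A` -/

open MeasureTheory Set Metric Filter InnerProductSpace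
open scoped ENNReal NNReal ContDiff Topology Real

namespace Vale.Agent.P128.GM

open Vale.Agent.P128

variable {u : ℂ → ℝ} {G : ℂ → ℂ} {K L A W : Set ℂ} {η w : ℂ → ℝ} {δ : ℝ}

/-- `η u` is flat near `K \ A` -/
theorem CMin.grad_b_out (h : CMin u K) (P : Piece K A η δ) {z : ℂ}
    (hz : z ∈ cthickening (2 * δ) (K \ A)) : grad (fun z => η z * u z) z = 0 := by
  have hU : IsOpen Aᶜ := P.cpt.isClosed.isOpen_compl
  have hzA : z ∈ Aᶜ := by
    intro hA
    have h1 := P.one z (self_subset_cthickening _ hA)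
    rw [P.zero z hz] at h1
    exact zero_ne_one h1
  have hc : ContinuousAt (grad (fun z => η z * u z)) z :=
    (continuousOn_grad hU ((h.b_smooth P).of_le (by simp))).continuousAt (hU.mem_nhds hzA)
  by_contra hne
  have hcl : z ∈ closure (thickening (2 * δ) (K \ A)) := by
    rwa [closure_thickening (by linarith [P.pos])]
  have hfr := mem_closure_iff_frequently.1 hcl
  obtain ⟨y, hy1, hy2⟩ := (hfr.and_eventually (hc.eventually_ne hne)).exists
  apply hy2
  have : (fun z => η z * u z) =ᶠ[𝓝 y] fun _ => 0 := by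
    filter_upwards [isOpen_thickening.mem_nhds hy1] with x hx
    rw [P.zero x (thickening_subset_cthickening _ _ hx)]; ring
  rw [grad_congr this, grad_const]

theorem cth_sub_out {t z : ℂ} (P : Piece K A η δ) (ht : ‖t‖ ≤ δ)
    (hz : z ∈ cthickening δ (K \ A)) : z - t ∈ cthickening (2 * δ) (K \ A) := by
  have h1 : z - t ∈ cthickening ‖t‖ (cthickening δ (K \ A)) := by
    refine mem_cthickening_of_dist_le (z - t) z ‖t‖ _ hz ?_
    rw [dist_eq_norm]; simp
  have h2 := cthickening_cthickening_subset (norm_nonneg t) P.pos.le (K \ A) h1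
  exact cthickening_mono (by linarith) (K \ A) h2

theorem grad_psi_out {ρ : ℝ} {ψ : ℂ → ℝ} (hψρ : ∀ z, z ∉ ball (0 : ℂ) ρ → ψ z = 0) {z : ℂ}
    (hz : ρ < ‖z‖) : grad ψ z = 0 := by
  have : ψ =ᶠ[𝓝 z] fun _ => 0 := by
    filter_upwards [(isOpen_lt continuous_const continuous_norm).mem_nhds hz] with y hy
    refine hψρ y fun hb => ?_
    rw [mem_ball, dist_zero_right] at hb
    exact absurd hb (not_lt.2 (le_of_lt hy))
  rw [grad_congr this, grad_const]

theorem CMin.psi_a_out (h : CMin u K) (P : Piece K A η δ) {ρ : ℝ} {ψ : ℂ → ℝ}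
    (hψ : LocLip (K \ A)ᶜ ψ) (hψ0 : ∀ z, z ∉ cthickening δ (K \ A) → ψ z = 0)
    (hψρ : ∀ z, z ∉ ball (0 : ℂ) ρ → ψ z = 0)
    (hψi : Integrable (fun z => ‖grad ψ z‖ ^ 2)) :
    ∫ z, inner ℝ (grad (fun z => (1 - η z) * u z) z) (grad ψ z) = 0 := by
  have e := h.el (hψ.mono h.gm.closed.isOpen_compl (compl_subset_compl.2 sdiff_subset))
    ⟨ρ, fun z _ hz => hψρ z fun hh => by
      rw [mem_ball, dist_zero_right] at hh
      linarith⟩ hψi
  rw [← e]
  refine integral_congr_ae (Eventually.of_forall fun z => ?_)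
  simp only
  by_cases hz : z ∈ cthickening δ (K \ A)
  · congr 1
    refine grad_congr ?_
    have hz2 : z ∈ thickening (2 * δ) (K \ A) :=
      cthickening_subset_thickening' (by linarith [P.pos]) (by linarith [P.pos]) _ hz
    filter_upwards [isOpen_thickening.mem_nhds hz2] with x hx
    rw [P.zero x (thickening_subset_cthickening _ _ hx)]; ring
  · rw [grad_psi hψ0 hz, inner_zero_right, inner_zero_right]

theorem CMin.psi_b_out (h : CMin u K) (P : Piece K A η δ) {t : ℂ} (ht : ‖t‖ ≤ δ) {ψ : ℂ → ℝ}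
    (hψ0 : ∀ z, z ∉ cthickening δ (K \ A) → ψ z = 0) (z : ℂ) :
    inner ℝ (grad (fun z => η z * u z) (z - t)) (grad ψ z) = 0 := by
  by_cases hz : z ∈ cthickening δ (K \ A)
  · rw [h.grad_b_out P (cth_sub_out P ht hz), inner_zero_left]
  · rw [grad_psi hψ0 hz, inner_zero_right]

theorem psi_c_out {s : ℂ → ℝ} (hw : Pot s w) {t : ℂ} {χ : ℂ → ℝ} {ρ : ℝ}
    (hχ1 : ∀ z ∈ ball (0 : ℂ) ρ, χ z = 1)
    {ψ : ℂ → ℝ} (hψρ : ∀ z, z ∉ ball (0 : ℂ) ρ → ψ z = 0) :
    ∫ z, inner ℝ (grad (fun z => χ z * (w z - w (z - t))) z) (grad ψ z)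
      = ∫ z, inner ℝ (grad w z - grad w (z - t)) (grad ψ z) := by
  have hs : ∀ᵐ z : ℂ, z ∉ sphere (0 : ℂ) ρ := by
    rw [ae_iff]
    simp only [not_not]
    exact Measure.addHaar_sphere (volume : Measure ℂ) 0 ρ
  refine integral_congr_ae ?_
  filter_upwards [hs] with z hz
  by_cases h3 : z ∈ ball (0 : ℂ) ρ
  · congr 1
    have hd : Differentiable ℝ w := hw.smooth.differentiable (by simp)
    have hdt : DifferentiableAt ℝ (fun z => w (z - t)) z :=
      (hd (z - t)).comp (f := fun y => y - t) z (by fun_prop)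
    have : (fun z => χ z * (w z - w (z - t))) =ᶠ[𝓝 z] fun z => w z - w (z - t) := by
      filter_upwards [isOpen_ball.mem_nhds h3] with y hy
      rw [hχ1 y hy, one_mul]
    rw [grad_congr this, grad_sub (hd z) hdt, grad_translate]
  · have h4 : ρ < ‖z‖ := by
      rw [mem_ball, dist_zero_right, not_lt] at h3
      rw [mem_sphere, dist_zero_right] at hz
      exact lt_of_le_of_ne h3 (Ne.symm hz)
    rw [grad_psi_out hψρ h4, inner_zero_right, inner_zero_right]

theorem CMin.translate (h : CMin u K) (P : Piece K A η δ) (hw : Pot (src u η) w)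
    {t : ℂ} (ht : ‖t‖ ≤ δ) {χ : ℂ → ℝ} (hχ : ContDiff ℝ ∞ χ) (hχc : HasCompactSupport χ) {ρ : ℝ}
    (hρ : ∀ z, η z ≠ 0 → ‖z‖ + δ < ρ) (hχ1 : ∀ z ∈ ball (0 : ℂ) ρ, χ z = 1)
    {ψ : ℂ → ℝ} (hψ : LocLip (K \ A)ᶜ ψ) (hψ0 : ∀ z, z ∉ cthickening δ (K \ A) → ψ z = 0)
    (hψρ : ∀ z, z ∉ ball (0 : ℂ) ρ → ψ z = 0)
    (hψi : Integrable (fun z => ‖grad ψ z‖ ^ 2)) :
    0 ≤ 2 * (HH u η w t - HH u η w 0) + (∫ z, ‖grad χ z‖ ^ 2 * (w z - w (z - t)) ^ 2)
      + 2 * (∫ z, inner ℝ (grad w z - grad w (z - t)) (grad ψ z)) + ∫ z, ‖grad ψ z‖ ^ 2 := by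
  -- the fields
  set F1 : ℂ → ℂ := grad fun z => (1 - η z) * u z with hF1
  set F0 : ℂ → ℂ := grad fun z => η z * u z with hF0
  set F2 : ℂ → ℂ := fun z => F0 (z - t) with hF2
  set c : ℂ → ℝ := fun z => χ z * (w z - w (z - t)) with hc_def
  set F3 : ℂ → ℂ := grad c with hF3
  set F4 : ℂ → ℂ := grad ψ with hF4
  have m0 : Measurable F0 := measurable_grad _
  have m1 : Measurable F1 := measurable_grad _
  have m2 : Measurable F2 := m0.comp (measurable_sub_const t)
  have m3 : Measurable F3 := measurable_grad _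
  have m4 : Measurable F4 := measurable_grad _
  have hwt : ContDiff ℝ ∞ fun z => w (z - t) := hw.smooth.comp (contDiff_id.sub contDiff_const)
  have hc : ContDiff ℝ ∞ c := hχ.mul (hw.smooth.sub hwt)
  have hcc : HasCompactSupport c := hχc.mul_right
  -- the big disk
  obtain ⟨R₀, hR₀⟩ := hχc.isCompact.isBounded.subset_closedBall (0 : ℂ)
  set r : ℝ := max R₀ ρ with hr
  set R : ℝ := r + 1 with hR
  have hχr : ∀ z : ℂ, r < ‖z‖ → z ∉ tsupport χ := by
    intro z hz hz'
    have := hR₀ hz'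
    rw [mem_closedBall, dist_zero_right] at this
    linarith [le_max_left R₀ ρ]
  have hηr : ∀ z : ℂ, r < ‖z‖ → z ∉ tsupport η := by
    intro z hz hz'
    linarith [supp_bound hρ hz', le_max_right R₀ ρ, P.pos]
  have htri : ∀ z : ℂ, ‖z‖ ≤ ‖z - t‖ + δ := by
    intro z
    calc ‖z‖ = ‖(z - t) + t‖ := by congr 1; ring
      _ ≤ ‖z - t‖ + ‖t‖ := norm_add_le _ _
      _ ≤ _ := by linarith
  have hηtr : ∀ z : ℂ, r < ‖z‖ → z - t ∉ tsupport η := by
    intro z hz hz'
    linarith [supp_bound hρ hz', le_max_right R₀ ρ, htri z]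
  have hψtr : ∀ z : ℂ, r < ‖z‖ → z - t ∉ cthickening δ A := by
    intro z hz hz'
    have h1 := P.one (z - t) (cthickening_mono (by linarith [P.pos]) A hz')
    exact hηtr z hz (subset_tsupport _ (by rw [Function.mem_support, h1]; exact one_ne_zero))
  have z0 : ∀ z, r < ‖z‖ → F0 z = 0 := fun z hz =>
    grad_eq_zero_of_notMem fun hh => hηr z hz (tsupport_mul_subset_left hh)
  have z2 : ∀ z, r < ‖z‖ → F2 z = 0 := fun z hz =>
    grad_eq_zero_of_notMem fun hh => hηtr z hz (tsupport_mul_subset_left hh)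
  have z3 : ∀ z, r < ‖z‖ → F3 z = 0 := fun z hz =>
    grad_eq_zero_of_notMem fun hh => hχr z hz (tsupport_mul_subset_left hh)
  have z4 : ∀ z, r < ‖z‖ → F4 z = 0 := fun z hz =>
    grad_psi_out hψρ (lt_of_le_of_lt (le_max_right R₀ ρ) hz)
  have hA_R : A ⊆ ball 0 R := by
    intro z hz
    rw [mem_ball, dist_zero_right]
    by_contra hh
    have : r < ‖z‖ := by linarith
    refine hηr z this (subset_tsupport _ ?_)
    rw [Function.mem_support, P.one z (self_subset_cthickening _ hz)]
    exact one_ne_zero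
  -- the competitor
  set L : Set ℂ := (K \ A) ∪ (fun z => z - t) ⁻¹' A with hL
  have hLc : IsClosed L := P.out.union (P.cpt.isClosed.preimage (by fun_prop))
  set v : ℂ → ℝ := fun z => (1 - η z) * u z + (η (z - t) * u (z - t) + ψ z) + c z with hv
  have hL1 : Lᶜ ⊆ (K \ A)ᶜ := compl_subset_compl.2 subset_union_left
  have hL2 : Lᶜ ⊆ (fun z => z - t) ⁻¹' Aᶜ := compl_subset_compl.2 subset_union_right
  have la : LocLip Lᶜ fun z => (1 - η z) * u z := (h.a_lip P).mono hLc.isOpen_compl hL1
  have lb : LocLip Lᶜ fun z => η (z - t) * u (z - t) :=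
    ((h.b_lip P).translate t).mono hLc.isOpen_compl hL2
  have lp : LocLip Lᶜ ψ := hψ.mono hLc.isOpen_compl hL1
  have lc : LocLip Lᶜ c := LocLip.of_contDiff hc hLc.isOpen_compl
  have lv : LocLip Lᶜ v := (la.add (lb.add lp)).add lc
  have hA0 : volume A = 0 := measure_mono_null P.sub h.vol_zero
  have hLn : volume L = 0 := by
    refine measure_union_null (measure_mono_null sdiff_subset h.vol_zero) ?_
    rw [(measurePreserving_sub_right volume t).measure_preimage
      P.cpt.measurableSet.nullMeasurableSet]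
    exact hA0
  have hgv : ∀ᵐ z : ℂ, grad v z = F1 z + F2 z + F3 z + F4 z := by
    have hp' := hψ.ae_diff P.out.isOpen_compl
    filter_upwards [measure_eq_zero_iff_ae_notMem.1 hLn, hp'] with z hz hpz
    have hz1 : z ∈ (K \ A)ᶜ := hL1 hz
    have hz2 : z - t ∈ Aᶜ := hL2 hz
    have da : DifferentiableAt ℝ (fun z => (1 - η z) * u z) z :=
      ((h.a_smooth P).contDiffAt (P.out.isOpen_compl.mem_nhds hz1)).differentiableAt (by simp)
    have db0 : DifferentiableAt ℝ (fun z => η z * u z) (z - t) :=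
      ((h.b_smooth P).contDiffAt (P.cpt.isClosed.isOpen_compl.mem_nhds hz2)).differentiableAt
        (by simp)
    have db : DifferentiableAt ℝ (fun z => η (z - t) * u (z - t)) z :=
      db0.comp (f := fun z => z - t) z (by fun_prop)
    have dp : DifferentiableAt ℝ ψ z := hpz hz1
    have dc : DifferentiableAt ℝ c z := hc.differentiable (by simp) z
    have e1 : grad (fun z => η (z - t) * u (z - t)) z = F2 z :=
      grad_translate (fun z => η z * u z) t z
    have dbp : DifferentiableAt ℝ (fun z => η (z - t) * u (z - t) + ψ z) z := db.add dp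
    have dabp : DifferentiableAt ℝ
        (fun z => (1 - η z) * u z + (η (z - t) * u (z - t) + ψ z)) z := da.add dbp
    rw [hv, Vale.Agent.P128.GM.grad_add dabp dc, Vale.Agent.P128.GM.grad_add da dbp, Vale.Agent.P128.GM.grad_add db dp, e1]
    ring
  have hgu : ∀ᵐ z : ℂ, grad u z = F1 z + F0 z := by
    filter_upwards [measure_eq_zero_iff_ae_notMem.1 h.vol_zero] with z hz
    exact h.grad_add P hz
  -- square integrability
  set μ : Measure ℂ := volume.restrict (ball (0 : ℂ) R) with hμ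
  have s1 : Integrable (fun z => ‖F1 z‖ ^ 2) μ := h.a_sq P R
  have s0' : Integrable (fun z => ‖F0 z‖ ^ 2) := h.b_sq P
  have s2' : Integrable (fun z => ‖F2 z‖ ^ 2) := s0'.comp_sub_right t
  have s3' : Integrable (fun z => ‖F3 z‖ ^ 2) := integrable_grad_sq_cc hc hcc
  have s4' : Integrable (fun z => ‖F4 z‖ ^ 2) := hψi
  have s0 : Integrable (fun z => ‖F0 z‖ ^ 2) μ := s0'.integrableOn
  have s2 : Integrable (fun z => ‖F2 z‖ ^ 2) μ := s2'.integrableOn
  have s3 : Integrable (fun z => ‖F3 z‖ ^ 2) μ := s3'.integrableOn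
  have s4 : Integrable (fun z => ‖F4 z‖ ^ 2) μ := s4'.integrableOn
  have s10 := integrable_add_sq m1 m0 s1 s0
  have sv : Integrable (fun z => ‖grad v z‖ ^ 2) μ := by
    have h12 := integrable_add_sq m1 m2 s1 s2
    have h123 := integrable_add_sq (m1.add m2) m3 h12 s3
    have h1234 := integrable_add_sq ((m1.add m2).add m3) m4 h123 s4
    refine h1234.congr ?_
    filter_upwards [ae_restrict_of_ae hgv] with z hz
    rw [hz]
    rfl
  have hlen := P.len_le t hA_R
  have cmp := h.compare (R := R) (v := v) hLc lv sv (hlen.trans_lt (h.len_lt R)) (by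
    refine ⟨closedBall 0 r, isCompact_closedBall _ _, closedBall_subset_ball (by linarith), ?_, ?_⟩
    · intro z hz
      rw [mem_closedBall, dist_zero_right]
      by_contra hh
      push Not at hh
      have hA1 : z ∉ A := fun hzA => by
        refine hηr z hh (subset_tsupport _ ?_)
        rw [Function.mem_support, P.one z (self_subset_cthickening _ hzA)]
        exact one_ne_zero
      have hA2 : z - t ∉ A := fun hzA => hψtr z hh (self_subset_cthickening _ hzA)
      rcases hz with hz | hz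
      · rcases hz.1 with h1 | h1
        · exact hz.2 h1.1
        · exact hA2 h1
      · exact hz.2 (Or.inl ⟨hz.1, hA1⟩)
    · intro z hz _
      rw [mem_closedBall, dist_zero_right] at hz
      push Not at hz
      have e1 : η z = 0 := image_eq_zero_of_notMem_tsupport (hηr z hz)
      have e2 : η (z - t) = 0 := image_eq_zero_of_notMem_tsupport (hηtr z hz)
      have e3 : ψ z = 0 := hψρ z fun hb => by
        rw [mem_ball, dist_zero_right] at hb
        linarith [le_max_right R₀ ρ]
      have e4 : χ z = 0 := image_eq_zero_of_notMem_tsupport (hχr z hz)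
      simp only [hv, hc_def, e1, e2, e3, e4]
      ring)
    (SepOut.of_piece h.closed P.cpt P.sub P.out subset_union_left hA_R)
  have hlen' : Len L R ≤ Len K R := ENNReal.toReal_mono (h.len_lt R).ne hlen
  have hEn : En u R ≤ En v R := by linarith
  -- expansion
  have iab' := integrable_inner_of m1 m2 s1 s2
  have iab := integrable_inner_of m1 m0 s1 s0
  have iac := integrable_inner_of m1 m3 s1 s3
  have ibc := integrable_inner_of m2 m3 s2 s3
  have iap := integrable_inner_of m1 m4 s1 s4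
  have ibp := integrable_inner_of m2 m4 s2 s4
  have icp := integrable_inner_of m3 m4 s3 s4
  have hu : En u R = ∫ z, ‖F1 z + F0 z‖ ^ 2 ∂μ := by
    refine integral_congr_ae ?_
    filter_upwards [ae_restrict_of_ae hgu] with z hz
    rw [hz]
  have hvv : En v R = (∫ z, ‖F1 z + F0 z‖ ^ 2 ∂μ) + ((∫ z, ‖F2 z‖ ^ 2 ∂μ) - ∫ z, ‖F0 z‖ ^ 2 ∂μ)
      + 2 * ((∫ z, inner ℝ (F1 z) (F2 z) ∂μ) - ∫ z, inner ℝ (F1 z) (F0 z) ∂μ)
      + 2 * (∫ z, inner ℝ (F1 z) (F3 z) ∂μ) + 2 * (∫ z, inner ℝ (F2 z) (F3 z) ∂μ)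
      + (∫ z, ‖F3 z‖ ^ 2 ∂μ)
      + 2 * (∫ z, inner ℝ (F1 z) (F4 z) ∂μ) + 2 * (∫ z, inner ℝ (F2 z) (F4 z) ∂μ)
      + 2 * (∫ z, inner ℝ (F3 z) (F4 z) ∂μ) + ∫ z, ‖F4 z‖ ^ 2 ∂μ := by
    have e0 : En v R = ∫ z, (‖F1 z + F0 z‖ ^ 2 + (‖F2 z‖ ^ 2 - ‖F0 z‖ ^ 2)
        + 2 * (inner ℝ (F1 z) (F2 z) - inner ℝ (F1 z) (F0 z)) + 2 * inner ℝ (F1 z) (F3 z)
        + 2 * inner ℝ (F2 z) (F3 z) + ‖F3 z‖ ^ 2 + 2 * inner ℝ (F1 z) (F4 z)
        + 2 * inner ℝ (F2 z) (F4 z) + 2 * inner ℝ (F3 z) (F4 z) + ‖F4 z‖ ^ 2) ∂μ := by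
      refine integral_congr_ae ?_
      filter_upwards [ae_restrict_of_ae hgv] with z hz
      rw [hz, norm_expand (F1 z) (F0 z) (F2 z) (F3 z) (F4 z)]
    rw [e0]
    exact integral_sum12 s10 s2 s0 iab' iab iac ibc s3 iap ibp icp s4
  -- integrals over the plane
  have full : ∀ f : ℂ → ℝ, (∀ z, r < ‖z‖ → f z = 0) → ∫ z, f z ∂μ = ∫ z, f z := by
    intro f hf
    refine setIntegral_eq_integral_of_forall_compl_eq_zero fun z hz => hf z ?_
    rw [mem_ball, dist_zero_right] at hz
    linarith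
  have q2 : ∫ z, ‖F2 z‖ ^ 2 ∂μ = ∫ z, ‖F0 z‖ ^ 2 := by
    rw [full _ fun z hz => by rw [z2 z hz]; simp]
    exact integral_sub_right_eq_self (fun z => ‖F0 z‖ ^ 2) t
  have q0 : ∫ z, ‖F0 z‖ ^ 2 ∂μ = ∫ z, ‖F0 z‖ ^ 2 := full _ fun z hz => by rw [z0 z hz]; simp
  have q12 : ∫ z, inner ℝ (F1 z) (F2 z) ∂μ = ∫ z, src u η z * (η (z - t) * u (z - t)) := by
    rw [full _ fun z hz => by rw [z2 z hz, inner_zero_right]]
    exact h.cross P ht
  have q10 : ∫ z, inner ℝ (F1 z) (F0 z) ∂μ = ∫ z, src u η z * (η z * u z) := by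
    rw [full _ fun z hz => by rw [z0 z hz, inner_zero_right]]
    have := h.cross P (t := 0) (by simpa using P.pos.le)
    simpa using this
  have q13 : ∫ z, inner ℝ (F1 z) (F3 z) ∂μ = ∫ z, inner ℝ (F1 z) (F3 z) :=
    full _ fun z hz => by rw [z3 z hz, inner_zero_right]
  have q23 : ∫ z, inner ℝ (F2 z) (F3 z) ∂μ = ∫ z, inner ℝ (F2 z) (F3 z) :=
    full _ fun z hz => by rw [z3 z hz, inner_zero_right]
  have q3 : ∫ z, ‖F3 z‖ ^ 2 ∂μ = ∫ z, ‖F3 z‖ ^ 2 := full _ fun z hz => by rw [z3 z hz]; simp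
  have q14 : ∫ z, inner ℝ (F1 z) (F4 z) ∂μ = 0 := by
    rw [full _ fun z hz => by rw [z4 z hz, inner_zero_right]]
    exact h.psi_a_out P hψ hψ0 hψρ hψi
  have q24 : ∫ z, inner ℝ (F2 z) (F4 z) ∂μ = 0 := by
    rw [integral_congr_ae (Eventually.of_forall fun z => h.psi_b_out P ht hψ0 z), integral_zero]
  have q34 : ∫ z, inner ℝ (F3 z) (F4 z) ∂μ
      = ∫ z, inner ℝ (grad w z - grad w (z - t)) (grad ψ z) := by
    rw [full _ fun z hz => by rw [z4 z hz, inner_zero_right]]
    exact psi_c_out hw hχ1 hψρ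
  have q4 : ∫ z, ‖F4 z‖ ^ 2 ∂μ = ∫ z, ‖grad ψ z‖ ^ 2 := by
    rw [full _ fun z hz => by rw [z4 z hz]; simp]
  have corr := h.corr P hw ht hχ hχc hρ hχ1
  have HHt := h.HH_eq P hw ht
  have HH0 := h.HH_eq P hw (t := 0) (by simpa using P.pos.le)
  simp only [sub_zero] at HH0
  rw [hu, hvv, q2, q0, q12, q10, q13, q23, q3, q14, q24, q34, q4] at hEn
  rw [HHt, HH0]
  linarith only [corr, hEn]

end Vale.Agent.P128.GM
end

section

/-! D-09 (GM/D/CShift.lean) -/

open MeasureTheory Set Metric Filter InnerProductSpace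
open scoped ENNReal NNReal ContDiff Topology Real

namespace Vale.Agent.P128.GM

open Vale.Agent.P128

variable {u : ℂ → ℝ} {G : ℂ → ℂ} {K L A W : Set ℂ} {η w : ℂ → ℝ} {δ : ℝ}

theorem CMin.sh_harm (h : CMin u K) (P : Piece K A η δ) (hw : Pot (src u η) w) :
    HarmonicOnNhd (fun z => η z * u z - w z) Aᶜ := by
  have hb : ContDiffOn ℝ 2 (fun z => η z * u z) Aᶜ := (h.b_smooth P).of_le (by norm_cast)
  have hw2 : ContDiff ℝ 2 w := hw.smooth.of_le (by norm_cast)
  have hAo : IsOpen Aᶜ := P.cpt.isClosed.isOpen_compl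
  refine harmonicOnNhd_of_lap hAo (hb.sub hw2.contDiffOn) fun z hz => ?_
  have := sh_lap_sub (hb.contDiffAt (hAo.mem_nhds hz)) (hw2.contDiffAt (x := z))
  rw [this, h.lap_b P hz, hw.eqn, sub_self]

/-- The cut-off error can be made arbitrarily small, with `χ = 1` on a ball containing a given
ball. -/
theorem csh_cut (P : Piece K A η δ) (hw : Pot (src u η) w) (t : ℂ) (R' : ℝ) {ε : ℝ}
    (hε : 0 < ε) : ∃ (χ : ℂ → ℝ) (ρ : ℝ), R' ≤ ρ ∧ ContDiff ℝ ∞ χ ∧ HasCompactSupport χ ∧
      (∀ z, η z ≠ 0 → ‖z‖ + δ < ρ) ∧ (∀ z ∈ ball (0 : ℂ) ρ, χ z = 1) ∧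
      ∫ z, ‖grad χ z‖ ^ 2 * (w z - w (z - t)) ^ 2 < ε := by
  obtain ⟨R, hR⟩ := P.supp.isCompact.isBounded.subset_ball (0 : ℂ)
  have hc : Continuous fun z => w z - w (z - t) :=
    hw.smooth.continuous.sub (hw.smooth.continuous.comp (continuous_id.sub continuous_const))
  have h0 : Tendsto (fun z => w z - w (z - t)) (cocompact ℂ) (𝓝 0) := by
    have h1 : Tendsto (fun z : ℂ => z - t) (cocompact ℂ) (cocompact ℂ) := by
      have := (Homeomorph.addRight (-t)).isClosedEmbedding.tendsto_cocompact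
      simpa [sub_eq_add_neg] using this
    have := hw.lim.sub (hw.lim.comp h1)
    simpa using this
  obtain ⟨χ, c1, c2, c3, c4, c5⟩ := exists_cutoff hc h0 (max (R + δ) R') hε
  refine ⟨χ, max (R + δ) R', le_max_right _ _, c1, c2, fun z hz => ?_, c3, c5⟩
  have : z ∈ ball (0 : ℂ) R := hR (subset_tsupport _ hz)
  rw [mem_ball_zero_iff] at this
  exact lt_of_lt_of_le (by linarith) (le_max_left _ _)

theorem CMin.H_const (h : CMin u K) (P : Piece K A η δ) (hw : Pot (src u η) w) {t : ℂ}
    (ht : ‖t‖ ≤ δ) : HH u η w t = HH u η w 0 := by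
  have e0 : HH u η w 0 = ∫ x, src u η x * (η x * u x - w x) := by
    unfold HH; simp
  rw [e0]
  refine const_of_min P.cpt (q := fun z => η z * u z - w z) (h.sh_harm P hw)
    (h.src_smooth P).continuous (src_supp P) (δ := δ) (fun z hz => src_near P hz) ?_ t ht
  intro s hs
  rw [← e0]
  show HH u η w 0 ≤ HH u η w s
  refine le_of_forall_pos_le_add fun ε hε => ?_
  obtain ⟨χ, ρ, -, c1, c2, c3, c4, c5⟩ := csh_cut P hw s 0 hε
  have hz : LocLip (K \ A)ᶜ (fun _ : ℂ => (0 : ℝ)) := by
    intro z hz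
    obtain ⟨r, hr, hr2⟩ := Metric.isOpen_iff.1 P.out.isOpen_compl z hz
    exact ⟨0, r, hr, hr2, (LipschitzWith.const 0).lipschitzOnWith⟩
  have := h.translate P hw hs c1 c2 c3 c4 (ψ := fun _ => 0) hz (fun _ _ => rfl) (fun _ _ => rfl)
    (by simp [sh_grad_zero])
  simp only [sh_grad_zero, inner_zero_right, integral_zero, norm_zero] at this
  norm_num at this
  linarith

theorem CMin.shifted (h : CMin u K) (P : Piece K A η δ) (hw : Pot (src u η) w) {t : ℂ}
    (ht : ‖t‖ ≤ δ) {ψ : ℂ → ℝ} (hψ : LocLip (K \ A)ᶜ ψ)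
    (hψ0 : ∀ z, z ∉ cthickening δ (K \ A) → ψ z = 0)
    (hψc : ∃ R : ℝ, ∀ z, z ∉ ball (0 : ℂ) R → ψ z = 0)
    (hψi : Integrable (fun z => ‖grad ψ z‖ ^ 2)) :
    ∫ z, inner ℝ (grad w z - grad w (z - t)) (grad ψ z) = 0 := by
  obtain ⟨R', hR'⟩ := hψc
  set I := ∫ z, inner ℝ (grad w z - grad w (z - t)) (grad ψ z) with hI
  set J := ∫ z, ‖grad ψ z‖ ^ 2 with hJ
  have hJ0 : 0 ≤ J := integral_nonneg fun _ => by positivity
  have key : ∀ c : ℝ, 0 ≤ 2 * (c * I) + c ^ 2 * J := by
    intro c
    refine le_of_forall_pos_le_add fun ε hε => ?_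
    obtain ⟨χ, ρ, hρ, c1, c2, c3, c4, c5⟩ := csh_cut P hw t R' hε
    have hz : LocLip (K \ A)ᶜ (fun z : ℂ => c * ψ z) := by
      intro z hz
      obtain ⟨M, r, hr, hr2, hM⟩ := hψ z hz
      refine ⟨‖c‖₊ * M, r, hr, hr2, ?_⟩
      refine LipschitzOnWith.of_dist_le_mul fun x hx y hy => ?_
      have := hM.dist_le_mul x hx y hy
      rw [Real.dist_eq, ← mul_sub, abs_mul, NNReal.coe_mul, coe_nnnorm, Real.norm_eq_abs, mul_assoc]
      rw [Real.dist_eq] at this
      exact mul_le_mul_of_nonneg_left this (abs_nonneg c)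
    have hi2 : Integrable (fun z => ‖grad (fun z => c * ψ z) z‖ ^ 2) := by
      have : (fun z => ‖grad (fun z => c * ψ z) z‖ ^ 2) = fun z => c ^ 2 * ‖grad ψ z‖ ^ 2 := by
        funext z
        rw [sh_grad_smul, norm_smul, mul_pow, Real.norm_eq_abs, sq_abs]
      rw [this]
      exact hψi.const_mul _
    have hzρ : ∀ z, z ∉ ball (0 : ℂ) ρ → c * ψ z = 0 := fun z hz => by
      rw [hR' z fun hh => hz (ball_subset_ball hρ hh), mul_zero]
    have := h.translate P hw ht c1 c2 c3 c4 hz (fun z hz => by rw [hψ0 z hz, mul_zero]) hzρ hi2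
    rw [h.H_const P hw ht, sub_self, mul_zero, zero_add] at this
    have e1 : ∫ z, inner ℝ (grad w z - grad w (z - t)) (grad (fun z => c * ψ z) z) = c * I := by
      rw [hI, ← integral_const_mul]
      refine integral_congr_ae (Eventually.of_forall fun z => ?_)
      simp only [sh_grad_smul, inner_smul_right]
    have e2 : ∫ z, ‖grad (fun z => c * ψ z) z‖ ^ 2 = c ^ 2 * J := by
      rw [hJ, ← integral_const_mul]
      refine integral_congr_ae (Eventually.of_forall fun z => ?_)
      simp only [sh_grad_smul, norm_smul, mul_pow, Real.norm_eq_abs, sq_abs]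
    rw [e1, e2] at this
    linarith
  have h1 := key (-I / (J + 1))
  have hJ1 : 0 < J + 1 := by linarith
  have h2 : 2 * (-I / (J + 1) * I) + (-I / (J + 1)) ^ 2 * J
      = -(I ^ 2 * (J + 2)) / (J + 1) ^ 2 := by
    field_simp
    ring
  rw [h2, div_nonneg_iff] at h1
  rcases h1 with ⟨h1, _⟩ | ⟨_, h1⟩
  · have h3 : I ^ 2 * (J + 2) ≤ 0 := by linarith only [h1]
    have h4 : I ^ 2 ≤ 0 := by
      by_contra hh
      push Not at hh
      have : 0 < I ^ 2 * (J + 2) := mul_pos hh (by linarith only [hJ1])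
      linarith
    exact pow_eq_zero_iff (two_ne_zero) |>.1 (le_antisymm h4 (sq_nonneg I))
  · have : 0 < (J + 1) ^ 2 := by (clear * -; positivity)
    linarith

end Vale.Agent.P128.GM
end

section

/-! D-10 (GM/D/COrth.lean): near the outer part `K \ A` the complex gradient `ff w` of the
potential is holomorphic, and `∫ (ff w)' ∇ψ = 0`. -/

open MeasureTheory Set Metric Filter InnerProductSpace
open scoped ENNReal NNReal ContDiff Topology Real

namespace Vale.Agent.P128.GM

open Vale.Agent.P128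

variable {u : ℂ → ℝ} {G : ℂ → ℂ} {K L A W : Set ℂ} {η w : ℂ → ℝ} {δ : ℝ}

theorem corth_harm (P : Piece K A η δ) (hw : Pot (src u η) w) :
    HarmonicOnNhd w (thickening (2 * δ) (K \ A)) :=
  harmonicOnNhd_of_lap isOpen_thickening (hw.smooth.of_le (by norm_cast)).contDiffOn
    fun z hz => by rw [hw.eqn, src_near' P (thickening_subset_cthickening _ _ hz)]

theorem CMin.ff_diff_out (h : CMin u K) (P : Piece K A η δ) (hw : Pot (src u η) w) {z : ℂ}
    (hz : z ∈ thickening (2 * δ) (K \ A)) : AnalyticAt ℂ (ff w) z :=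
  HarmonicAt.analyticAt_complex_partial (corth_harm P hw z hz)

theorem corth_gradψ {T : Set ℂ} (hT : IsClosed T) {ψ : ℂ → ℝ} (hψ0 : ∀ z, z ∉ T → ψ z = 0) {z : ℂ}
    (hz : z ∉ T) : grad ψ z = 0 := by
  have h1 : Tᶜ ∈ 𝓝 z := hT.isOpen_compl.mem_nhds hz
  have h2 : ψ =ᶠ[𝓝 z] fun _ => (0 : ℝ) := by
    filter_upwards [h1] with y hy using hψ0 y hy
  unfold grad
  rw [h2.fderiv_eq]
  simp only [fderiv_fun_const, Pi.zero_apply, zero_apply]
  rfl

theorem corth_int {T : Set ℂ} (hT : IsCompact T) {ψ : ℂ → ℝ} (hψ0 : ∀ z, z ∉ T → ψ z = 0)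
    (hψi : Integrable (fun z => ‖grad ψ z‖ ^ 2)) : Integrable fun z => ‖grad ψ z‖ := by
  have h1 : Integrable (fun z => (1 : ℝ)) (volume.restrict T) :=
    (continuous_const.continuousOn (s := T)).integrableOn_compact hT
  have h2 : Integrable (fun z => ‖grad ψ z‖) (volume.restrict T) := by
    refine (h1.add hψi.restrict).mono (orth_meas ψ).norm.aestronglyMeasurable ?_
    refine Eventually.of_forall fun z => ?_
    rw [Real.norm_of_nonneg (norm_nonneg _)]
    have h3 : ‖grad ψ z‖ ≤ 1 + ‖grad ψ z‖ ^ 2 := by nlinarith [sq_nonneg (‖grad ψ z‖ - 1)]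
    exact h3.trans (le_abs_self _)
  have h3 : IntegrableOn (fun z => ‖grad ψ z‖) T := h2
  exact (integrableOn_iff_integrable_of_support_subset fun z hz => by
    by_contra h
    exact hz (by simp [corth_gradψ hT.isClosed hψ0 h])).1 h3

/-- differentiation under the integral sign. -/
theorem corth_dir {T : Set ℂ} (hT : IsCompact T) (hδ : 0 < δ) (hw : ContDiff ℝ ∞ w)
    {ψ : ℂ → ℝ} (hψ0 : ∀ z, z ∉ T → ψ z = 0)
    (hψi : Integrable (fun z => ‖grad ψ z‖ ^ 2))
    (hsh : ∀ t : ℂ, ‖t‖ ≤ δ → ∫ z, inner ℝ (grad w z - grad w (z - t)) (grad ψ z) = 0)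
    (e : ℂ) (he : ‖e‖ = 1) :
    ∫ z, inner ℝ (fderiv ℝ (grad w) z e) (grad ψ z) = 0 := by
  have hgs := orth_grad_diff hw
  have hgi := corth_int hT hψ0 hψi
  have hcd : Continuous fun z => fderiv ℝ (grad w) z e :=
    (hgs.continuous_fderiv (by simp)).clm_apply continuous_const
  obtain ⟨R, hR⟩ := hT.isBounded.subset_closedBall (0 : ℂ)
  obtain ⟨M, hM⟩ := (isCompact_closedBall (0 : ℂ) (R + 1)).exists_bound_of_continuousOn
    hcd.continuousOn
  have hmain := hasDerivAt_integral_of_dominated_loc_of_deriv_le (μ := (volume : Measure ℂ))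
    (F := fun (s : ℝ) (z : ℂ) => inner ℝ (grad w z - grad w (z - s • e)) (grad ψ z))
    (F' := fun (s : ℝ) (z : ℂ) => inner ℝ (fderiv ℝ (grad w) (z - s • e) e) (grad ψ z))
    (bound := fun z => M * ‖grad ψ z‖) (x₀ := (0 : ℝ)) (s := ball (0 : ℝ) 1)
    (ball_mem_nhds _ one_pos) ?_ ?_ ?_ ?_ ?_ ?_
  · have h1 := hmain.2
    have h2 : (fun s : ℝ => ∫ z, inner ℝ (grad w z - grad w (z - s • e)) (grad ψ z)) =ᶠ[𝓝 0]
        fun _ => (0 : ℝ) := by
      filter_upwards [ball_mem_nhds (0 : ℝ) hδ] with s hs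
      refine hsh (s • e) ?_
      rw [norm_smul, he, mul_one]
      exact (mem_ball_zero_iff.1 hs).le
    have h3 := (hasDerivAt_const (0 : ℝ) (0 : ℝ)).congr_of_eventuallyEq h2
    have h4 := h1.unique h3
    simpa using h4
  · refine Eventually.of_forall fun s => ?_
    refine AEStronglyMeasurable.inner ?_ (orth_meas ψ).aestronglyMeasurable
    exact (hgs.continuous.sub
      (hgs.continuous.comp (continuous_id.sub continuous_const))).aestronglyMeasurable
  · simp
  · refine AEStronglyMeasurable.inner ?_ (orth_meas ψ).aestronglyMeasurable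
    exact (hcd.comp (continuous_id.sub continuous_const)).aestronglyMeasurable
  · refine Eventually.of_forall fun z s hs => ?_
    by_cases hz : z ∈ T
    · refine (norm_inner_le_norm _ _).trans ?_
      refine mul_le_mul_of_nonneg_right (hM _ ?_) (norm_nonneg _)
      rw [mem_closedBall_zero_iff]
      have h1 := mem_closedBall_zero_iff.1 (hR hz)
      have h2 := mem_ball_zero_iff.1 hs
      calc ‖z - s • e‖ ≤ ‖z‖ + ‖s • e‖ := norm_sub_le _ _
        _ ≤ R + 1 := by
          rw [norm_smul, he, mul_one]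
          exact add_le_add h1 h2.le
    · simp [corth_gradψ hT.isClosed hψ0 hz]
  · exact hgi.const_mul M
  · refine Eventually.of_forall fun z s _ => ?_
    have h1 : HasDerivAt (fun s : ℝ => z - s • e) (-e) s := by
      have := ((hasDerivAt_id s).smul_const e).const_sub z
      simpa using this
    have h2 : HasFDerivAt (grad w) (fderiv ℝ (grad w) (z - s • e)) (z - s • e) :=
      (hgs.differentiable (by simp) _).hasFDerivAt
    have h3 : HasDerivAt (fun s : ℝ => grad w (z - s • e))
        (fderiv ℝ (grad w) (z - s • e) (-e)) s :=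
      HasFDerivAt.comp_hasDerivAt (f := fun s : ℝ => z - s • e) s h2 h1
    have h4 := (h3.const_sub (grad w z)).inner ℝ (hasDerivAt_const s (grad ψ z))
    simpa using h4

theorem corth_main {T : Set ℂ} (hT : IsCompact T) (hδ : 0 < δ) (hw : ContDiff ℝ ∞ w)
    (hff : ∀ z ∈ T, AnalyticAt ℂ (ff w) z)
    {ψ : ℂ → ℝ} (hψ0 : ∀ z, z ∉ T → ψ z = 0)
    (hψi : Integrable (fun z => ‖grad ψ z‖ ^ 2))
    (hsh : ∀ t : ℂ, ‖t‖ ≤ δ → ∫ z, inner ℝ (grad w z - grad w (z - t)) (grad ψ z) = 0) :
    ∫ z, deriv (ff w) z * grad ψ z = 0 := by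
  have hgs := orth_grad_diff hw
  have hgi := corth_int hT hψ0 hψi
  have key : ∀ e z, inner ℝ (fderiv ℝ (grad w) z e) (grad ψ z) =
      (deriv (ff w) z * grad ψ z * e).re := by
    intro e z
    by_cases hz : z ∈ T
    · rw [orth_fderiv (hff z hz), Complex.inner, Complex.conj_conj]
      congr 1
      ring
    · simp [corth_gradψ hT.isClosed hψ0 hz]
  have hint : Integrable fun z => deriv (ff w) z * grad ψ z := by
    obtain ⟨R, hR⟩ := hT.isBounded.subset_closedBall (0 : ℂ)
    have hcd : Continuous fun z => fderiv ℝ (grad w) z 1 :=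
      (hgs.continuous_fderiv (by simp)).clm_apply continuous_const
    obtain ⟨M, hM⟩ := (isCompact_closedBall (0 : ℂ) R).exists_bound_of_continuousOn
      hcd.continuousOn
    refine (hgi.const_mul M).mono' ?_ ?_
    · exact ((measurable_deriv (ff w)).mul (orth_meas ψ)).aestronglyMeasurable
    · refine Eventually.of_forall fun z => ?_
      by_cases hz : z ∈ T
      · rw [norm_mul]
        refine mul_le_mul_of_nonneg_right ?_ (norm_nonneg _)
        have h1 := hM z (hR hz)
        rw [orth_fderiv (hff z hz), mul_one, RCLike.norm_conj] at h1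
        exact h1
      · simp [corth_gradψ hT.isClosed hψ0 hz]
  have h1 := corth_dir hT hδ hw hψ0 hψi hsh 1 (by simp)
  have h2 := corth_dir hT hδ hw hψ0 hψi hsh Complex.I (by simp)
  simp only [key] at h1 h2
  have h3 : (∫ z, deriv (ff w) z * grad ψ z).re = 0 := by
    rw [← h1]
    have := integral_re hint
    simpa using this.symm
  have h4 : (∫ z, deriv (ff w) z * grad ψ z).im = 0 := by
    have h5 := integral_im hint
    have h6 : ∀ z, (deriv (ff w) z * grad ψ z * Complex.I).re =
        -(deriv (ff w) z * grad ψ z).im := fun z => by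
      rw [Complex.mul_re, Complex.I_re, Complex.I_im]
      ring
    simp only [h6, integral_neg, neg_eq_zero] at h2
    have h7 : ∫ z, (deriv (ff w) z * grad ψ z).im = (∫ z, deriv (ff w) z * grad ψ z).im := h5
    rw [← h7, h2]
  exact Complex.ext h3 h4

theorem CMin.orth (h : CMin u K) (P : Piece K A η δ) (hw : Pot (src u η) w)
    {ψ : ℂ → ℝ} (hψ : LocLip (K \ A)ᶜ ψ) (hψ0 : ∀ z, z ∉ cthickening δ (K \ A) → ψ z = 0)
    (hψc : ∃ R : ℝ, ∀ z, z ∉ ball (0 : ℂ) R → ψ z = 0)
    (hψi : Integrable (fun z => ‖grad ψ z‖ ^ 2)) :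
    ∫ z, deriv (ff w) z * grad ψ z = 0 := by
  obtain ⟨R, hR⟩ := id hψc
  have hT : IsCompact (cthickening δ (K \ A) ∩ closedBall (0 : ℂ) R) :=
    (isCompact_closedBall (0 : ℂ) R).inter_left isClosed_cthickening
  have hsub : cthickening δ (K \ A) ⊆ thickening (2 * δ) (K \ A) :=
    cthickening_subset_thickening' (by linarith [P.pos]) (by linarith [P.pos]) (K \ A)
  refine corth_main hT P.pos hw.smooth (fun z hz => h.ff_diff_out P hw (hsub hz.1)) ?_ hψi
    (fun t ht => h.shifted P hw ht hψ hψ0 hψc hψi)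
  intro z hz
  by_cases h1 : z ∈ cthickening δ (K \ A)
  · exact hR z fun h2 => hz ⟨h1, ball_subset_closedBall h2⟩
  · exact hψ0 z h1

end Vale.Agent.P128.GM
end

section

/-! D-11 (GM/D/CCase.lean) -/

open MeasureTheory Set Metric Filter InnerProductSpace
open scoped ENNReal NNReal ContDiff Topology Real

namespace Vale.Agent.P128.GM

open Vale.Agent.P128

variable {u : ℂ → ℝ} {G : ℂ → ℂ} {K L A W : Set ℂ} {η w : ℂ → ℝ} {δ : ℝ}

theorem CMin.case_out (h : CMin u K) (hn : NoBdd K) (P : Piece K A η δ) (hw : Pot (src u η) w)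
    {x : ℂ} (hx : x ∈ K \ A) : deriv (ff w) x = 0 := by
  by_contra hne
  have hxA : x ∈ Aᶜ := hx.2
  obtain ⟨r0, hr0, hr0s⟩ := Metric.isOpen_iff.1 P.cpt.isClosed.isOpen_compl x hxA
  set r := min r0 δ with hrdef
  have hr : 0 < r := lt_min hr0 P.pos
  have hbK : ∀ z ∈ ball x r, z ∉ A := fun z hz =>
    hr0s (ball_subset_ball (min_le_left _ _) hz)
  have hbA : ball x r ⊆ cthickening δ (K \ A) := fun z hz =>
    closedBall_subset_cthickening hx δ (ball_subset_closedBall (ball_subset_ball (min_le_right _ _) hz))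
  have hbA2 : ball x r ⊆ thickening (2 * δ) (K \ A) := fun z hz =>
    ball_subset_thickening hx (2 * δ)
      (ball_subset_ball ((min_le_right _ _).trans (by have := P.pos; linarith)) hz)
  have hnorm : ∀ z ∈ ball x r, z ∈ ball (0 : ℂ) (‖x‖ + r) := by
    intro z hz
    rw [mem_ball_zero_iff]
    have h1 : ‖z‖ ≤ ‖x‖ + ‖z - x‖ := by
      calc ‖z‖ = ‖x + (z - x)‖ := by congr 1; ring
        _ ≤ ‖x‖ + ‖z - x‖ := norm_add_le _ _
    have h2 : ‖z - x‖ < r := by rwa [← mem_ball_iff_norm]
    linarith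
  refine h.removable hx.1 hr (g := deriv (ff w)) ?_ hne ?_ ?_
  · intro z hz
    exact ((h.ff_diff_out P hw (hbA2 hz)).deriv.differentiableAt).differentiableWithinAt
  · obtain ⟨M, hM⟩ := h.bdd hn (‖x‖ + r)
    exact ⟨M, fun z hz hzK => hM z (hnorm z hz) hzK⟩
  · rintro ψ h1 ⟨ρ, hρ, h2⟩ h3
    refine h.orth P hw (ψ := ψ) ?_ (fun z hz => h2 z fun hb => hz (hbA (ball_subset_ball hρ.le hb)))
      ⟨‖x‖ + r, fun z hz => h2 z fun hb => hz (hnorm z (ball_subset_ball hρ.le hb))⟩ h3
    intro z hz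
    by_cases hzK : z ∈ K
    · have hzA : z ∈ A := by
        by_contra hzA
        exact hz ⟨hzK, hzA⟩
      have hz1 : z ∉ closedBall x ρ := fun hb => hbK z (closedBall_subset_ball hρ hb) hzA
      obtain ⟨s, hs, hs2⟩ := Metric.isOpen_iff.1
        (isClosed_closedBall.isOpen_compl.inter P.out.isOpen_compl) z ⟨hz1, hz⟩
      refine ⟨0, s, hs, fun y hy => (hs2 hy).2, ?_⟩
      intro y hy y' hy'
      rw [h2 y fun hb => (hs2 hy).1 (ball_subset_closedBall hb),
        h2 y' fun hb => (hs2 hy').1 (ball_subset_closedBall hb)]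
      simp
    · obtain ⟨M, s, hs, hs1, hs2⟩ := h1 z hzK
      exact ⟨M, s, hs, fun y hy hyA => hs1 hy hyA.1, hs2⟩

end Vale.Agent.P128.GM
end

section

set_option linter.all false

/-! The logarithmic potential of a bounded measurable function with bounded support is `C¹`. -/

open MeasureTheory Set Metric Filter
open scoped ENNReal NNReal Topology Real ContDiff

namespace Vale.Agent.P128.Q1

open Vale.Agent.P128 Vale.Agent.P128.GM

/-- the (regularised) derivative of the logarithmic kernel -/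
noncomputable def Dk (e : ℝ) (y : ℂ) : ℂ →L[ℝ] ℝ :=
  ((2 * π)⁻¹ * (‖y‖ ^ 2 + e ^ 2)⁻¹) • innerSL ℝ y

theorem rg_pi : (2 * π)⁻¹ ≤ 1 := by
  rw [inv_le_one₀ (by positivity)]
  linarith only [Real.pi_gt_three]

theorem norm_Dk (e : ℝ) (y : ℂ) : ‖Dk e y‖ = (2 * π)⁻¹ * (‖y‖ ^ 2 + e ^ 2)⁻¹ * ‖y‖ := by
  unfold Dk
  rw [norm_smul, innerSL_apply_norm, Real.norm_of_nonneg (by positivity)]

theorem norm_Dk_le (e : ℝ) (y : ℂ) : ‖Dk e y‖ ≤ (2 * π)⁻¹ * ‖y‖ ^ (-(1 : ℝ)) := by
  rw [norm_Dk, Real.rpow_neg_one, mul_assoc]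
  refine mul_le_mul_of_nonneg_left ?_ (by positivity)
  rcases eq_or_ne y 0 with rfl | hy
  · simp
  have hn : 0 < ‖y‖ := norm_pos_iff.2 hy
  have h1 : (‖y‖ ^ 2 + e ^ 2)⁻¹ ≤ (‖y‖ ^ 2)⁻¹ := by
    apply inv_anti₀ (by positivity)
    linarith only [sq_nonneg e]
  calc (‖y‖ ^ 2 + e ^ 2)⁻¹ * ‖y‖ ≤ (‖y‖ ^ 2)⁻¹ * ‖y‖ := by gcongr
    _ = ‖y‖⁻¹ := by field_simp

theorem norm_Dk_le' {e : ℝ} (he : 0 < e) (y : ℂ) : ‖Dk e y‖ ≤ e⁻¹ := by
  rw [norm_Dk]
  have h0 : (0 : ℝ) < ‖y‖ ^ 2 + e ^ 2 := by positivity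
  have h1 : (‖y‖ ^ 2 + e ^ 2)⁻¹ * ‖y‖ ≤ e⁻¹ := by
    rw [inv_mul_le_iff₀ h0, ← div_eq_mul_inv, le_div_iff₀ he]
    linarith only [sq_nonneg (‖y‖ - e), h0]
  calc (2 * π)⁻¹ * (‖y‖ ^ 2 + e ^ 2)⁻¹ * ‖y‖ = (2 * π)⁻¹ * ((‖y‖ ^ 2 + e ^ 2)⁻¹ * ‖y‖) := by ring
    _ ≤ 1 * e⁻¹ := mul_le_mul rg_pi h1 (by positivity) (by norm_num)
    _ = e⁻¹ := one_mul _

theorem continuous_Dk {e : ℝ} (he : 0 < e) : Continuous (Dk e) := by
  unfold Dk
  have h0 : ∀ y : ℂ, ‖y‖ ^ 2 + e ^ 2 ≠ 0 := fun y => by positivity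
  have h1 : Continuous fun y : ℂ => (2 * π)⁻¹ * (‖y‖ ^ 2 + e ^ 2)⁻¹ := by
    fun_prop (disch := assumption)
  exact h1.smul (innerSL ℝ).continuous

theorem aesm_Dk (e : ℝ) : AEStronglyMeasurable (Dk e) (volume : Measure ℂ) := by
  unfold Dk
  have h1 : Measurable fun y : ℂ => (2 * π)⁻¹ * (‖y‖ ^ 2 + e ^ 2)⁻¹ := by fun_prop
  exact h1.aestronglyMeasurable.smul (innerSL (𝕜 := ℝ) (E := ℂ)).continuous.aestronglyMeasurable

theorem hasFDerivAt_Ne' {e : ℝ} (he : 0 < e) (y : ℂ) : HasFDerivAt (GM.Ne e) (Dk e y) y :=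
  hasFDerivAt_Ne he y

theorem continuous_Ne {e : ℝ} (he : 0 < e) : Continuous (GM.Ne e) := by
  rw [continuous_iff_continuousAt]
  exact fun y => (hasFDerivAt_Ne he y).continuousAt

theorem locInt_Dk (e : ℝ) : LocallyIntegrable (Dk e) (volume : Measure ℂ) := by
  have h1 := (locInt_rpow (α := 1) (by norm_num))
  refine h1.mono (aesm_Dk e) (Eventually.of_forall fun y => ?_)
  rw [Real.norm_of_nonneg (by positivity)]
  refine (norm_Dk_le e y).trans ?_
  have := rg_pi
  have h2 : 0 ≤ ‖y‖ ^ (-(1 : ℝ)) := by positivity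
  linarith only [mul_nonneg (sub_nonneg.2 this) (sub_nonneg.2 h2)]

/-- A bounded measurable function with support in a disk. -/
structure Src (f : ℂ → ℝ) (A : ℝ) (c : ℂ) (ρ : ℝ) : Prop where
  meas : Measurable f
  bound : ∀ z, |f z| ≤ A
  zero : ∀ z ∉ ball c ρ, f z = 0

namespace Src

variable {f : ℂ → ℝ} {A ρ : ℝ} {c : ℂ}

theorem A_nonneg (h : Src f A c ρ) : 0 ≤ A := (abs_nonneg _).trans (h.bound 0)

theorem integrable (h : Src f A c ρ) : Integrable f := by
  have h1 : f = (ball c ρ).indicator f := by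
    funext z
    by_cases hz : z ∈ ball c ρ
    · rw [indicator_of_mem hz]
    · rw [indicator_of_notMem hz, h.zero z hz]
  rw [h1, integrable_indicator_iff measurableSet_ball]
  have : IsFiniteMeasure (volume.restrict (ball c ρ)) :=
    ⟨by rw [Measure.restrict_apply_univ]; exact measure_ball_lt_top⟩
  exact Integrable.of_bound (C := A) h.meas.aestronglyMeasurable
    (Eventually.of_forall fun z => by simpa using h.bound z)

/-- integrability against a locally integrable kernel -/
theorem int_kernel (h : Src f A c ρ) {E : Type*} [NormedAddCommGroup E] [NormedSpace ℝ E]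
    {k : ℂ → E} (hk : LocallyIntegrable k) (z : ℂ) : Integrable fun w => f w • k (z - w) := by
  have h1 : IntegrableOn k (closedBall (z - c) ρ) :=
    hk.integrableOn_isCompact (isCompact_closedBall _ _)
  have h2 : Integrable ((closedBall (z - c) ρ).indicator k) :=
    (integrable_indicator_iff measurableSet_closedBall).2 h1
  have h3 : Integrable fun w => (closedBall (z - c) ρ).indicator k (z - w) := h2.comp_sub_left z
  have h4 : Integrable fun w => f w • (closedBall (z - c) ρ).indicator k (z - w) := by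
    refine h3.bdd_smul A ?_ ?_
    · exact h.meas.aestronglyMeasurable
    · exact Eventually.of_forall fun w => by simpa using h.bound w
  refine h4.congr (Eventually.of_forall fun w => ?_)
  simp only
  by_cases hw : w ∈ ball c ρ
  · have : z - w ∈ closedBall (z - c) ρ := by
      rw [mem_closedBall, dist_eq_norm]
      rw [mem_ball, dist_eq_norm] at hw
      have e : z - w - (z - c) = -(w - c) := by ring
      rw [e, norm_neg]
      exact hw.le
    rw [indicator_of_mem this]
  · rw [h.zero w hw, zero_smul, zero_smul]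

theorem hasFDerivAt_reg (h : Src f A c ρ) {e : ℝ} (he : 0 < e) (z : ℂ) :
    HasFDerivAt (fun z => ∫ w, f w • GM.Ne e (z - w)) (∫ w, f w • Dk e (z - w)) z := by
  refine hasFDerivAt_integral_of_dominated_of_fderiv_le (𝕜 := ℝ) (s := univ)
    (F := fun z w => f w • GM.Ne e (z - w)) (F' := fun z w => f w • Dk e (z - w))
    (bound := fun w => |f w| * e⁻¹) univ_mem ?_ ?_ ?_ ?_ ?_ ?_
  · refine Eventually.of_forall fun z => ?_
    exact (h.int_kernel (continuous_Ne he).locallyIntegrable z).aestronglyMeasurable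
  · exact h.int_kernel (continuous_Ne he).locallyIntegrable z
  · exact (h.int_kernel (locInt_Dk e) z).aestronglyMeasurable
  · refine Eventually.of_forall fun w z' _ => ?_
    rw [norm_smul, Real.norm_eq_abs]
    exact mul_le_mul_of_nonneg_left (norm_Dk_le' he _) (abs_nonneg _)
  · exact h.integrable.abs.mul_const _
  · refine Eventually.of_forall fun w z' _ => ?_
    have h1 : HasFDerivAt (fun z : ℂ => z - w) (ContinuousLinearMap.id ℝ ℂ) z' :=
      (hasFDerivAt_id z').sub_const w
    have h2 := (hasFDerivAt_Ne' he (z' - w)).comp z' h1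
    rw [ContinuousLinearMap.comp_id] at h2
    exact h2.const_smul (f w)

theorem continuous_reg (h : Src f A c ρ) {e : ℝ} (he : 0 < e) :
    Continuous fun z => ∫ w, f w • Dk e (z - w) := by
  refine continuous_of_dominated (bound := fun w => |f w| * e⁻¹) ?_ ?_ ?_ ?_
  · exact fun z => (h.int_kernel (locInt_Dk e) z).aestronglyMeasurable
  · refine fun z => Eventually.of_forall fun w => ?_
    rw [norm_smul, Real.norm_eq_abs]
    exact mul_le_mul_of_nonneg_left (norm_Dk_le' he _) (abs_nonneg _)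
  · exact h.integrable.abs.mul_const _
  · refine Eventually.of_forall fun w => ?_
    have h1 : Continuous fun z : ℂ => Dk e (z - w) :=
      (continuous_Dk he).comp (continuous_id.sub continuous_const)
    exact h1.const_smul (f w)

/-- regularisation parameters -/
noncomputable def ee (n : ℕ) : ℝ := 1 / ((n : ℝ) + 1)

theorem ee_pos (n : ℕ) : 0 < ee n := by unfold ee; positivity

theorem ee_le (n : ℕ) : ee n ≤ 1 := by
  unfold ee
  rw [div_le_one (by positivity)]
  linarith [Nat.cast_nonneg (α := ℝ) n]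

theorem ee_lim : Tendsto ee atTop (𝓝 0) := tendsto_one_div_add_atTop_nhds_zero_nat

/-- the `L¹` distance of the kernels -/
theorem tendsto_L1 (T : ℝ) :
    Tendsto (fun n => ∫ y in closedBall (0 : ℂ) T, ‖Dk (ee n) y - Dk 0 y‖) atTop (𝓝 0) := by
  have key : Tendsto (fun n => ∫ y in closedBall (0 : ℂ) T, ‖Dk (ee n) y - Dk 0 y‖) atTop
      (𝓝 (∫ y in closedBall (0 : ℂ) T, (fun _ => (0 : ℝ)) y)) := ?_
  · simpa using key
  refine tendsto_integral_of_dominated_convergence (fun y => 2 * ‖y‖ ^ (-(1 : ℝ))) ?_ ?_ ?_ ?_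
  · exact fun n => ((aesm_Dk _).sub (aesm_Dk _)).norm.restrict
  · exact ((locInt_rpow (α := 1) (by norm_num)).integrableOn_isCompact
      (isCompact_closedBall _ _)).const_mul 2
  · refine fun n => Eventually.of_forall fun y => ?_
    rw [norm_norm]
    have h2 : 0 ≤ ‖y‖ ^ (-(1 : ℝ)) := by positivity
    have h3 := rg_pi
    calc ‖Dk (ee n) y - Dk 0 y‖ ≤ ‖Dk (ee n) y‖ + ‖Dk 0 y‖ := norm_sub_le _ _
      _ ≤ (2 * π)⁻¹ * ‖y‖ ^ (-(1 : ℝ)) + (2 * π)⁻¹ * ‖y‖ ^ (-(1 : ℝ)) :=
          add_le_add (norm_Dk_le _ _) (norm_Dk_le _ _)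
      _ ≤ 2 * ‖y‖ ^ (-(1 : ℝ)) := by linarith only [mul_nonneg (sub_nonneg.2 h2) (sub_nonneg.2 h3)]
  · refine Eventually.of_forall fun y => ?_
    rcases eq_or_ne y 0 with rfl | hy
    · simp [Dk]
    have hn : 0 < ‖y‖ := norm_pos_iff.2 hy
    have h1 : Tendsto (fun n => ‖y‖ ^ 2 + ee n ^ 2) atTop (𝓝 (‖y‖ ^ 2 + 0 ^ 2)) :=
      tendsto_const_nhds.add (ee_lim.pow 2)
    have h2 : Tendsto (fun n => Dk (ee n) y) atTop (𝓝 (Dk 0 y)) := by
      unfold Dk
      exact ((h1.inv₀ (by positivity)).const_mul _).smul_const _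
    have h3 := (h2.sub_const (Dk 0 y)).norm
    simpa using h3

theorem tendstoUniformlyOn (h : Src f A c ρ) (R : ℝ) :
    TendstoUniformlyOn (fun n z => ∫ w, f w • Dk (ee n) (z - w))
      (fun z => ∫ w, f w • Dk 0 (z - w)) atTop (ball c R) := by
  have hlim := (tendsto_L1 (R + ρ)).const_mul A
  rw [mul_zero] at hlim
  rw [Metric.tendstoUniformlyOn_iff]
  intro ε hε
  filter_upwards [hlim.eventually (gt_mem_nhds hε)] with n hn z hz
  refine lt_of_le_of_lt ?_ hn
  rw [dist_eq_norm, norm_sub_rev, ← integral_sub (h.int_kernel (locInt_Dk _) z)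
    (h.int_kernel (locInt_Dk _) z)]
  have hI : Integrable ((closedBall (0 : ℂ) (R + ρ)).indicator
      fun y => ‖Dk (ee n) y - Dk 0 y‖) := by
    rw [integrable_indicator_iff measurableSet_closedBall]
    exact (((locInt_Dk (ee n)).sub (locInt_Dk 0)).integrableOn_isCompact
      (isCompact_closedBall _ _)).norm
  calc ‖∫ w, (f w • Dk (ee n) (z - w) - f w • Dk 0 (z - w))‖
      ≤ ∫ w, A * (closedBall (0 : ℂ) (R + ρ)).indicator
          (fun y => ‖Dk (ee n) y - Dk 0 y‖) (z - w) := by
        refine norm_integral_le_of_norm_le ((hI.comp_sub_left z).const_mul A)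
          (Eventually.of_forall fun w => ?_)
        have e1 : f w • Dk (ee n) (z - w) - f w • Dk 0 (z - w) =
            f w • (Dk (ee n) (z - w) - Dk 0 (z - w)) := (smul_sub _ _ _).symm
        rw [e1, norm_smul, Real.norm_eq_abs]
        by_cases hw : w ∈ ball c ρ
        · have h1 : z - w ∈ closedBall (0 : ℂ) (R + ρ) := by
            rw [mem_closedBall, dist_zero_right]
            rw [mem_ball, dist_eq_norm] at hw hz
            have e : z - w = (z - c) - (w - c) := by ring
            rw [e]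
            exact (norm_sub_le _ _).trans (by linarith)
          rw [indicator_of_mem h1]
          exact mul_le_mul_of_nonneg_right (h.bound w) (norm_nonneg _)
        · rw [h.zero w hw, abs_zero, zero_mul]
          exact mul_nonneg h.A_nonneg (indicator_nonneg (fun _ _ => norm_nonneg _) _)
    _ = A * ∫ y in closedBall (0 : ℂ) (R + ρ), ‖Dk (ee n) y - Dk 0 y‖ := by
        rw [integral_const_mul, integral_sub_left_eq_self
          ((closedBall (0 : ℂ) (R + ρ)).indicator fun y => ‖Dk (ee n) y - Dk 0 y‖) volume z,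
          integral_indicator measurableSet_closedBall]

theorem tendsto_pt (h : Src f A c ρ) (z : ℂ) :
    Tendsto (fun n => ∫ w, f w • GM.Ne (ee n) (z - w)) atTop (𝓝 (∫ w, f w • Nk (z - w))) := by
  have hae : ∀ᵐ w : ℂ, w ≠ z := by simp [ae_iff]
  have hb : LocallyIntegrable (fun y : ℂ => |Nk y| + ‖y‖ ^ 2) := by
    refine LocallyIntegrable.add ?_ ?_
    · intro x
      obtain ⟨s, hs, h⟩ := locInt_Nk x
      exact ⟨s, hs, h.norm⟩
    · exact (continuous_norm.pow 2).locallyIntegrable
  refine tendsto_integral_of_dominated_convergence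
    (fun w => ‖f w • (|Nk (z - w)| + ‖z - w‖ ^ 2)‖) ?_ ?_ ?_ ?_
  · exact fun n => (h.int_kernel (continuous_Ne (ee_pos n)).locallyIntegrable z).aestronglyMeasurable
  · exact (h.int_kernel hb z).norm
  · intro n
    filter_upwards [hae] with w hw
    have hy : z - w ≠ 0 := sub_ne_zero.2 (Ne.symm hw)
    rw [norm_smul, norm_smul]
    refine mul_le_mul_of_nonneg_left ?_ (norm_nonneg _)
    rw [Real.norm_eq_abs, Real.norm_of_nonneg (by positivity)]
    exact abs_Ne_le (ee_pos n) (ee_le n) hy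
  · filter_upwards [hae] with w hw
    have hy : z - w ≠ 0 := sub_ne_zero.2 (Ne.symm hw)
    refine Tendsto.const_smul ?_ _
    unfold GM.Ne Nk
    have h1 : Tendsto (fun n => ‖z - w‖ ^ 2 + ee n ^ 2) atTop (𝓝 (‖z - w‖ ^ 2 + 0)) := by
      have := ee_lim.pow 2
      rw [zero_pow two_ne_zero] at this
      exact tendsto_const_nhds.add this
    have h2 := (h1.log (by simpa using hy)).const_mul ((4 * π)⁻¹)
    convert h2 using 2
    rw [add_zero, Real.log_pow]
    push_cast
    field_simp
    ring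

theorem pot_eq (z : ℂ) : pot f z = ∫ w, f w • Nk (z - w) := by
  rw [pot_comm]
  refine integral_congr_ae (Eventually.of_forall fun w => ?_)
  simp only [smul_eq_mul]
  ring

theorem hasFDerivAt_pot (h : Src f A c ρ) (z : ℂ) :
    HasFDerivAt (pot f) (∫ w, f w • Dk 0 (z - w)) z := by
  obtain ⟨R, hR⟩ : ∃ R, dist z c < R := ⟨dist z c + 1, by linarith⟩
  refine hasFDerivAt_of_tendstoUniformlyOn (l := atTop)
    (f := fun n z => ∫ w, f w • GM.Ne (ee n) (z - w)) (s := ball c R) isOpen_ball
    (h.tendstoUniformlyOn R) (fun n x _ => h.hasFDerivAt_reg (ee_pos n) x)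
    (fun x _ => ?_) hR
  rw [pot_eq]
  exact h.tendsto_pt x

theorem continuous_fderiv (h : Src f A c ρ) : Continuous fun z => ∫ w, f w • Dk 0 (z - w) := by
  rw [continuous_iff_continuousAt]
  intro z
  obtain ⟨R, hR⟩ : ∃ R, dist z c < R := ⟨dist z c + 1, by linarith⟩
  refine ((h.tendstoUniformlyOn R).continuousOn (Frequently.of_forall fun n =>
    (h.continuous_reg (ee_pos n)).continuousOn)).continuousAt (isOpen_ball.mem_nhds hR)

/-- The potential of a bounded function with bounded support is `C¹`. -/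
theorem contDiff_pot (h : Src f A c ρ) : ContDiff ℝ 1 (pot f) := by
  rw [contDiff_one_iff_fderiv]
  refine ⟨fun z => (h.hasFDerivAt_pot z).differentiableAt, ?_⟩
  have e : fderiv ℝ (pot f) = fun z => ∫ w, f w • Dk 0 (z - w) := by
    funext z
    exact (h.hasFDerivAt_pot z).fderiv
  rw [e]
  exact h.continuous_fderiv

end Src

/-! ### The weak Laplacian -/

theorem lap_comp_add (φ : ℂ → ℝ) (w y : ℂ) : lap (fun y => φ (y + w)) y = lap φ (y + w) := by
  have h1 : ∀ v : ℂ, (fun x => fderiv ℝ (fun y => φ (y + w)) x v) =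
      fun x => fderiv ℝ φ (x + w) v := by
    intro v
    funext x
    rw [fderiv_comp_add_right]
  unfold lap
  rw [h1, h1]
  have h2 : ∀ v : ℂ, fderiv ℝ (fun x => fderiv ℝ φ (x + w) v) y v =
      fderiv ℝ (fun x => fderiv ℝ φ x v) (y + w) v := by
    intro v
    have := fderiv_comp_add_right (𝕜 := ℝ) (f := fun x => fderiv ℝ φ x v) (x := y) w
    rw [this]
  rw [h2, h2]

theorem Src.weak_lap {f : ℂ → ℝ} {A ρ : ℝ} {c : ℂ} (h : Src f A c ρ) {φ : ℂ → ℝ}
    (hφ : ContDiff ℝ ∞ φ) (hc : HasCompactSupport φ) :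
    ∫ z, pot f z * lap φ z = ∫ z, f z * φ z := by
  have hlc : Continuous (lap φ) := by
    have : ∀ v : ℂ, Continuous fun z => fderiv ℝ (fun w => fderiv ℝ φ w v) z v := fun v =>
      (((hφ.fderiv_right (m := ∞) (by simp)).clm_apply contDiff_const).continuous_fderiv
        (by simp)).clm_apply continuous_const
    exact (this 1).add (this Complex.I)
  have hls : HasCompactSupport (lap φ) := by
    have : ∀ v : ℂ, HasCompactSupport fun z => fderiv ℝ (fun w => fderiv ℝ φ w v) z v := fun v =>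
      (hc.fderiv_apply ℝ v).fderiv_apply ℝ v
    exact (this 1).add (this Complex.I)
  obtain ⟨R1, hR10, hR1⟩ := hls.isCompact.isBounded.exists_pos_norm_le
  obtain ⟨B, hB⟩ : ∃ S, ∀ z, ‖lap φ z‖ ≤ S := hlc.bounded_above_of_compact_support hls
  set T : ℝ := R1 + (‖c‖ + ρ) with hT
  have hNi : Integrable ((closedBall (0 : ℂ) T).indicator Nk) :=
    (integrable_indicator_iff isClosed_closedBall.measurableSet).2
      (locInt_Nk.integrableOn_isCompact (isCompact_closedBall 0 T))
  have hprod : Integrable (fun p : ℂ × ℂ => f p.2 * (closedBall (0 : ℂ) T).indicator Nk (p.1 - p.2))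
      ((volume : Measure ℂ).prod volume) :=
    h.integrable.convolution_integrand (ContinuousLinearMap.mul ℝ ℝ) hNi
  have hF : Integrable (fun p : ℂ × ℂ => lap φ p.1 * (f p.2 * Nk (p.1 - p.2)))
      ((volume : Measure ℂ).prod volume) := by
    have h1 : Integrable (fun p : ℂ × ℂ => lap φ p.1 *
        (f p.2 * (closedBall (0 : ℂ) T).indicator Nk (p.1 - p.2)))
        ((volume : Measure ℂ).prod volume) :=
      hprod.bdd_mul (hlc.comp continuous_fst).aestronglyMeasurable
        (Eventually.of_forall fun p => hB p.1)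
    refine h1.congr (Eventually.of_forall fun p => ?_)
    simp only
    by_cases h2 : lap φ p.1 = 0
    · rw [h2, zero_mul, zero_mul]
    by_cases h3 : p.2 ∈ ball c ρ
    · have h4 : ‖p.1‖ ≤ R1 := hR1 _ (subset_tsupport _ h2)
      have h5 : p.1 - p.2 ∈ closedBall (0 : ℂ) T := by
        rw [mem_closedBall, dist_zero_right]
        rw [mem_ball, dist_eq_norm] at h3
        have h6 : ‖p.2‖ ≤ ‖c‖ + ρ := by
          have e : p.2 = c + (p.2 - c) := by ring
          rw [e]
          exact (norm_add_le _ _).trans (by linarith)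
        exact (norm_sub_le _ _).trans (by linarith)
      rw [indicator_of_mem h5]
    · rw [h.zero _ h3, zero_mul, zero_mul]
  calc ∫ z, pot f z * lap φ z = ∫ z, ∫ w, lap φ z * (f w * Nk (z - w)) := by
        refine integral_congr_ae (Eventually.of_forall fun z => ?_)
        simp only
        rw [integral_const_mul, Src.pot_eq, mul_comm]
        rfl
    _ = ∫ w, ∫ z, lap φ z * (f w * Nk (z - w)) := integral_integral_swap hF
    _ = ∫ w, f w * φ w := by
        refine integral_congr_ae (Eventually.of_forall fun w => ?_)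
        simp only
        have h4 : ContDiff ℝ 2 fun y => φ (y + w) :=
          (hφ.of_le (by norm_cast)).comp (contDiff_id.add contDiff_const)
        have h5 : HasCompactSupport fun y => φ (y + w) :=
          hc.comp_homeomorph (Homeomorph.addRight w)
        have h6 := fund h4 h5
        simp only [zero_add] at h6
        rw [← h6, ← integral_const_mul, ← integral_add_right_eq_self _ w]
        refine integral_congr_ae (Eventually.of_forall fun y => ?_)
        simp only
        rw [lap_comp_add, add_sub_cancel_right]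
        ring

end Vale.Agent.P128.Q1
end

section

set_option linter.all false

/-! The `C¹` representative of a minimizer off its singular set. -/

open MeasureTheory Set Metric Filter InnerProductSpace
open scoped ENNReal NNReal Topology Real ContDiff

namespace Vale.Agent.P128.Q1

open Vale.Agent.P128 Vale.Agent.P128.GM

variable {Ω : Set ℂ} {g u : ℂ → ℝ} {G : ℂ → ℂ} {K : Set ℂ} {M : ℝ}

theorem cont_lap {φ : ℂ → ℝ} (hφ : ContDiff ℝ ∞ φ) : Continuous (lap φ) := by
  have : ∀ v : ℂ, Continuous fun z => fderiv ℝ (fun w => fderiv ℝ φ w v) z v := fun v =>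
    (((hφ.fderiv_right (m := ∞) (by simp)).clm_apply contDiff_const).continuous_fderiv
      (by simp)).clm_apply continuous_const
  exact (this 1).add (this Complex.I)

theorem supp_lap {φ : ℂ → ℝ} (hc : HasCompactSupport φ) : HasCompactSupport (lap φ) := by
  have : ∀ v : ℂ, HasCompactSupport fun z => fderiv ℝ (fun w => fderiv ℝ φ w v) z v := fun v =>
    (hc.fderiv_apply ℝ v).fderiv_apply ℝ v
  exact (this 1).add (this Complex.I)

/-- The weak equation `Δ u = u - g` off `K`. -/
theorem weak_eq (N : Nice Ω g u G K M) {z₀ : ℂ} {r : ℝ} (hr : closedBall z₀ r ⊆ Ω \ K)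
    {φ : ℂ → ℝ} (hφ : ContDiff ℝ ∞ φ) (hc : HasCompactSupport φ) (hs : tsupport φ ⊆ ball z₀ r) :
    ∫ z, u z * lap φ z = ∫ z, (u z - g z) * φ z := by
  have hsU : tsupport φ ⊆ Ω \ K := hs.trans (ball_subset_closedBall.trans hr)
  have hgc : Continuous (grad φ) := continuous_grad hφ
  have hgs : HasCompactSupport (grad φ) := hasCompactSupport_grad hc
  have hfv := N.first_variation (x := z₀) (R := r) (hr.trans sdiff_subset) (ξ := φ) (Ξ := grad φ)
    (hφ.continuous.memLp_of_hasCompactSupport hc) (hgc.memLp_of_hasCompactSupport hgs)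
    ((LocLip.of_contDiff hφ (N.min.1.isOpen_diff N.isOpen)).isWeakGrad
      (N.min.1.isOpen_diff N.isOpen)) (C := tsupport φ) hc hs
    (fun z hz => image_eq_zero_of_notMem_tsupport hz) (fun z hz => grad_eq_zero_of_notMem hz)
  have hd : ∀ v : ℂ, ContDiff ℝ ∞ fun z => fderiv ℝ φ z v := fun v =>
    (hφ.fderiv_right (m := ∞) (by simp)).clm_apply contDiff_const
  have ht : ∀ v : ℂ, ∫ z, u z * fderiv ℝ (fun w => fderiv ℝ φ w v) z v =
      - ∫ z, inner ℝ (G z) v * fderiv ℝ φ z v := fun v =>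
    N.min.1.weak.test (hd v) (hc.fderiv_apply ℝ v) ((clTsupp v).trans hsU) v
  have hcd : ∀ v : ℂ, Continuous fun z => fderiv ℝ (fun w => fderiv ℝ φ w v) z v := fun v =>
    ((hd v).continuous_fderiv (by simp)).clm_apply continuous_const
  have hcs : ∀ v : ℂ, HasCompactSupport fun z => fderiv ℝ (fun w => fderiv ℝ φ w v) z v := fun v =>
    (hc.fderiv_apply ℝ v).fderiv_apply ℝ v
  have i1 : ∀ v : ℂ, Integrable fun z => u z * fderiv ℝ (fun w => fderiv ℝ φ w v) z v := fun v =>
    integrable_mul_cc (N.u_memLp.locallyIntegrable (by norm_num)) (hcd v) (hcs v)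
  have i2 : ∀ v : ℂ, Integrable fun z => inner ℝ (G z) v * fderiv ℝ φ z v := fun v =>
    integrable_mul_cc (locallyIntegrable_inner (N.G_memLp.locallyIntegrable (by norm_num)) v)
      (hd v).continuous (hc.fderiv_apply ℝ v)
  have e1 : ∫ z, u z * lap φ z = (∫ z, u z * fderiv ℝ (fun w => fderiv ℝ φ w 1) z 1) +
      ∫ z, u z * fderiv ℝ (fun w => fderiv ℝ φ w Complex.I) z Complex.I := by
    rw [← integral_add (i1 1) (i1 Complex.I)]
    refine integral_congr_ae (Eventually.of_forall fun z => ?_)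
    simp only [lap]
    ring
  have e2 : ∫ z, (inner ℝ (G z) (grad φ z) : ℝ) = (∫ z, inner ℝ (G z) 1 * fderiv ℝ φ z 1) +
      ∫ z, inner ℝ (G z) Complex.I * fderiv ℝ φ z Complex.I := by
    rw [← integral_add (i2 1) (i2 Complex.I)]
    refine integral_congr_ae (Eventually.of_forall fun z => ?_)
    simp only [inner_eq, grad, Complex.one_re, Complex.one_im, Complex.I_re, Complex.I_im]
    ring
  rw [e1, ht 1, ht Complex.I]
  rw [e2] at hfv
  linarith

/-- Local `C¹` representatives. -/
theorem local_rep (N : Nice Ω g u G K M) {z₀ : ℂ} (hz : z₀ ∈ Ω \ K) :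
    ∃ (F : ℂ → ℝ) (r : ℝ), 0 < r ∧ ball z₀ r ⊆ Ω \ K ∧ ContDiffOn ℝ 1 F (ball z₀ r) ∧
      ∀ᵐ w, w ∈ ball z₀ r → u w = F w := by
  have hU : IsOpen (Ω \ K) := N.min.1.isOpen_diff N.isOpen
  obtain ⟨ε, hε, hεU⟩ := Metric.nhds_basis_closedBall.mem_iff.1 (hU.mem_nhds hz)
  obtain ⟨R₁, M₁, h1, h2, h3, h4⟩ := N.exists_bounded hε (hεU.trans sdiff_subset)
  have hR₁ : 0 < R₁ := by linarith
  have hcb : closedBall z₀ R₁ ⊆ Ω \ K := (closedBall_subset_closedBall h2.le).trans hεU
  have hM1 : 0 ≤ M₁ := N.M_nonneg.trans h3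
  rw [ae_restrict_iff' measurableSet_ball] at h4
  set f : ℂ → ℝ := (ball z₀ R₁).indicator (fun z => clampf M₁ (u z) - g z) with hf
  have hsrc : Src f (M₁ + M) z₀ R₁ := by
    refine ⟨?_, fun z => ?_, fun z hz => indicator_of_notMem hz _⟩
    · exact (((continuous_clampf M₁).measurable.comp N.um).sub N.gm).indicator measurableSet_ball
    · by_cases hzb : z ∈ ball z₀ R₁
      · rw [hf, indicator_of_mem hzb]
        have h5 : |clampf M₁ (u z)| ≤ M₁ := by
          unfold clampf
          rw [abs_le]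
          exact ⟨le_max_left _ _, max_le (by linarith) (min_le_left _ _)⟩
        have h6 := N.gb z
        exact (abs_sub _ _).trans (add_le_add h5 h6)
      · rw [hf, indicator_of_notMem hzb, abs_zero]
        linarith [N.M_nonneg]
  have hli : LocallyIntegrableOn (fun z => u z - pot f z) (ball z₀ R₁) := by
    have h5 : LocallyIntegrable fun z => u z - pot f z :=
      (N.u_memLp.locallyIntegrable (by norm_num)).sub hsrc.contDiff_pot.continuous.locallyIntegrable
    exact h5.locallyIntegrableOn _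
  obtain ⟨h, hh, hae⟩ := clWeyl isOpen_ball hli fun φ k1 k2 k3 => by
    have e1 := weak_eq N hcb k1 k2 k3
    have e2 := hsrc.weak_lap k1 k2
    have i1 : Integrable fun z => u z * lap φ z :=
      integrable_mul_cc (N.u_memLp.locallyIntegrable (by norm_num)) (cont_lap k1) (supp_lap k2)
    have i2 : Integrable fun z => pot f z * lap φ z :=
      integrable_mul_cc hsrc.contDiff_pot.continuous.locallyIntegrable (cont_lap k1) (supp_lap k2)
    have e3 : ∫ z, (u z - pot f z) * lap φ z = (∫ z, u z * lap φ z) - ∫ z, pot f z * lap φ z := by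
      rw [← integral_sub i1 i2]
      refine integral_congr_ae (Eventually.of_forall fun z => ?_)
      simp only
      ring
    have e4 : ∫ z, (u z - g z) * φ z = ∫ z, f z * φ z := by
      refine integral_congr_ae ?_
      filter_upwards [h4] with z hz4
      by_cases hzb : z ∈ ball z₀ R₁
      · rw [hf, indicator_of_mem hzb, clampf_eq (hz4 hzb)]
      · rw [image_eq_zero_of_notMem_tsupport (f := φ) fun hc => hzb (k3 hc), mul_zero, mul_zero]
    rw [e3, e1, e2, e4, sub_self]
  rw [ae_restrict_iff' measurableSet_ball] at hae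
  refine ⟨fun z => h z + pot f z, R₁, hR₁, ball_subset_closedBall.trans hcb, ?_, ?_⟩
  · exact ((HarmonicOnNhd.smooth hh).of_le (by simp)).add hsrc.contDiff_pot.contDiffOn
  · filter_upwards [hae] with w hw hwb
    linarith [hw hwb]

/-! ### The global representative -/

/-- local representatives at `z` -/
def RepAt (u : ℂ → ℝ) (U : Set ℂ) (z : ℂ) (F : ℂ → ℝ) : Prop :=
  ∃ r : ℝ, 0 < r ∧ ball z r ⊆ U ∧ ContDiffOn ℝ 1 F (ball z r) ∧ ∀ᵐ w, w ∈ ball z r → u w = F w

open Classical in
/-- the `C¹` representative of `u` in `U`, extended by zero -/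
noncomputable def rep (u : ℂ → ℝ) (U : Set ℂ) (z : ℂ) : ℝ :=
  if h : ∃ F : ℂ → ℝ, RepAt u U z F then h.choose z else 0

theorem rep_eq {U : Set ℂ} {z₀ : ℂ} {F : ℂ → ℝ} {r : ℝ} (hrU : ball z₀ r ⊆ U)
    (hF : ContDiffOn ℝ 1 F (ball z₀ r)) (hae : ∀ᵐ w, w ∈ ball z₀ r → u w = F w) {z : ℂ}
    (hz : z ∈ ball z₀ r) : rep u U z = F z := by
  obtain ⟨r', hr', hb⟩ := Metric.isOpen_iff.1 isOpen_ball z hz
  have hex : ∃ F : ℂ → ℝ, RepAt u U z F := by
    refine ⟨F, r', hr', hb.trans hrU, hF.mono hb, ?_⟩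
    filter_upwards [hae] with w hw hwb
    exact hw (hb hwb)
  unfold rep
  rw [dif_pos hex]
  obtain ⟨r₁, h1, h2, h3, h4⟩ := hex.choose_spec
  set F₁ := hex.choose
  have hs : ball z (min r' r₁) ⊆ ball z r' := ball_subset_ball (min_le_left _ _)
  have hs' : ball z (min r' r₁) ⊆ ball z r₁ := ball_subset_ball (min_le_right _ _)
  have heq : EqOn F₁ F (ball z (min r' r₁)) := by
    refine Measure.eqOn_open_of_ae_eq (μ := volume) ?_ isOpen_ball (h3.continuousOn.mono hs')
      (hF.continuousOn.mono (hs.trans hb))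
    rw [EventuallyEq, ae_restrict_iff' measurableSet_ball]
    filter_upwards [h4, hae] with w a b hw
    rw [← a (hs' hw), ← b (hb (hs hw))]
  exact heq (mem_ball_self (lt_min hr' h1))

theorem rep_zero {U : Set ℂ} {z : ℂ} (hz : z ∉ U) : rep u U z = 0 := by
  unfold rep
  rw [dif_neg]
  rintro ⟨F, r, h1, h2, -⟩
  exact hz (h2 (mem_ball_self h1))

theorem rep_c1 {U : Set ℂ} (hU : ∀ z ∈ U, ∃ F : ℂ → ℝ, RepAt u U z F) :
    ContDiffOn ℝ 1 (rep u U) U := by
  intro z hz
  obtain ⟨F, r, h1, h2, h3, h4⟩ := hU z hz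
  refine ContDiffAt.contDiffWithinAt ?_
  refine (h3.contDiffAt (isOpen_ball.mem_nhds (mem_ball_self h1))).congr_of_eventuallyEq ?_
  filter_upwards [isOpen_ball.mem_nhds (mem_ball_self h1)] with w hw
  exact rep_eq h2 h3 h4 hw

theorem rep_ae {U : Set ℂ} (hU : ∀ z ∈ U, ∃ F : ℂ → ℝ, RepAt u U z F) :
    ∀ᵐ z, z ∈ U → u z = rep u U z := by
  have hloc : ∀ z ∈ U, ∃ s ∈ 𝓝[U] z, ∀ᵐ y ∂(volume : Measure ℂ), y ∈ s → u y = rep u U y := by
    intro z hz
    obtain ⟨F, r, h1, h2, h3, h4⟩ := hU z hz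
    refine ⟨ball z r, mem_nhdsWithin_of_mem_nhds (ball_mem_nhds z h1), ?_⟩
    filter_upwards [h4] with y hy hyb
    rw [rep_eq h2 h3 h4 hyb]
    exact hy hyb
  choose! s hs hs' using hloc
  obtain ⟨T, hTU, hTc, hT⟩ := TopologicalSpace.countable_cover_nhdsWithin hs
  have : ∀ᵐ y ∂(volume : Measure ℂ), ∀ z ∈ T, y ∈ s z → u y = rep u U y :=
    (ae_ball_iff hTc).2 fun z hz => hs' z (hTU hz)
  filter_upwards [this] with y hy hyU
  obtain ⟨z, hz, hyz⟩ := mem_iUnion₂.1 (hT hyU)
  exact hy z hz hyz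

end Vale.Agent.P128.Q1
end

section

set_option linter.all false

/-! Part I' of the proof of Q1: the standing assumptions hold near every point of `K`. -/

open MeasureTheory Set Metric Filter InnerProductSpace
open scoped ENNReal NNReal Topology Real ContDiff

namespace Vale.Agent.P128.Q1

open Vale.Agent.P128 Vale.Agent.P128.GM

variable {Ω : Set ℂ} {g u : ℂ → ℝ} {G : ℂ → ℂ} {K : Set ℂ} {M : ℝ}

theorem nice_vol_zero (N : Nice Ω g u G K M) : volume K = 0 :=
  volume_eq_zero_of_hausdorff N.min.1.finite.ne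

theorem IsMinimizer_congr {u' : ℂ → ℝ} {G' : ℂ → ℂ}
    (eu : u =ᵐ[volume.restrict Ω] u') (eG : G =ᵐ[volume.restrict (Ω \ K)] G')
    (h : IsMinimizer Ω g u G K) : IsMinimizer Ω g u' G' K := by
  obtain ⟨hadm, hmin⟩ := h
  refine ⟨?_, ?_⟩
  · refine
      { subset := hadm.subset
        relClosed := hadm.relClosed
        finite := hadm.finite
        memLp := hadm.memLp.ae_eq eu
        grad_memLp := hadm.grad_memLp.ae_eq eG
        weak := hadm.weak.congr
          (ae_mono (Measure.restrict_mono sdiff_subset le_rfl) eu) eG }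
  · intro V hV hVc hVΩ w H L hadm' ⟨Cc, hCc, hCV, hsd, hae⟩
    have hVΩ' : V ⊆ Ω := subset_closure.trans hVΩ
    have e1 := energy_congr (K := K) hVΩ' (Filter.EventuallyEq.refl _ g) eu eG
    rw [← e1]
    refine hmin V hV hVc hVΩ w H L hadm' ⟨Cc, hCc, hCV, hsd, ?_⟩
    filter_upwards [hae, eu] with z h1 h2 h3
    rw [h1 h3, h2]

/-- The classical representative of a normalised minimizer. -/
theorem nice_rep (N : Nice Ω g u G K M) {x : ℂ} {R₁ M₁ : ℝ} (hMM : M ≤ M₁)
    (hb : ∀ᵐ z ∂(volume.restrict (ball x R₁)), |u z| ≤ M₁) :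
    ∃ (u' : ℂ → ℝ) (G' : ℂ → ℂ), Nice Ω g u' G' K M₁ ∧ ContDiffOn ℝ 1 u' (Ω \ K) ∧
      (∀ z ∈ Ω \ K, G' z = grad u' z) ∧ (∀ z ∈ ball x R₁, |u' z| ≤ M₁) ∧
      (∀ᵐ z, u z = u' z) ∧ ∀ᵐ z, G z = G' z := by
  classical
  have hU : IsOpen (Ω \ K) := N.min.1.isOpen_diff N.isOpen
  have hM₁ : 0 ≤ M₁ := N.M_nonneg.trans hMM
  have hloc : ∀ z ∈ Ω \ K, ∃ F : ℂ → ℝ, RepAt u (Ω \ K) z F := by
    intro z hz
    obtain ⟨F, r, h1, h2, h3, h4⟩ := local_rep N hz
    exact ⟨F, r, h1, h2, h3, h4⟩
  set u' : ℂ → ℝ := rep u (Ω \ K) with hu'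
  have hc1 : ContDiffOn ℝ 1 u' (Ω \ K) := rep_c1 hloc
  have hz0 : ∀ z ∉ Ω \ K, u' z = 0 := fun z hz => rep_zero hz
  have haeU : ∀ᵐ z, z ∈ Ω \ K → u z = u' z := rep_ae hloc
  have hK0 : ∀ᵐ z : ℂ, z ∉ K := measure_eq_zero_iff_ae_notMem.1 (nice_vol_zero N)
  have hae : ∀ᵐ z, u z = u' z := by
    filter_upwards [haeU, hK0] with z h1 h2
    by_cases hz : z ∈ Ω
    · exact h1 ⟨hz, h2⟩
    · rw [N.u0 z hz, hz0 z fun h => hz h.1]
  set G' : ℂ → ℂ := (Ω \ K).indicator (grad u') with hG'
  have hLL : LocLip (Ω \ K) u' := LocLip.of_contDiffOn hU hc1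
  have hWu : W12loc (Ω \ K) u G :=
    ⟨fun C _ _ => N.u_memLp.restrict _, fun C _ _ => N.G_memLp.restrict _, N.min.1.weak⟩
  have hGae : ∀ᵐ z, z ∈ Ω \ K → G z = grad u' z := clUniq hU hWu (hLL.w12loc hU) haeU
  have hGall : ∀ᵐ z, G z = G' z := by
    filter_upwards [hGae] with z h1
    by_cases hz : z ∈ Ω \ K
    · rw [hG', indicator_of_mem hz, h1 hz]
    · rw [hG', indicator_of_notMem hz, N.G0 z hz]
  have hum : Measurable u' := by
    have h1 : (Ω \ K).piecewise u' (fun _ => 0) = u' := by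
      funext z
      by_cases hz : z ∈ Ω \ K
      · rw [piecewise_eq_of_mem _ _ _ hz]
      · rw [piecewise_eq_of_notMem _ _ _ hz, hz0 z hz]
    rw [← h1]
    exact ContinuousOn.measurable_piecewise hc1.continuousOn continuousOn_const hU.measurableSet
  refine ⟨u', G', ?_, hc1, fun z hz => indicator_of_mem hz _, ?_, hae, hGall⟩
  · exact
      { isOpen := N.isOpen
        M_nonneg := hM₁
        gm := N.gm
        um := hum
        Gm := (measurable_grad u').indicator hU.measurableSet
        gb := fun z => (N.gb z).trans hMM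
        g0 := N.g0
        u0 := fun z hz => hz0 z fun h => hz h.1
        G0 := fun z hz => indicator_of_notMem hz _
        min := IsMinimizer_congr (ae_restrict_of_ae hae) (ae_restrict_of_ae hGall) N.min }
  · intro z hz
    by_cases hzU : z ∈ Ω \ K
    · have hW : IsOpen (ball x R₁ ∩ (Ω \ K)) := isOpen_ball.inter hU
      have hcu : ContinuousOn u' (ball x R₁ ∩ (Ω \ K)) :=
        hc1.continuousOn.mono inter_subset_right
      have heq : EqOn (fun z => clampf M₁ (u' z)) u' (ball x R₁ ∩ (Ω \ K)) := by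
        refine Measure.eqOn_open_of_ae_eq (μ := volume) ?_ hW
          ((continuous_clampf M₁).comp_continuousOn hcu) hcu
        rw [EventuallyEq, ae_restrict_iff' hW.measurableSet]
        rw [ae_restrict_iff' measurableSet_ball] at hb
        filter_upwards [hb, hae] with w h1 h2 h3
        refine clampf_eq ?_
        rw [← h2]
        exact h1 h3.1
      rw [← heq ⟨hz, hzU⟩]
      show |clampf M₁ (u' z)| ≤ M₁
      unfold clampf
      rw [abs_le]
      exact ⟨le_max_left _ _, max_le (by linarith) (min_le_left _ _)⟩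
    · rw [hz0 z hzU, abs_zero]
      exact hM₁

/-- **Part I'** (the classical representative). -/
theorem exists_MS (hΩ : IsOpen Ω) (hg : MemLp g ⊤ (volume.restrict Ω))
    (hmin : IsMinimizer Ω g u G K) (hred : IsReduced Ω K) {x : ℂ} (hx : x ∈ K) :
    ∃ (g' u' : ℂ → ℝ) (G' : ℂ → ℂ) (M R₀ : ℝ), MS Ω g' u' G' K M x R₀ := by
  obtain ⟨M, g', u₁, G₁, N⟩ := normalize hΩ hg hmin
  obtain ⟨R, hR, hRΩ⟩ := Metric.nhds_basis_closedBall.mem_iff.1
    (N.isOpen.mem_nhds (N.min.1.subset hx))
  obtain ⟨R₁, M₁, h1, h2, h3, h4⟩ := N.exists_bounded hR hRΩ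
  have hR₁ : 0 < R₁ := by linarith
  have hMM : M ≤ max 1 M₁ := h3.trans (le_max_right _ _)
  obtain ⟨u', G', N', hc1, hG', hb', -, -⟩ := nice_rep N (x := x) (R₁ := R₁) hMM (by
    filter_upwards [h4] with z hz
    exact hz.trans (le_max_right _ _))
  have hsub : closedBall x (4 * min 1 (R₁ / 5)) ⊆ ball x R₁ := by
    refine closedBall_subset_ball ?_
    have := min_le_right 1 (R₁ / 5)
    linarith only [this, h2, h1]
  exact ⟨g', u', G', max 1 M₁, min 1 (R₁ / 5),
    { N := N'
      red := hred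
      R0 := lt_min one_pos (by linarith)
      R1 := min_le_left _ _
      M1 := le_max_left _ _
      sub := hsub.trans ((ball_subset_ball h2.le).trans (ball_subset_closedBall.trans hRΩ))
      bd := fun z hz => hb' z (hsub hz)
      c1 := hc1
      Gu := hG' }⟩

end Vale.Agent.P128.Q1
end

section

/-! P128, Q1, Part III: TyLine -/

open MeasureTheory Set Metric Filter InnerProductSpace
open scoped ENNReal NNReal ContDiff Topology Real

namespace Vale.Agent.P128.Q1

open Vale.Agent.P128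

variable {Ω : Set ℂ} {g u : ℂ → ℝ} {G : ℂ → ℂ} {K : Set ℂ} {M : ℝ} {x₀ : ℂ} {R₀ : ℝ}

/-- monotonicity of the length -/
theorem tyLine_mono (hfin : μH[1] K < ⊤) {x y : ℂ} {s t : ℝ}
    (h : closedBall x s ⊆ closedBall y t) : Hn K x s ≤ Hn K y t := by
  unfold Hn
  refine ENNReal.toReal_mono ?_ (measure_mono (inter_subset_inter_right K h))
  exact ((measure_mono inter_subset_left).trans_lt hfin).ne

/-- points near a line point are line points -/
theorem tyLine_mid (hfin : μH[1] K < ⊤) {x y : ℂ} {ρ : ℝ} (hρ : 0 < ρ)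
    (h1 : |Hn K x (51 / 100 * ρ) - 2 * (51 / 100 * ρ)| ≤ 1 / 100 * (51 / 100 * ρ))
    (h2 : |Hn K x (49 / 100 * ρ) - 2 * (49 / 100 * ρ)| ≤ 1 / 100 * (49 / 100 * ρ))
    (hy : dist y x ≤ ρ / 100) : Mid K y (ρ / 2) := by
  have h3 : Hn K y (ρ / 2) ≤ Hn K x (51 / 100 * ρ) :=
    tyLine_mono hfin (closedBall_subset_closedBall' (by linarith only [hy]))
  have h4 : Hn K x (49 / 100 * ρ) ≤ Hn K y (ρ / 2) :=
    tyLine_mono hfin (closedBall_subset_closedBall' (by rw [dist_comm]; linarith only [hy]))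
  rw [abs_le] at h1 h2
  refine ⟨?_, ?_⟩
  · linarith only [h2.1, h4, hρ]
  · linarith only [h1.2, h3, hρ]

theorem AllClose.lineType (hm : MS Ω g u G K M x₀ R₀) (h : AllClose G K x₀ R₀) :
    ∃ r₀ > 0, ∀ x ∈ K ∩ ball x₀ R₀, ∀ r₁, 0 < r₁ → r₁ ≤ r₀ → Mid K x r₁ → LineType G K x := by
  obtain ⟨rA, hrA, cA, hcA, hA⟩ := h.flat (δ := 1 / 100) (by norm_num)
  refine ⟨rA, hrA, fun x hx r₁ hr₁ hr₁' hmid δ hδ => ?_⟩
  have hfin : μH[1] K < ⊤ := hm.N.min.1.finite
  have hxR : dist x x₀ < R₀ := hx.2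
  have hx1 : ∀ s, 0 < s → s ≤ cA * r₁ → LineClose G K x s (1 / 100) :=
    fun s hs hs' => hA x ⟨hx.1, ball_subset_closedBall hx.2⟩ r₁ hr₁ hr₁' hmid s hs hs'
  obtain ⟨rB, hrB, cB, hcB, hB⟩ := h.flat hδ
  set ρ : ℝ := min (cA * r₁) (min rB (R₀ - dist x x₀)) with hρdef
  have hρ1 : ρ ≤ cA * r₁ := min_le_left _ _
  have hρ2 : ρ ≤ rB := (min_le_right _ _).trans (min_le_left _ _)
  have hρ3 : ρ ≤ R₀ - dist x x₀ := (min_le_right _ _).trans (min_le_right _ _)
  have hρ : 0 < ρ := lt_min (mul_pos hcA hr₁) (lt_min hrB (by linarith))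
  refine ⟨min (ρ / 100) (cB * (ρ / 2)), lt_min (by positivity) (by (clear * - hcB hcA hr₁ hrB hxR; positivity)), ?_⟩
  intro y hy r hr hr'
  have hyx : dist y x ≤ ρ / 100 := (mem_closedBall.1 hy.2).trans (min_le_left _ _)
  have hyR : y ∈ closedBall x₀ R₀ := by
    rw [mem_closedBall]
    have := dist_triangle y x x₀
    linarith
  have hm' : Mid K y (ρ / 2) :=
    tyLine_mid hfin hρ (hx1 _ (by positivity) (by linarith)).2.2
      (hx1 _ (by positivity) (by linarith)).2.2 hyx
  exact hB y ⟨hy.1, hyR⟩ (ρ / 2) (by positivity) (by linarith) hm' r hr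
    (hr'.trans (min_le_right _ _))

end Vale.Agent.P128.Q1
end
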