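import Vale.Agent.P128.MathlibUsed
import Vale.Agent.P128.Bdl.B7
import Vale.Agent.P128.Bdl.B12
import Vale.Agent.P128.Bdl.B5
import Vale.Agent.P128.Bdl.B9
import Vale.Agent.P128.Bdl.B1
import Vale.Agent.P128.Bdl.B2
import Vale.Agent.P128.Bdl.K_GM_C_Defs
import Vale.Agent.P128.Bdl.B11
import Vale.Agent.P128.Bdl.B15
import Vale.Agent.P128.Bdl.B13

set_option linter.all false

section

open Set Metric Filter
open scoped Topology Real ComplexConjugate

namespace Vale.Agent.P128

/-- `K` has no nonempty compact relatively open subset. -/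
def NoPiece (K : Set ℂ) : Prop := ∀ A : Set ℂ, IsCompact A → A ⊆ K → IsClosed (K \ A) → A = ∅

/-- Chains that may jump between far points. -/
def InfStep (K : Set ℂ) (ρ ε : ℝ) (a b : ℂ) : Prop :=
  b ∈ K ∧ (dist a b < ε ∨ (ρ < ‖a‖ ∧ ρ < ‖b‖))

theorem chain_of_noPiece {K : Set ℂ} (hKc : IsClosed K) (hK : NoPiece K) {ρ ε : ℝ} (hε : 0 < ε)
    {p q : ℂ} (hp : p ∈ K) (hq : q ∈ K) : Relation.ReflTransGen (InfStep K ρ ε) p q := by
  by_contra hcon
  obtain ⟨S, hS⟩ : ∃ S : Set ℂ, S = {y | y ∈ K ∧ Relation.ReflTransGen (InfStep K ρ ε) p y} :=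
    ⟨_, rfl⟩
  have hSK : S ⊆ K := by rw [hS]; exact fun y hy => hy.1
  have hstep : ∀ y ∈ S, ∀ y' ∈ K, dist y y' < ε → y' ∈ S := by
    intro y hy y' hy' hd
    rw [hS] at hy ⊢
    exact ⟨hy', hy.2.tail ⟨hy', Or.inl hd⟩⟩
  have hjump : ∀ y ∈ S, ρ < ‖y‖ → ∀ y' ∈ K, ρ < ‖y'‖ → y' ∈ S := by
    intro y hy h1 y' hy' h2
    rw [hS] at hy ⊢
    exact ⟨hy', hy.2.tail ⟨hy', Or.inr ⟨h1, h2⟩⟩⟩
  have hpS : p ∈ S := by rw [hS]; exact ⟨hp, Relation.ReflTransGen.refl⟩
  have hqS : q ∉ S := by rw [hS]; exact fun h => hcon h.2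
  have hScl : IsClosed S := by
    refine isClosed_of_closure_subset fun z hz => ?_
    have hzK : z ∈ K := hKc.closure_subset_iff.mpr hSK hz
    obtain ⟨y, hy, hyS⟩ := mem_closure_iff.mp hz _ isOpen_ball (mem_ball_self hε)
    exact hstep y hyS z hzK (mem_ball.mp hy)
  have hTcl : IsClosed (K \ S) := by
    refine isClosed_of_closure_subset fun z hz => ?_
    have hzK : z ∈ K := hKc.closure_subset_iff.mpr sdiff_subset hz
    obtain ⟨y, hy, hyS⟩ := mem_closure_iff.mp hz _ isOpen_ball (mem_ball_self hε)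
    refine ⟨hzK, fun hzS => hyS.2 (hstep z hzS y hyS.1 ?_)⟩
    rw [dist_comm]; exact mem_ball.mp hy
  by_cases hfar : ∃ y ∈ S, ρ < ‖y‖
  · obtain ⟨y, hy, hyρ⟩ := hfar
    have hTb : K \ S ⊆ closedBall 0 ρ := by
      intro z hz
      rw [mem_closedBall, dist_zero_right]
      by_contra hc
      exact hz.2 (hjump y hy hyρ z hz.1 (not_le.mp hc))
    have hTc : IsCompact (K \ S) := (isCompact_closedBall 0 ρ).of_isClosed_subset hTcl hTb
    have h1 := hK (K \ S) hTc sdiff_subset (by rw [sdiff_sdiff_cancel_left hSK]; exact hScl)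
    have : q ∈ K \ S := ⟨hq, hqS⟩
    rw [h1] at this
    exact this
  · push Not at hfar
    have hSb : S ⊆ closedBall 0 ρ := fun z hz => by
      rw [mem_closedBall, dist_zero_right]; exact hfar z hz
    have hSc : IsCompact S := (isCompact_closedBall 0 ρ).of_isClosed_subset hScl hSb
    have h1 := hK S hSc hSK hTcl
    rw [h1] at hpS
    exact hpS

/-- A logarithm of `(z - p) / (z - q)` on bounded sets away from `K`. -/
theorem exists_log_of_infChain {K : Set ℂ} {ρ ε : ℝ} {p q : ℂ}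
    (h : Relation.ReflTransGen (InfStep K ρ ε) p q) (hp : p ∈ K) (hρ : 0 ≤ ρ) (hε : 0 < ε) :
    ∃ L : ℂ → ℂ, ContinuousOn L {z | ‖z‖ ≤ ρ ∧ ∀ c ∈ K, ε ≤ dist z c} ∧
      ∀ z, ‖z‖ ≤ ρ → (∀ c ∈ K, ε ≤ dist z c) → Complex.exp (L z) = (z - p) / (z - q) := by
  have hne : ∀ z c : ℂ, c ∈ K → (∀ c ∈ K, ε ≤ dist z c) → z - c ≠ 0 := by
    intro z c hc hz h
    rw [sub_eq_zero] at h
    have h1 := hz c hc
    rw [h, dist_self] at h1
    linarith
  induction h with
  | refl =>
    refine ⟨fun _ => 0, continuousOn_const, fun z _ hz => ?_⟩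
    rw [Complex.exp_zero, div_self (hne z p hp hz)]
  | @tail b c hab hbc ih =>
    obtain ⟨L, hL, hLe⟩ := ih
    have hbK : b ∈ K := by
      rcases hab.cases_tail with h | ⟨d, -, h⟩
      · rw [h]; exact hp
      · exact h.1
    obtain ⟨hc, hbc⟩ := hbc
    rcases hbc with hbc | ⟨hb', hc'⟩
    · have key : ∀ z ∈ {z | ‖z‖ ≤ ρ ∧ ∀ c ∈ K, ε ≤ dist z c},
          (z - b) / (z - c) ∈ Complex.slitPlane := by
        intro z hz
        have h1 := hz.2 c hc
        have h2 := hne z c hc hz.2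
        have e1 : (z - b) / (z - c) = 1 + (c - b) / (z - c) := by field_simp; ring
        rw [e1]
        left
        rw [Complex.add_re, Complex.one_re]
        have h3 : ‖(c - b) / (z - c)‖ < 1 := by
          rw [norm_div, div_lt_one (norm_pos_iff.mpr h2)]
          rw [dist_eq_norm] at h1
          rw [dist_comm, dist_eq_norm] at hbc
          exact hbc.trans_le h1
        have h4 := (Complex.abs_re_le_norm ((c - b) / (z - c))).trans_lt h3
        linarith only [(abs_lt.mp h4).1]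
      refine ⟨fun z => L z + Complex.log ((z - b) / (z - c)), ?_, fun z hzρ hz => ?_⟩
      · refine hL.add (ContinuousOn.clog ?_ key)
        exact ContinuousOn.div (by fun_prop) (by fun_prop) fun z hz => hne z c hc hz.2
      · have h2 := hne z b hbK hz
        have h3 : (z - b) / (z - c) ≠ 0 := Complex.slitPlane_ne_zero (key z ⟨hzρ, hz⟩)
        rw [Complex.exp_add, hLe z hzρ hz, Complex.exp_log h3]
        field_simp
    · have hb0 : b ≠ 0 := by rw [← norm_pos_iff]; linarith
      have hc0 : c ≠ 0 := by rw [← norm_pos_iff]; linarith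
      have key : ∀ d : ℂ, ρ < ‖d‖ → ∀ z ∈ {z | ‖z‖ ≤ ρ ∧ ∀ c ∈ K, ε ≤ dist z c},
          1 - z / d ∈ Complex.slitPlane := by
        intro d hd z hz
        left
        rw [Complex.sub_re, Complex.one_re]
        have h3 : ‖z / d‖ < 1 := by
          rw [norm_div, div_lt_one (hρ.trans_lt hd)]
          exact hz.1.trans_lt hd
        have h4 := (Complex.abs_re_le_norm (z / d)).trans_lt h3
        linarith only [(abs_lt.mp h4).2]
      refine ⟨fun z => L z + (Complex.log (b / c) + Complex.log (1 - z / b) -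
        Complex.log (1 - z / c)), ?_, fun z hzρ hz => ?_⟩
      · refine hL.add ((continuousOn_const.add (ContinuousOn.clog (by fun_prop) (key b hb'))).sub
          (ContinuousOn.clog (by fun_prop) (key c hc')))
      · have h1 := Complex.slitPlane_ne_zero (key b hb' z ⟨hzρ, hz⟩)
        have h2 := Complex.slitPlane_ne_zero (key c hc' z ⟨hzρ, hz⟩)
        have h3 := hne z b hbK hz
        have h4 := hne z c hc hz
        rw [Complex.exp_add, Complex.exp_sub, Complex.exp_add, hLe z hzρ hz, Complex.exp_log h1,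
          Complex.exp_log h2, Complex.exp_log (div_ne_zero hb0 hc0)]
        have e1 : b / c * (1 - z / b) / (1 - z / c) = (z - b) / (z - c) := by
          rw [div_eq_div_iff h2 h4]
          field_simp
          ring
        rw [e1]
        field_simp

end Vale.Agent.P128
end

section

open Set Metric Filter
open scoped Topology Real ComplexConjugate

namespace Vale.Agent.P128

/-- The two sides of an arc of a circle, whose end points lie in a closed set `K` without compact
pieces, are separated by `K` and the arc. -/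
theorem sep_arc_inf {K : Set ℂ} (hKc : IsClosed K) (hK : NoPiece K) {x : ℂ} {s : ℝ}
    (hs : 0 < s) {p : ℂ} (hp : ‖p‖ = 1) {γ : ℝ} (h0 : 0 < γ) (h1 : γ < 2 * π)
    (hP : x + s * p ∈ K) (hQ : x + s * (p * uc γ) ∈ K) {t₀ : ℝ} (ht₀ : t₀ ∈ Ioo 0 γ)
    (hz₀ : x + s * (p * uc t₀) ∉ K) {W : Set ℂ} (hWo : IsOpen W) (hWc : IsPreconnected W)
    (hW : W ⊆ (K ∪ cArc x s p γ)ᶜ) (hin : x + s * (p * uc t₀) ∈ closure (W ∩ ball x s))
    (hout : x + s * (p * uc t₀) ∈ closure (W ∩ (closedBall x s)ᶜ)) : False := by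
  have hπ := Real.pi_pos
  obtain ⟨z₀, hz₀d⟩ : ∃ z₀, z₀ = x + s * (p * uc t₀) := ⟨_, rfl⟩
  rw [← hz₀d] at hz₀ hin hout
  obtain ⟨P, hPd⟩ : ∃ P, P = x + s * p := ⟨_, rfl⟩
  obtain ⟨Q, hQd⟩ : ∃ Q, Q = x + s * (p * uc γ) := ⟨_, rfl⟩
  rw [← hPd] at hP
  rw [← hQd] at hQ
  have hzP : z₀ ≠ P := fun h => hz₀ (h ▸ hP)
  have hzQ : z₀ ≠ Q := fun h => hz₀ (h ▸ hQ)
  have hzP' : z₀ - P ≠ 0 := sub_ne_zero.mpr hzP
  have hzQ' : z₀ - Q ≠ 0 := sub_ne_zero.mpr hzQ
  -- the quotient `v`
  obtain ⟨w₀, hw₀⟩ : ∃ w₀, w₀ = (z₀ - P) / (z₀ - Q) := ⟨_, rfl⟩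
  have hw₀0 : w₀ ≠ 0 := by rw [hw₀]; exact div_ne_zero hzP' hzQ'
  let v : ℂ → ℂ := fun z => (z - P) / (z - Q) / w₀
  have hvc : ContinuousAt v z₀ := by
    have c1 : ContinuousAt (fun z : ℂ => z - P) z₀ := by fun_prop
    have c2 : ContinuousAt (fun z : ℂ => z - Q) z₀ := by fun_prop
    exact (c1.div c2 hzQ').div_const _
  have hv₀ : v z₀ = 1 := by
    simp only [v]
    rw [← hw₀, div_self hw₀0]
  obtain ⟨η, hη, hη1, hη2⟩ : ∃ η > 0, (∀ z ∈ ball z₀ (2 * η), z ∉ K) ∧
      ∀ z ∈ ball z₀ (2 * η), ‖v z - 1‖ < 1 := by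
    have a1 : ∀ᶠ z in 𝓝 z₀, z ∉ K := hKc.isOpen_compl.mem_nhds hz₀
    have a2 : ∀ᶠ z in 𝓝 z₀, ‖v z - 1‖ < 1 := by
      have : Tendsto (fun z => ‖v z - 1‖) (𝓝 z₀) (𝓝 0) := by
        have h : Tendsto (fun z => ‖v z - 1‖) (𝓝 z₀) (𝓝 ‖v z₀ - 1‖) :=
          (hvc.sub (continuousAt_const (y := (1 : ℂ)))).norm
        rw [hv₀, sub_self, norm_zero] at h
        exact h
      exact this.eventually (gt_mem_nhds one_pos)
    obtain ⟨η, hη, h⟩ := Metric.eventually_nhds_iff_ball.mp (a1.and a2)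
    refine ⟨η / 2, by (clear * - hη; positivity), fun z hz => ?_, fun z hz => ?_⟩
    · rw [show 2 * (η / 2) = η by ring] at hz
      exact (h z hz).1
    · rw [show 2 * (η / 2) = η by ring] at hz
      exact (h z hz).2
  -- the two points
  obtain ⟨a, ⟨haW, has⟩, haη⟩ : ((W ∩ ball x s) ∩ ball z₀ η).Nonempty := by
    rw [inter_comm]
    exact mem_closure_iff.mp hin _ isOpen_ball (mem_ball_self hη)
  obtain ⟨b, ⟨hbW, hbs⟩, hbη⟩ : ((W ∩ (closedBall x s)ᶜ) ∩ ball z₀ η).Nonempty := by
    rw [inter_comm]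
    exact mem_closure_iff.mp hout _ isOpen_ball (mem_ball_self hη)
  -- a path between them
  have hWconn : IsConnected W := ⟨⟨a, haW⟩, hWc⟩
  have hWpath := (hWo.isConnected_iff_isPathConnected).mp hWconn
  obtain ⟨γp, hγp⟩ := hWpath.joinedIn a haW b hbW
  have hTc : IsCompact (range γp) := isCompact_range γp.continuous
  have hTp : IsPreconnected (range γp) := isPreconnected_range γp.continuous
  have hTW : range γp ⊆ W := by rintro _ ⟨t, rfl⟩; exact hγp t
  have haT : a ∈ range γp := ⟨0, γp.source⟩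
  have hbT : b ∈ range γp := ⟨1, γp.target⟩
  have hdis : Disjoint (range γp) K := by
    rw [disjoint_left]
    intro z hz hzC
    exact hW (hTW hz) (Or.inl hzC)
  obtain ⟨ε₀, hε₀, hε₀d⟩ := hdis.exists_thickenings hTc hKc
  have hε₀' : ∀ z ∈ range γp, ∀ c ∈ K, ε₀ ≤ dist z c := by
    intro z hz c hc
    by_contra hcon
    push Not at hcon
    exact disjoint_left.mp hε₀d (self_subset_thickening hε₀ _ hz)
      (mem_thickening_iff.mpr ⟨c, hc, hcon⟩)
  obtain ⟨ε, hε⟩ : ∃ ε, ε = min ε₀ η := ⟨_, rfl⟩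
  have hε0 : 0 < ε := by rw [hε]; exact lt_min hε₀ hη
  have hεε₀ : ε ≤ ε₀ := by rw [hε]; exact min_le_left _ _
  have hεη : ε ≤ η := by rw [hε]; exact min_le_right _ _
  obtain ⟨ρ₁, hρ₁⟩ := hTc.isBounded.exists_norm_le
  obtain ⟨ρ, hρ⟩ : ∃ ρ, ρ = max ρ₁ (‖z₀‖ + η) := ⟨_, rfl⟩
  have hρ0 : 0 ≤ ρ := by
    rw [hρ]; exact le_max_of_le_right (by (clear * - hη; positivity))
  have hTρ : ∀ z ∈ range γp, ‖z‖ ≤ ρ := fun z hz => by
    rw [hρ]; exact (hρ₁ z hz).trans (le_max_left _ _)
  have hBρ : ∀ z ∈ ball z₀ η, ‖z‖ ≤ ρ := fun z hz => by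
    rw [hρ]
    refine le_trans ?_ (le_max_right _ _)
    rw [mem_ball, dist_eq_norm] at hz
    calc ‖z‖ = ‖z₀ + (z - z₀)‖ := by rw [add_sub_cancel]
      _ ≤ ‖z₀‖ + ‖z - z₀‖ := norm_add_le _ _
      _ ≤ ‖z₀‖ + η := by linarith only [hz]
  obtain ⟨L, hLc, hLe⟩ := exists_log_of_infChain (chain_of_noPiece hKc hK (ρ := ρ) hε0 hP hQ) hP
    hρ0 hε0
  have hT1 : range γp ⊆ {z | ‖z‖ ≤ ρ ∧ ∀ c ∈ K, ε ≤ dist z c} :=
    fun z hz => ⟨hTρ z hz, fun c hc => hεε₀.trans (hε₀' z hz c hc)⟩
  have hB1 : ball z₀ η ⊆ {z | ‖z‖ ≤ ρ ∧ ∀ c ∈ K, ε ≤ dist z c} := by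
    intro z hz
    refine ⟨hBρ z hz, fun c hc => ?_⟩
    by_contra hcon
    push Not at hcon
    refine hη1 c ?_ hc
    rw [mem_ball] at hz ⊢
    calc dist c z₀ ≤ dist z c + dist z z₀ := by rw [dist_comm z c]; exact dist_triangle _ _ _
      _ < 2 * η := by linarith only [hεη, hz, hcon]
  have hnz : ∀ z ∈ {z | ‖z‖ ≤ ρ ∧ ∀ c ∈ K, ε ≤ dist z c}, z - P ≠ 0 ∧ z - Q ≠ 0 := by
    intro z hz
    constructor
    · intro h
      rw [sub_eq_zero] at h
      have := hz.2 P hP
      rw [h, dist_self] at this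
      linarith only [hε0, this]
    · intro h
      rw [sub_eq_zero] at h
      have := hz.2 Q hQ
      rw [h, dist_self] at this
      linarith only [hε0, this]
  have hmob : ∀ z, mob x s p γ z = (z - P) / (z - Q) * uc (γ / 2) := by
    intro z; rw [hPd, hQd]; rfl
  -- first constancy
  have hslit : ∀ z ∈ range γp, mob x s p γ z ∈ Complex.slitPlane := by
    intro z hz
    exact mob_slit hs hp h0 h1 fun hc => hW (hTW hz) (Or.inr hc)
  have hmc : ContinuousOn (mob x s p γ) (range γp) := by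
    have : mob x s p γ = fun z => (z - P) / (z - Q) * uc (γ / 2) := funext hmob
    rw [this]
    exact (ContinuousOn.div (by fun_prop) (by fun_prop) fun z hz => (hnz z (hT1 hz)).2).mul
      continuousOn_const
  have e1 := eq_of_exp_eq hTp (D := fun z => L z - Complex.log (mob x s p γ z))
    (c := (uc (γ / 2))⁻¹) ((hLc.mono hT1).sub (hmc.clog hslit)) (by
      intro z hz
      have h2 := hnz z (hT1 hz)
      have h3 : mob x s p γ z ≠ 0 := Complex.slitPlane_ne_zero (hslit z hz)
      rw [Complex.exp_sub, Complex.exp_log h3, hLe z (hT1 hz).1 (hT1 hz).2, hmob z]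
      have h4 := h2.1
      have h5 := h2.2
      have h6 := uc_ne_zero (γ / 2)
      field_simp) haT hbT
  -- second constancy
  have hvslit : ∀ z ∈ ball z₀ η, v z ∈ Complex.slitPlane := by
    intro z hz
    have h2 := hη2 z (ball_subset_ball (by linarith only [hη]) hz)
    left
    have h3 := (Complex.abs_re_le_norm (v z - 1)).trans_lt h2
    rw [Complex.sub_re, Complex.one_re] at h3
    linarith only [(abs_lt.mp h3).1]
  have hvc' : ContinuousOn v (ball z₀ η) :=
    (ContinuousOn.div (by fun_prop) (by fun_prop) fun z hz => (hnz z (hB1 hz)).2).div_const _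
  have e2 := eq_of_exp_eq (convex_ball z₀ η).isPreconnected
    (D := fun z => L z - Complex.log (v z)) (c := w₀) ((hLc.mono hB1).sub (hvc'.clog hvslit)) (by
      intro z hz
      have h2 := hnz z (hB1 hz)
      have h3 : v z ≠ 0 := Complex.slitPlane_ne_zero (hvslit z hz)
      rw [Complex.exp_sub, Complex.exp_log h3, hLe z (hB1 hz).1 (hB1 hz).2]
      simp only [v]
      have h4 := h2.1
      have h5 := h2.2
      field_simp) haη hbη
  have e3 : Complex.log (mob x s p γ a) - Complex.log (mob x s p γ b) =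
      Complex.log (v a) - Complex.log (v b) := by
    linear_combination e2 - e1
  -- arguments
  obtain ⟨k1, k2⟩ := mob_arc_neg (x := x) hs hp h1 ht₀
  obtain ⟨κ, hκ⟩ : ∃ κ : ℝ, κ = -(mob x s p γ z₀).re := ⟨_, rfl⟩
  have hκ0 : 0 < κ := by rw [hκ, hz₀d]; linarith only [k1]
  have hm₀ : mob x s p γ z₀ = -(κ : ℂ) := by
    apply Complex.ext
    · rw [hκ]; simp
    · rw [hz₀d, k2]; simp
  have hmv : ∀ z, mob x s p γ z = κ * (-(v z)) := by
    intro z
    have h2 : mob x s p γ z = v z * mob x s p γ z₀ := by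
      rw [hmob, hmob, ← hw₀]
      simp only [v]
      (clear * - hw₀0; field_simp)
    rw [h2, hm₀]
    ring
  have hargm : ∀ z, (mob x s p γ z).arg = (-(v z)).arg := by
    intro z
    rw [hmv, Complex.arg_real_mul _ hκ0]
  have himm : ∀ z, (mob x s p γ z).im = - κ * (v z).im := by
    intro z
    rw [hmv, Complex.im_ofReal_mul, Complex.neg_im]
    ring
  have hva : 0 < (v a).im := by
    have h2 := mob_im_neg hp h0 h1 (z := a) (x := x) (s := s) (by
      rw [← dist_eq_norm]; exact mem_ball.mp has)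
    rw [himm] at h2
    nlinarith only [h2, hκ0]
  have hvb : (v b).im < 0 := by
    have h2 := mob_im_pos hs.le hp h0 h1 (z := b) (x := x) (s := s) (by
      rw [← dist_eq_norm]
      rw [mem_compl_iff, mem_closedBall, not_le] at hbs
      exact hbs)
    rw [himm] at h2
    nlinarith only [h2, hκ0]
  have e4 := congrArg Complex.im e3
  simp only [Complex.sub_im, Complex.log_im] at e4
  rw [hargm, hargm, Complex.arg_neg_eq_arg_sub_pi_of_im_pos hva,
    Complex.arg_neg_eq_arg_add_pi_of_im_neg hvb] at e4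
  linarith only [h0, h1, e4]

/-- One side of an arc, for a closed set without compact pieces. -/
theorem exists_side {K : Set ℂ} (hKc : IsClosed K) (hK : NoPiece K) {x : ℂ} {s : ℝ}
    (hs : 0 < s) {p : ℂ} (hp : ‖p‖ = 1) {γ : ℝ}
    (h0 : 0 < γ) (h1 : γ < 2 * π) (hP : x + s * p ∈ K) (hQ : x + s * (p * uc γ) ∈ K)
    (hI : ∀ t ∈ Ioo 0 γ, x + s * (p * uc t) ∉ K) :
    ∃ U : Set ℂ, IsOpen U ∧ U ⊆ (K ∪ cArc x s p γ)ᶜ ∧
      (∀ z ∈ closure U, z ∉ K ∪ cArc x s p γ → z ∈ U) ∧
      (∀ t ∈ Ioo 0 γ, (∀ᶠ r in 𝓝[<] s, pol x p (r, t) ∈ U) ∧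
          ∀ᶠ r in 𝓝[>] s, pol x p (r, t) ∉ U) := by
  obtain ⟨O, hO⟩ : ∃ O, O = (K ∪ cArc x s p γ)ᶜ := ⟨_, rfl⟩
  have hOo : IsOpen O := by
    rw [hO]; exact (hKc.union (isCompact_cArc x s p γ).isClosed).isOpen_compl
  have hmid : γ / 2 ∈ Ioo 0 γ := ⟨by linarith only [h0], by linarith only [h0]⟩
  have huI : ∀ t ∈ Ioo 0 γ, ∀ t' ∈ uIcc (γ / 2) t, x + s * (p * uc t') ∉ K := by
    intro t ht t' ht'
    refine hI t' ?_
    rw [mem_uIcc] at ht'
    rcases ht' with h | h
    · exact ⟨by linarith only [h0, h], by linarith only [h, ht.2]⟩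
    · exact ⟨by linarith only [h, ht.1], by linarith only [h0, h]⟩
  have hoff : ∀ r t, 0 < r → r ≠ s → pol x p (r, t) ∉ K → pol x p (r, t) ∈ O := by
    intro r t hr hrs hC
    rw [hO]
    rintro (h | h)
    · exact hC h
    · have := cArc_subset_sphere hs.le hp γ h
      rw [mem_sphere, dist_eq_norm, norm_pol_sub hp hr.le] at this
      exact hrs this
  obtain ⟨η₀, hη₀, hη₀C⟩ := exists_collar hKc hp (huI (γ / 2) hmid)
  obtain ⟨δ, hδ⟩ : ∃ δ, δ = min (η₀ / 2) (s / 2) := ⟨_, rfl⟩
  have hδ0 : 0 < δ := by rw [hδ]; (clear * - hη₀ hs; positivity)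
  have hδ1 : δ < η₀ := by rw [hδ]; exact (min_le_left _ _).trans_lt (by linarith only [hη₀])
  have hδ2 : δ < s := by rw [hδ]; exact (min_le_right _ _).trans_lt (by linarith only [hs])
  obtain ⟨zi, hzi⟩ : ∃ z, z = pol x p (s - δ, γ / 2) := ⟨_, rfl⟩
  obtain ⟨zo, hzo⟩ : ∃ z, z = pol x p (s + δ, γ / 2) := ⟨_, rfl⟩
  have hmm : γ / 2 ∈ uIcc (γ / 2) (γ / 2) := by simp
  obtain ⟨Ui, hUi⟩ : ∃ U, U = connectedComponentIn O zi := ⟨_, rfl⟩
  obtain ⟨Uo, hUo⟩ : ∃ U, U = connectedComponentIn O zo := ⟨_, rfl⟩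
  -- the inner and outer collars
  have hin : ∀ t ∈ Ioo 0 γ, ∀ᶠ r in 𝓝[<] s, pol x p (r, t) ∈ Ui := by
    intro t ht
    obtain ⟨η, hη, hηC⟩ := exists_collar hKc hp (huI t ht)
    obtain ⟨η', hη'⟩ : ∃ η', η' = min η δ := ⟨_, rfl⟩
    have hη'0 : 0 < η' := by rw [hη']; exact lt_min hη hδ0
    have hη'1 : η' ≤ η := by rw [hη']; exact min_le_left _ _
    have hη'2 : η' ≤ δ := by rw [hη']; exact min_le_right _ _
    filter_upwards [Ioo_mem_nhdsLT (show s - η' < s by linarith only [hη'0])] with r hr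
    -- the radial segment at the middle
    have hS1 : IsPreconnected (pol x p '' (Ico (s - δ) s ×ˢ {γ / 2})) :=
      (isPreconnected_Ico.prod isPreconnected_singleton).image _ (continuous_pol x p).continuousOn
    have hS1O : pol x p '' (Ico (s - δ) s ×ˢ {γ / 2}) ⊆ O := by
      rintro _ ⟨⟨r', t'⟩, ⟨hr', ht'⟩, rfl⟩
      rw [mem_singleton_iff] at ht'
      simp only at hr' ht'
      rw [ht']
      exact hoff _ _ (by linarith only [hδ2, hr'.1]) (ne_of_lt hr'.2)
        (hη₀C _ (by rw [abs_lt]; constructor <;> linarith only [hδ0, hδ1, hr'.2, hr'.1]) _ hmm)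
    have hS1U : pol x p '' (Ico (s - δ) s ×ˢ {γ / 2}) ⊆ Ui := by
      rw [hUi]
      exact hS1.subset_connectedComponentIn
        ⟨(s - δ, γ / 2), ⟨⟨le_rfl, by simp only; linarith only [hδ0]⟩, rfl⟩, hzi.symm⟩ hS1O
    have hS2 : IsPreconnected (pol x p '' (Ioo (s - η') s ×ˢ uIcc (γ / 2) t)) :=
      (isPreconnected_Ioo.prod isPreconnected_uIcc).image _ (continuous_pol x p).continuousOn
    have hS2O : pol x p '' (Ioo (s - η') s ×ˢ uIcc (γ / 2) t) ⊆ O := by
      rintro _ ⟨⟨r', t'⟩, ⟨hr', ht'⟩, rfl⟩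
      simp only at hr' ht'
      exact hoff _ _ (by linarith only [hδ2, hη'2, hr'.1]) (ne_of_lt hr'.2)
        (hηC _ (by rw [abs_lt]; constructor <;> linarith only [hη'1, hr'.1, hη, hr'.2]) _ ht')
    have hy : pol x p (r, γ / 2) ∈ Ui :=
      hS1U ⟨(r, γ / 2), ⟨⟨by simp only; linarith only [hη'2, hr.1], hr.2⟩, rfl⟩, rfl⟩
    rw [hUi] at hy ⊢
    rw [connectedComponentIn_eq hy]
    exact hS2.subset_connectedComponentIn ⟨(r, γ / 2), ⟨hr, left_mem_uIcc⟩, rfl⟩ hS2O
      ⟨(r, t), ⟨hr, right_mem_uIcc⟩, rfl⟩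
  have hout : ∀ t ∈ Ioo 0 γ, ∀ᶠ r in 𝓝[>] s, pol x p (r, t) ∈ Uo := by
    intro t ht
    obtain ⟨η, hη, hηC⟩ := exists_collar hKc hp (huI t ht)
    obtain ⟨η', hη'⟩ : ∃ η', η' = min η δ := ⟨_, rfl⟩
    have hη'0 : 0 < η' := by rw [hη']; exact lt_min hη hδ0
    have hη'1 : η' ≤ η := by rw [hη']; exact min_le_left _ _
    have hη'2 : η' ≤ δ := by rw [hη']; exact min_le_right _ _
    filter_upwards [Ioo_mem_nhdsGT (show s < s + η' by linarith only [hη'0])] with r hr
    have hS1 : IsPreconnected (pol x p '' (Ioc s (s + δ) ×ˢ {γ / 2})) :=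
      (isPreconnected_Ioc.prod isPreconnected_singleton).image _ (continuous_pol x p).continuousOn
    have hS1O : pol x p '' (Ioc s (s + δ) ×ˢ {γ / 2}) ⊆ O := by
      rintro _ ⟨⟨r', t'⟩, ⟨hr', ht'⟩, rfl⟩
      rw [mem_singleton_iff] at ht'
      simp only at hr' ht'
      rw [ht']
      exact hoff _ _ (by linarith only [hδ0, hδ2, hr'.1]) (ne_of_gt hr'.1)
        (hη₀C _ (by rw [abs_lt]; constructor <;> linarith only [hδ0, hδ1, hr'.1, hr'.2]) _ hmm)
    have hS1U : pol x p '' (Ioc s (s + δ) ×ˢ {γ / 2}) ⊆ Uo := by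
      rw [hUo]
      exact hS1.subset_connectedComponentIn
        ⟨(s + δ, γ / 2), ⟨⟨by simp only; linarith only [hδ0], le_rfl⟩, rfl⟩, hzo.symm⟩ hS1O
    have hS2 : IsPreconnected (pol x p '' (Ioo s (s + η') ×ˢ uIcc (γ / 2) t)) :=
      (isPreconnected_Ioo.prod isPreconnected_uIcc).image _ (continuous_pol x p).continuousOn
    have hS2O : pol x p '' (Ioo s (s + η') ×ˢ uIcc (γ / 2) t) ⊆ O := by
      rintro _ ⟨⟨r', t'⟩, ⟨hr', ht'⟩, rfl⟩
      simp only at hr' ht'
      exact hoff _ _ (by linarith only [hδ0, hδ2, hr'.1]) (ne_of_gt hr'.1)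
        (hηC _ (by rw [abs_lt]; constructor <;> linarith only [hη'1, hr'.2, hη, hr'.1]) _ ht')
    have hy : pol x p (r, γ / 2) ∈ Uo :=
      hS1U ⟨(r, γ / 2), ⟨⟨hr.1, by simp only; linarith only [hη'2, hr.2]⟩, rfl⟩, rfl⟩
    rw [hUo] at hy ⊢
    rw [connectedComponentIn_eq hy]
    exact hS2.subset_connectedComponentIn ⟨(r, γ / 2), ⟨hr, left_mem_uIcc⟩, rfl⟩ hS2O
      ⟨(r, t), ⟨hr, right_mem_uIcc⟩, rfl⟩
  -- disjointness
  have hdisj : Disjoint Ui Uo := by
    rw [disjoint_left]
    intro y hyi hyo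
    have e1 : Ui = Uo := by
      rw [hUi] at hyi ⊢
      rw [hUo] at hyo ⊢
      rw [connectedComponentIn_eq hyi, connectedComponentIn_eq hyo]
    have hz₀ : Tendsto (fun r => pol x p (r, γ / 2)) (𝓝 s) (𝓝 (x + s * (p * uc (γ / 2)))) := by
      have hc : Continuous fun r : ℝ => pol x p (r, γ / 2) :=
        (continuous_pol x p).comp (by fun_prop)
      exact hc.tendsto s
    refine sep_arc_inf hKc hK hs hp h0 h1 hP hQ hmid (hI _ hmid) (W := Ui) ?_ ?_ ?_ ?_ ?_
    · rw [hUi]; exact hOo.connectedComponentIn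
    · rw [hUi]; exact isPreconnected_connectedComponentIn
    · rw [hUi, ← hO]; exact connectedComponentIn_subset _ _
    · have : (𝓝[<] s).NeBot := inferInstance
      refine mem_closure_of_tendsto (hz₀.mono_left (nhdsWithin_le_nhds (s := Iio s))) ?_
      filter_upwards [hin _ hmid, self_mem_nhdsWithin,
        Ioo_mem_nhdsLT (show s / 2 < s by linarith only [hδ0, hδ2])] with r hr hrs hr2
      refine ⟨hr, ?_⟩
      rw [mem_ball, dist_eq_norm, norm_pol_sub hp (by linarith only [hδ0, hδ2, hr2.1])]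
      exact hrs
    · have : (𝓝[>] s).NeBot := inferInstance
      refine mem_closure_of_tendsto (hz₀.mono_left (nhdsWithin_le_nhds (s := Ioi s))) ?_
      filter_upwards [hout _ hmid, self_mem_nhdsWithin] with r hr hrs
      have hrs' : s < r := hrs
      refine ⟨by rw [e1]; exact hr, ?_⟩
      rw [mem_compl_iff, mem_closedBall, not_le, dist_eq_norm, norm_pol_sub hp (by linarith only [hδ0, hδ2, hrs'])]
      exact hrs
  -- closure property
  have hcl : ∀ y, ∀ z ∈ closure (connectedComponentIn O y), z ∉ K ∪ cArc x s p γ →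
      z ∈ connectedComponentIn O y := by
    intro y z hz hzO
    have hzO' : z ∈ O := by rw [hO]; exact hzO
    obtain ⟨ε, hε, hεO⟩ := Metric.isOpen_iff.mp hOo z hzO'
    obtain ⟨y', hy', hy''⟩ := mem_closure_iff.mp hz _ isOpen_ball (mem_ball_self hε)
    rw [connectedComponentIn_eq hy'']
    exact (convex_ball z ε).isPreconnected.subset_connectedComponentIn hy' hεO (mem_ball_self hε)
  refine ⟨Ui, ?_, ?_, ?_, fun t ht => ⟨hin t ht, ?_⟩⟩
  · rw [hUi]; exact hOo.connectedComponentIn
  · rw [hUi, ← hO]; exact connectedComponentIn_subset _ _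
  · rw [hUi]; exact hcl zi
  · filter_upwards [hout t ht] with r hr hc
    exact disjoint_left.mp hdisj hc hr

end Vale.Agent.P128
end

section

open MeasureTheory Set Metric Filter
open scoped ENNReal NNReal Topology Real ContDiff

namespace Vale.Agent.P128

variable {G : ℂ → ℂ} {x : ℂ} {R : ℝ}

theorem gen_integrable_F2 (hGm : Measurable G) (hG : MemLp G 2 (volume.restrict (ball x R))) :
    Integrable ((ball x R).indicator fun z => (inner ℝ (G z) (nu x z) : ℝ)) := by
  rw [integrable_indicator_iff measurableSet_ball]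
  have hfin : IsFiniteMeasure (volume.restrict (ball x R)) :=
    ⟨by rw [Measure.restrict_apply_univ]; exact measure_ball_lt_top⟩
  have : MemLp (fun z => (inner ℝ (G z) (nu x z) : ℝ)) 2 (volume.restrict (ball x R)) := by
    refine hG.of_le_mul (c := 1)
      (hGm.inner (measurable_nu x)).aestronglyMeasurable (Eventually.of_forall fun z => ?_)
    calc ‖(inner ℝ (G z) (nu x z) : ℝ)‖ ≤ ‖G z‖ * ‖nu x z‖ := norm_inner_le_norm _ _
      _ ≤ ‖G z‖ * 1 := by gcongr; exact norm_nu_le x z
      _ = 1 * ‖G z‖ := by ring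
  exact this.integrable (by norm_num)

theorem gen_integrable_fluxF (hGm : Measurable G) (hG : MemLp G 2 (volume.restrict (ball x R))) :
    Integrable (fluxF G x R) (volume.prod (volume.restrict ang)) := by
  have h := integrable_polar x (measurable_F2 hGm x R) (gen_integrable_F2 hGm hG)
  have e : (volume.restrict (Ioi (0 : ℝ))).prod (volume.restrict ang) =
      ((volume : Measure ℝ).prod (volume.restrict ang)).restrict (Ioi 0 ×ˢ univ) := by
    rw [← Measure.prod_restrict, Measure.restrict_univ]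
  rw [e] at h
  have h2 := (integrable_indicator_iff (measurableSet_Ioi.prod MeasurableSet.univ)).mpr h
  refine h2.congr (Eventually.of_forall fun p => ?_)
  unfold fluxF
  by_cases hp : p.1 ∈ Ioi (0 : ℝ)
  · rw [indicator_of_mem hp, indicator_of_mem (show p ∈ Ioi (0 : ℝ) ×ˢ univ from ⟨hp, mem_univ _⟩)]
  · rw [indicator_of_notMem hp, indicator_of_notMem fun h => hp h.1]

theorem gen_integrable_chiF (hGm : Measurable G) (hG : MemLp G 2 (volume.restrict (ball x R)))
    {U : Set ℂ} (hU : IsOpen U) :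
    Integrable (fun p : ℝ × ℝ => U.indicator (fun _ => (1 : ℝ)) (circleMap x p.1 p.2) *
      fluxF G x R p) (volume.prod (volume.restrict ang)) :=
  (gen_integrable_fluxF hGm hG).bdd_mul (c := 1) (measurable_chi hU x).aestronglyMeasurable
    (Eventually.of_forall fun _ => abs_chi_le U _)

/-- The gradient term in polar coordinates. -/
theorem gen_flux_polar (hGm : Measurable G) (hG : MemLp G 2 (volume.restrict (ball x R)))
    {U : Set ℂ} (hU : IsOpen U) (hUR : U ⊆ ball x R)
    {n : ℕ} {s : ℝ} (hn : 2 / ((n : ℝ) + 1) < s) :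
    ∫ z, (inner ℝ (G z) (U.indicator (grad fun y => scut n s ‖y - x‖) z) : ℝ) =
      ∫ r, dscut n s r * fluxPhi G x R U r := by
  have hs : 0 < s := lt_trans (by positivity) hn
  have hcd : Continuous (dscut n s) :=
    ((contDiff_ker n _).continuous).sub ((contDiff_ker n _).continuous.comp continuous_neg)
  obtain ⟨C, hC0, hC⟩ := exists_bound_deriv_st
  have hb : ∀ r, |dscut n s r| ≤ 2 * (C * (n + 1)) := by
    intro r
    unfold dscut
    refine (abs_sub _ _).trans ?_
    linarith only [abs_ker_le hC n (-s + 1 / (n + 1)) (-r), abs_ker_le hC n (s + 1 / (n + 1)) r]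
  set F2 : ℂ → ℝ := (ball x R).indicator fun z => (inner ℝ (G z) (nu x z) : ℝ) with hF2
  have hpt : ∀ z, (inner ℝ (G z) (U.indicator (grad fun y => scut n s ‖y - x‖) z) : ℝ) =
      dscut n s ‖z - x‖ * (U.indicator (fun _ => (1 : ℝ)) z * F2 z) := by
    intro z
    by_cases hz : z ∈ U
    · rw [indicator_of_mem hz, indicator_of_mem hz, one_mul, real_inner_comm, inner_grad, hF2,
        indicator_of_mem (hUR hz)]
      by_cases hzx : z = x
      · have e1 : fderiv ℝ (fun y => scut n s ‖y - x‖) z = 0 := by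
          have : (fun y => scut n s ‖y - x‖) =ᶠ[𝓝 z] fun _ => 1 := by
            have h1 : ball x (s - 2 / ((n : ℝ) + 1)) ∈ 𝓝 z := by
              rw [hzx]; exact ball_mem_nhds x (by linarith only [hn])
            filter_upwards [h1] with y hy
            rw [mem_ball, dist_eq_norm] at hy
            exact scut_one hy.le
          rw [this.fderiv_eq]
          simp
        rw [e1, hzx, sub_self, norm_zero, dscut_zero hn]
        simp
      · rw [fderiv_radial hzx (hasDerivAt_scut n s _), real_inner_comm]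
    · rw [indicator_of_notMem hz, indicator_of_notMem hz, inner_zero_right, zero_mul, mul_zero]
  simp only [hpt]
  have hF2m : Measurable F2 := measurable_F2 hGm x R
  have hF2i : Integrable F2 := gen_integrable_F2 hGm hG
  have hm1 : Measurable fun z => U.indicator (fun _ => (1 : ℝ)) z * F2 z :=
    (measurable_const.indicator hU.measurableSet).mul hF2m
  have hmeas : Measurable fun z => dscut n s ‖z - x‖ * (U.indicator (fun _ => (1 : ℝ)) z * F2 z) :=
    (hcd.measurable.comp (measurable_id.sub_const x).norm).mul hm1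
  have hi1 : Integrable fun z => U.indicator (fun _ => (1 : ℝ)) z * F2 z :=
    hF2i.bdd_mul (c := 1) (measurable_const.indicator hU.measurableSet).aestronglyMeasurable
      (Eventually.of_forall fun z => abs_chi_le U z)
  have hint : Integrable fun z =>
      dscut n s ‖z - x‖ * (U.indicator (fun _ => (1 : ℝ)) z * F2 z) :=
    hi1.bdd_mul (c := 2 * (C * (n + 1)))
      (hcd.comp (continuous_id.sub continuous_const).norm).aestronglyMeasurable
      (Eventually.of_forall fun z => hb _)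
  rw [integral_polar x hmeas hint]
  have e1 : ∫ r, dscut n s r * fluxPhi G x R U r =
      ∫ r in Ioi (0 : ℝ), dscut n s r * fluxPhi G x R U r := by
    refine (setIntegral_eq_integral_of_forall_compl_eq_zero fun r hr => ?_).symm
    have : fluxPhi G x R U r = 0 := by
      unfold fluxPhi fluxF
      simp only [indicator_of_notMem hr, mul_zero, integral_zero]
    rw [this, mul_zero]
  rw [e1]
  refine setIntegral_congr_fun measurableSet_Ioi fun r hr => ?_
  have hr' : (0 : ℝ) < r := hr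
  have hnr : ∀ θ, ‖circleMap x r θ - x‖ = r := fun θ => by
    rw [← dist_eq_norm]; exact dist_circleMap_center x hr'.le θ
  simp only [hnr, integral_const_mul]
  unfold fluxPhi fluxF
  simp only [indicator_of_mem hr]
  have e2 : ∀ θ, U.indicator (fun _ => (1 : ℝ)) (circleMap x r θ) *
      (r * (ball x R).indicator (fun z => (inner ℝ (G z) (nu x z) : ℝ)) (circleMap x r θ)) =
      r * (U.indicator (fun _ => (1 : ℝ)) (circleMap x r θ) * F2 (circleMap x r θ)) := fun θ => by
    rw [hF2]; ring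
  simp only [e2, integral_const_mul]
  ring

/-- Limit of the gradient terms of cut-offs vanishing near a circle. -/
theorem flux_lim (hGm : Measurable G) (hG : MemLp G 2 (volume.restrict (ball x R))) :
    ∀ᵐ s : ℝ, s ∈ Ioo 0 R → ∀ U : Set ℂ, IsOpen U → U ⊆ ball x R → ∀ cin cout : ℝ → ℝ,
      (∀ᵐ θ ∂(volume.restrict ang), Tendsto
        (fun r => U.indicator (fun _ => (1 : ℝ)) (circleMap x r θ)) (𝓝[<] s) (𝓝 (cin θ))) →
      (∀ᵐ θ ∂(volume.restrict ang), Tendsto
        (fun r => U.indicator (fun _ => (1 : ℝ)) (circleMap x r θ)) (𝓝[>] s) (𝓝 (cout θ))) →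
      Tendsto (fun n : ℕ => ∫ z, (inner ℝ (G z)
        (U.indicator (grad fun y => scut n s ‖y - x‖) z) : ℝ)) atTop
        (𝓝 ((∫ θ in ang, cout θ * nsl G x s θ) - ∫ θ in ang, cin θ * nsl G x s θ)) := by
  have hF := gen_integrable_fluxF hGm hG
  filter_upwards [ae_lebL1 hF] with s hL hs U hU hUR cin cout hcin hcout
  obtain ⟨hFs, hDi, hDl⟩ := hL
  have hs0 := hs.1
  obtain ⟨C, hC0, hC⟩ := exists_bound_deriv_st
  have hΦi : Integrable (fluxPhi G x R U) := (gen_integrable_chiF hGm hG hU).integral_prod_left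
  have hFr : ∀ᵐ r : ℝ, IntegrableOn (fun θ => fluxF G x R (r, θ)) ang := hF.prod_right_ae
  have bddk : ∀ (n : ℕ) (a : ℝ), Integrable fun r => ker n a r * fluxPhi G x R U r :=
    fun n a => hΦi.bdd_mul (c := C * (n + 1)) (contDiff_ker n a).continuous.aestronglyMeasurable
      (Eventually.of_forall fun r => abs_ker_le hC n a r)
  have bddk' : ∀ (n : ℕ) (a : ℝ), Integrable fun r => ker n a (-r) * fluxPhi G x R U r :=
    fun n a => hΦi.bdd_mul (c := C * (n + 1))
      ((contDiff_ker n a).continuous.comp continuous_neg).aestronglyMeasurable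
      (Eventually.of_forall fun r => abs_ker_le hC n a (-r))
  -- outer limit
  have L1 : Tendsto (fun n : ℕ => ∫ r, ker n (s + 1 / (n + 1)) r * fluxPhi G x R U r) atTop
      (𝓝 (∫ θ in ang, cout θ * fluxF G x R (s, θ))) := by
    refine ker_limit (k := fun n r => ker n (s + 1 / (n + 1)) r) (T := Ioi s) hC0
      (fun n => (contDiff_ker n _).continuous) (fun n => hasCompactSupport_ker n _)
      (fun n r => abs_ker_le hC n _ r) ?_ (fun n => integral_ker_one n _)
      (Eventually.of_forall fun n => bddk n _) (fun r => sliceD_nonneg _ s r) hDi hDl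
      (fluxPhi_close hU hFs hFr hcout)
    intro n r hne
    have hd : (0 : ℝ) < 1 / ((n : ℝ) + 1) := by (clear * -; positivity)
    have e : 2 / ((n : ℝ) + 1) = 1 / ((n : ℝ) + 1) + 1 / ((n : ℝ) + 1) := by ring
    have h1 : s + 1 / ((n : ℝ) + 1) ≤ r := by
      by_contra hcon
      exact hne (ker_of_lt (not_le.mp hcon))
    have h2 : r ≤ s + 1 / ((n : ℝ) + 1) + 1 / ((n : ℝ) + 1) := by
      by_contra hcon
      exact hne (ker_of_gt (not_le.mp hcon))
    refine ⟨show s < r by linarith only [hd, h1], ?_⟩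
    rw [abs_le]; constructor <;> linarith
  -- inner limit
  have L2 : Tendsto (fun n : ℕ => ∫ r, ker n (-s + 1 / (n + 1)) (-r) * fluxPhi G x R U r) atTop
      (𝓝 (∫ θ in ang, cin θ * fluxF G x R (s, θ))) := by
    refine ker_limit (k := fun n r => ker n (-s + 1 / (n + 1)) (-r)) (T := Iio s) hC0
      (fun n => (contDiff_ker n _).continuous.comp continuous_neg) ?_
      (fun n r => abs_ker_le hC n _ (-r)) ?_ ?_
      (Eventually.of_forall fun n => bddk' n _) (fun r => sliceD_nonneg _ s r) hDi hDl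
      (fluxPhi_close hU hFs hFr hcin)
    · intro n
      exact (hasCompactSupport_ker n (-s + 1 / (n + 1))).comp_homeomorph (Homeomorph.neg ℝ)
    · intro n r hne
      have hd : (0 : ℝ) < 1 / ((n : ℝ) + 1) := by (clear * -; positivity)
      have e : 2 / ((n : ℝ) + 1) = 1 / ((n : ℝ) + 1) + 1 / ((n : ℝ) + 1) := by ring
      have h1 : -s + 1 / ((n : ℝ) + 1) ≤ -r := by
        by_contra hcon
        exact hne (ker_of_lt (not_le.mp hcon))
      have h2 : -r ≤ -s + 1 / ((n : ℝ) + 1) + 1 / ((n : ℝ) + 1) := by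
        by_contra hcon
        exact hne (ker_of_gt (not_le.mp hcon))
      refine ⟨show r < s by linarith only [hd, h1], ?_⟩
      rw [abs_le]; constructor <;> linarith only [e, h2, hd, h1]
    · intro n
      rw [integral_neg_eq_self (fun r => ker n (-s + 1 / (n + 1)) r)]
      exact integral_ker_one n _
  have L3 := L1.sub L2
  have e4 : ∀ c : ℝ → ℝ, ∫ θ in ang, c θ * fluxF G x R (s, θ) = ∫ θ in ang, c θ * nsl G x s θ := by
    intro c
    refine integral_congr_ae (Eventually.of_forall fun θ => ?_)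
    simp only
    rw [fluxF_eq hs]
  rw [e4, e4] at L3
  refine L3.congr' ?_
  filter_upwards [tendsto_one_div_mul hs0] with n hn
  rw [gen_flux_polar hGm hG hU hUR hn, ← integral_sub (bddk n _) (bddk' n _)]
  refine integral_congr_ae (Eventually.of_forall fun r => ?_)
  simp only [dscut]
  ring

end Vale.Agent.P128
end

section

open MeasureTheory Set Metric Filter
open scoped ENNReal NNReal Topology Real ContDiff

namespace Vale.Agent.P128

theorem memLp_ind_cc {E : Type*} [NormedAddCommGroup E] {f : ℂ → E} (hf : Continuous f)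
    (hc : HasCompactSupport f) {U : Set ℂ} (hU : IsOpen U) :
    MemLp (U.indicator f) 2 (volume : Measure ℂ) :=
  (hf.memLp_of_hasCompactSupport hc).indicator hU.measurableSet

theorem exists_ball_of_compactSupport {f : ℂ → ℝ} (hc : HasCompactSupport f) :
    ∃ ρ, ∀ z, ρ < ‖z‖ → z ∉ tsupport f := by
  obtain ⟨ρ, hρ⟩ := hc.isCompact.isBounded.exists_norm_le
  exact ⟨ρ, fun z hz h => absurd (hρ z h) (not_le.mpr hz)⟩

theorem integrable_inner_cc {G : ℂ → ℂ}
    (hG : ∀ R, MemLp G 2 (volume.restrict (ball 0 R))) {Ξ : ℂ → ℂ} (hΞ : MemLp Ξ 2 volume)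
    (hs : ∃ ρ, ∀ z, ρ < ‖z‖ → Ξ z = 0) :
    Integrable fun z => (inner ℝ (G z) (Ξ z) : ℝ) := by
  obtain ⟨ρ, hρ⟩ := hs
  have h1 : IntegrableOn (fun z => (inner ℝ (G z) (Ξ z) : ℝ)) (ball 0 (ρ + 1)) := by
    have h2 := (hG (ρ + 1))
    have h3 : MemLp Ξ 2 (volume.restrict (ball 0 (ρ + 1))) := hΞ.restrict _
    exact integrable_inner_of_memLp h2 h3
  refine h1.integrable_of_forall_notMem_eq_zero fun z hz => ?_
  rw [mem_ball, dist_zero_right, not_lt] at hz
  rw [hρ z (by linarith), inner_zero_right]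

/-- Flux identity: a region bounded by `K` and by parts of a circle. -/
theorem flux_identity {K : Set ℂ} {G : ℂ → ℂ} (x : ℂ) (hGm : Measurable G)
    (hG : ∀ R, MemLp G 2 (volume.restrict (ball 0 R))) (W : WallMin K G) :
    ∀ᵐ s : ℝ, 0 < s → ∀ U : Set ℂ, IsOpen U →
      (∀ z ∈ closure U, z ∉ U → z ∉ K → z ∈ sphere x s) → ∀ cin cout : ℝ → ℝ,
      (∀ᵐ θ ∂(volume.restrict ang), Tendsto
        (fun r => U.indicator (fun _ => (1 : ℝ)) (circleMap x r θ)) (𝓝[<] s) (𝓝 (cin θ))) →
      (∀ᵐ θ ∂(volume.restrict ang), Tendsto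
        (fun r => U.indicator (fun _ => (1 : ℝ)) (circleMap x r θ)) (𝓝[>] s) (𝓝 (cout θ))) →
      ∀ (χ : ℂ → ℝ) (R' : ℝ), ContDiff ℝ ∞ χ → HasCompactSupport χ → s < R' →
      (∀ z ∈ ball x R', χ z = 1) →
      ∫ z, (inner ℝ (G z) (U.indicator (grad χ) z) : ℝ) =
        (∫ θ in ang, cin θ * nsl G x s θ) - ∫ θ in ang, cout θ * nsl G x s θ := by
  have hGx : ∀ k : ℕ, MemLp G 2 (volume.restrict (ball x k)) := fun k =>
    (hG (k + ‖x‖)).mono_measure (Measure.restrict_mono (ball_subset_ball' (by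
      rw [dist_zero_right])) le_rfl)
  have hall : ∀ᵐ s : ℝ, ∀ k : ℕ, s ∈ Ioo 0 (k : ℝ) → ∀ U : Set ℂ, IsOpen U → U ⊆ ball x k →
      ∀ cin cout : ℝ → ℝ,
      (∀ᵐ θ ∂(volume.restrict ang), Tendsto
        (fun r => U.indicator (fun _ => (1 : ℝ)) (circleMap x r θ)) (𝓝[<] s) (𝓝 (cin θ))) →
      (∀ᵐ θ ∂(volume.restrict ang), Tendsto
        (fun r => U.indicator (fun _ => (1 : ℝ)) (circleMap x r θ)) (𝓝[>] s) (𝓝 (cout θ))) →
      Tendsto (fun n : ℕ => ∫ z, (inner ℝ (G z)
        (U.indicator (grad fun y => scut n s ‖y - x‖) z) : ℝ)) atTop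
        (𝓝 ((∫ θ in ang, cout θ * nsl G x s θ) - ∫ θ in ang, cin θ * nsl G x s θ)) :=
    ae_all_iff.mpr fun k => flux_lim hGm (hGx k)
  filter_upwards [hall] with s hs hs0 U hU hcl cin cout hcin hcout χ R' hχ hχc hsR' hχ1
  obtain ⟨k, hk⟩ := exists_nat_gt s
  have hUk : IsOpen (U ∩ ball x k) := hU.inter isOpen_ball
  -- limits for the truncated region
  have hagree : ∀ θ, ∀ᶠ r in 𝓝 s, U.indicator (fun _ => (1 : ℝ)) (circleMap x r θ) =
      (U ∩ ball x k).indicator (fun _ => (1 : ℝ)) (circleMap x r θ) := by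
    intro θ
    filter_upwards [Ioo_mem_nhds hs0 hk] with r hr
    have hb : circleMap x r θ ∈ ball x (k : ℝ) := by
      rw [mem_ball, dist_cm x hr.1]; exact hr.2
    by_cases h : circleMap x r θ ∈ U
    · rw [indicator_of_mem h, indicator_of_mem (show circleMap x r θ ∈ U ∩ ball x (k : ℝ) from ⟨h, hb⟩)]
    · rw [indicator_of_notMem h, indicator_of_notMem fun hc => h hc.1]
  have hlim := hs k ⟨hs0, hk⟩ (U ∩ ball x k) hUk inter_subset_right cin cout
    (by filter_upwards [hcin] with θ hθ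
        exact hθ.congr' ((hagree θ).filter_mono nhdsWithin_le_nhds))
    (by filter_upwards [hcout] with θ hθ
        exact hθ.congr' ((hagree θ).filter_mono nhdsWithin_le_nhds))
  -- the equation for large `n`
  have hχg : Continuous (grad χ) := continuous_grad hχ
  have hχgc : HasCompactSupport (grad χ) := hasCompactSupport_grad hχc
  obtain ⟨ρ, hρ⟩ := exists_ball_of_compactSupport hχc
  have hkey : ∀ᶠ n : ℕ in atTop, ∫ z, (inner ℝ (G z)
      ((U ∩ ball x k).indicator (grad fun y => scut n s ‖y - x‖) z) : ℝ) =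
      -∫ z, (inner ℝ (G z) (U.indicator (grad χ) z) : ℝ) := by
    filter_upwards [tendsto_one_div_mul hs0, tendsto_one_div_mul (sub_pos.mpr hsR'),
      tendsto_one_div_mul (sub_pos.mpr hk)] with n hn1 hn2 hn3
    have hsm := contDiff_scut_norm x hn1
    have hprod : ContDiff ℝ ∞ fun y : ℂ => χ y * scut n s ‖y - x‖ := hχ.mul hsm
    have hprodc : HasCompactSupport fun y : ℂ => χ y * scut n s ‖y - x‖ := hχc.mul_right
    have hgp : Continuous (grad fun y : ℂ => χ y * scut n s ‖y - x‖) := continuous_grad hprod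
    have hgpc : HasCompactSupport (grad fun y : ℂ => χ y * scut n s ‖y - x‖) :=
      hasCompactSupport_grad hprodc
    have hw : IsWeakGrad Kᶜ (U.indicator fun y : ℂ => χ y * scut n s ‖y - x‖)
        (U.indicator (grad fun y : ℂ => χ y * scut n s ‖y - x‖)) :=
      isWeakGrad_indicator hU hprod fun z hz hzU hzK hzt =>
        scut_norm_tsupport x (hcl z hz hzU hzK) (tsupport_mul_subset_right hzt)
    have hEL := W.el (memLp_ind_cc hprod.continuous hprodc hU) (memLp_ind_cc hgp hgpc hU) hw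
      ⟨ρ, fun z hz => by
        have h1 : z ∉ tsupport fun y : ℂ => χ y * scut n s ‖y - x‖ := fun h =>
          hρ z hz (tsupport_mul_subset_left h)
        constructor
        · by_cases h : z ∈ U
          · rw [indicator_of_mem h]
            exact image_eq_zero_of_notMem_tsupport (f := fun y : ℂ => χ y * scut n s ‖y - x‖) h1
          · exact indicator_of_notMem h _
        · by_cases h : z ∈ U
          · rw [indicator_of_mem h]; exact grad_eq_zero_of_notMem h1
          · exact indicator_of_notMem h _⟩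
    have hpt : ∀ z, U.indicator (grad fun y : ℂ => χ y * scut n s ‖y - x‖) z =
        U.indicator (grad χ) z +
          (U ∩ ball x k).indicator (grad fun y => scut n s ‖y - x‖) z := by
      intro z
      by_cases hz : z ∈ U
      · rw [indicator_of_mem hz, indicator_of_mem hz, grad_mul hχ hsm]
        rcases le_or_gt |‖z - x‖ - s| (2 / ((n : ℝ) + 1)) with h | h
        · obtain ⟨h1, h2⟩ := abs_le.mp h
          have hzR : z ∈ ball x R' := by
            rw [mem_ball, dist_eq_norm]; linarith only [h2, hn2]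
          have hzk : z ∈ ball x (k : ℝ) := by
            rw [mem_ball, dist_eq_norm]; linarith only [h2, hn3]
          have hg0 : grad χ z = 0 := by
            refine grad_zero_of_eventually_const (c := 1) ?_
            filter_upwards [isOpen_ball.mem_nhds hzR] with y hy
            exact hχ1 y hy
          rw [hχ1 z hzR, hg0, indicator_of_mem (show z ∈ U ∩ ball x (k : ℝ) from ⟨hz, hzk⟩)]
          simp
        · rw [grad_scut_zero x h, scut_eq_one h.le]
          by_cases hzk : z ∈ U ∩ ball x (k : ℝ)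
          · rw [indicator_of_mem hzk, grad_scut_zero x h]; simp
          · rw [indicator_of_notMem hzk]; simp
      · rw [indicator_of_notMem hz, indicator_of_notMem hz, indicator_of_notMem fun hc => hz hc.1]
        simp
    have mA : MemLp (U.indicator (grad χ)) 2 volume := memLp_ind_cc hχg hχgc hU
    have iA := integrable_inner_cc hG mA ⟨ρ, fun z hz => by
      by_cases h : z ∈ U
      · rw [indicator_of_mem h]; exact grad_eq_zero_of_notMem (hρ z hz)
      · exact indicator_of_notMem h _⟩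
    have hall2 : ∀ z, (inner ℝ (G z) ((U ∩ ball x k).indicator
        (grad fun y => scut n s ‖y - x‖) z) : ℝ) =
        inner ℝ (G z) (U.indicator (grad fun y : ℂ => χ y * scut n s ‖y - x‖) z) -
          inner ℝ (G z) (U.indicator (grad χ) z) := by
      intro z
      rw [hpt z, inner_add_right]
      ring
    have iP := integrable_inner_cc hG (memLp_ind_cc hgp hgpc hU) ⟨ρ, fun z hz => by
      have h1 : z ∉ tsupport fun y : ℂ => χ y * scut n s ‖y - x‖ := fun h =>
          hρ z hz (tsupport_mul_subset_left h)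
      by_cases h : z ∈ U
      · rw [indicator_of_mem h]; exact grad_eq_zero_of_notMem h1
      · exact indicator_of_notMem h _⟩
    simp only [hall2]
    rw [integral_sub iP iA, hEL, zero_sub]
  have hl2 : Tendsto (fun n : ℕ => ∫ z, (inner ℝ (G z) ((U ∩ ball x k).indicator
      (grad fun y => scut n s ‖y - x‖) z) : ℝ)) atTop
      (𝓝 (-∫ z, (inner ℝ (G z) (U.indicator (grad χ) z) : ℝ))) :=
    tendsto_const_nhds.congr' (hkey.mono fun n hn => hn.symm)
  have := tendsto_nhds_unique hl2 hlim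
  linarith

end Vale.Agent.P128
end

section

open MeasureTheory Set Metric Filter
open scoped ENNReal NNReal Topology Real ContDiff

namespace Vale.Agent.P128

theorem grad_sum {ι : Type*} (T : Finset ι) {f : ι → ℂ → ℝ} (hf : ∀ i, ContDiff ℝ ∞ (f i))
    (z : ℂ) : grad (fun y => ∑ i ∈ T, f i y) z = ∑ i ∈ T, grad (f i) z := by
  have h : fderiv ℝ (fun y => ∑ i ∈ T, f i y) z = ∑ i ∈ T, fderiv ℝ (f i) z :=
    fderiv_fun_sum fun i _ => ((hf i).differentiable (by simp)) z
  unfold grad
  rw [h]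
  apply Complex.ext
  · simp only [sum_apply, Complex.re_sum]
  · simp only [sum_apply, Complex.im_sum]

theorem grad_const_mul (c : ℝ) {f : ℂ → ℝ} (hf : ContDiff ℝ ∞ f) (z : ℂ) :
    grad (fun y => c * f y) z = c • grad f z := by
  have h : fderiv ℝ (fun y => c * f y) z = c • fderiv ℝ f z :=
    fderiv_const_mul ((hf.differentiable (by simp)) z) c
  unfold grad
  rw [h]
  apply Complex.ext <;> simp

theorem sq_norm_sum_disjoint {N : ℕ} {g : ℕ → ℂ} (h : ∀ k l, k < l → g k ≠ 0 → g l = 0) :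
    ‖∑ k ∈ Finset.range N, g k‖ ^ 2 = ∑ k ∈ Finset.range N, ‖g k‖ ^ 2 := by
  by_cases hex : ∃ k ∈ Finset.range N, g k ≠ 0
  · obtain ⟨k, hk, hgk⟩ := hex
    have h0 : ∀ l ∈ Finset.range N, l ≠ k → g l = 0 := by
      intro l _ hlk
      rcases lt_or_gt_of_ne hlk with h1 | h1
      · by_contra hc
        exact hgk (h l k h1 hc)
      · exact h k l h1 hgk
    rw [Finset.sum_eq_single_of_mem k hk h0, Finset.sum_eq_single_of_mem k hk fun l hl hlk => by
      rw [h0 l hl hlk, norm_zero]; norm_num]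
  · push Not at hex
    rw [Finset.sum_eq_zero hex, Finset.sum_eq_zero fun k hk => by rw [hex k hk, norm_zero]; norm_num]
    simp

/-- Smooth cut-offs with small Dirichlet energy. -/
theorem exists_logcut (x : ℂ) {a ε : ℝ} (ha : 0 < a) (hε : 0 < ε) :
    ∃ χ : ℂ → ℝ, ContDiff ℝ ∞ χ ∧ HasCompactSupport χ ∧ (∀ z ∈ closedBall x a, χ z = 1) ∧
      ∫ z, ‖grad χ z‖ ^ 2 ≤ ε := by
  have hπ := Real.pi_pos
  obtain ⟨C, hC0, hC⟩ := exists_bound_deriv_st
  obtain ⟨N, hN⟩ := exists_nat_gt (64 * π * C ^ 2 / ε)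
  have hN0 : (0 : ℝ) < N := lt_of_le_of_lt (by (clear * - hε; positivity)) hN
  have hcomp : ∀ k, HasCompactSupport (dcut x a k) := by
    intro k
    refine HasCompactSupport.intro (isCompact_closedBall x (2 * (2 ^ k * a))) fun z hz => ?_
    rw [mem_closedBall, dist_eq_norm, not_le] at hz
    refine dcut_zero ha k ?_
    have h1 : 0 < (2 : ℝ) ^ k * a := by positivity
    nlinarith only [hz, h1]
  have hcompS : HasCompactSupport fun z => ∑ k ∈ Finset.range N, dcut x a k z := by
    refine HasCompactSupport.intro (isCompact_closedBall x (2 * (2 ^ N * a))) fun z hz => ?_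
    rw [mem_closedBall, dist_eq_norm, not_le] at hz
    refine Finset.sum_eq_zero fun k hk => dcut_zero ha k ?_
    have h2 : (2 : ℝ) ^ k ≤ 2 ^ N := pow_le_pow_right₀ (by norm_num) (Finset.mem_range.mp hk).le
    have h1 : 0 < (2 : ℝ) ^ k * a := by positivity
    have h3 : (2 : ℝ) ^ k * a ≤ 2 ^ N * a := by gcongr
    have h4 : 2 * ((2 : ℝ) ^ k * a) < ‖z - x‖ := by linarith only [hz, h3]
    nlinarith only [hz, h1, h3]
  have hsmS : ContDiff ℝ ∞ fun z => ∑ k ∈ Finset.range N, dcut x a k z :=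
    ContDiff.sum fun k _ => contDiff_dcut x a k
  refine ⟨fun z => (1 / (N : ℝ)) * ∑ k ∈ Finset.range N, dcut x a k z, contDiff_const.mul hsmS,
    hcompS.mul_left, ?_, ?_⟩
  · intro z hz
    rw [mem_closedBall, dist_eq_norm] at hz
    have h1 : ∑ k ∈ Finset.range N, dcut x a k z = N := by
      rw [Finset.sum_congr rfl fun k _ => dcut_one ha k (z := z) ?_]
      · simp
      · calc ‖z - x‖ ≤ 1 * a := by linarith only [hz]
          _ ≤ 2 ^ k * a := by gcongr; exact one_le_pow₀ (by norm_num)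
    show (1 / (N : ℝ)) * ∑ k ∈ Finset.range N, dcut x a k z = 1
    rw [h1]
    (clear * - hN0; field_simp)
  · have hdis : ∀ z : ℂ, ∀ k l : ℕ, k < l → grad (dcut x a k) z ≠ 0 → grad (dcut x a l) z = 0 := by
      intro z k l hkl hne
      refine grad_dcut_zero_in ha l ?_
      have h1 : ‖z - x‖ ^ 2 ≤ 2 * ((2 : ℝ) ^ k * a) ^ 2 := by
        by_contra hc
        exact hne (grad_dcut_zero_out ha k (not_le.mp hc))
      have h2 : 2 * (2 : ℝ) ^ k ≤ 2 ^ l := by
        have : (2 : ℝ) ^ (k + 1) ≤ 2 ^ l := pow_le_pow_right₀ (by norm_num) hkl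
        rw [pow_succ] at this
        linarith only [this]
      have h3 : 0 < (2 : ℝ) ^ k * a := by positivity
      have h4 : 2 * ((2 : ℝ) ^ k * a) ≤ 2 ^ l * a := by
        have := mul_le_mul_of_nonneg_right h2 ha.le
        linarith only [this]
      by_contra hc
      push Not at hc
      have h5 := norm_nonneg (z - x)
      nlinarith only [h1, h3, h4, hc]
    have hpt : ∀ z, ‖grad (fun z => (1 / (N : ℝ)) * ∑ k ∈ Finset.range N, dcut x a k z) z‖ ^ 2 =
        (1 / (N : ℝ)) ^ 2 * ∑ k ∈ Finset.range N, ‖grad (dcut x a k) z‖ ^ 2 := by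
      intro z
      rw [grad_const_mul _ hsmS, grad_sum _ fun k => contDiff_dcut x a k, norm_smul, mul_pow,
        Real.norm_eq_abs, sq_abs, sq_norm_sum_disjoint (hdis z)]
    simp only [hpt]
    have hint : ∀ k, Integrable fun z => ‖grad (dcut x a k) z‖ ^ 2 := by
      intro k
      have h1 : MemLp (grad (dcut x a k)) 2 (volume : Measure ℂ) :=
        (continuous_grad (contDiff_dcut x a k)).memLp_of_hasCompactSupport
          (hasCompactSupport_grad (hcomp k))
      exact h1.norm.integrable_sq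
    rw [integral_const_mul, integral_finsetSum _ fun k _ => hint k]
    have hk : ∀ k ∈ Finset.range N, ∫ z, ‖grad (dcut x a k) z‖ ^ 2 ≤ 64 * π * C ^ 2 := by
      intro k _
      obtain ⟨b, hb⟩ : ∃ b, b = (2 : ℝ) ^ k * a := ⟨_, rfl⟩
      have hb0 : 0 < b := by rw [hb]; positivity
      have e1 : ∫ z, ‖grad (dcut x a k) z‖ ^ 2 =
          ∫ z in closedBall x (2 * b), ‖grad (dcut x a k) z‖ ^ 2 := by
        refine (setIntegral_eq_integral_of_forall_compl_eq_zero fun z hz => ?_).symm
        rw [mem_closedBall, dist_eq_norm, not_le] at hz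
        rw [grad_dcut_zero_out ha k (by rw [← hb]; nlinarith only [hb0, hz]), norm_zero]
        norm_num
      rw [e1]
      have h2 := norm_setIntegral_le_of_norm_le_const (μ := (volume : Measure ℂ))
        (s := closedBall x (2 * b)) (f := fun z => ‖grad (dcut x a k) z‖ ^ 2)
        (C := (4 * C / b) ^ 2) measure_closedBall_lt_top (fun z _ => by
          rw [Real.norm_of_nonneg (sq_nonneg _)]
          have := norm_grad_dcut_le hC0 hC x ha k z
          rw [← hb] at this
          (clear * - this; gcongr))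
      refine (le_abs_self _).trans (h2.trans (le_of_eq ?_))
      rw [measureReal_def, Complex.volume_closedBall, ENNReal.toReal_mul, ENNReal.toReal_pow,
        ENNReal.toReal_ofReal (by positivity)]
      have : ((NNReal.pi : ℝ≥0∞)).toReal = π := by simp
      rw [this]
      field_simp
      ring
    calc (1 / (N : ℝ)) ^ 2 * ∑ k ∈ Finset.range N, ∫ z, ‖grad (dcut x a k) z‖ ^ 2
        ≤ (1 / (N : ℝ)) ^ 2 * ∑ _k ∈ Finset.range N, (64 * π * C ^ 2) := by
          gcongr with k hk'
          exact hk k hk'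
      _ = 64 * π * C ^ 2 / N := by
          rw [Finset.sum_const, Finset.card_range, nsmul_eq_mul]
          (clear * - hN0; field_simp)
      _ ≤ ε := by
          rw [div_le_iff₀ hN0]
          rw [div_lt_iff₀ hε] at hN
          linarith only [hN]

end Vale.Agent.P128
end

section

/-! Zero flux through the arcs of almost every circle. -/

open MeasureTheory Set Metric Filter
open scoped ENNReal NNReal Topology Real ContDiff

namespace Vale.Agent.P128

/-- The flux through a wall of finite length vanishes. -/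
theorem WallMin.region_zero {K : Set ℂ} {G : ℂ → ℂ} (W : WallMin K G) {L U : Set ℂ}
    (hL : IsCompact L) (hLf : μH[1] L ≠ ⊤) (hU : IsOpen U)
    (hcl : ∀ z ∈ closure U, z ∉ U → z ∉ K ∪ L → False) {F : ℝ} {x : ℂ} {R' : ℝ} (hR' : 0 < R')
    (hF : ∀ χ : ℂ → ℝ, ContDiff ℝ ∞ χ → HasCompactSupport χ → (∀ z ∈ ball x R', χ z = 1) →
      ∫ z, (inner ℝ (G z) (U.indicator (grad χ) z) : ℝ) = F) : F = 0 := by
  by_contra hne
  have hH : 0 ≤ (μH[1] L).toReal := ENNReal.toReal_nonneg
  obtain ⟨t, ht⟩ : ∃ t, t = -((μH[1] L).toReal + 1) / F := ⟨_, rfl⟩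
  have htF : t * F = -((μH[1] L).toReal + 1) := by rw [ht]; field_simp
  have ht0 : t ≠ 0 := by
    rintro h0
    rw [h0, zero_mul] at htF
    linarith
  obtain ⟨χ, h1, h2, h3, h4⟩ := exists_logcut x hR' (ε := 1 / (2 * t ^ 2)) (by positivity)
  have hcg : HasCompactSupport (grad χ) := hasCompactSupport_grad h2
  obtain ⟨ρ, hρ⟩ := exists_ball_of_compactSupport h2
  have h5 := W.scaled hL hLf (ξ := U.indicator χ) (Ξ := U.indicator (grad χ))
    (memLp_ind_cc h1.continuous h2 hU) (memLp_ind_cc (continuous_grad h1) hcg hU)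
    (isWeakGrad_indicator hU h1 fun z hz hzU hzV => (hcl z hz hzU hzV).elim)
    ⟨ρ, fun z hz => by
      have h6 := hρ z hz
      constructor
      · by_cases hzU : z ∈ U
        · rw [indicator_of_mem hzU, image_eq_zero_of_notMem_tsupport h6]
        · rw [indicator_of_notMem hzU]
      · by_cases hzU : z ∈ U
        · rw [indicator_of_mem hzU, grad_eq_zero_of_notMem h6]
        · rw [indicator_of_notMem hzU]⟩ t
  rw [hF χ h1 h2 fun z hz => h3 z (ball_subset_closedBall hz)] at h5
  have h6 : ∫ z, ‖U.indicator (grad χ) z‖ ^ 2 ≤ ∫ z, ‖grad χ z‖ ^ 2 := by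
    refine integral_mono_of_nonneg (Eventually.of_forall fun z => by positivity)
      ((continuous_grad h1).memLp_of_hasCompactSupport hcg).norm.integrable_sq
      (Eventually.of_forall fun z => ?_)
    show ‖U.indicator (grad χ) z‖ ^ 2 ≤ ‖grad χ z‖ ^ 2
    by_cases hzU : z ∈ U
    · rw [indicator_of_mem hzU]
    · rw [indicator_of_notMem hzU, norm_zero]
      linarith only [sq_nonneg ‖grad χ z‖]
  have h7 : t ^ 2 * ∫ z, ‖U.indicator (grad χ) z‖ ^ 2 ≤ 1 / 2 := by
    calc t ^ 2 * ∫ z, ‖U.indicator (grad χ) z‖ ^ 2 ≤ t ^ 2 * (1 / (2 * t ^ 2)) :=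
          mul_le_mul_of_nonneg_left (h6.trans h4) (sq_nonneg t)
      _ = 1 / 2 := by field_simp
  have h8 : 2 * t * F = 2 * (t * F) := by ring
  rw [h8, htF] at h5
  linarith only [h7, h5, hH]

/-- Square integrability of the gradient on almost every circle. -/
theorem ae_memLp_sl {G : ℂ → ℂ} (hGm : Measurable G)
    (hG : ∀ R, MemLp G 2 (volume.restrict (ball 0 R))) (x : ℂ) :
    ∀ᵐ s : ℝ, 0 < s → MemLp (nsl G x s) 2 (volume.restrict ang) ∧
      MemLp (tsl G x s) 2 (volume.restrict ang) := by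
  have hall : ∀ᵐ s : ℝ, ∀ k : ℕ, 0 < s → MemLp (fun θ => (ball (0 : ℂ) k).indicator
      (fun z => ‖G z‖) (circleMap x s θ)) 2 (volume.restrict ang) := by
    refine ae_all_iff.mpr fun k => ?_
    refine ae_memLp_circle x (hGm.norm.indicator measurableSet_ball) ?_
    exact (memLp_indicator_iff_restrict measurableSet_ball).2 (hG k).norm
  filter_upwards [hall] with s hs hs0
  obtain ⟨k, hk⟩ := exists_nat_gt (‖x‖ + s)
  have hmem : ∀ θ, circleMap x s θ ∈ ball (0 : ℂ) k := by
    intro θ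
    rw [mem_ball, dist_zero_right]
    have h1 : ‖circleMap x s θ - x‖ = s := by
      rw [← dist_eq_norm, dist_circleMap_center x hs0.le]
    have h2 := norm_le_norm_add_norm_sub' (circleMap x s θ) x
    linarith [norm_le_insert' (circleMap x s θ) x]
  have h0 := hs k hs0
  have e : (fun θ => (ball (0 : ℂ) k).indicator (fun z => ‖G z‖) (circleMap x s θ)) =
      fun θ => ‖G (circleMap x s θ)‖ := by
    funext θ; rw [indicator_of_mem (hmem θ)]
  rw [e] at h0
  constructor
  · refine h0.of_le_mul (c := s) (measurable_nsl hGm x s).aestronglyMeasurable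
      (Eventually.of_forall fun θ => ?_)
    unfold nsl
    rw [norm_mul, Real.norm_of_nonneg hs0.le, norm_norm]
    gcongr
    refine (norm_inner_le_norm _ _).trans ?_
    rw [Complex.norm_exp_ofReal_mul_I, mul_one]
  · refine h0.of_le_mul (c := s) (measurable_tsl hGm x s).aestronglyMeasurable
      (Eventually.of_forall fun θ => ?_)
    unfold tsl
    rw [norm_mul, Real.norm_of_nonneg hs0.le, norm_norm]
    gcongr
    refine (norm_inner_le_norm _ _).trans ?_
    rw [norm_mul, Complex.norm_I, norm_circleMap_zero, abs_one, mul_one, mul_one]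

theorem cm_eq (x : ℂ) (s θ : ℝ) : circleMap x s θ = x + s * uc θ := rfl

theorem periodic_nsl (G : ℂ → ℂ) (x : ℂ) (s : ℝ) : Function.Periodic (nsl G x s) (2 * π) := by
  intro θ
  unfold nsl
  have h1 : circleMap x s (θ + 2 * π) = circleMap x s θ := periodic_circleMap x s θ
  have h2 : Complex.exp (((θ + 2 * π : ℝ) : ℂ) * Complex.I) = Complex.exp (θ * Complex.I) := by
    have h3 := uc_add θ (2 * π)
    rw [uc_two_pi, mul_one] at h3
    exact h3
  rw [h1, h2]

/-- Zero flux through every arc of the complement of `K` in almost every circle. -/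
theorem flux_arc {K : Set ℂ} {G : ℂ → ℂ} (hKc : IsClosed K) (hK : NoPiece K) (x : ℂ)
    (hGm : Measurable G) (hG : ∀ R, MemLp G 2 (volume.restrict (ball 0 R))) (W : WallMin K G)
    (hfin : ∀ᵐ s : ℝ, 0 < s → (K ∩ sphere x s).Finite) :
    ∀ᵐ s : ℝ, 0 < s → ∀ α β : ℝ, α < β → β ≤ α + 2 * π → circleMap x s α ∈ K →
      circleMap x s β ∈ K → (∀ θ ∈ Ioo α β, circleMap x s θ ∉ K) →
      ∫ θ in α..β, nsl G x s θ = 0 := by
  have hπ := Real.pi_pos
  filter_upwards [flux_identity x hGm hG W, ae_memLp_sl hGm hG x, hfin] with s hid hL2 hfs hs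
    α β hαβ hβ hα hβK hI
  have hid := hid hs
  obtain ⟨hn2, -⟩ := hL2 hs
  have hfs := hfs hs
  have hfinm : IsFiniteMeasure (volume.restrict ang) := ⟨by simp⟩
  have hni : IntegrableOn (nsl G x s) ang := hn2.integrable (by norm_num)
  rcases lt_or_eq_of_le hβ with hlt | heq
  · -- a proper arc
    obtain ⟨γ, hγ⟩ : ∃ γ, γ = β - α := ⟨_, rfl⟩
    have hγ0 : 0 < γ := by rw [hγ]; linarith
    have hγ1 : γ < 2 * π := by rw [hγ]; linarith
    have hp : ‖uc α‖ = 1 := norm_uc α
    have hpt : ∀ t : ℝ, x + s * (uc α * uc t) = circleMap x s (α + t) := by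
      intro t; rw [cm_eq, uc_add]
    obtain ⟨U, hU, hUs, hUc, hUt⟩ := exists_side hKc hK hs hp hγ0 hγ1 (x := x)
      (by rw [← cm_eq]; exact hα)
      (by rw [hpt, hγ]; rw [show α + (β - α) = β by ring]; exact hβK)
      (fun t ht => by
        rw [hpt]
        exact hI _ ⟨by linarith [ht.1], by rw [hγ] at ht; linarith [ht.2]⟩)
    obtain ⟨L, hL⟩ : ∃ L : Set ℂ, L = cArc x s (uc α) γ := ⟨_, rfl⟩
    rw [← hL] at hUs hUc
    have hLc : IsCompact L := hL ▸ isCompact_cArc x s (uc α) γ
    have hLs : L ⊆ sphere x s := hL ▸ cArc_subset_sphere hs.le hp γ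
    have hLf : μH[1] L ≠ ⊤ :=
      (lt_of_le_of_lt ((measure_mono hLs).trans (hausdorff_sphere_le x hs.le))
        ENNReal.ofReal_lt_top).ne
    have hUL : ∀ z ∈ U, z ∉ L := fun z hz hzL => hUs hz (Or.inr hzL)
    obtain ⟨cout, hcout⟩ : ∃ cout : ℝ → ℝ, cout = fun θ => U.indicator (fun _ => (1 : ℝ))
      (circleMap x s θ) := ⟨_, rfl⟩
    obtain ⟨cL, hcL⟩ : ∃ cL : ℝ → ℝ, cL = fun θ => L.indicator (fun _ => (1 : ℝ))
      (circleMap x s θ) := ⟨_, rfl⟩
    have hK0 : ∀ᵐ θ ∂(volume.restrict ang), circleMap x s θ ∉ K := by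
      have h1 : {θ | θ ∈ ang ∧ circleMap x s θ ∈ K}.Finite := by
        refine Finite.of_finite_image (f := circleMap x s) (hfs.subset ?_) ?_
        · rintro _ ⟨θ, hθ, rfl⟩
          exact ⟨hθ.2, by rw [mem_sphere, dist_circleMap_center x hs.le]⟩
        · intro θ hθ θ' hθ' he
          rw [cm_eq, cm_eq] at he
          have h2 : uc θ = uc θ' := by
            have h3 := add_left_cancel he
            exact mul_left_cancel₀ (by exact_mod_cast hs.ne') h3
          refine uc_inj h2 ?_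
          rw [abs_lt]
          constructor <;> linarith [hθ.1.1, hθ.1.2, hθ'.1.1, hθ'.1.2]
      rw [ae_restrict_iff' measurableSet_Ioo, ae_iff]
      refine measure_mono_null ?_ (h1.measure_zero volume)
      intro θ hθ
      simp only [mem_ofPred_eq, Classical.not_imp, not_not] at hθ
      exact hθ
    have htan : ∀ θ, circleMap x s θ ∈ L → circleMap x s θ ∉ K →
        ∃ t ∈ Ioo 0 γ, ∀ r : ℝ, circleMap x r θ = pol x (uc α) (r, t) := by
      intro θ hθ hθK
      rw [hL] at hθ
      obtain ⟨t, ht, he⟩ := hθ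
      have hu : uc θ = uc α * uc t := by
        rw [cm_eq] at he
        exact mul_left_cancel₀ (by exact_mod_cast hs.ne') (add_left_cancel he)
      have ht0 : t ≠ 0 := by
        rintro rfl
        apply hθK
        rw [he, hpt, add_zero]
        exact hα
      have htγ : t ≠ γ := by
        rintro rfl
        apply hθK
        rw [he, hpt, hγ, show α + (β - α) = β by ring]
        exact hβK
      refine ⟨t, ⟨lt_of_le_of_ne ht.1 (Ne.symm ht0), lt_of_le_of_ne ht.2 htγ⟩, fun r => ?_⟩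
      rw [cm_eq, hu]; rfl
    have hoff : ∀ θ, circleMap x s θ ∉ L → circleMap x s θ ∉ K →
        ∀ᶠ r in 𝓝 s, U.indicator (fun _ => (1 : ℝ)) (circleMap x r θ) = cout θ := by
      intro θ hθ hθK
      have hc : ContinuousAt (fun r : ℝ => circleMap x r θ) s := by
        have : Continuous fun r : ℝ => circleMap x r θ := by
          simp only [cm_eq]
          fun_prop
        exact this.continuousAt
      rw [hcout]
      by_cases hU' : circleMap x s θ ∈ U
      · filter_upwards [hc.eventually (hU.mem_nhds hU')] with r hr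
        rw [indicator_of_mem hr, indicator_of_mem hU']
      · have h1 : circleMap x s θ ∉ closure U := fun h => hU' (hUc _ h fun h2 => h2.elim hθK hθ)
        filter_upwards [hc.eventually (isClosed_closure.isOpen_compl.mem_nhds h1)] with r hr
        rw [indicator_of_notMem fun h => hr (subset_closure h), indicator_of_notMem hU']
    have hin : ∀ᵐ θ ∂(volume.restrict ang), Tendsto
        (fun r => U.indicator (fun _ => (1 : ℝ)) (circleMap x r θ)) (𝓝[<] s)
        (𝓝 (cout θ + cL θ)) := by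
      filter_upwards [hK0] with θ hθK
      by_cases hθ : circleMap x s θ ∈ L
      · obtain ⟨t, ht, hr⟩ := htan θ hθ hθK
        have e : cout θ + cL θ = 1 := by
          rw [hcout, hcL]
          simp only
          rw [indicator_of_mem hθ, indicator_of_notMem fun h => hUL _ h hθ, zero_add]
        rw [e]
        refine tendsto_const_nhds.congr' ?_
        filter_upwards [(hUt t ht).1] with r hr'
        rw [hr r, indicator_of_mem hr']
      · have e : cout θ + cL θ = cout θ := by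
          rw [hcL]
          simp only
          rw [indicator_of_notMem hθ, add_zero]
        rw [e]
        refine tendsto_const_nhds.congr' ?_
        filter_upwards [(hoff θ hθ hθK).filter_mono nhdsWithin_le_nhds] with r hr
        exact hr.symm
    have hout : ∀ᵐ θ ∂(volume.restrict ang), Tendsto
        (fun r => U.indicator (fun _ => (1 : ℝ)) (circleMap x r θ)) (𝓝[>] s)
        (𝓝 (cout θ)) := by
      filter_upwards [hK0] with θ hθK
      by_cases hθ : circleMap x s θ ∈ L
      · obtain ⟨t, ht, hr⟩ := htan θ hθ hθK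
        have e : cout θ = 0 := by
          rw [hcout]
          simp only
          rw [indicator_of_notMem fun h => hUL _ h hθ]
        rw [e]
        refine tendsto_const_nhds.congr' ?_
        filter_upwards [(hUt t ht).2] with r hr'
        rw [hr r, indicator_of_notMem hr']
      · refine tendsto_const_nhds.congr' ?_
        filter_upwards [(hoff θ hθ hθK).filter_mono nhdsWithin_le_nhds] with r hr
        exact hr.symm
    have hcm : Measurable (circleMap x s) := measurable_circleMap x s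
    have mout : Measurable cout := by
      rw [hcout]; exact (measurable_const.indicator hU.measurableSet).comp hcm
    have mL : Measurable cL := by
      rw [hcL]; exact (measurable_const.indicator hLc.measurableSet).comp hcm
    have bout : ∀ θ, ‖cout θ‖ ≤ 1 := fun θ => by rw [hcout]; exact abs_chi_le U _
    have bL : ∀ θ, ‖cL θ‖ ≤ 1 := fun θ => by rw [hcL]; exact abs_chi_le L _
    have iout : IntegrableOn (fun θ => cout θ * nsl G x s θ) ang :=
      hni.bdd_mul (c := 1) mout.aestronglyMeasurable (Eventually.of_forall bout)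
    have iL : IntegrableOn (fun θ => cL θ * nsl G x s θ) ang :=
      hni.bdd_mul (c := 1) mL.aestronglyMeasurable (Eventually.of_forall bL)
    have hF0 : ∫ θ in ang, cL θ * nsl G x s θ = 0 := by
      refine W.region_zero (L := L) (U := U) hLc hLf hU ?_ (x := x) (R' := s + 1) (by linarith)
        fun χ h1 h2 h3 => ?_
      · intro z hz hzU hzKL
        exact hzU (hUc z hz hzKL)
      · rw [hid U hU (fun z hz hzU hzK => by
          by_contra hcon
          exact hzU (hUc z hz fun h => h.elim hzK fun h' => hcon (hLs h'))) _ _ hin hout χ (s + 1)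
          h1 h2 (by linarith) h3]
        simp only [add_mul]
        rw [integral_add iout iL]
        ring
    -- shift
    have hper : Function.Periodic (fun θ => cL θ * nsl G x s θ) (2 * π) := by
      intro θ
      rw [hcL]
      simp only
      rw [periodic_nsl G x s θ, periodic_circleMap x s θ]
    rw [integral_ang_shift hper α] at hF0
    have e1 : ∫ t in Ioo 0 (2 * π), cL (α + t) * nsl G x s (α + t) =
        ∫ t in Ioo 0 γ, nsl G x s (α + t) := by
      have h1 : ∀ t ∈ Ioo 0 (2 * π), cL (α + t) * nsl G x s (α + t) =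
          (Ioc 0 γ).indicator (fun t => nsl G x s (α + t)) t := by
        intro t ht
        rw [hcL]
        simp only
        by_cases htγ : t ≤ γ
        · rw [indicator_of_mem (show t ∈ Ioc 0 γ from ⟨ht.1, htγ⟩), indicator_of_mem, one_mul]
          rw [hL]
          exact ⟨t, ⟨ht.1.le, htγ⟩, (hpt t).symm⟩
        · have hnI : t ∉ Ioc 0 γ := fun h => htγ h.2
          suffices hnL : circleMap x s (α + t) ∉ L by
            rw [indicator_of_notMem hnL, indicator_of_notMem hnI, zero_mul]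
          rw [hL]
          rintro ⟨t', ht', he⟩
          rw [hpt, cm_eq, cm_eq] at he
          have h2 : uc (α + t) = uc (α + t') :=
            mul_left_cancel₀ (by exact_mod_cast hs.ne') (add_left_cancel he)
          have h3 : α + t = α + t' := by
            refine uc_inj h2 ?_
            rw [abs_lt]
            push Not at htγ
            constructor <;> linarith [ht'.1, ht'.2, ht.1, ht.2]
          exact htγ (by linarith [ht'.2])
      have hsub : Ioc 0 γ ⊆ Ioo 0 (2 * π) := fun t ht => ⟨ht.1, lt_of_le_of_lt ht.2 hγ1⟩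
      rw [setIntegral_congr_fun measurableSet_Ioo h1, setIntegral_indicator measurableSet_Ioc,
        inter_eq_self_of_subset_right hsub, integral_Ioc_eq_integral_Ioo]
    rw [e1, ← integral_Ioc_eq_integral_Ioo, ← intervalIntegral.integral_of_le hγ0.le,
      intervalIntegral.integral_comp_add_left (fun θ => nsl G x s θ) α, add_zero, hγ,
      show α + (β - α) = β by ring] at hF0
    exact hF0
  · -- the full circle
    obtain ⟨χ, h1, h2, h3, -⟩ := exists_logcut x (a := s + 1) (ε := 1) (by linarith) one_pos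
    have h0 := hid (ball x s) isOpen_ball (fun z hz hzU _ => by
      rw [closure_ball x hs.ne', mem_closedBall] at hz
      rw [mem_ball, not_lt] at hzU
      rw [mem_sphere]; linarith) (fun _ => 1) (fun _ => 0)
      (Eventually.of_forall fun θ => by
        refine tendsto_const_nhds.congr' ?_
        have h4 : ∀ᶠ r in 𝓝[<] s, 0 < r := nhdsWithin_le_nhds (lt_mem_nhds hs)
        filter_upwards [h4, self_mem_nhdsWithin] with r hr hrs
        rw [indicator_of_mem]
        rw [mem_ball, dist_circleMap_center x hr.le]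
        exact hrs)
      (Eventually.of_forall fun θ => by
        refine tendsto_const_nhds.congr' ?_
        filter_upwards [self_mem_nhdsWithin] with r hrs
        rw [indicator_of_notMem]
        rw [mem_ball, dist_circleMap_center x (hs.trans hrs).le, not_lt]
        exact (le_of_lt hrs)) χ (s + 1) h1 h2 (by linarith)
      (fun z hz => h3 z (ball_subset_closedBall hz))
    have e0 : ∫ z, (inner ℝ (G z) ((ball x s).indicator (grad χ) z) : ℝ) = 0 := by
      have : ∀ z, (inner ℝ (G z) ((ball x s).indicator (grad χ) z) : ℝ) = 0 := by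
        intro z
        by_cases hz : z ∈ ball x s
        · rw [indicator_of_mem hz, grad_zero_of_eventually_const (c := 1), inner_zero_right]
          have h5 : ball x (s + 1) ∈ 𝓝 z :=
            isOpen_ball.mem_nhds (ball_subset_ball (by linarith) hz)
          filter_upwards [h5] with y hy
          exact h3 y (ball_subset_closedBall hy)
        · rw [indicator_of_notMem hz, inner_zero_right]
      simp only [this, integral_zero]
    rw [e0] at h0
    simp only [one_mul, zero_mul, integral_zero, sub_zero] at h0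
    rw [integral_ang_shift (periodic_nsl G x s) α, ← integral_Ioc_eq_integral_Ioo,
      ← intervalIntegral.integral_of_le (by linarith),
      intervalIntegral.integral_comp_add_left (fun θ => nsl G x s θ) α, add_zero, ← heq] at h0
    exact h0.symm

end Vale.Agent.P128
end

section

/-! Decomposition of a circle into the arcs of the complement of `K`: Bonnet's inequality. -/

open MeasureTheory Set Metric Filter
open scoped ENNReal NNReal ContDiff Topology Real

namespace Vale.Agent.P128.GM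

open Vale.Agent.P128

variable {u : ℂ → ℝ} {K : Set ℂ}

/-- every open arc of the circle of radius `s` off `K` has angle at most `ℓ` -/
def GapLe (K : Set ℂ) (s ℓ : ℝ) : Prop :=
  ∀ α β : ℝ, α < β → β ≤ α + 2 * π → (∀ θ ∈ Ioo α β, circleMap 0 s θ ∉ K) → β - α ≤ ℓ

theorem periodic_un (u : ℂ → ℝ) (s : ℝ) : Function.Periodic (un u s) (2 * π) := by
  intro θ
  unfold un
  have h2 : Complex.exp (((θ + 2 * π : ℝ) : ℂ) * Complex.I) = Complex.exp (θ * Complex.I) := by
    have h3 := uc_add θ (2 * π)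
    rw [uc_two_pi, mul_one] at h3
    exact h3
  rw [periodic_circleMap 0 s θ, h2]

theorem periodic_ut (u : ℂ → ℝ) (s : ℝ) : Function.Periodic (ut u s) (2 * π) := by
  intro θ
  unfold ut
  have h2 : Complex.exp (((θ + 2 * π : ℝ) : ℂ) * Complex.I) = Complex.exp (θ * Complex.I) := by
    have h3 := uc_add θ (2 * π)
    rw [uc_two_pi, mul_one] at h3
    exact h3
  rw [periodic_circleMap 0 s θ, h2]

theorem interval_eq_ang (f : ℝ → ℝ) : ∫ θ in (-π)..π, f θ = ∫ θ in ang, f θ := by
  rw [intervalIntegral.integral_of_le (by linarith only [Real.pi_pos]), integral_Ioc_eq_integral_Ioo]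

/-- Sum over the arcs. -/
theorem sum_arcs {s : ℝ} (hs : 0 < s) (hfin : (K ∩ sphere 0 s).Finite)
    (hne : (K ∩ sphere 0 s).Nonempty) {F A B : ℝ → ℝ} (pF : Function.Periodic F (2 * π))
    (pA : Function.Periodic A (2 * π)) (pB : Function.Periodic B (2 * π))
    (iF : IntegrableOn F ang) (iA : IntegrableOn A ang) (iB : IntegrableOn B ang)
    (hA : ∀ θ, 0 ≤ A θ) (hB : ∀ θ, 0 ≤ B θ) {c ℓ : ℝ} (hc : 0 ≤ c) (hℓ : GapLe K s ℓ)
    (harc : ∀ α β : ℝ, α < β → β ≤ α + 2 * π → circleMap 0 s α ∈ K → circleMap 0 s β ∈ K →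
      (∀ θ ∈ Ioo α β, circleMap 0 s θ ∉ K) → ∫ θ in α..β, F θ ≤
        (β - α) * c * (Real.sqrt (∫ θ in α..β, A θ) * Real.sqrt (∫ θ in α..β, B θ))) :
    ∫ θ in ang, F θ ≤ ℓ * c * (Real.sqrt (∫ θ in ang, A θ) * Real.sqrt (∫ θ in ang, B θ)) := by
  obtain ⟨T, hT, hTc⟩ := exists_dirs hs hfin
  have hT1 : ∀ w ∈ T, ‖w‖ = 1 := fun w hw => ((hT w).1 hw).1
  have hTne : T.Nonempty := by
    rw [← Finset.card_pos, hTc, ncard_pos hfin]
    exact hne
  have hpt : ∀ p ∈ T, ∀ t : ℝ, circleMap 0 s (p.arg + t) = 0 + s • (p * uc t) := by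
    intro p hp t
    rw [cm_eq, uc_add, uc_arg (hT1 p hp), Complex.real_smul]
  have hconv : ∀ p ∈ T, ∀ f : ℝ → ℝ, ∫ t in Ioo 0 (gap (T : Set ℂ) p), f (p.arg + t) =
      ∫ θ in p.arg..(p.arg + gap (T : Set ℂ) p), f θ := by
    intro p hp f
    have g1 := (gap_spec T.finite_toSet hp (hT1 p hp)).1
    rw [← integral_Ioc_eq_integral_Ioo, ← intervalIntegral.integral_of_le g1.le,
      intervalIntegral.integral_comp_add_left (fun θ => f θ) p.arg, add_zero]
  obtain ⟨a, ha⟩ : ∃ a : ℂ → ℝ, a = fun p => ∫ θ in p.arg..(p.arg + gap (T : Set ℂ) p), A θ :=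
    ⟨_, rfl⟩
  obtain ⟨b, hb⟩ : ∃ b : ℂ → ℝ, b = fun p => ∫ θ in p.arg..(p.arg + gap (T : Set ℂ) p), B θ :=
    ⟨_, rfl⟩
  have hterm : ∀ p ∈ T, ∫ t in Ioo 0 (gap (T : Set ℂ) p), F (p.arg + t) ≤
      ℓ * c * (Real.sqrt (a p) * Real.sqrt (b p)) := by
    intro p hp
    obtain ⟨g1, g2, g3, g4⟩ := gap_spec T.finite_toSet hp (hT1 p hp)
    have hfree : ∀ θ ∈ Ioo p.arg (p.arg + gap (T : Set ℂ) p), circleMap 0 s θ ∉ K := by
      intro θ hθ hK
      have h1 := g4 (θ - p.arg) (by linarith only [hθ.1]) (by linarith only [hθ.2])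
      apply h1
      rw [Finset.mem_coe, hT]
      refine ⟨by rw [norm_mul, hT1 p hp, norm_uc, mul_one], ?_⟩
      rw [← hpt p hp, show p.arg + (θ - p.arg) = θ by ring]
      exact hK
    have hend : circleMap 0 s (p.arg + gap (T : Set ℂ) p) ∈ K := by
      rw [hpt p hp]
      exact ((hT _).1 (Finset.mem_coe.1 g3)).2
    have hstart : circleMap 0 s p.arg ∈ K := by
      have h1 := hpt p hp 0
      rw [add_zero, uc_zero, mul_one] at h1
      rw [h1]
      exact ((hT _).1 hp).2
    rw [hconv p hp]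
    refine (harc _ _ (by linarith only [g1]) (by linarith only [g2]) hstart hend hfree).trans ?_
    have hgap : gap (T : Set ℂ) p ≤ ℓ := by
      have := hℓ p.arg (p.arg + gap (T : Set ℂ) p) (by linarith only [g1]) (by linarith only [g2]) hfree
      linarith only [this]
    rw [ha, hb]
    simp only [add_sub_cancel_left]
    (clear * - hgap hc; gcongr)
  have ea : ∑ p ∈ T, a p = ∫ θ in ang, A θ := by
    rw [integral_eq_sum_arcs hTne hT1 pA iA]
    refine Finset.sum_congr rfl fun p hp => ?_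
    rw [ha, hconv p hp]
  have eb : ∑ p ∈ T, b p = ∫ θ in ang, B θ := by
    rw [integral_eq_sum_arcs hTne hT1 pB iB]
    refine Finset.sum_congr rfl fun p hp => ?_
    rw [hb, hconv p hp]
  have ha0 : ∀ p ∈ T, 0 ≤ a p := by
    intro p hp
    have g1 := (gap_spec T.finite_toSet hp (hT1 p hp)).1
    rw [ha]
    exact intervalIntegral.integral_nonneg (by linarith only [g1]) fun θ _ => hA θ
  have hb0 : ∀ p ∈ T, 0 ≤ b p := by
    intro p hp
    have g1 := (gap_spec T.finite_toSet hp (hT1 p hp)).1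
    rw [hb]
    exact intervalIntegral.integral_nonneg (by linarith only [g1]) fun θ _ => hB θ
  have hℓ0 : 0 ≤ ℓ := by
    obtain ⟨p, hp⟩ := hTne
    obtain ⟨g1, g2, g3, g4⟩ := gap_spec T.finite_toSet hp (hT1 p hp)
    have := hℓ p.arg (p.arg + gap (T : Set ℂ) p) (by linarith only [g1]) (by linarith only [g2]) (by
      intro θ hθ hK
      have h1 := g4 (θ - p.arg) (by linarith only [hθ.1]) (by linarith only [hθ.2])
      apply h1
      rw [Finset.mem_coe, hT]
      refine ⟨by rw [norm_mul, hT1 p hp, norm_uc, mul_one], ?_⟩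
      rw [← hpt p hp, show p.arg + (θ - p.arg) = θ by ring]
      exact hK)
    linarith only [g1, this]
  rw [integral_eq_sum_arcs hTne hT1 pF iF, ← ea, ← eb]
  calc _ ≤ ∑ p ∈ T, ℓ * c * (Real.sqrt (a p) * Real.sqrt (b p)) := Finset.sum_le_sum hterm
    _ = ℓ * c * ∑ p ∈ T, Real.sqrt (a p) * Real.sqrt (b p) := by rw [Finset.mul_sum]
    _ ≤ ℓ * c * (Real.sqrt (∑ p ∈ T, a p) * Real.sqrt (∑ p ∈ T, b p)) := by
        gcongr
        have h1 := Real.sum_mul_le_sqrt_mul_sqrt T (fun p => Real.sqrt (a p))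
          (fun p => Real.sqrt (b p))
        have e1 : ∑ p ∈ T, Real.sqrt (a p) ^ 2 = ∑ p ∈ T, a p :=
          Finset.sum_congr rfl fun p hp => Real.sq_sqrt (ha0 p hp)
        have e2 : ∑ p ∈ T, Real.sqrt (b p) ^ 2 = ∑ p ∈ T, b p :=
          Finset.sum_congr rfl fun p hp => Real.sq_sqrt (hb0 p hp)
        rw [e1, e2] at h1
        exact h1

end Vale.Agent.P128.GM
end

section

open MeasureTheory Set Metric Filter
open scoped ENNReal NNReal ContDiff Topology Real

namespace Vale.Agent.P128.GM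

open Vale.Agent.P128

theorem exists_gap {K : Set ℂ} {s E L T N : ℝ} (hs : 0 < s) (hE : 0 < E)
    (hb : ∀ ℓ : ℝ, GapLe K s ℓ → E ≤ ℓ * s / π * Real.sqrt (T * N))
    (hc : ∀ α β : ℝ, α < β → β ≤ α + 2 * π → (∀ θ ∈ Ioo α β, circleMap 0 s θ ∉ K) →
      E + L ≤ 2 * s * T + s + s * (2 * π - (β - α))) :
    ∃ ℓ : ℝ, 0 ≤ ℓ ∧ ℓ ≤ 2 * π ∧ E ≤ ℓ * s / π * Real.sqrt (T * N) ∧
      E + L ≤ 2 * s * T + s + s * (2 * π - ℓ) := by
  set S : Set ℝ := {d | ∃ α β : ℝ, α < β ∧ β ≤ α + 2 * π ∧
    (∀ θ ∈ Ioo α β, circleMap 0 s θ ∉ K) ∧ d = β - α} with hS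
  have hSb : ∀ d ∈ S, d ≤ 2 * π := by
    rintro d ⟨α, β, h1, h2, h3, rfl⟩
    (clear * - h2; linarith)
  have hS0 : ∀ d ∈ S, 0 < d := by
    rintro d ⟨α, β, h1, h2, h3, rfl⟩
    linarith only [h1]
  have hne : S.Nonempty := by
    by_contra hne
    rw [not_nonempty_iff_eq_empty] at hne
    have := hb 0 (fun α β h1 h2 h3 => by
      exfalso
      have : β - α ∈ S := ⟨α, β, h1, h2, h3, rfl⟩
      rw [hne] at this
      exact this)
    simp only [zero_mul, zero_div] at this
    linarith only [hE, this]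
  have hbdd : BddAbove S := ⟨2 * π, hSb⟩
  have hℓ0 : 0 ≤ sSup S := by
    obtain ⟨d, hd⟩ := hne
    exact (hS0 d hd).le.trans (le_csSup hbdd hd)
  refine ⟨sSup S, hℓ0, csSup_le hne hSb, hb _ ?_, ?_⟩
  · intro α β h1 h2 h3
    exact le_csSup hbdd ⟨α, β, h1, h2, h3, rfl⟩
  · refine le_of_forall_pos_le_add fun ε hε => ?_
    obtain ⟨d, hd, hd2⟩ := exists_lt_of_lt_csSup hne (show sSup S - ε / s < sSup S by
      have : 0 < ε / s := by positivity
      linarith only [this])
    obtain ⟨α, β, h1, h2, h3, rfl⟩ := hd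
    refine (hc α β h1 h2 h3).trans ?_
    have : s * (sSup S - ε / s) ≤ s * (β - α) := by (clear * - hd2 hs; gcongr)
    rw [mul_sub, mul_div_cancel₀ _ hs.ne'] at this
    linarith only [this]

/-- THEOREM B from its parts. -/
theorem preconnected_of {u : ℂ → ℝ} {K : Set ℂ}
    (hint : ∀ R : ℝ, IntegrableOn (fun z => ‖grad u z‖ ^ 2) (ball 0 R))
    (hgrowth : ∀ R : ℝ, 0 < R → En u R + Len K R ≤ 2 * π * R)
    (hmeet : ∀ x ∈ K, ∀ s : ℝ, ‖x‖ ≤ s → (connectedComponentIn K x ∩ sphere 0 s).Nonempty)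
    (hbonnet : ∀ᵐ s : ℝ, 0 < s → (K ∩ sphere 0 s).Nonempty → ∀ ℓ : ℝ, GapLe K s ℓ →
      En u s ≤ ℓ * s / π * Real.sqrt (TT u s * NN u s))
    (hcluster : ∀ᵐ s : ℝ, 0 < s → ∀ α β : ℝ, α < β → β ≤ α + 2 * π →
      (∀ θ ∈ Ioo α β, circleMap 0 s θ ∉ K) →
      En u s + Len K s ≤ 2 * s * TT u s + s + s * (2 * π - (β - α)))
    (hlen : ∀ R₀ : ℝ, 0 ≤ R₀ → (∀ s : ℝ, R₀ < s → ∃ p q : ℂ, p ≠ q ∧ p ∈ K ∩ sphere 0 s ∧
      q ∈ K ∩ sphere 0 s) → ∀ s : ℝ, R₀ ≤ s → 2 * (s - R₀) ≤ Len K s)
    (hpos : K.Nonempty → ∃ R : ℝ, 0 < R ∧ 0 < En u R) : IsPreconnected K := by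
  by_contra hK
  have hex : ∃ x ∈ K, ∃ y ∈ K, y ∉ connectedComponentIn K x := by
    by_contra hne
    push Not at hne
    refine hK ?_
    rcases K.eq_empty_or_nonempty with rfl | ⟨x, hx⟩
    · exact isPreconnected_empty
    · have : connectedComponentIn K x = K :=
        Subset.antisymm (connectedComponentIn_subset K x) fun y hy => hne x hx y hy
      rw [← this]
      exact isPreconnected_connectedComponentIn
  obtain ⟨x, hx, y, hy, hxy⟩ := hex
  obtain ⟨Re, hRe, hEe⟩ := hpos ⟨x, hx⟩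
  set R₀ := max ‖x‖ ‖y‖ with hR₀
  have hR₀0 : 0 ≤ R₀ := (norm_nonneg x).trans (le_max_left _ _)
  have htwo : ∀ s : ℝ, R₀ < s → ∃ p q : ℂ, p ≠ q ∧ p ∈ K ∩ sphere 0 s ∧ q ∈ K ∩ sphere 0 s := by
    intro s hs
    obtain ⟨p, hp, hps⟩ := hmeet x hx s ((le_max_left _ _).trans hs.le)
    obtain ⟨q, hq, hqs⟩ := hmeet y hy s ((le_max_right _ _).trans hs.le)
    refine ⟨p, q, ?_, ⟨connectedComponentIn_subset K x hp, hps⟩,
      ⟨connectedComponentIn_subset K y hq, hqs⟩⟩
    rintro rfl
    refine hxy ?_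
    have h1 := connectedComponentIn_eq hp
    have h2 := connectedComponentIn_eq hq
    rw [h1, ← h2]
    exact mem_connectedComponentIn hy
  have hL := hlen R₀ hR₀0 htwo
  set R₁ := max (max R₀ Re) 1 with hR₁
  have hR₁0 : 0 < R₁ := lt_of_lt_of_le one_pos (le_max_right _ _)
  have hmono : ∀ a b : ℝ, a ≤ b → En u a ≤ En u b := by
    intro a b hab
    unfold En
    exact setIntegral_mono_set (hint b) (Eventually.of_forall fun z => by (clear * -; positivity))
      (LE.le.eventuallyLE (ball_subset_ball hab))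
  have hEpos : ∀ s, R₁ ≤ s → 0 < En u s := fun s hs =>
    hEe.trans_le (hmono _ _ ((le_max_right R₀ Re).trans ((le_max_left _ _).trans hs)))
  have hLen0 : ∀ s, 0 ≤ Len K s := fun s => ENNReal.toReal_nonneg
  refine ode_contra (E := En u) (L := Len K) (T := TT u) (N := NN u) (R₀ := R₁) hR₁0 hEpos
    (fun s hs => ?_) (fun s hs => TT_nonneg u (hR₁0.le.trans hs))
    (fun s hs => NN_nonneg u (hR₁0.le.trans hs)) (fun a b ha hab => ?_) (fun s hs => ?_) ?_
  · have := hgrowth s (hR₁0.trans_le hs)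
    linarith only [this, hLen0 s]
  · exact polar_of_integrable hint (hR₁0.trans_le ha) hab
  · have h1 : R₀ ≤ R₁ := (le_max_left _ _).trans (le_max_left _ _)
    have := hL s (h1.trans hs)
    linarith only [h1, this]
  · filter_upwards [hbonnet, hcluster] with s hb hc hs
    have hs0 : 0 < s := hR₁0.trans_le hs
    have h1 : R₀ ≤ R₁ := (le_max_left _ _).trans (le_max_left _ _)
    obtain ⟨p, hp, hps⟩ := hmeet x hx s ((le_max_left _ _).trans (h1.trans hs))
    exact exists_gap hs0 (hEpos s hs)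
      (hb hs0 ⟨p, connectedComponentIn_subset K x hp, hps⟩) (hc hs0)

end Vale.Agent.P128.GM
end

section

/-! The one-dimensional inequality on an arc (Cauchy-Schwarz + Poincaré with the sharp constant). -/

open MeasureTheory Set Metric Filter
open scoped ENNReal NNReal ContDiff Topology Real

namespace Vale.Agent.P128.GM

open Vale.Agent.P128

theorem cauchy_schwarz_int {μ : Measure ℝ} {f g : ℝ → ℝ} (hf : MemLp f 2 μ) (hg : MemLp g 2 μ) :
    ∫ x, f x * g x ∂μ ≤ Real.sqrt (∫ x, f x ^ 2 ∂μ) * Real.sqrt (∫ x, g x ^ 2 ∂μ) := by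
  have h1 := integral_mul_norm_le_Lp_mul_Lq (μ := μ) (p := 2) (q := 2)
    ⟨by norm_num, by norm_num, by norm_num⟩ (f := f) (g := g) (by simpa only [ENNReal.ofReal_ofNat] using hf) (by simpa only [ENNReal.ofReal_ofNat] using hg)
  have hfg : Integrable (fun x => f x * g x) μ := hf.integrable_mul hg
  have h2 : ∫ x, f x * g x ∂μ ≤ ∫ x, ‖f x‖ * ‖g x‖ ∂μ := by
    refine integral_mono hfg (by simpa only [Real.norm_eq_abs, norm_mul] using hfg.norm) fun x => ?_
    simp only [← norm_mul]
    exact le_abs_self _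
  refine h2.trans (h1.trans (le_of_eq ?_))
  have e1 : ∀ f : ℝ → ℝ, (∫ x, ‖f x‖ ^ (2 : ℝ) ∂μ) ^ (1 / 2 : ℝ) = Real.sqrt (∫ x, f x ^ 2 ∂μ) := by
    intro f
    rw [Real.sqrt_eq_rpow]
    congr 1
    refine integral_congr_ae (Eventually.of_forall fun x => ?_)
    simp only [Real.rpow_two, Real.norm_eq_abs, sq_abs]
  rw [e1, e1]

theorem hasDerivAt_circle {u : ℂ → ℝ} {s θ : ℝ} (hd : DifferentiableAt ℝ u (circleMap 0 s θ)) :
    HasDerivAt (fun θ => u (circleMap 0 s θ)) (s * ut u s θ) θ := by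
  have h1 := hasDerivAt_circleMap 0 s θ
  have h2 := hd.hasFDerivAt.comp_hasDerivAt θ h1
  have h4 : fderiv ℝ u (circleMap 0 s θ) (circleMap 0 s θ * Complex.I) = s * ut u s θ := by
    unfold ut
    rw [inner_grad]
    have h3 : circleMap 0 s θ * Complex.I = s • (Complex.I * Complex.exp (θ * Complex.I)) := by
      simp only [circleMap, zero_add, Complex.real_smul]; ring
    rw [h3, map_smul, smul_eq_mul]
  rw [← h4]
  exact h2

theorem arc_ineq {u : ℂ → ℝ} {K : Set ℂ} (hK : IsClosed K) (hu : ContDiffOn ℝ 1 u Kᶜ)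
    {s α β : ℝ} (hs : 0 < s) (hαβ : α < β) (hI : ∀ θ ∈ Ioo α β, circleMap 0 s θ ∉ K) {M : ℝ}
    (hM : ∀ θ ∈ Ioo α β, |u (circleMap 0 s θ)| ≤ M)
    (hT : IntegrableOn (fun θ => ut u s θ ^ 2) (Ioo α β))
    (hN : IntegrableOn (fun θ => un u s θ ^ 2) (Ioo α β))
    (h0 : ∫ θ in α..β, un u s θ = 0) :
    ∫ θ in α..β, u (circleMap 0 s θ) * un u s θ ≤ (β - α) * s / π *
      (Real.sqrt (∫ θ in α..β, ut u s θ ^ 2) * Real.sqrt (∫ θ in α..β, un u s θ ^ 2)) := by
  have hKo : IsOpen Kᶜ := hK.isOpen_compl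
  have hπ := Real.pi_pos
  simp only [intervalIntegral.integral_of_le hαβ.le] at *
  simp only [integral_Ioc_eq_integral_Ioo] at *
  set f : ℝ → ℝ := fun θ => u (circleMap 0 s θ) with hf
  set h : ℝ → ℝ := fun θ => s * ut u s θ with hh
  have hcm : Continuous fun θ : ℝ => circleMap 0 s θ := continuous_circleMap 0 s
  have hfc : ContinuousOn f (Ioo α β) :=
    hu.continuousOn.comp hcm.continuousOn fun θ hθ => hI θ hθ
  have hder : ∀ θ ∈ Ioo α β, HasDerivAt f (h θ) θ := fun θ hθ =>
    hasDerivAt_circle ((hu.differentiableOn one_ne_zero).differentiableAt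
      (hKo.mem_nhds (hI θ hθ)))
  have hgradc : ContinuousOn (grad u) Kᶜ := by
    have h1 : ContinuousOn (fderiv ℝ u) Kᶜ := hu.continuousOn_fderiv_of_isOpen hKo le_rfl
    have h2 : grad u = fun z => (fderiv ℝ u z 1 : ℂ) + (fderiv ℝ u z Complex.I : ℂ) * Complex.I := by
      funext z
      apply Complex.ext <;> simp [grad]
    rw [h2]
    have h3 : ContinuousOn (fun z => fderiv ℝ u z 1) Kᶜ := h1.clm_apply continuousOn_const
    have h4 : ContinuousOn (fun z => fderiv ℝ u z Complex.I) Kᶜ := h1.clm_apply continuousOn_const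
    exact (Complex.continuous_ofReal.comp_continuousOn h3).add
      ((Complex.continuous_ofReal.comp_continuousOn h4).mul continuousOn_const)
  have hhc : ContinuousOn h (Ioo α β) := by
    have h1 : ContinuousOn (fun θ : ℝ => grad u (circleMap 0 s θ)) (Ioo α β) :=
      hgradc.comp hcm.continuousOn fun θ hθ => hI θ hθ
    exact continuousOn_const.mul (h1.inner (by fun_prop))
  have hfin : IsFiniteMeasure (volume.restrict (Ioo α β)) := ⟨by simp only [MeasurableSet.univ, Measure.restrict_apply, univ_inter, Real.volume_Ioo, ENNReal.ofReal_lt_top]⟩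
  have hfm : MemLp f 2 (volume.restrict (Ioo α β)) := by
    refine MemLp.of_bound (hfc.aestronglyMeasurable measurableSet_Ioo) M ?_
    filter_upwards [ae_restrict_mem measurableSet_Ioo] with θ hθ
    exact hM θ hθ
  have hTm : MemLp (fun θ => ut u s θ) 2 (volume.restrict (Ioo α β)) :=
    (memLp_two_iff_integrable_sq (measurable_ut u s).aestronglyMeasurable).2 hT
  have hNm : MemLp (fun θ => un u s θ) 2 (volume.restrict (Ioo α β)) :=
    (memLp_two_iff_integrable_sq (measurable_un u s).aestronglyMeasurable).2 hN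
  have hhm : MemLp h 2 (volume.restrict (Ioo α β)) := hTm.const_mul s
  have hw : ∀ φ : ℝ → ℝ, ContDiff ℝ ∞ φ → HasCompactSupport φ → tsupport φ ⊆ Ioo α β →
      ∫ t in Ioo α β, f t * deriv φ t = - ∫ t in Ioo α β, h t * φ t := by
    intro φ h1 h2 h3
    have hφc : Continuous φ := h1.continuous
    have hφd : Continuous (deriv φ) := h1.continuous_deriv (by simp only [WithTop.one_le_coe, le_top])
    have hz : ∀ θ, θ ∉ tsupport φ → φ θ = 0 := fun θ hθ => image_eq_zero_of_notMem_tsupport hθ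
    have hz' : ∀ θ, θ ∉ tsupport φ → deriv φ θ = 0 := fun θ hθ =>
      image_eq_zero_of_notMem_tsupport fun hm => hθ (tsupport_deriv_subset hm)
    have key : ∀ {g ψ : ℝ → ℝ}, ContinuousOn g (Ioo α β) → Continuous ψ →
        (∀ θ, θ ∉ tsupport φ → ψ θ = 0) → Integrable fun θ => g θ * ψ θ := by
      intro g ψ hg hψ hψ0
      have h4 : IntegrableOn (fun θ => g θ * ψ θ) (tsupport φ) :=
        ((hg.mono h3).mul hψ.continuousOn).integrableOn_compact h2.isCompact
      refine (integrableOn_iff_integrable_of_support_subset ?_).1 h4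
      intro θ hθ
      by_contra hcon
      exact hθ (by simp [hψ0 θ hcon])
    have i1 : Integrable fun θ => f θ * deriv φ θ := key hfc hφd hz'
    have i2 : Integrable fun θ => h θ * φ θ := key hhc hφc hz
    have i3 : Integrable fun θ => f θ * φ θ := key hfc hφc hz
    have hF : ∀ θ, HasDerivAt (fun θ => f θ * φ θ) (h θ * φ θ + f θ * deriv φ θ) θ := by
      intro θ
      by_cases hθ : θ ∈ tsupport φ
      · exact (hder θ (h3 hθ)).mul ((h1.differentiable (by simp)) θ).hasDerivAt
      · rw [hz θ hθ, hz' θ hθ, mul_zero, mul_zero, add_zero]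
        have h4 : (fun θ => f θ * φ θ) =ᶠ[𝓝 θ] fun _ => (0 : ℝ) := by
          filter_upwards [(isClosed_tsupport φ).isOpen_compl.mem_nhds hθ] with y hy
          simp [hz y hy]
        exact (hasDerivAt_const θ (0 : ℝ)).congr_of_eventuallyEq h4
    have h5 := integral_eq_zero_of_hasDerivAt_of_integrable hF (i2.add i1) i3
    rw [integral_add i2 i1] at h5
    rw [setIntegral_eq_integral_of_forall_compl_eq_zero fun θ hθ => by
        rw [hz' θ fun hm => hθ (h3 hm), mul_zero],
      setIntegral_eq_integral_of_forall_compl_eq_zero fun θ hθ => by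
        rw [hz θ fun hm => hθ (h3 hm), mul_zero]]
    linarith only [h5]
  have hP := arc_poincare hαβ hfm hhm hw
  set m := (β - α)⁻¹ * ∫ t in Ioo α β, f t with hm
  have hfm' : MemLp (fun θ => f θ - m) 2 (volume.restrict (Ioo α β)) :=
    hfm.sub (memLp_const m)
  have hCS := cauchy_schwarz_int hfm' hNm
  have e1 : ∫ θ in Ioo α β, (f θ - m) * un u s θ = ∫ θ in Ioo α β, f θ * un u s θ := by
    have i1 : Integrable (fun θ => f θ * un u s θ) (volume.restrict (Ioo α β)) :=
      hfm.integrable_mul hNm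
    have i2 : Integrable (fun θ => m * un u s θ) (volume.restrict (Ioo α β)) :=
      (hNm.integrable (by norm_num)).const_mul m
    have : (fun θ => (f θ - m) * un u s θ) = fun θ => f θ * un u s θ - m * un u s θ := by
      funext θ; ring
    rw [this, integral_sub i1 i2, integral_const_mul, h0, mul_zero, sub_zero]
  rw [e1] at hCS
  refine hCS.trans ?_
  have e2 : ∫ t in Ioo α β, h t ^ 2 = s ^ 2 * ∫ t in Ioo α β, ut u s t ^ 2 := by
    rw [← integral_const_mul]
    refine integral_congr_ae (Eventually.of_forall fun t => ?_)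
    simp only [hh]; ring
  rw [e2] at hP
  have e3 : Real.sqrt (∫ t in Ioo α β, (f t - m) ^ 2) ≤
      (β - α) * s / π * Real.sqrt (∫ t in Ioo α β, ut u s t ^ 2) := by
    have h6 : 0 ≤ (β - α) * s / π := by
      have : 0 ≤ β - α := by linarith only [hαβ]
      positivity
    rw [← Real.sqrt_sq h6, ← Real.sqrt_mul (sq_nonneg _)]
    refine Real.sqrt_le_sqrt (hP.trans (le_of_eq ?_))
    ring
  calc Real.sqrt (∫ t in Ioo α β, (f t - m) ^ 2) * Real.sqrt (∫ t in Ioo α β, un u s t ^ 2)
      ≤ ((β - α) * s / π * Real.sqrt (∫ t in Ioo α β, ut u s t ^ 2)) *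
        Real.sqrt (∫ t in Ioo α β, un u s t ^ 2) :=
        mul_le_mul_of_nonneg_right e3 (Real.sqrt_nonneg _)
    _ = _ := by ring

end Vale.Agent.P128.GM
end

section

/-! There are arbitrarily short pieces. -/

open MeasureTheory Set Metric Filter
open scoped ENNReal NNReal Topology Real

namespace Vale.Agent.P128.GM

open Vale.Agent.P128

variable {K : Set ℂ}

theorem h1_singleton (w : ℂ) : μH[1] ({w} : Set ℂ) = 0 := by
  have := Measure.nullSingletonClass_hausdorff ℂ (d := 1) one_pos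
  exact measure_singleton w

/-- Points around which all small disks are too long form a null set. -/
theorem covering_zero (hc : IsClosed K) {R : ℝ} (hfin : μH[1] (K ∩ ball 0 (R + 1)) ≠ ⊤) {ε : ℝ}
    (hε : 0 < ε) {S : Set ℂ} (hS : S ⊆ K ∩ ball 0 R)
    (h3 : ∀ w ∈ S, ∀ ρ, 0 < ρ → ρ ≤ ε → 3 * ENNReal.ofReal ρ ≤ μH[1] (K ∩ ball w ρ)) :
    μH[1] S = 0 := by
  set X : Set ℂ := K ∩ ball 0 (R + 1) with hX
  have hXm : MeasurableSet X := hc.measurableSet.inter measurableSet_ball
  set μ : Measure ℂ := μH[1].restrict X with hμ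
  have hfm : IsFiniteMeasure μ := ⟨by rw [hμ, Measure.restrict_apply_univ]; exact hfin.lt_top⟩
  have hSX : S ⊆ X := hS.trans (inter_subset_inter_right _ (ball_subset_ball (by linarith)))
  have hμS : μ S = μH[1] S := by
    rw [hμ, Measure.restrict_apply' hXm, inter_eq_self_of_subset_left hSX]
  have claim : ∀ O : Set ℂ, IsOpen O → S ⊆ O → 3 * μH[1] S ≤ 2 * μ O := by
    intro O hO hSO
    -- radii
    have hrad : ∀ n : ℕ, ∀ w ∈ S, ∃ ρ, 0 < ρ ∧ ρ ≤ ε ∧ ρ ≤ 1 / ((n : ℝ) + 1) ∧
        closedBall w ρ ⊆ O ∧ ball w ρ ⊆ ball 0 (R + 1) := by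
      intro n w hw
      obtain ⟨δ, hδ, hδO⟩ := Metric.isOpen_iff.1 hO w (hSO hw)
      have hn : (0 : ℝ) < 1 / ((n : ℝ) + 1) := by (clear * -; positivity)
      refine ⟨min (min ε (1 / ((n : ℝ) + 1))) (min (δ / 2) 1), by (clear * - hε hδ; positivity),
        (min_le_left _ _).trans (min_le_left _ _), (min_le_left _ _).trans (min_le_right _ _),
        ?_, ?_⟩
      · refine (closedBall_subset_ball ?_).trans hδO
        have : min (min ε (1 / ((n : ℝ) + 1))) (min (δ / 2) 1) ≤ δ / 2 :=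
          (min_le_right _ _).trans (min_le_left _ _)
        linarith only [this, hδ]
      · intro z hz
        rw [mem_ball] at hz
        have h1 : dist z w < 1 := hz.trans_le ((min_le_right _ _).trans (min_le_right _ _))
        have h2 := mem_ball.1 (hS hw).2
        rw [mem_ball]
        linarith only [dist_triangle z w 0, h2, h1]
    choose! ρ hρ0 hρε hρn hρO hρR using hrad
    have hbes := fun n : ℕ => Besicovitch.exists_disjoint_closedBall_covering_ae μ
      (fun _ => univ) S (fun x _ δ hδ => ⟨δ / 2, mem_univ _, by constructor <;> linarith⟩)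
      (ρ n) (fun x hx => hρ0 n x hx)
    choose t r htc htS hr hnull hdisj using hbes
    have hr0 : ∀ n, ∀ x ∈ t n, 0 < r n x := fun n x hx => (hr n x hx).2.1
    have hrρ : ∀ n, ∀ x ∈ t n, r n x < ρ n x := fun n x hx => (hr n x hx).2.2
    set Z : Set ℂ := ⋃ n, (S \ ⋃ x ∈ t n, closedBall x (r n x)) with hZ
    have hZ0 : μ Z = 0 := measure_iUnion_null hnull
    have hZS : Z ⊆ S := iUnion_subset fun n => sdiff_subset
    have hZ0' : μH[1] Z = 0 := by
      rw [hμ, Measure.restrict_apply' hXm, inter_eq_self_of_subset_left (hZS.trans hSX)] at hZ0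
      exact hZ0
    -- the sums
    have hsum : ∀ n, (∑' x : t n, μ (closedBall (x : ℂ) (r n x))) ≤ μ O := by
      intro n
      rw [← measure_biUnion (htc n) (hdisj n) fun x _ => isClosed_closedBall.measurableSet]
      refine measure_mono (iUnion₂_subset fun x hx => ?_)
      exact (closedBall_subset_closedBall (hrρ n x hx).le).trans (hρO n x (htS n hx))
    have hlow : ∀ n, ∀ x ∈ t n, 3 * ENNReal.ofReal (r n x) ≤ μ (closedBall x (r n x)) := by
      intro n x hx
      have hxS := htS n hx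
      refine (h3 x hxS (r n x) (hr0 n x hx) ((hrρ n x hx).le.trans (hρε n x hxS))).trans ?_
      rw [hμ, Measure.restrict_apply' hXm]
      refine measure_mono ?_
      rintro z ⟨hzK, hz⟩
      exact ⟨ball_subset_closedBall hz, hzK,
        hρR n x hxS (ball_subset_ball (hrρ n x hx).le hz)⟩
    have hdiam : ∀ n, ∀ x ∈ t n, ediam (closedBall x (r n x)) ≤ 2 * ENNReal.ofReal (r n x) := by
      intro n x hx
      have := ediam_le_of_forall_dist_le (s := closedBall x (r n x)) (C := 2 * r n x)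
        fun a ha b hb => by
          have h1 := mem_closedBall.1 ha
          have h2 := mem_closedBall'.1 hb
          linarith [dist_triangle a x b]
      rwa [ENNReal.ofReal_mul (by norm_num), ENNReal.ofReal_ofNat] at this
    have hcount : ∀ n, Countable (t n) := fun n => (htc n).to_subtype
    have hsum2 : ∀ n, 3 * (∑' x : t n, ediam (closedBall (x : ℂ) (r n x)) ^ (1 : ℝ)) ≤ 2 * μ O := by
      intro n
      calc 3 * (∑' x : t n, ediam (closedBall (x : ℂ) (r n x)) ^ (1 : ℝ))
          = ∑' x : t n, 3 * ediam (closedBall (x : ℂ) (r n x)) := by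
            simp only [ENNReal.rpow_one]
            rw [ENNReal.tsum_mul_left]
        _ ≤ ∑' x : t n, 2 * μ (closedBall (x : ℂ) (r n x)) := by
            refine ENNReal.tsum_le_tsum fun x => ?_
            calc 3 * ediam (closedBall (x : ℂ) (r n x)) ≤ 3 * (2 * ENNReal.ofReal (r n x)) := by
                  gcongr
                  exact hdiam n x x.2
              _ = 2 * (3 * ENNReal.ofReal (r n x)) := by ring
              _ ≤ 2 * μ (closedBall (x : ℂ) (r n x)) := by
                  gcongr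
                  exact hlow n x x.2
        _ = 2 * ∑' x : t n, μ (closedBall (x : ℂ) (r n x)) := ENNReal.tsum_mul_left
        _ ≤ 2 * μ O := by
            gcongr
            exact hsum n
    have hlim : Tendsto (fun n : ℕ => 2 * ENNReal.ofReal (1 / ((n : ℝ) + 1))) atTop (𝓝 0) := by
      have h1 := ENNReal.tendsto_ofReal tendsto_one_div_add_atTop_nhds_zero_nat
      rw [ENNReal.ofReal_zero] at h1
      have h2 := ENNReal.Tendsto.const_mul (a := 2) h1 (Or.inr (by norm_num))
      rwa [mul_zero] at h2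
    have hH := Measure.hausdorffMeasure_le_liminf_tsum (β := ℕ) (ι := fun n => t n) 1 (S \ Z)
      (l := atTop) (fun n : ℕ => 2 * ENNReal.ofReal (1 / ((n : ℝ) + 1))) hlim
      (fun n x => closedBall (x : ℂ) (r n x))
      (Eventually.of_forall fun n x => by
        refine (hdiam n x x.2).trans ?_
        gcongr
        exact (hrρ n x x.2).le.trans (hρn n x (htS n x.2)))
      (Eventually.of_forall fun n z hz => by
        have : z ∉ S \ ⋃ x ∈ t n, closedBall x (r n x) := fun h => hz.2 (mem_iUnion.2 ⟨n, h⟩)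
        by_contra hcon
        refine this ⟨hz.1, fun h => hcon ?_⟩
        obtain ⟨x, hx, hzx⟩ := mem_iUnion₂.1 h
        exact mem_iUnion.2 ⟨⟨x, hx⟩, hzx⟩)
    have hS1 : μH[1] S ≤ μH[1] (S \ Z) := by
      calc μH[1] S ≤ μH[1] ((S \ Z) ∪ Z) := measure_mono fun z hz => by
            by_cases h : z ∈ Z
            · exact Or.inr h
            · exact Or.inl ⟨hz, h⟩
        _ ≤ μH[1] (S \ Z) + μH[1] Z := measure_union_le _ _
        _ = μH[1] (S \ Z) := by rw [hZ0', add_zero]
    have h4 : liminf (fun n => ∑' x : t n, ediam (closedBall (x : ℂ) (r n x)) ^ (1 : ℝ)) atTop ≤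
        2 * μ O / 3 := by
      refine (liminf_le_liminf (v := fun _ => 2 * μ O / 3) (Eventually.of_forall fun n => ?_)).trans
        (by rw [liminf_const])
      rw [ENNReal.le_div_iff_mul_le (Or.inl (by norm_num)) (Or.inl (by norm_num)), mul_comm]
      exact hsum2 n
    have h5 := (hS1.trans hH).trans h4
    rw [ENNReal.le_div_iff_mul_le (Or.inl (by norm_num)) (Or.inl (by norm_num)), mul_comm] at h5
    exact h5
  -- outer regularity
  have hSfin : μH[1] S ≠ ⊤ := by rw [← hμS]; exact measure_ne_top _ _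
  have key : ∀ δ : ℝ≥0∞, δ ≠ 0 → 3 * μH[1] S ≤ 2 * (μH[1] S + δ) := by
    intro δ hδ
    obtain ⟨O, hSO, hO, hle⟩ := Set.exists_isOpen_le_add S μ hδ
    refine (claim O hO hSO).trans ?_
    rw [hμS] at hle
    gcongr
  by_contra hne
  obtain ⟨a, ha⟩ : ∃ a : ℝ≥0, μH[1] S = a :=
    ⟨(μH[1] S).toNNReal, (ENNReal.coe_toNNReal hSfin).symm⟩
  rw [ha] at hne
  have hane : a ≠ 0 := fun h => hne (by rw [h]; rfl)
  have h6 := key ((a / 4 : ℝ≥0) : ℝ≥0∞) (by
    rw [ne_eq, ENNReal.coe_eq_zero]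
    exact div_ne_zero hane (by norm_num))
  rw [ha] at h6
  have h8 : (3 * a : ℝ≥0) ≤ 2 * (a + a / 4) := by exact_mod_cast h6
  have h9 : (3 * (a : ℝ)) ≤ 2 * ((a : ℝ) + a / 4) := by exact_mod_cast h8
  have h10 : (0 : ℝ) ≤ a := a.2
  have h11 : (a : ℝ) = 0 := by linarith
  exact hne (by exact_mod_cast h11)

/-- a circle about `w` of arbitrarily small radius meets `K` in at most two points -/
def Good (K : Set ℂ) (w : ℂ) : Prop := ∀ ε > 0, ∃ r, 0 < r ∧ r < ε ∧ (K ∩ sphere w r).encard ≤ 2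

theorem bad_zero (hc : IsClosed K) (hfin : ∀ R, μH[1] (K ∩ ball 0 R) ≠ ⊤) (R : ℝ) :
    μH[1] {w ∈ K ∩ ball 0 R | ¬ Good K w} = 0 := by
  have hsub : {w ∈ K ∩ ball 0 R | ¬ Good K w} ⊆ ⋃ n : ℕ, {w ∈ K ∩ ball 0 R |
      ∀ ρ, 0 < ρ → ρ ≤ 1 / ((n : ℝ) + 1) → 3 * ENNReal.ofReal ρ ≤ μH[1] (K ∩ ball w ρ)} := by
    rintro w ⟨hw, hbad⟩
    unfold Good at hbad
    push Not at hbad
    obtain ⟨ε, hε, hbad⟩ := hbad
    obtain ⟨n, hn⟩ := exists_nat_one_div_lt hε
    refine mem_iUnion.2 ⟨n, hw, fun ρ hρ hρn => ?_⟩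
    have h1 := eilenberg (X := ℂ) (f := fun z => dist z w) (LipschitzWith.dist_left w) (E := K)
      (m := 3) (S := Ioo 0 ρ) (fun s hs => by
        have h2 := hbad s hs.1 (by linarith [hs.2])
        have h3 : K ∩ (fun z => dist z w) ⁻¹' {s} = K ∩ sphere w s := by
          ext z
          simp only [mem_inter_iff, mem_preimage, mem_singleton_iff, mem_sphere]
        rw [h3]
        have h4 : ((2 : ℕ) : ℕ∞) < (K ∩ sphere w s).encard := h2
        exact Order.add_one_le_of_lt h4)
    rw [Real.volume_Ioo, sub_zero] at h1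
    refine (le_of_eq (by norm_num)).trans (h1.trans (measure_mono ?_))
    rintro z ⟨hz, hz'⟩
    exact ⟨hz, hz'.2⟩
  refine measure_mono_null hsub (measure_iUnion_null fun n => ?_)
  exact covering_zero hc (hfin (R + 1)) (by positivity) (fun w hw => hw.1) fun w hw => hw.2

/-- minimizing up to a small error among the pieces inside a piece -/
theorem almost_min {U : Set ℂ} (hU : ∃ x, Pc K U x) (hfin : μH[1] U ≠ ⊤) {δ : ℝ≥0∞} (hδ : δ ≠ 0) :
    ∃ V, (∃ x, Pc K V x) ∧ V ⊆ U ∧ ∀ W, (∃ x, Pc K W x) → W ⊆ U → μH[1] V ≤ μH[1] W + δ := by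
  set I : Set ℝ≥0∞ := {a | ∃ W, (∃ x, Pc K W x) ∧ W ⊆ U ∧ a = μH[1] W} with hI
  have hne : I.Nonempty := ⟨_, U, hU, Subset.rfl, rfl⟩
  have hlt : sInf I ≠ ⊤ :=
    ne_top_of_le_ne_top hfin (sInf_le ⟨U, hU, Subset.rfl, rfl⟩)
  obtain ⟨a, ⟨V, hV, hVU, rfl⟩, ha⟩ := exists_lt_of_csInf_lt hne (ENNReal.lt_add_right hlt hδ)
  refine ⟨V, hV, hVU, fun W hW hWU => ha.le.trans ?_⟩
  gcongr
  exact sInf_le ⟨W, hW, hWU, rfl⟩

theorem Pc.measurableSet (hc : IsClosed K) {U : Set ℂ} {x : ℂ} (h : Pc K U x) :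
    MeasurableSet U := by
  have : U = K \ (K \ U) := (sdiff_sdiff_cancel_left h.sub).symm
  rw [this]
  exact hc.measurableSet.diff h.cc.measurableSet

theorem exists_radius (hc : IsClosed K) (hfin : ∀ R, μH[1] (K ∩ ball 0 R) ≠ ⊤) {R₀ : ℝ} {w : ℂ}
    (hw : w ∈ ball (0 : ℂ) R₀) {ε : ℝ≥0∞} (hε : 0 < ε) :
    ∃ r, 0 < r ∧ closedBall w r ⊆ ball 0 R₀ ∧ μH[1] (K ∩ closedBall w r) < ε := by
  obtain ⟨δ, hδ, hδb⟩ := Metric.isOpen_iff.1 isOpen_ball w hw
  have hanti : Antitone fun n : ℕ => K ∩ closedBall w (δ / 2 / ((n : ℝ) + 1)) := by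
    intro n m hnm
    refine inter_subset_inter_right _ (closedBall_subset_closedBall ?_)
    have : (n : ℝ) ≤ m := by exact_mod_cast hnm
    gcongr
  have hsub : ∀ n : ℕ, closedBall w (δ / 2 / ((n : ℝ) + 1)) ⊆ ball 0 R₀ := by
    intro n
    refine (closedBall_subset_ball ?_).trans hδb
    have h1 : δ / 2 / ((n : ℝ) + 1) ≤ δ / 2 := div_le_self (by positivity) (by
      have : (0 : ℝ) ≤ n := Nat.cast_nonneg n
      linarith)
    linarith only [h1, hδ]
  have hlim := tendsto_measure_iInter_atTop (μ := μH[1])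
    (s := fun n : ℕ => K ∩ closedBall w (δ / 2 / ((n : ℝ) + 1)))
    (fun n => (hc.measurableSet.inter isClosed_closedBall.measurableSet).nullMeasurableSet) hanti
    ⟨0, ne_top_of_le_ne_top (hfin R₀) (measure_mono (inter_subset_inter_right _ (hsub 0)))⟩
  have hzero : μH[1] (⋂ n : ℕ, K ∩ closedBall w (δ / 2 / ((n : ℝ) + 1))) = 0 := by
    refine measure_mono_null (t := {w}) (fun z hz => ?_) (h1_singleton w)
    rw [mem_singleton_iff]
    by_contra hne
    have hd : 0 < dist z w := dist_pos.2 hne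
    obtain ⟨n, hn⟩ := exists_nat_gt (δ / 2 / dist z w)
    have h1 := (mem_iInter.1 hz n).2
    rw [mem_closedBall, le_div_iff₀ (by (clear * -; positivity))] at h1
    rw [div_lt_iff₀ hd] at hn
    linarith only [h1, hn, hd]
  rw [hzero] at hlim
  obtain ⟨n, hn⟩ := (hlim.eventually (gt_mem_nhds hε)).exists
  exact ⟨_, by positivity, hsub n, hn⟩

/-- There are arbitrarily short pieces. -/
theorem inf_piece (hK : IsPreconnected K) (hc : IsClosed K) (hu : ¬ Bornology.IsBounded K)
    (hKc : IsPreconnected Kᶜ) (hfin : ∀ R, μH[1] (K ∩ ball 0 R) ≠ ⊤)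
    (hone : ∀ R : ℝ, ∃ s, R ≤ s ∧ ∃ p, K ∩ sphere (0 : ℂ) s = {p}) {R₀ : ℝ} {p₀ : ℂ}
    (hR₀ : K ∩ sphere (0 : ℂ) R₀ = {p₀}) (hne : (K ∩ ball 0 R₀).Nonempty) {ε : ℝ≥0∞}
    (hε : 0 < ε) : ∃ U x, Pc K U x ∧ U ⊆ ball 0 R₀ ∧ μH[1] U < ε := by
  by_contra hcon
  push Not at hcon
  have hlow : ∀ U, (∃ x, Pc K U x) → U ⊆ ball 0 R₀ → ε ≤ μH[1] U := fun U ⟨x, hx⟩ h =>
    hcon U x hx h
  have hfinU : ∀ U x, Pc K U x → U ⊆ ball 0 R₀ → μH[1] U ≠ ⊤ := fun U x h hU =>
    ne_top_of_le_ne_top (hfin R₀) (measure_mono (subset_inter h.sub hU))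
  have hp₀ : p₀ ∈ K ∩ sphere (0 : ℂ) R₀ := by rw [hR₀]; rfl
  -- the first piece
  have hP0 : Pc K (K ∩ ball 0 R₀) p₀ := by
    refine ⟨inter_subset_left, hne, isBounded_ball.subset inter_subset_right, ?_, hp₀.1, ?_, ?_⟩
    · rw [sdiff_self_inter]
      exact hc.sdiff isOpen_ball
    · rintro ⟨-, h⟩
      exact (ne_of_lt (mem_ball.1 h)) (mem_sphere.1 hp₀.2)
    · have : insert p₀ (K ∩ ball 0 R₀) = K ∩ closedBall 0 R₀ := by
        rw [← ball_union_sphere, inter_union_distrib_left, hR₀, union_singleton]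
      rw [this]
      exact hc.inter isClosed_closedBall
  -- branches
  have hbr : ∀ w ∈ K ∩ ball 0 R₀, Good K w → ∃ U, Pc K U w := by
    intro w hw hg
    obtain ⟨r, hr, hrb, hrε⟩ := exists_radius hc hfin hw.2 hε
    refine exists_branch hK hc hu hKc hone hw.1 hg hr fun U x h hU => ?_
    exact absurd (hlow U ⟨x, h⟩ (hU.trans hrb))
      (not_le.2 ((measure_mono (subset_inter h.sub hU)).trans_lt hrε))
  -- the sequence of pieces
  have hstep : ∀ (n : ℕ) (U : Set ℂ), (∃ x, Pc K U x) ∧ U ⊆ ball 0 R₀ →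
      ∃ V, ((∃ x, Pc K V x) ∧ V ⊆ ball 0 R₀) ∧ V ⊆ U ∧
        ∀ W, (∃ x, Pc K W x) → W ⊆ U → μH[1] V ≤ μH[1] W + ENNReal.ofReal (1 / ((n : ℝ) + 1)) := by
    rintro n U ⟨⟨x, hx⟩, hU⟩
    obtain ⟨V, h1, h2, h3⟩ := almost_min (K := K) ⟨x, hx⟩ (hfinU U x hx hU)
      (δ := ENNReal.ofReal (1 / ((n : ℝ) + 1))) (by
        rw [ne_eq, ENNReal.ofReal_eq_zero, not_le]; (clear * -; positivity))
    exact ⟨V, ⟨h1, h2.trans hU⟩, h2, h3⟩
  choose! next hnext1 hnext2 hnext3 using hstep
  set P : ℕ → Set ℂ := fun n => Nat.rec (K ∩ ball 0 R₀) (fun n U => next n U) n with hP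
  have hPs : ∀ n, P (n + 1) = next n (P n) := fun n => rfl
  have hPp : ∀ n, (∃ x, Pc K (P n) x) ∧ P n ⊆ ball 0 R₀ := by
    intro n
    induction n with
    | zero => exact ⟨⟨p₀, hP0⟩, inter_subset_right⟩
    | succ n ih => rw [hPs]; exact hnext1 n _ ih
  have hanti : Antitone P := antitone_nat_of_succ_le fun n => by
    rw [hPs]; exact hnext2 n _ (hPp n)
  have hmin : ∀ n W, (∃ x, Pc K W x) → W ⊆ P n →
      μH[1] (P (n + 1)) ≤ μH[1] W + ENNReal.ofReal (1 / ((n : ℝ) + 1)) := fun n W hW hWn => by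
    rw [hPs]; exact hnext3 n _ (hPp n) W hW hWn
  set N : Set ℂ := ⋂ n, P n with hN
  have hNP : ∀ n, N ⊆ P n := fun n => iInter_subset _ n
  have hNK : N ⊆ K ∩ ball 0 R₀ := hNP 0
  have hNfin : μH[1] N ≠ ⊤ := ne_top_of_le_ne_top (hfin R₀) (measure_mono hNK)
  have hPm : ∀ n, MeasurableSet (P n) := fun n => by
    obtain ⟨⟨x, hx⟩, -⟩ := hPp n
    exact hx.measurableSet hc
  have hNε : ε ≤ μH[1] N := by
    have hlim := tendsto_measure_iInter_atTop (μ := μH[1]) (s := P)
      (fun n => (hPm n).nullMeasurableSet) hanti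
      ⟨0, ne_top_of_le_ne_top (hfin R₀) le_rfl⟩
    exact ge_of_tendsto' hlim fun n => hlow _ (hPp n).1 (hPp n).2
  -- good points of the support
  set N' : Set ℂ := {w ∈ N | Good K w ∧ ∀ ρ > 0, 0 < μH[1] (N ∩ ball w ρ)} with hN'
  have hN'ε : μH[1] N' ≠ 0 := by
    intro h0
    have h1 : μH[1] {w ∈ N | ∃ ρ > 0, μH[1] (N ∩ ball w ρ) = 0} = 0 := by
      refine measure_null_of_locally_null _ fun w hw => ?_
      obtain ⟨hwN, ρ, hρ, h⟩ := hw
      refine ⟨N ∩ ball w ρ, ?_, h⟩
      refine mem_of_superset (inter_mem self_mem_nhdsWithin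
        (mem_nhdsWithin_of_mem_nhds (ball_mem_nhds w hρ))) fun z hz => ⟨hz.1.1, hz.2⟩
    have h2 := bad_zero hc hfin R₀
    have h3 : N ⊆ N' ∪ ({w ∈ N | ∃ ρ > 0, μH[1] (N ∩ ball w ρ) = 0} ∪
        {w ∈ K ∩ ball 0 R₀ | ¬ Good K w}) := by
      intro w hw
      by_cases hg : Good K w
      · by_cases hs : ∀ ρ > 0, 0 < μH[1] (N ∩ ball w ρ)
        · exact Or.inl ⟨hw, hg, hs⟩
        · push Not at hs
          obtain ⟨ρ, hρ, h⟩ := hs
          exact Or.inr (Or.inl ⟨hw, ρ, hρ, le_antisymm h bot_le⟩)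
      · exact Or.inr (Or.inr ⟨hNK hw, hg⟩)
    have h4 : μH[1] N = 0 :=
      measure_mono_null h3 (measure_union_null h0 (measure_union_null h1 h2))
    rw [h4] at hNε
    exact absurd hε (not_lt.2 hNε)
  have hnt : ¬ N'.Subsingleton := by
    intro hs
    apply hN'ε
    rcases hs.eq_empty_or_singleton with h | ⟨a, h⟩
    · rw [h]; exact measure_empty
    · rw [h]; exact h1_singleton a
  rw [not_subsingleton_iff] at hnt
  obtain ⟨a, ha, b, hb, hab⟩ := hnt
  -- the contradiction
  have key : ∀ a ∈ N', ∀ b ∈ N', a ≠ b → ∀ V, Pc K V a → b ∉ V → False := by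
    intro a ha b hb hab V hV hbV
    have hVP : ∀ n, V ⊆ P n := by
      intro n
      obtain ⟨⟨x, hx⟩, -⟩ := hPp n
      exact hx.nest hK hu hV (hNP n ha.1)
    have hVN : V ⊆ N := subset_iInter hVP
    have hbi : b ∉ insert a V := by
      rintro (h | h)
      · exact hab h.symm
      · exact hbV h
    obtain ⟨ρ, hρ, hρV⟩ := Metric.isOpen_iff.1 hV.ic.isOpen_compl b hbi
    have hpos := hb.2.2 ρ hρ
    have h1 : μH[1] (N ∩ ball b ρ) + μH[1] V ≤ μH[1] N := by
      rw [← measure_inter_add_sdiff N (measurableSet_ball (x := b) (ε := ρ))]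
      gcongr
      intro z hz
      exact ⟨hVN hz, fun hzb => hρV hzb (Or.inr hz)⟩
    have hVfin : μH[1] V ≠ ⊤ := ne_top_of_le_ne_top hNfin (measure_mono hVN)
    have h2 : ∀ n : ℕ, μH[1] (N ∩ ball b ρ) ≤ ENNReal.ofReal (1 / ((n : ℝ) + 1)) := by
      intro n
      have h3 : μH[1] N ≤ μH[1] V + ENNReal.ofReal (1 / ((n : ℝ) + 1)) :=
        (measure_mono (hNP (n + 1))).trans (hmin n V ⟨a, hV⟩ (hVP n))
      have h4 := h1.trans h3
      rw [add_comm (μH[1] V)] at h4
      exact (ENNReal.add_le_add_iff_right hVfin).1 h4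
    have hlim : Tendsto (fun n : ℕ => ENNReal.ofReal (1 / ((n : ℝ) + 1))) atTop (𝓝 0) := by
      have h5 := ENNReal.tendsto_ofReal tendsto_one_div_add_atTop_nhds_zero_nat
      rwa [ENNReal.ofReal_zero] at h5
    have h6 := ge_of_tendsto' hlim h2
    exact absurd hpos (not_lt.2 h6)
  obtain ⟨V, hV⟩ := hbr a (hNK ha.1) ha.2.1
  by_cases hbV : b ∈ V
  · obtain ⟨W, hW⟩ := hbr b (hNK hb.1) hb.2.1
    have hWV : W ⊆ V := hV.nest hK hu hW hbV
    exact key b hb a ha hab.symm W hW fun h => hV.nb (hWV h)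
  · exact key a ha b hb hab V hV hbV

end Vale.Agent.P128.GM
end

section

/-! Dangling pieces: the statements of the skeleton. -/

open MeasureTheory Set Metric Filter
open scoped ENNReal NNReal Topology Real

namespace Vale.Agent.P128.GM

open Vale.Agent.P128

variable {K : Set ℂ}

theorem IsPiece.pc {x : ℂ} {U : Set ℂ} (h : IsPiece K x U) : Pc K U x :=
  ⟨h.sub, h.ne, h.bdd, h.out, h.base.1, h.base.2, h.cl⟩

theorem Pc.isPiece {x : ℂ} {U : Set ℂ} (h : Pc K U x) : IsPiece K x U :=
  ⟨h.ne, h.sub, h.bdd, h.cc, ⟨h.base, h.nb⟩, h.ic⟩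

theorem IsPiece.conn (hK : Cont K) {x : ℂ} {U : Set ℂ} (hU : IsPiece K x U) :
    IsPreconnected (insert x U) := hU.pc.piece_preconnected hK.conn

theorem IsPiece.conn_out (hK : Cont K) {x : ℂ} {U : Set ℂ} (hU : IsPiece K x U) :
    IsPreconnected (K \ U) := hU.pc.rest_preconnected hK.conn

/-- a closed set of locally finite length has dense complement -/
theorem Cont.dense_compl (hK : Cont K) : Dense Kᶜ := by
  have h0 : volume K = 0 := vol_zero_of_len hK.closed hK.fin
  rw [← interior_eq_empty_iff_dense_compl]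
  exact (isOpen_interior.measure_eq_zero_iff volume).1 (measure_mono_null interior_subset h0)

/-- removing a piece preserves the hypotheses -/
theorem IsPiece.cont (hK : Cont K) {x : ℂ} {U : Set ℂ} (hU : IsPiece K x U) : Cont (K \ U) := by
  refine ⟨hU.out, hU.conn_out hK, ?_, hU.pc.rest_unbounded hK.unbdd, ?_, ?_⟩
  · refine hK.compl.subset_closure (compl_subset_compl.2 sdiff_subset) ?_
    rw [hK.dense_compl.closure_eq]
    exact subset_univ _
  · intro S
    obtain ⟨R, hR⟩ := hU.bdd.subset_ball (0 : ℂ)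
    obtain ⟨s, hs, p, hp⟩ := hK.oneEnd (max S R)
    refine ⟨s, (le_max_left _ _).trans_lt hs, p, ?_⟩
    rw [← hp]
    ext z
    constructor
    · rintro ⟨h1, h2⟩
      exact ⟨h1.1, h2⟩
    · rintro ⟨h1, h2⟩
      refine ⟨⟨h1, fun hz => ?_⟩, h2⟩
      have h3 := mem_ball.1 (hR hz)
      rw [mem_sphere.1 h2] at h3
      exact absurd ((le_max_right S R).trans_lt hs) (not_lt.2 h3.le)
  · intro R
    exact (measure_mono (inter_subset_inter_left _ sdiff_subset)).trans_lt (hK.fin R)

/-- connected sets: length at least the distance of two points -/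
theorem len_ge_dist {S : Set ℂ} (hS : IsPreconnected S) {x y : ℂ} (hx : x ∈ S) (hy : y ∈ S) :
    ENNReal.ofReal (dist x y) ≤ μH[1] S := by
  have hc : Continuous fun z : ℂ => dist z x := continuous_id.dist continuous_const
  have himg : IsPreconnected ((fun z : ℂ => dist z x) '' S) := hS.image _ hc.continuousOn
  have hIcc : Icc 0 (dist x y) ⊆ (fun z : ℂ => dist z x) '' S :=
    himg.Icc_subset ⟨x, hx, dist_self x⟩ ⟨y, hy, dist_comm y x⟩
  have h1 := eilenberg (X := ℂ) (f := fun z => dist z x) (LipschitzWith.dist_left x) (E := S)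
    (m := 1) (S := Icc 0 (dist x y)) (fun s hs => by
      obtain ⟨z, hz, hzs⟩ := hIcc hs
      rw [Nat.cast_one, one_le_encard_iff_nonempty]
      exact ⟨z, hz, hzs⟩)
  rw [Real.volume_Icc, sub_zero, Nat.cast_one, one_mul] at h1
  exact h1.trans (measure_mono inter_subset_left)

/-- C4(a): there are dangling pieces of arbitrarily small length -/
theorem exists_short_piece (hK : Cont K) {s₀ : ℝ} (_hs₀ : 0 < s₀) (h1 : OnePt K s₀)
    (hne : (K ∩ ball 0 s₀).Nonempty) {ε : ℝ} (hε : 0 < ε) :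
    ∃ x U, IsPiece K x U ∧ U ⊆ ball 0 s₀ ∧ μH[1] U < ENNReal.ofReal ε := by
  obtain ⟨p, hp⟩ := h1
  obtain ⟨U, x, hU, hb, hl⟩ := inf_piece hK.conn hK.closed hK.unbdd hK.compl
    (fun R => (hK.fin R).ne) (fun R => by
      obtain ⟨s, hs, p, hp⟩ := hK.oneEnd R
      exact ⟨s, hs.le, p, hp⟩) hp hne (ENNReal.ofReal_pos.2 hε)
  exact ⟨x, U, hU.isPiece, hb, hl⟩

end Vale.Agent.P128.GM
end

section

/-! The maximum principle for a global minimizer on an enclosed piece of the complement. -/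

open MeasureTheory Set Metric Filter InnerProductSpace
open scoped ENNReal NNReal ContDiff Topology Real

namespace Vale.Agent.P128.GM

open Vale.Agent.P128

variable {u : ℂ → ℝ} {K : Set ℂ}

/-- the truncation -/
noncomputable def maxPt (m t : ℝ) : ℝ := max (t - m) 0

theorem maxPt_firm (m x y : ℝ) :
    (maxPt m x - maxPt m y) ^ 2 ≤ (maxPt m x - maxPt m y) * (x - y) := by
  unfold maxPt
  rcases max_cases (x - m) 0 with h1 | h1 <;> rcases max_cases (y - m) 0 with h2 | h2 <;>
    rw [h1.1, h2.1] <;> nlinarith [h1.2, h2.2]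

theorem maxPt_lip (m : ℝ) : LipschitzWith 1 (maxPt m) := by
  refine LipschitzWith.of_dist_le_mul fun x y => ?_
  rw [NNReal.coe_one, one_mul, Real.dist_eq, Real.dist_eq]
  have h := abs_max_sub_max_le_abs (x - m) (y - m) 0
  unfold maxPt
  have e : x - m - (y - m) = x - y := by ring
  rwa [e] at h

/-- gradient inequality for the truncation of `g` -/
theorem maxP_grad_firm (m : ℝ) {g : ℂ → ℝ} {z : ℂ} (hg : DifferentiableAt ℝ g z) :
    ‖grad (fun w => maxPt m (g w)) z‖ ^ 2 ≤
      inner ℝ (grad g z) (grad (fun w => maxPt m (g w)) z) := by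
  by_cases hf : DifferentiableAt ℝ (fun w => maxPt m (g w)) z
  swap
  · have : grad (fun w => maxPt m (g w)) z = 0 := by
      unfold grad
      rw [fderiv_zero_of_not_differentiableAt hf]
      apply Complex.ext <;> simp
    rw [this]
    simp
  set f := fun w => maxPt m (g w) with hfdef
  have key : ∀ v : ℂ, (fderiv ℝ f z v) ^ 2 ≤ fderiv ℝ f z v * fderiv ℝ g z v := by
    intro v
    have hline : ∀ {φ : ℂ → ℝ}, DifferentiableAt ℝ φ z →
        Tendsto (fun t : ℝ => t⁻¹ * (φ (z + t • v) - φ z)) (𝓝[≠] 0) (𝓝 (fderiv ℝ φ z v)) := by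
      intro φ hφ
      have h1 : HasDerivAt (fun t : ℝ => φ (z + t • v)) (fderiv ℝ φ z v) 0 := by
        have h2 : HasDerivAt (fun t : ℝ => z + t • v) v 0 := by
          simpa using ((hasDerivAt_id (0 : ℝ)).smul_const v).const_add z
        have h3 : HasFDerivAt φ (fderiv ℝ φ z) (z + (0 : ℝ) • v) := by
          simpa using hφ.hasFDerivAt
        exact h3.comp_hasDerivAt 0 h2
      have h4 := hasDerivAt_iff_tendsto_slope_zero.1 h1
      simpa using h4
    have hF := hline hf
    have hG := hline hg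
    refine le_of_tendsto_of_tendsto (hF.pow 2) (hF.mul hG) (Eventually.of_forall fun t => ?_)
    have h5 := maxPt_firm m (g (z + t • v)) (g z)
    have h7 := mul_le_mul_of_nonneg_left h5 (sq_nonneg t⁻¹)
    simp only [hfdef]
    calc (t⁻¹ * (maxPt m (g (z + t • v)) - maxPt m (g z))) ^ 2
        = t⁻¹ ^ 2 * (maxPt m (g (z + t • v)) - maxPt m (g z)) ^ 2 := by ring
      _ ≤ _ := h7
      _ = _ := by ring
  have h1 : fderiv ℝ f z (grad f z) = ‖grad f z‖ ^ 2 := by
    rw [← inner_grad, real_inner_self_eq_norm_sq]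
  have h2 : fderiv ℝ g z (grad f z) = inner ℝ (grad g z) (grad f z) := (inner_grad g z _).symm
  have h3 := key (grad f z)
  rw [h1, h2] at h3
  by_cases h0 : ‖grad f z‖ ^ 2 = 0
  · have : grad f z = 0 := by simpa using h0
    rw [this]
    simp
  · have h4 : 0 < ‖grad f z‖ ^ 2 := lt_of_le_of_ne (sq_nonneg _) (Ne.symm h0)
    rw [pow_two] at h3
    exact le_of_mul_le_mul_left h3 h4

theorem maxP_norm_le {a b : ℂ} (h : ‖a‖ ^ 2 ≤ inner ℝ b a) : ‖a‖ ≤ ‖b‖ := by
  have h1 := h.trans (real_inner_le_norm b a)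
  by_cases h0 : ‖a‖ = 0
  · rw [h0]; exact norm_nonneg _
  · have h2 : 0 < ‖a‖ := lt_of_le_of_ne (norm_nonneg _) (Ne.symm h0)
    rw [pow_two] at h1
    exact le_of_mul_le_mul_right h1 h2

open scoped Classical in
/-- the test function -/
noncomputable def maxPsi (u : ℂ → ℝ) (V : Set ℂ) (m : ℝ) (z : ℂ) : ℝ :=
  if z ∈ V then maxPt m (u z) else 0

theorem maxPsi_in {V : Set ℂ} (hV : IsOpen V) {m : ℝ} {z : ℂ} (hz : z ∈ V) :
    maxPsi u V m =ᶠ[𝓝 z] fun w => maxPt m (u w) := by
  filter_upwards [hV.mem_nhds hz] with w hw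
  unfold maxPsi
  rw [if_pos hw]

/-- the test function vanishes near every other point -/
theorem maxPsi_out (hK : IsClosed K) (huc : ContinuousOn u Kᶜ) {V I : Set ℂ}
    (hcl : closure V ⊆ V ∪ K ∪ I) {M m : ℝ} (hM : ∀ z ∈ I, u z ≤ M) (hm : M < m)
    {z : ℂ} (hz : z ∉ K) (hzV : z ∉ V) : maxPsi u V m =ᶠ[𝓝 z] fun _ => 0 := by
  by_cases hzc : z ∈ closure V
  · have hzI : z ∈ I := by
      rcases hcl hzc with (h | h) | h
      · exact absurd h hzV
      · exact absurd h hz
      · exact h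
    have hc : ContinuousAt u z := huc.continuousAt (hK.isOpen_compl.mem_nhds hz)
    filter_upwards [hc.eventually_lt_const (lt_of_le_of_lt (hM z hzI) hm)] with w hw
    unfold maxPsi maxPt
    rw [max_eq_right (by linarith)]
    exact ite_self _
  · filter_upwards [isClosed_closure.isOpen_compl.mem_nhds hzc] with w hw
    unfold maxPsi
    rw [if_neg fun h => hw (subset_closure h)]

/-- maximum principle -/
theorem GMin.maxP (h : GMin u K) {V I : Set ℂ} (hV : IsOpen V) (hb : Bornology.IsBounded V)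
    (hVK : V ⊆ Kᶜ) (_hIK : I ⊆ Kᶜ) (hcl : closure V ⊆ V ∪ K ∪ I)
    {M : ℝ} (hM : ∀ z ∈ I, u z ≤ M) : ∀ z ∈ V, u z ≤ M := by
  intro z₀ hz₀
  by_contra hcon
  push Not at hcon
  -- a level between `M` and `u z₀`
  obtain ⟨m, hMm, hmu⟩ := exists_between hcon
  obtain ⟨R, hR⟩ := hb.subset_ball 0
  have hKo := h.isOpen_compl
  have huc : ContinuousOn u Kᶜ := h.locLip.continuousOn
  have hC2 : ContDiffOn ℝ 2 u Kᶜ := h.harm.contDiffOn
  have hdiff : ∀ z ∈ Kᶜ, DifferentiableAt ℝ u z := fun z hz =>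
    (h.harm z hz).1.differentiableAt (by norm_num)
  have hgc : ContinuousOn (grad u) Kᶜ := by
    have h1 : ContinuousOn (fderiv ℝ u) Kᶜ := hC2.continuousOn_fderiv_of_isOpen hKo (by norm_num)
    have h2 : ContinuousOn (fun z => fderiv ℝ u z 1) Kᶜ := h1.clm_apply continuousOn_const
    have h3 : ContinuousOn (fun z => fderiv ℝ u z Complex.I) Kᶜ := h1.clm_apply continuousOn_const
    have : grad u = fun z => (fderiv ℝ u z 1 : ℂ) + (fderiv ℝ u z Complex.I : ℂ) * Complex.I := by
      funext z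
      apply Complex.ext <;> simp [grad]
    rw [this]
    exact (Complex.continuous_ofReal.comp_continuousOn h2).add
      ((Complex.continuous_ofReal.comp_continuousOn h3).mul continuousOn_const)
  set ψ := maxPsi u V m with hψ
  have hin : ∀ z ∈ V, ψ =ᶠ[𝓝 z] fun w => maxPt m (u w) := fun z hz => maxPsi_in hV hz
  have hout : ∀ z, z ∉ K → z ∉ V → ψ =ᶠ[𝓝 z] fun _ => 0 := fun z hz hzV =>
    maxPsi_out h.closed huc hcl hM hMm hz hzV
  -- locally Lipschitz
  have hψL : LocLip Kᶜ ψ := by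
    refine LocLip.of_local fun z hz => ?_
    by_cases hzV : z ∈ V
    · refine ⟨V, fun w => maxPt m (u w), hV, hzV, hVK,
        (h.locLip.comp_lipschitz (maxPt_lip m)).mono hV hVK, fun w hw => ?_⟩
      rw [hψ]
      unfold maxPsi
      rw [if_pos hw]
    · obtain ⟨W, hW, hWo, hzW⟩ := _root_.eventually_nhds_iff.1 (hout z hz hzV)
      exact ⟨W ∩ Kᶜ, fun _ => 0, hWo.inter hKo, ⟨hzW, hz⟩, inter_subset_right,
        LocLip.const (hWo.inter hKo) 0, fun w hw => hW w hw.1⟩
  have hψR : ∀ z, z ∉ K → R ≤ ‖z‖ → ψ z = 0 := by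
    intro z _ hz
    rw [hψ]
    unfold maxPsi
    rw [if_neg fun hzV => absurd (mem_ball_zero_iff.1 (hR hzV)) (not_lt.2 hz)]
  -- pointwise inequality
  have hpt : ∀ z, z ∉ K → ‖grad ψ z‖ ^ 2 ≤ inner ℝ (grad u z) (grad ψ z) ∧
      ‖grad ψ z‖ ≤ (ball (0 : ℂ) R).indicator (fun z => ‖grad u z‖) z := by
    intro z hz
    by_cases hzV : z ∈ V
    · rw [indicator_of_mem (hR hzV), grad_congr (hin z hzV)]
      have h1 := maxP_grad_firm m (hdiff z hz)
      exact ⟨h1, maxP_norm_le h1⟩
    · have h1 : grad ψ z = 0 := by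
        rw [grad_congr (hout z hz hzV), grad_const]
      rw [h1, norm_zero, inner_zero_right]
      exact ⟨by norm_num, indicator_nonneg (fun _ _ => norm_nonneg _) _⟩
  have hind : Integrable ((ball (0 : ℂ) R).indicator (fun z => ‖grad u z‖ ^ 2)) :=
    (h.integrableOn R).integrable_indicator measurableSet_ball
  have hψi : Integrable (fun z => ‖grad ψ z‖ ^ 2) := by
    refine hind.mono' ((measurable_grad ψ).norm.pow_const 2).aestronglyMeasurable ?_
    filter_upwards [h.ae_compl] with z hz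
    rw [Real.norm_eq_abs, abs_of_nonneg (sq_nonneg _)]
    have h1 := pow_le_pow_left₀ (norm_nonneg _) (hpt z hz).2 2
    by_cases hzb : z ∈ ball (0 : ℂ) R
    · rw [indicator_of_mem hzb] at h1 ⊢
      exact h1
    · rw [indicator_of_notMem hzb] at h1 ⊢
      simpa using h1
  have hint0 := h.el hψL ⟨R, hψR⟩ hψi
  have hhi : Integrable (fun z => (inner ℝ (grad u z) (grad ψ z) : ℝ)) := by
    refine hind.mono' ((measurable_grad u).inner (measurable_grad ψ)).aestronglyMeasurable ?_
    filter_upwards [h.ae_compl] with z hz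
    have h2 := (hpt z hz).2
    refine (abs_real_inner_le_norm _ _).trans ?_
    by_cases hzb : z ∈ ball (0 : ℂ) R
    · rw [indicator_of_mem hzb] at h2 ⊢
      rw [pow_two]
      exact mul_le_mul_of_nonneg_left h2 (norm_nonneg _)
    · rw [indicator_of_notMem hzb] at h2 ⊢
      rw [le_antisymm h2 (norm_nonneg _), mul_zero]
  have hzero : ∀ᵐ z : ℂ, grad ψ z = 0 := by
    have h1 := (integral_eq_zero_iff_of_nonneg_ae (f := fun z =>
      (inner ℝ (grad u z) (grad ψ z) : ℝ)) (by
        filter_upwards [h.ae_compl] with z hz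
        exact (sq_nonneg _).trans (hpt z hz).1) hhi).1 hint0
    filter_upwards [h1, h.ae_compl] with z hz1 hzK
    have h2 : (inner ℝ (grad u z) (grad ψ z) : ℝ) = 0 := hz1
    have h4 := (hpt z hzK).1
    rw [h2] at h4
    have h3 : ‖grad ψ z‖ ^ 2 = 0 := le_antisymm h4 (sq_nonneg _)
    simpa using h3
  -- the set where `u > m`
  set W : Set ℂ := V ∩ {z | m < u z} with hW
  have hWo : IsOpen W := (huc.mono hVK).isOpen_inter_preimage hV isOpen_Ioi
  have hWK : W ⊆ Kᶜ := fun z hz => hVK hz.1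
  have hWg : ∀ z ∈ W, grad ψ z = grad u z := by
    intro z hz
    have hcz : ContinuousAt u z := huc.continuousAt (hKo.mem_nhds (hWK hz))
    have h2 : (fun w => maxPt m (u w)) =ᶠ[𝓝 z] fun w => u w - m := by
      filter_upwards [hcz.eventually_const_lt hz.2] with w hw
      unfold maxPt
      exact max_eq_left (by linarith)
    rw [grad_congr (hin z hz.1), grad_congr h2, grad_sub (hdiff z (hWK hz))
      (differentiableAt_const m), grad_const, sub_zero]
  have hg0 : EqOn (grad u) (fun _ => 0) W := by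
    refine Measure.eqOn_open_of_ae_eq (μ := volume) ?_ hWo (hgc.mono hWK) continuousOn_const
    rw [EventuallyEq, ae_restrict_iff' hWo.measurableSet]
    filter_upwards [hzero] with z hz hzW
    rw [← hWg z hzW, hz]
  obtain ⟨r, hr, hball⟩ := Metric.isOpen_iff.1 hWo z₀ ⟨hz₀, hmu⟩
  have hf0 : (ball z₀ r).EqOn (fderiv ℝ u) 0 := by
    intro z hz
    have h2 : ‖fderiv ℝ u z‖ = 0 := by
      rw [← norm_grad, hg0 (hball hz), norm_zero]
    simpa using h2
  have hcst : ∀ z ∈ ball z₀ r, u z = u z₀ := fun z hz =>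
    isOpen_ball.is_const_of_fderiv_eq_zero (convex_ball z₀ r).isPreconnected
      (fun w hw => (hdiff w (hWK (hball hw))).differentiableWithinAt) hf0 hz (mem_ball_self hr)
  have hana : AnalyticOnNhd ℝ u Kᶜ := fun z hz => HarmonicAt.analyticAt (h.harm z hz)
  have hall := hana.eqOn_of_preconnected_of_eventuallyEq
    (analyticOnNhd_const (v := u z₀)) h.conn (hVK hz₀) (by
      filter_upwards [ball_mem_nhds z₀ hr] with z hz using hcst z hz)
  -- `V` is relatively closed
  have hsub : Kᶜ ⊆ V := by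
    refine h.conn.subset_of_closure_inter_subset hV ⟨z₀, hVK hz₀, hz₀⟩ fun z hz => ?_
    rcases hcl hz.1 with (h1 | h1) | h1
    · exact h1
    · exact absurd h1 hz.2
    · have h2 := hM z h1
      rw [hall hz.2] at h2
      simp only at h2
      linarith
  have huniv : volume (univ : Set ℂ) ≤ volume K + volume (ball (0 : ℂ) R) := by
    refine (measure_mono fun z _ => ?_).trans (measure_union_le K (ball (0 : ℂ) R))
    by_cases hz : z ∈ K
    · exact Or.inl hz
    · exact Or.inr (hR (hsub hz))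
  rw [h.vol_zero, zero_add] at huniv
  have h1 : volume (ball (0 : ℂ) R) < ⊤ := measure_ball_lt_top
  have h2 : volume (univ : Set ℂ) = ⊤ := measure_univ_of_isAddLeftInvariant volume
  rw [h2] at huniv
  exact absurd huniv (not_le.2 h1)

end Vale.Agent.P128.GM
end

section

/-! # P128, Theorem C, part C4(b): the energy at a dangling piece -/

open MeasureTheory Set Metric Filter InnerProductSpace
open scoped ENNReal NNReal ContDiff Topology Real

namespace Vale.Agent.P128.GM

open Vale.Agent.P128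

variable {u : ℂ → ℝ} {K : Set ℂ}

/-! ### the symmetry `u ↦ -u` -/

theorem grad_negf (u : ℂ → ℝ) (z : ℂ) : grad (fun w => -u w) z = -grad u z := by
  have h : fderiv ℝ (fun w => -u w) z = -fderiv ℝ u z := fderiv_fun_neg
  apply Complex.ext
  · simp [grad, h]
  · simp [grad, h]

theorem IsWeakGrad.negf {U : Set ℂ} {G : ℂ → ℂ} (h : IsWeakGrad U u G) :
    IsWeakGrad U (fun w => -u w) (fun w => -G w) := by
  intro φ h1 h2 h3 v
  have h4 := h φ h1 h2 h3 v
  simp only [neg_mul, inner_neg_left, integral_neg, h4]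

theorem W12loc.negf {U : Set ℂ} {G : ℂ → ℂ} (h : W12loc U u G) :
    W12loc U (fun w => -u w) (fun w => -G w) :=
  ⟨fun C h1 h2 => (h.memLp C h1 h2).neg, fun C h1 h2 => (h.grad_memLp C h1 h2).neg, IsWeakGrad.negf h.weak⟩

theorem genergy_neg (G : ℂ → ℂ) (K V : Set ℂ) : genergy (fun z => -G z) K V = genergy G K V := by
  unfold genergy
  simp only [norm_neg]

theorem IsGlobalMin.negf {G : ℂ → ℂ} (h : IsGlobalMin u G K) :
    IsGlobalMin (fun w => -u w) (fun w => -G w) K := by
  refine ⟨h.closed, h.sobolev.negf, fun x r => ?_, ?_⟩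
  · rw [genergy_neg]
    exact h.finite x r
  · intro x r v H L hL hv hC hs
    rw [genergy_neg]
    have h1 := h.minimal x r (fun w => -v w) (fun w => -H w) L hL hv.negf (by
      obtain ⟨C, h1, h2, h3, h4⟩ := hC
      refine ⟨C, h1, h2, h3, ?_⟩
      filter_upwards [h4] with z hz hzC
      rw [hz hzC, neg_neg]) hs
    rwa [genergy_neg] at h1

theorem GMin.negf (h : GMin u K) : GMin (fun w => -u w) K := by
  have e : grad (fun w => -u w) = fun w => -grad u w := by
    funext z
    exact grad_negf u z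
  refine ⟨?_, ?_, h.conn, h.red⟩
  · rw [e]
    exact h.gm.negf
  · exact h.harm.neg

/-! ### small topological facts -/

/-- a preconnected set contained in a ball and avoiding the obstacles stays inside `V` -/
theorem subset_of_outer {L V I D : Set ℂ} (hV : IsOpen V) (hcl : closure V ⊆ V ∪ L ∪ I)
    (hD : IsPreconnected D) (hDL : Disjoint D L) (hDI : Disjoint D I) {z : ℂ} (hz : z ∈ D)
    (hzV : z ∈ V) : D ⊆ V := by
  refine hD.subset_of_closure_inter_subset hV ⟨z, hz, hzV⟩ ?_
  rintro y ⟨hy, hyD⟩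
  rcases hcl hy with (h | h) | h
  · exact h
  · exact absurd h (disjoint_left.1 hDL hyD)
  · exact absurd h (disjoint_left.1 hDI hyD)

/-- an unbounded preconnected set meets all spheres around its points -/
theorem pieceEn_meets_sphere {L : Set ℂ} (hL : IsPreconnected L) (hb : ¬ Bornology.IsBounded L) {x : ℂ}
    (hx : x ∈ L) {s : ℝ} (hs : 0 ≤ s) : (L ∩ sphere x s).Nonempty := by
  obtain ⟨y, hy, hys⟩ : ∃ y ∈ L, s < dist y x := by
    by_contra hcon
    push Not at hcon
    exact hb ((isBounded_closedBall (x := x) (r := s)).subset fun y hy => mem_closedBall.2 (hcon y hy))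
  obtain ⟨p, hp, hps⟩ := hL.intermediate_value hx hy
    (f := fun y => dist y x) (by fun_prop) (show s ∈ Icc _ _ by simp [hs, hys.le])
  exact ⟨p, hp, hps⟩

/-! ### the facts of the other files, as hypotheses -/

/-- conclusion of `exists_outer` -/
def OuterAt (L : Set ℂ) (x : ℂ) (r : ℝ) : Prop :=
  (L ∩ sphere x r).Finite → (L ∩ sphere x r).Nonempty → ∀ z₀ ∈ ball x r, z₀ ∉ L →
    ∃ V I : Set ℂ, IsOpen V ∧ Bornology.IsBounded V ∧ V ⊆ Lᶜ ∧ z₀ ∈ V ∧ IsPreconnected I ∧
      I ⊆ sphere x r \ L ∧ closure V ⊆ V ∪ L ∪ I ∧ Disjoint V I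

/-- conclusion of `GMin.osc_arc` -/
def OscArc (u : ℂ → ℝ) (K : Set ℂ) : Prop :=
  ∀ᵐ s : ℝ, 0 < s → ∀ I : Set ℂ, IsPreconnected I →
    I ⊆ sphere 0 s \ K → ∀ a ∈ I, ∀ b ∈ I, (u a - u b) ^ 2 ≤ 2 * π * s * TT u s

/-- conclusion of `GMin.remove_piece` -/
def RemovePiece (u : ℂ → ℝ) (K U : Set ℂ) (x : ℂ) (d : ℝ) : Prop :=
  ∀ r J : ℝ, 2 * d < r → (∀ z z' : ℂ, z ∉ K → z' ∉ K →
      z' ∈ connectedComponentIn ((K \ U)ᶜ ∩ ball x r) z → |u z - u z'| ≤ J) → d ≤ 10000 * J ^ 2

/-! ### the oscillation on the components -/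

theorem GMin.piece_osc (h : GMin u K) {U : Set ℂ} {x : ℂ} (hU : IsPiece K x U)
    (hL : Cont (K \ U)) {d : ℝ} (hUd : U ⊆ closedBall x d) {s J : ℝ}
    (hout : OuterAt (K \ U) x s) (hs : 0 < s)
    (hds : d < s) (hf : (K ∩ sphere x s).Finite)
    (hJ : ∀ I : Set ℂ, IsPreconnected I → I ⊆ sphere x s \ K → ∀ a ∈ I, ∀ b ∈ I, u a - u b ≤ J)
    {z z' : ℂ} (hz : z ∉ K) (hz' : z' ∉ K)
    (hzz : z' ∈ connectedComponentIn ((K \ U)ᶜ ∩ ball x s) z) : |u z - u z'| ≤ J := by
  set L := K \ U with hLdef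
  have hzm : z ∈ Lᶜ ∩ ball x s := by
    by_contra hcon
    rw [connectedComponentIn_eq_empty hcon] at hzz
    exact hzz
  have hdisj : Disjoint U (sphere x s) := by
    rw [disjoint_left]
    intro y hy hys
    have h1 := mem_closedBall.1 (hUd hy)
    rw [mem_sphere.1 hys] at h1
    linarith
  obtain ⟨V, I, hV, hVb, hVL, hzV, hI, hIs, hcl, -⟩ := hout
    (hf.subset (inter_subset_inter_left _ sdiff_subset))
    (pieceEn_meets_sphere hL.conn hL.unbdd hU.base hs.le) z hzm.2 hzm.1
  have hD : connectedComponentIn (Lᶜ ∩ ball x s) z ⊆ V := by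
    have hsub := connectedComponentIn_subset (Lᶜ ∩ ball x s) z
    refine subset_of_outer hV hcl isPreconnected_connectedComponentIn ?_ ?_
      (mem_connectedComponentIn hzm) hzV
    · rw [disjoint_left]
      intro y hy
      exact (hsub hy).1
    · rw [disjoint_left]
      intro y hy hyI
      have h1 := mem_ball.1 (hsub hy).2
      rw [mem_sphere.1 (hIs hyI).1] at h1
      exact lt_irrefl _ h1
  have hz'V : z' ∈ V := hD hzz
  -- the set `V \ K`
  have hV' : IsOpen (V \ K) := hV.sdiff h.closed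
  have hIK : I ⊆ sphere x s \ K := by
    intro y hy
    refine ⟨(hIs hy).1, fun hyK => (hIs hy).2 ⟨hyK, fun hyU => ?_⟩⟩
    exact disjoint_left.1 hdisj hyU (hIs hy).1
  have hIK' : I ⊆ Kᶜ := fun y hy => (hIK hy).2
  have hcl' : closure (V \ K) ⊆ (V \ K) ∪ K ∪ I := by
    intro y hy
    rcases hcl (closure_mono sdiff_subset hy) with (h1 | h1) | h1
    · by_cases hyK : y ∈ K
      · exact Or.inl (Or.inr hyK)
      · exact Or.inl (Or.inl ⟨h1, hyK⟩)
    · exact Or.inl (Or.inr h1.1)
    · exact Or.inr h1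
  have hb' : Bornology.IsBounded (V \ K) := hVb.subset sdiff_subset
  have hVK' : V \ K ⊆ Kᶜ := fun y hy => hy.2
  have key : ∀ {a b : ℂ}, a ∈ V \ K → b ∈ V \ K → u a - u b ≤ J := by
    intro a b ha hb
    have h1 : ∀ w ∈ I, u a ≤ u w + J := by
      intro w hw
      refine h.maxP hV' hb' hVK' hIK' hcl' (fun y hy => ?_) a ha
      have := hJ I hI hIK y hy w hw
      linarith
    have h2 := h.negf.maxP hV' hb' hVK' hIK' hcl' (M := J - u a) (fun y hy => by
      have := h1 y hy
      linarith) b hb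
    linarith
  have k1 := key ⟨hzV, hz⟩ ⟨hz'V, hz'⟩
  have k2 := key ⟨hz'V, hz'⟩ ⟨hzV, hz⟩
  rw [abs_le]
  constructor <;> linarith

/-- **C4(b)**, from the statements of the other files -/
theorem GMin.piece_energy_of (h : GMin u K) {U : Set ℂ} {x : ℂ}
    (hU : IsPiece K x U) {d : ℝ} (hd : 0 < d) (hUd : U ⊆ closedBall x d) (hL : Cont (K \ U))
    (hout : ∀ s : ℝ, 0 < s → OuterAt (K \ U) x s)
    (hosc : OscArc (Vale.Agent.P128.GM.shift x u) (shiftSet x K))
    (hrem : RemovePiece u K U x d) : d / 100000 ≤ Ec u x (6 * d) := by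
  set v := Vale.Agent.P128.GM.shift x u with hv
  have h' : GMin v (shiftSet x K) := h.shift x
  have hpi := Real.pi_pos
  have hT : ∀ᵐ s : ℝ, s ∈ Ioo (2 * d) (6 * d) → d ≤ 20000 * π * s * TT v s := by
    filter_upwards [hosc, h'.ae_finite] with s ho hfin hs
    have hs0 : 0 < s := by linarith [hs.1]
    have ho := ho hs0
    have hfin := hfin hs0
    have hTT := TT_nonneg v hs0.le
    have hf : (K ∩ sphere x s).Finite := by
      refine (hfin.image (fun z => z + x)).subset ?_
      rintro y ⟨hy, hys⟩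
      refine ⟨y - x, ⟨?_, ?_⟩, by simp⟩
      · show y - x + x ∈ K
        rwa [sub_add_cancel]
      · rw [mem_sphere_zero_iff_norm, ← dist_eq_norm]
        exact hys
    set J := Real.sqrt (2 * π * s * TT v s) with hJdef
    have hJ2 : J ^ 2 = 2 * π * s * TT v s := Real.sq_sqrt (by positivity)
    have hJ : ∀ I : Set ℂ, IsPreconnected I → I ⊆ sphere x s \ K → ∀ a ∈ I, ∀ b ∈ I,
        u a - u b ≤ J := by
      intro I hI hIs a ha b hb
      have h1 := ho (shiftSet x I) (isPreconnected_shiftSet hI x) (by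
        intro y hy
        have hy' : y + x ∈ I := hy
        refine ⟨?_, (hIs hy').2⟩
        have := mem_sphere.1 (hIs hy').1
        rw [mem_sphere_zero_iff_norm]
        simpa [dist_eq_norm] using this) (a - x)
        (show a - x + x ∈ I by rwa [sub_add_cancel]) (b - x)
        (show b - x + x ∈ I by rwa [sub_add_cancel])
      have e1 : v (a - x) = u a := by simp [hv, Vale.Agent.P128.GM.shift]
      have e2 : v (b - x) = u b := by simp [hv, Vale.Agent.P128.GM.shift]
      rw [e1, e2] at h1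
      exact Real.le_sqrt_of_sq_le h1
    have h2 := hrem s J hs.1 (fun z z' hz hz' hzz =>
      h.piece_osc hU hL hUd (hout s hs0) hs0 (by linarith [hs.1]) hf hJ hz hz' hzz)
    rw [hJ2] at h2
    linarith
  have hi := h'.integrableOn
  obtain ⟨hint, heq⟩ := polar_of_integrable hi (a := 2 * d) (b := 6 * d) (by positivity)
    (by linarith)
  have hE0 : 0 ≤ En v (2 * d) := by
    unfold En
    exact integral_nonneg fun z => by positivity
  have hlow : (6 * d - 2 * d) * (1 / (120000 * π)) ≤ ∫ s in (2 * d)..(6 * d), (NN v s + TT v s) := by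
    rw [← smul_eq_mul, ← intervalIntegral.integral_const]
    refine intervalIntegral.integral_mono_ae_restrict (by linarith) (by simp) hint ?_
    have hT' : ∀ᵐ s : ℝ, s ∈ Icc (2 * d) (6 * d) → d ≤ 20000 * π * s * TT v s := by
      have hne : ∀ c : ℝ, ∀ᵐ s : ℝ, s ≠ c := fun c => by
        simp [ae_iff]
      filter_upwards [hT, hne (2 * d), hne (6 * d)] with s hs h1 h2 hsI
      exact hs ⟨lt_of_le_of_ne hsI.1 (Ne.symm h1), lt_of_le_of_ne hsI.2 h2⟩
    rw [Filter.EventuallyLE, ae_restrict_iff' measurableSet_Icc]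
    filter_upwards [hT'] with s hs hsI
    have h1 := hs hsI
    have hs0 : 0 < s := by linarith only [hsI.1, hd]
    have hN := NN_nonneg v hs0.le
    have hTn := TT_nonneg v hs0.le
    have h3 : 1 / (120000 * π) ≤ TT v s := by
      rw [div_le_iff₀ (by positivity)]
      have h4 : 20000 * π * s * TT v s ≤ 20000 * π * (6 * d) * TT v s := by
        have := hsI.2
        gcongr
      have h5 : d * 1 ≤ d * (TT v s * (120000 * π)) := by linarith only [h4, h1]
      exact le_of_mul_le_mul_left h5 hd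
    show 1 / (120000 * π) ≤ NN v s + TT v s
    linarith only [h3, hN]
  rw [← heq, En_shift] at hlow
  have h6 : d / 100000 ≤ (6 * d - 2 * d) * (1 / (120000 * π)) := by
    have hp : π < 3.15 := Real.pi_lt_d2
    rw [show (6 * d - 2 * d) * (1 / (120000 * π)) = d / (30000 * π) by field_simp; ring]
    refine div_le_div_of_nonneg_left hd.le (by positivity) (by linarith only [hp])
  linarith

end Vale.Agent.P128.GM
end

section

set_option linter.all false

/-! P128, Theorem C: the outer side of a circle (`exists_outer`). -/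

open MeasureTheory Set Metric Filter InnerProductSpace
open scoped ENNReal NNReal ContDiff Topology Real

namespace Vale.Agent.P128.GM

open Vale.Agent.P128

/-- Small neighbourhoods of a point of a circle whose inner and outer parts are connected. -/
theorem outer_nbhd {x : ℂ} {s : ℝ} (hs : 0 < s) {e : ℂ} (he : ‖e‖ = 1) {ε : ℝ} (hε : 0 < ε) :
    ∃ N ∈ 𝓝 (x + s * e), N ⊆ ball (x + s * e) ε ∧ IsPreconnected (N ∩ ball x s) ∧
      IsPreconnected (N ∩ (closedBall x s)ᶜ) := by
  have he0 : e ≠ 0 := by rw [← norm_ne_zero_iff, he]; exact one_ne_zero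
  have hz : pol x e (s, 0) = x + s * e := by
    simp only [pol, uc_zero, mul_one]
  obtain ⟨η₀, hη₀, hη₀'⟩ := Metric.continuous_iff.mp (continuous_pol x e) (s, 0) ε hε
  obtain ⟨η, hη⟩ : ∃ η, η = min η₀ (s / 2) := ⟨_, rfl⟩
  have hη0 : 0 < η := by rw [hη]; positivity
  have hη1 : η ≤ η₀ := by rw [hη]; exact min_le_left _ _
  have hη2 : η < s := by rw [hη]; exact (min_le_right _ _).trans_lt (by linarith)
  refine ⟨pol x e '' (Ioo (s - η) (s + η) ×ˢ Ioo (-η) η), ?_, ?_, ?_, ?_⟩
  · -- neighbourhood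
    have hv : Tendsto (fun w : ℂ => (w - x) / e) (𝓝 (x + s * e)) (𝓝 (s : ℂ)) := by
      have h1 : Continuous fun w : ℂ => (w - x) / e := by fun_prop
      have h2 := h1.tendsto (x + s * e)
      have h3 : (x + s * e - x) / e = (s : ℂ) := by field_simp; ring
      rw [h3] at h2
      exact h2
    have hn : Tendsto (fun w : ℂ => ‖(w - x) / e‖) (𝓝 (x + s * e)) (𝓝 s) := by
      have h1 := (continuous_norm.tendsto (s : ℂ)).comp hv
      rw [Complex.norm_real, Real.norm_of_nonneg hs.le] at h1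
      exact h1
    have ha : Tendsto (fun w : ℂ => ((w - x) / e).arg) (𝓝 (x + s * e)) (𝓝 0) := by
      have h1 := (Complex.continuousAt_arg (x := (s : ℂ)) (Or.inl (by simpa using hs))).tendsto.comp hv
      rw [Complex.arg_ofReal_of_nonneg hs.le] at h1
      exact h1
    filter_upwards [hn.eventually (Ioo_mem_nhds (show s - η < s by linarith)
      (show s < s + η by linarith)), ha.eventually (Ioo_mem_nhds (show -η < 0 by linarith) hη0)]
      with w h1 h2
    refine ⟨(‖(w - x) / e‖, ((w - x) / e).arg), ⟨h1, h2⟩, ?_⟩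
    have h3 : (‖(w - x) / e‖ : ℂ) * uc ((w - x) / e).arg = (w - x) / e :=
      Complex.norm_mul_exp_arg_mul_I _
    have h4 : pol x e (‖(w - x) / e‖, ((w - x) / e).arg)
        = x + e * ((‖(w - x) / e‖ : ℂ) * uc ((w - x) / e).arg) := by
      simp only [pol]; ring
    rw [h4, h3]
    field_simp
    ring
  · rintro _ ⟨⟨ρ, t⟩, ⟨h1, h2⟩, rfl⟩
    rw [← hz, mem_ball]
    refine hη₀' _ ?_
    rw [Prod.dist_eq, max_lt_iff, Real.dist_eq, Real.dist_eq, abs_lt, abs_lt]
    simp only at h1 h2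
    refine ⟨⟨?_, ?_⟩, ⟨?_, ?_⟩⟩ <;> simp only <;> linarith [h1.1, h1.2, h2.1, h2.2]
  · have : pol x e '' (Ioo (s - η) (s + η) ×ˢ Ioo (-η) η) ∩ ball x s
        = pol x e '' (Ioo (s - η) s ×ˢ Ioo (-η) η) := by
      ext z
      constructor
      · rintro ⟨⟨⟨ρ, t⟩, ⟨h1, h2⟩, rfl⟩, h3⟩
        simp only at h1 h2
        rw [mem_ball, dist_eq_norm, norm_pol_sub he (by linarith [h1.1])] at h3
        exact ⟨(ρ, t), ⟨⟨h1.1, h3⟩, h2⟩, rfl⟩
      · rintro ⟨⟨ρ, t⟩, ⟨h1, h2⟩, rfl⟩
        simp only at h1 h2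
        refine ⟨⟨(ρ, t), ⟨⟨h1.1, by simp only; linarith [h1.2]⟩, h2⟩, rfl⟩, ?_⟩
        rw [mem_ball, dist_eq_norm, norm_pol_sub he (by linarith [h1.1])]
        exact h1.2
    rw [this]
    exact (isPreconnected_Ioo.prod isPreconnected_Ioo).image _ (continuous_pol x e).continuousOn
  · have : pol x e '' (Ioo (s - η) (s + η) ×ˢ Ioo (-η) η) ∩ (closedBall x s)ᶜ
        = pol x e '' (Ioo s (s + η) ×ˢ Ioo (-η) η) := by
      ext z
      constructor
      · rintro ⟨⟨⟨ρ, t⟩, ⟨h1, h2⟩, rfl⟩, h3⟩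
        simp only at h1 h2
        rw [mem_compl_iff, mem_closedBall, not_le, dist_eq_norm,
          norm_pol_sub he (by linarith [h1.1])] at h3
        exact ⟨(ρ, t), ⟨⟨h3, h1.2⟩, h2⟩, rfl⟩
      · rintro ⟨⟨ρ, t⟩, ⟨h1, h2⟩, rfl⟩
        simp only at h1 h2
        refine ⟨⟨(ρ, t), ⟨⟨by simp only; linarith [h1.1], h1.2⟩, h2⟩, rfl⟩, ?_⟩
        rw [mem_compl_iff, mem_closedBall, not_le, dist_eq_norm,
          norm_pol_sub he (by linarith [h1.1])]
        exact h1.1
    rw [this]
    exact (isPreconnected_Ioo.prod isPreconnected_Ioo).image _ (continuous_pol x e).continuousOn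

/-- A point of a sphere is a limit of points outside. -/
theorem outer_mem_closure {x : ℂ} {s : ℝ} (hs : 0 < s) {e : ℂ} (he : ‖e‖ = 1) {N : Set ℂ}
    (hN : N ∈ 𝓝 (x + s * e)) : (N ∩ (closedBall x s)ᶜ).Nonempty := by
  have h1 : Tendsto (fun ρ : ℝ => x + (ρ : ℂ) * e) (𝓝[>] s) (𝓝 (x + s * e)) := by
    have : Continuous fun ρ : ℝ => x + (ρ : ℂ) * e := by fun_prop
    exact (this.tendsto s).mono_left nhdsWithin_le_nhds
  obtain ⟨ρ, h2, h3⟩ := ((h1.eventually hN).and self_mem_nhdsWithin).exists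
  refine ⟨_, h2, ?_⟩
  have h3' : s < ρ := h3
  rw [mem_compl_iff, mem_closedBall, not_le, dist_eq_norm, add_sub_cancel_left, norm_mul, he,
    Complex.norm_real, Real.norm_of_nonneg (by linarith), mul_one]
  exact h3'

/-- The complement of `K` outside a circle which meets `K` in exactly one point is connected. -/
theorem outer_conn {K : Set ℂ} (hK : IsClosed K) (hKc : IsPreconnected Kᶜ) {s : ℝ} (hs : 0 < s)
    (h1 : OnePt K s) : IsPreconnected (K ∪ closedBall 0 s)ᶜ := by
  obtain ⟨q, hq⟩ := h1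
  have hqm : q ∈ K ∩ sphere 0 s := by rw [hq]; exact mem_singleton q
  have hq1 : ‖q‖ = s := by simpa using hqm.2
  obtain ⟨p, hp⟩ : ∃ p : ℂ, p = q / s := ⟨_, rfl⟩
  have hs0 : (s : ℂ) ≠ 0 := by exact_mod_cast hs.ne'
  have hqp : q = s * p := by rw [hp]; field_simp
  have hp1 : ‖p‖ = 1 := by
    rw [hp, norm_div, hq1, Complex.norm_real, Real.norm_of_nonneg hs.le, div_self hs.ne']
  have hp0 : p ≠ 0 := by rw [← norm_ne_zero_iff, hp1]; exact one_ne_zero
  -- the arc
  obtain ⟨J, hJ⟩ : ∃ J : Set ℂ, J = sphere 0 s \ {q} := ⟨_, rfl⟩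
  have hJK : J ⊆ Kᶜ := by
    intro z hz hzK
    rw [hJ] at hz
    have : z ∈ K ∩ sphere 0 s := ⟨hzK, hz.1⟩
    rw [hq] at this
    exact hz.2 this
  have hKJ : ∀ z ∈ sphere (0 : ℂ) s, z ∉ K → z ∈ J := by
    intro z hz hzK
    rw [hJ]
    exact ⟨hz, fun h => hzK (h ▸ hqm.1)⟩
  have hJc : IsPreconnected J := by
    have : J = (fun t : ℝ => (s : ℂ) * (p * uc t)) '' Ioo 0 (2 * π) := by
      rw [hJ]
      have hπ := Real.pi_pos
      ext z
      constructor
      · rintro ⟨hz, hzq⟩
        have hz1 : ‖z‖ = s := by simpa using hz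
        have hw : ‖z / q‖ = 1 := by rw [norm_div, hz1, hq1, div_self hs.ne']
        have hα := uc_arg hw
        have hα1 := Complex.neg_pi_lt_arg (z / q)
        have hα2 := Complex.arg_le_pi (z / q)
        have hq0 : q ≠ 0 := by rw [hqp]; exact mul_ne_zero hs0 hp0
        have hmul : (s : ℂ) * (p * uc (z / q).arg) = z := by
          rw [hα, ← mul_assoc, ← hqp]; field_simp
        have hne : (z / q).arg ≠ 0 := by
          intro h
          rw [h, uc_zero, mul_one, ← hqp] at hmul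
          exact hzq hmul.symm
        rcases lt_or_gt_of_ne hne with h | h
        · refine ⟨(z / q).arg + 2 * π, ⟨by linarith, by linarith⟩, ?_⟩
          simp only
          rw [uc_add, uc_two_pi, mul_one, hmul]
        · exact ⟨(z / q).arg, ⟨h, by linarith⟩, hmul⟩
      · rintro ⟨t, ht, rfl⟩
        refine ⟨?_, ?_⟩
        · rw [mem_sphere, dist_zero_right, norm_mul, norm_mul, hp1, norm_uc, Complex.norm_real,
            Real.norm_of_nonneg hs.le]
          ring
        · intro h
          rw [mem_singleton_iff, hqp] at h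
          have h2 := mul_left_cancel₀ hs0 h
          have h3 : uc t = uc 0 := by
            rw [uc_zero]
            refine mul_left_cancel₀ hp0 ?_
            rw [h2, mul_one]
          have h4 := uc_inj h3 (by rw [abs_lt]; constructor <;> linarith [ht.1, ht.2])
          linarith [ht.1]
    rw [this]
    refine isPreconnected_Ioo.image _ (Continuous.continuousOn ?_)
    have := continuous_uc
    fun_prop
  have hJne : J.Nonempty := by
    refine ⟨-q, ?_⟩
    rw [hJ]
    refine ⟨by simp [hq1], fun h => ?_⟩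
    rw [mem_singleton_iff, neg_eq_iff_add_eq_zero, ← two_mul] at h
    have h2 : q = 0 := by simpa using h
    rw [h2, norm_zero] at hq1
    exact hs.ne hq1
  obtain ⟨O, hO⟩ : ∃ O, O = (K ∪ closedBall (0 : ℂ) s)ᶜ := ⟨_, rfl⟩
  have hOo : IsOpen O := by rw [hO]; exact (hK.union isClosed_closedBall).isOpen_compl
  have hOK : O ⊆ Kᶜ := by rw [hO]; exact compl_subset_compl.mpr subset_union_left
  -- near a point of the arc
  have hnear : ∀ z ∈ J, ∃ N ∈ 𝓝 z, IsPreconnected (N ∩ O) ∧ N ∩ (closedBall 0 s)ᶜ ⊆ O := by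
    intro z hz
    have hzK := hJK hz
    rw [hJ] at hz
    have hz1 : ‖z‖ = s := by simpa using hz.1
    obtain ⟨e, he⟩ : ∃ e : ℂ, e = z / s := ⟨_, rfl⟩
    have hze : z = 0 + s * e := by rw [he]; field_simp; ring
    have he1 : ‖e‖ = 1 := by
      rw [he, norm_div, hz1, Complex.norm_real, Real.norm_of_nonneg hs.le, div_self hs.ne']
    obtain ⟨ε, hε, hεK⟩ := Metric.isOpen_iff.mp hK.isOpen_compl z hzK
    obtain ⟨N, hN, hNε, -, hNo⟩ := outer_nbhd (x := 0) hs he1 hε
    rw [← hze] at hN hNε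
    have h2 : N ∩ O = N ∩ (closedBall 0 s)ᶜ := by
      rw [hO, compl_union]
      ext w
      constructor
      · rintro ⟨a, b⟩; exact ⟨a, b.2⟩
      · rintro ⟨a, b⟩; exact ⟨a, hεK (hNε a), b⟩
    exact ⟨N, hN, h2 ▸ hNo, by rw [← h2]; exact inter_subset_right⟩
  rw [← hO]
  -- key: the part touching the arc is everything
  have key : ∀ A B : Set ℂ, IsOpen A → IsOpen B → O ⊆ A ∪ B → (O ∩ B).Nonempty →
      O ∩ (A ∩ B) = ∅ → (∀ z ∈ J, ∀ᶠ w in 𝓝 z, w ∈ O → w ∈ A) → False := by
    intro A B hA hB hAB hBne hdis hJA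
    have hsub : Kᶜ ⊆ O ∩ B := by
      refine hKc.subset_of_closure_inter_subset (hOo.inter hB) ?_ ?_
      · obtain ⟨z, hz⟩ := hBne
        exact ⟨z, hOK hz.1, hz⟩
      · rintro z ⟨hz, hzK⟩
        have hnA : ¬ ∀ᶠ w in 𝓝 z, w ∈ O → w ∈ A := by
          intro hev
          obtain ⟨w, hw1, hw2⟩ := mem_closure_iff_nhds.mp hz _ hev
          have : w ∈ O ∩ (A ∩ B) := ⟨hw2.1, hw1 hw2.1, hw2.2⟩
          rw [hdis] at this
          exact this
        have hzO : z ∈ O := by
          rw [hO]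
          rintro (h | h)
          · exact hzK h
          · rcases eq_or_lt_of_le (mem_closedBall.mp h) with h2 | h2
            · exact hnA (hJA z (hKJ z (mem_sphere.mpr h2) hzK))
            · refine hnA ?_
              filter_upwards [isOpen_ball.mem_nhds (mem_ball.mpr h2)] with w hw hwO
              rw [hO] at hwO
              exact absurd (Or.inr (ball_subset_closedBall hw)) hwO
        refine ⟨hzO, ?_⟩
        rcases hAB hzO with h | h
        · refine absurd ?_ hnA
          filter_upwards [hA.mem_nhds h] with w hw _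
          exact hw
        · exact h
    obtain ⟨z, hz⟩ := hJne
    have h2 := (hsub (hJK hz)).1
    rw [hO] at h2
    rw [hJ] at hz
    exact h2 (Or.inr (sphere_subset_closedBall hz.1))
  intro A B hA hB hAB hAne hBne
  by_contra hcon
  rw [not_nonempty_iff_eq_empty] at hcon
  -- types of points of the arc
  obtain ⟨JA, hJA⟩ : ∃ S : Set ℂ, S = {z | ∀ᶠ w in 𝓝 z, w ∈ O → w ∈ A} := ⟨_, rfl⟩
  obtain ⟨JB, hJB⟩ : ∃ S : Set ℂ, S = {z | ∀ᶠ w in 𝓝 z, w ∈ O → w ∈ B} := ⟨_, rfl⟩
  have hcov : J ⊆ JA ∪ JB := by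
    intro z hz
    obtain ⟨N, hN, hNc, hNo⟩ := hnear z hz
    have h2 : N ∩ O ⊆ A ∪ B := fun w hw => hAB hw.2
    have h3 : (N ∩ O) ⊆ A ∨ (N ∩ O) ⊆ B := by
      by_contra hc
      push Not at hc
      obtain ⟨⟨w1, hw1, hw1'⟩, ⟨w2, hw2, hw2'⟩⟩ := And.intro (not_subset.mp hc.1)
        (not_subset.mp hc.2)
      obtain ⟨w, hw, hw'⟩ := hNc A B hA hB h2 ⟨w2, hw2, (h2 hw2).resolve_right hw2'⟩
        ⟨w1, hw1, (h2 hw1).resolve_left hw1'⟩
      have : w ∈ O ∩ (A ∩ B) := ⟨hw.2, hw'⟩
      rw [hcon] at this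
      exact this
    rcases h3 with h3 | h3
    · left; rw [hJA]
      filter_upwards [hN] with w hw hwO
      exact h3 ⟨hw, hwO⟩
    · right; rw [hJB]
      filter_upwards [hN] with w hw hwO
      exact h3 ⟨hw, hwO⟩
  have hJAo : IsOpen JA := by rw [hJA]; exact isOpen_setOf_eventually_nhds
  have hJBo : IsOpen JB := by rw [hJB]; exact isOpen_setOf_eventually_nhds
  have hdisj : ¬ (J ∩ (JA ∩ JB)).Nonempty := by
    rintro ⟨z, hz, hzA, hzB⟩
    rw [hJA] at hzA
    rw [hJB] at hzB
    have hz' := hz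
    rw [hJ] at hz
    have hz1 : ‖z‖ = s := by simpa using hz.1
    obtain ⟨e, he⟩ : ∃ e : ℂ, e = z / s := ⟨_, rfl⟩
    have hze : z = 0 + s * e := by rw [he]; field_simp; ring
    have he1 : ‖e‖ = 1 := by
      rw [he, norm_div, hz1, Complex.norm_real, Real.norm_of_nonneg hs.le, div_self hs.ne']
    obtain ⟨N, hN, hNc, hNo⟩ := hnear z hz'
    have h4 : N ∩ {w | (w ∈ O → w ∈ A) ∧ (w ∈ O → w ∈ B)} ∈ 𝓝 z :=
      inter_mem hN (hzA.and hzB)
    rw [hze] at h4
    obtain ⟨w, ⟨hw1, hw2⟩, hw3⟩ := outer_mem_closure (x := 0) hs he1 h4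
    have hwO := hNo ⟨hw1, hw3⟩
    have : w ∈ O ∩ (A ∩ B) := ⟨hwO, hw2.1 hwO, hw2.2 hwO⟩
    rw [hcon] at this
    exact this
  by_cases hA' : (J ∩ JA).Nonempty
  · by_cases hB' : (J ∩ JB).Nonempty
    · exact hdisj (hJc JA JB hJAo hJBo hcov hA' hB')
    · refine key A B hA hB hAB hBne hcon fun z hz => ?_
      have : z ∈ JA := (hcov hz).resolve_right fun h => hB' ⟨z, hz, h⟩
      rw [hJA] at this
      exact this
  · refine key B A hB hA (by rw [union_comm]; exact hAB) hAne (by rw [inter_comm B A]; exact hcon)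
      fun z hz => ?_
    have : z ∈ JB := (hcov hz).resolve_left fun h => hA' ⟨z, hz, h⟩
    rw [hJB] at this
    exact this

/-- A connected unbounded closed set has no compact pieces. -/
theorem outer_noPiece {K : Set ℂ} (hK : Cont K) : NoPiece K := by
  intro A hA hAK hAc
  by_contra hne
  have hne' : A.Nonempty := nonempty_iff_ne_empty.mpr hne
  have h1 := (isPreconnected_closed_iff.mp hK.conn) A (K \ A) hA.isClosed hAc
    (fun z hz => by
      by_cases h : z ∈ A
      · exact Or.inl h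
      · exact Or.inr ⟨hz, h⟩) (by obtain ⟨z, hz⟩ := hne'; exact ⟨z, hAK hz, hz⟩)
  have h2 : (K ∩ (K \ A)).Nonempty := by
    by_contra hc
    refine hK.unbdd (hA.isBounded.subset fun z hz => ?_)
    by_contra hzA
    exact hc ⟨z, hz, hz, hzA⟩
  obtain ⟨z, -, hz1, hz2⟩ := h1 h2
  exact hz2.2 hz1

/-- the outer side: every point inside the circle is enclosed by a single arc -/
theorem exists_outer {K : Set ℂ} (hK : Cont K) {x : ℂ} {r : ℝ} (hr : 0 < r)
    (hf : (K ∩ sphere x r).Finite)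
    (hne : (K ∩ sphere x r).Nonempty) {z₀ : ℂ} (hz₀ : z₀ ∈ ball x r) (hz₀K : z₀ ∉ K) :
    ∃ V I : Set ℂ, IsOpen V ∧ Bornology.IsBounded V ∧ V ⊆ Kᶜ ∧ z₀ ∈ V ∧ IsPreconnected I ∧
      I ⊆ sphere x r \ K ∧ closure V ⊆ V ∪ K ∪ I ∧ Disjoint V I := by
  classical
  have hπ := Real.pi_pos
  have hr0 : (r : ℂ) ≠ 0 := by exact_mod_cast hr.ne'
  -- directions
  obtain ⟨Θ, hΘ⟩ : ∃ Θ : Set ℂ, Θ = {e | ‖e‖ = 1 ∧ x + r * e ∈ K} := ⟨_, rfl⟩
  have hΘ1 : ∀ w ∈ Θ, ‖w‖ = 1 := by rw [hΘ]; exact fun w hw => hw.1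
  have hΘK : ∀ w ∈ Θ, x + r * w ∈ K := by rw [hΘ]; exact fun w hw => hw.2
  have hsph : ∀ e : ℂ, ‖e‖ = 1 → x + r * e ∈ sphere x r := by
    intro e he
    rw [mem_sphere, dist_eq_norm, add_sub_cancel_left, norm_mul, he, Complex.norm_real,
      Real.norm_of_nonneg hr.le, mul_one]
  have hdir : ∀ z ∈ sphere x r, ∃ e : ℂ, ‖e‖ = 1 ∧ z = x + r * e := by
    intro z hz
    rw [mem_sphere, dist_eq_norm] at hz
    refine ⟨(z - x) / r, ?_, by field_simp; ring⟩
    rw [norm_div, hz, Complex.norm_real, Real.norm_of_nonneg hr.le, div_self hr.ne']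
  have hΘf : Θ.Finite := by
    refine Finite.of_finite_image (f := fun e : ℂ => x + r * e) (hf.subset ?_) ?_
    · rintro _ ⟨e, he, rfl⟩
      exact ⟨hΘK e he, hsph e (hΘ1 e he)⟩
    · intro a _ b _ hab
      exact mul_left_cancel₀ hr0 (add_left_cancel hab)
  have hΘne : Θ.Nonempty := by
    obtain ⟨z, hz⟩ := hne
    obtain ⟨e, he, hze⟩ := hdir z hz.2
    refine ⟨e, ?_⟩
    rw [hΘ]
    exact ⟨he, hze ▸ hz.1⟩
  have hgap := fun p (hp : p ∈ Θ) => gap_spec hΘf hp (hΘ1 p hp)
  have hI : ∀ p ∈ Θ, ∀ t ∈ Ioo 0 (gap Θ p), x + r * (p * uc t) ∉ K := by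
    intro p hp t ht hK'
    refine (hgap p hp).2.2.2 t ht.1 ht.2 ?_
    rw [hΘ]
    exact ⟨by rw [norm_mul, hΘ1 p hp, norm_uc, mul_one], hK'⟩
  -- the open arcs
  obtain ⟨Ia, hIa⟩ : ∃ Ia : ℂ → Set ℂ, Ia = fun p => (fun t : ℝ => x + r * (p * uc t)) ''
    Ioo 0 (gap Θ p) := ⟨_, rfl⟩
  have hIac : ∀ p, IsPreconnected (Ia p) := by
    intro p
    rw [hIa]
    refine isPreconnected_Ioo.image _ (Continuous.continuousOn ?_)
    have := continuous_uc
    fun_prop
  have hIas : ∀ p ∈ Θ, Ia p ⊆ sphere x r \ K := by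
    rintro p hp z hz
    rw [hIa] at hz
    obtain ⟨t, ht, rfl⟩ := hz
    exact ⟨hsph _ (by rw [norm_mul, hΘ1 p hp, norm_uc, mul_one]), hI p hp t ht⟩
  have hcover : ∀ z ∈ sphere x r, z ∉ K → ∃ p ∈ Θ, ∃ t ∈ Ioo 0 (gap Θ p),
      z = x + r * (p * uc t) := by
    intro z hz hzK
    obtain ⟨e, he, hze⟩ := hdir z hz
    have heΘ : e ∉ Θ := fun h => hzK (hze ▸ hΘK e h)
    obtain ⟨p, hp, t, ht, het⟩ := exists_arcAfter hΘf hΘne hΘ1 he heΘ
    exact ⟨p, hp, t, ht, by rw [hze, het]⟩
  by_cases hsub : Θ.Subsingleton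
  · -- one point
    obtain ⟨p, hp⟩ := hΘne
    refine ⟨ball x r \ K, Ia p, isOpen_ball.sdiff hK.closed, isBounded_ball.subset sdiff_subset,
      fun z hz => hz.2, ⟨hz₀, hz₀K⟩, hIac p, hIas p hp, ?_, ?_⟩
    · intro z hz
      have h1 : z ∈ closedBall x r := closure_minimal (sdiff_subset.trans ball_subset_closedBall)
        isClosed_closedBall hz
      by_cases hzK : z ∈ K
      · exact Or.inl (Or.inr hzK)
      · rcases eq_or_lt_of_le (mem_closedBall.mp h1) with h2 | h2
        · obtain ⟨p', hp', t, ht, hzt⟩ := hcover z (mem_sphere.mpr h2) hzK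
          right
          rw [hsub hp hp', hIa]
          exact ⟨t, ht, hzt.symm⟩
        · exact Or.inl (Or.inl ⟨mem_ball.mpr h2, hzK⟩)
    · rw [disjoint_left]
      intro z hz hz'
      have h1 := (hIas p hp hz').1
      rw [mem_sphere] at h1
      have h2 := mem_ball.mp hz.1
      linarith
  · -- several points
    rw [not_subsingleton_iff] at hsub
    have hlt : ∀ p ∈ Θ, gap Θ p < 2 * π := by
      intro p hp
      refine lt_of_le_of_ne (hgap p hp).2.1 fun hg => ?_
      obtain ⟨p', hp', hne'⟩ := hsub.exists_ne p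
      have hp1 := hΘ1 p hp
      have hp0 : p ≠ 0 := by rw [← norm_ne_zero_iff, hp1]; exact one_ne_zero
      have hw : ‖p' / p‖ = 1 := by rw [norm_div, hΘ1 p' hp', hp1, div_one]
      have hα := uc_arg hw
      have hα1 := Complex.neg_pi_lt_arg (p' / p)
      have hα2 := Complex.arg_le_pi (p' / p)
      have hmul : p * uc (p' / p).arg = p' := by rw [hα]; field_simp
      have hne0 : (p' / p).arg ≠ 0 := by
        intro h
        rw [h, uc_zero, mul_one] at hmul
        exact hne' hmul.symm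
      rcases lt_or_gt_of_ne hne0 with h | h
      · refine (hgap p hp).2.2.2 ((p' / p).arg + 2 * π) (by linarith) (by linarith) ?_
        rw [uc_add, uc_two_pi, mul_one, hmul]
        exact hp'
      · refine (hgap p hp).2.2.2 (p' / p).arg h (by linarith) ?_
        rw [hmul]
        exact hp'
    have hside : ∀ p ∈ Θ, ∃ U : Set ℂ, IsOpen U ∧ U ⊆ (K ∪ cArc x r p (gap Θ p))ᶜ ∧
      (∀ z ∈ closure U, z ∉ K ∪ cArc x r p (gap Θ p) → z ∈ U) ∧
      (∀ t ∈ Ioo 0 (gap Θ p), (∀ᶠ ρ in 𝓝[<] r, pol x p (ρ, t) ∈ U) ∧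
          ∀ᶠ ρ in 𝓝[>] r, pol x p (ρ, t) ∉ U) := fun p hp =>
      exists_side hK.closed (outer_noPiece hK) hr (hΘ1 p hp) (hgap p hp).1 (hlt p hp) (hΘK p hp)
        (hΘK _ (hgap p hp).2.2.1) (hI p hp)
    choose! U hUo hUs hUc hUr using hside
    -- a large circle
    obtain ⟨s, hs, hs1⟩ := hK.oneEnd (‖x‖ + r)
    have hs0 : 0 < s := by linarith [norm_nonneg x]
    have hxs : closedBall x r ⊆ closedBall 0 s := by
      intro z hz
      rw [mem_closedBall, dist_eq_norm] at hz
      rw [mem_closedBall, dist_zero_right]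
      calc ‖z‖ = ‖x + (z - x)‖ := by rw [add_sub_cancel]
        _ ≤ ‖x‖ + ‖z - x‖ := norm_add_le _ _
        _ ≤ s := by linarith
    obtain ⟨O, hO⟩ : ∃ O, O = (K ∪ closedBall (0 : ℂ) s)ᶜ := ⟨_, rfl⟩
    have hOc : IsPreconnected O := by rw [hO]; exact outer_conn hK.closed hK.compl hs0 hs1
    have hOo : IsOpen O := by rw [hO]; exact (hK.closed.union isClosed_closedBall).isOpen_compl
    have hOK : O ⊆ Kᶜ := by rw [hO]; exact compl_subset_compl.mpr subset_union_left
    have hOx : ∀ z ∈ O, z ∉ closedBall x r := by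
      intro z hz h
      rw [hO] at hz
      exact hz (Or.inr (hxs h))
    obtain ⟨o, ho⟩ : O.Nonempty := by
      obtain ⟨s', hs', q, hq⟩ := hK.oneEnd s
      have hqm : q ∈ K ∩ sphere 0 s' := by rw [hq]; exact mem_singleton q
      have hq1 : ‖q‖ = s' := by simpa using hqm.2
      refine ⟨-q, ?_⟩
      rw [hO]
      rintro (h | h)
      · have : -q ∈ K ∩ sphere 0 s' := ⟨h, by simp [hq1]⟩
        rw [hq, mem_singleton_iff, neg_eq_iff_add_eq_zero, ← two_mul] at this
        have h2 : q = 0 := by simpa using this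
        rw [h2, norm_zero] at hq1
        linarith
      · rw [mem_closedBall, dist_zero_right, norm_neg, hq1] at h
        linarith
    have hcs : ∀ p ∈ Θ, cArc x r p (gap Θ p) ⊆ sphere x r := fun p hp =>
      cArc_subset_sphere hr.le (hΘ1 p hp) _
    -- the value at infinity
    have hval : ∀ p ∈ Θ, ¬ O ⊆ U p → Disjoint O (U p) := by
      intro p hp hn
      rw [disjoint_iff_inter_eq_empty, ← not_nonempty_iff_eq_empty]
      intro hne'
      refine hn (hOc.subset_of_closure_inter_subset (hUo p hp) hne' ?_)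
      rintro z ⟨h1, h2⟩
      refine hUc p hp z h1 ?_
      rintro (h | h)
      · exact hOK h2 h
      · exact hOx z h2 (sphere_subset_closedBall (hcs p hp h))
    -- the function
    obtain ⟨ind, hind⟩ : ∃ ind : ℂ → ℂ → ℤ, ind = fun p w => if w ∈ U p then 1 else 0 := ⟨_, rfl⟩
    obtain ⟨v, hv⟩ : ∃ v : ℂ → ℤ, v = fun p => if O ⊆ U p then 1 else 0 := ⟨_, rfl⟩
    obtain ⟨b, hb⟩ : ∃ b : ℂ → ℤ, b = fun w => if w ∈ ball x r then 1 else 0 := ⟨_, rfl⟩
    obtain ⟨T, hT⟩ : ∃ T, T = hΘf.toFinset := ⟨_, rfl⟩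
    have hTm : ∀ p, p ∈ T ↔ p ∈ Θ := by rw [hT]; exact fun p => hΘf.mem_toFinset
    obtain ⟨G, hG⟩ : ∃ G : ℂ → ℤ, G = fun w => ∑ p ∈ T, (ind p w - v p) - b w := ⟨_, rfl⟩
    -- locally constant indicators
    have hloc : ∀ p ∈ Θ, ∀ z, z ∉ K → z ∉ cArc x r p (gap Θ p) → ∀ᶠ w in 𝓝 z, ind p w = ind p z := by
      intro p hp z hzK hzc
      rw [hind]
      by_cases h : z ∈ U p
      · filter_upwards [(hUo p hp).mem_nhds h] with w hw
        simp only [if_pos h, if_pos hw]
      · have h2 : z ∉ closure (U p) := fun h3 => h (hUc p hp z h3 fun h4 => h4.elim hzK hzc)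
        filter_upwards [isClosed_closure.isOpen_compl.mem_nhds h2] with w hw
        simp only [if_neg h, if_neg (fun h3 => hw (subset_closure h3))]
    have hclaim : ∀ z, z ∉ K → ∃ c : ℤ, ∀ᶠ w in 𝓝 z, w ∉ sphere x r → G w = c := by
      intro z hzK
      by_cases hzs : z ∈ sphere x r
      · obtain ⟨p₀, hp₀, t, ht, hzt⟩ := hcover z hzs hzK
        refine ⟨∑ p ∈ T.erase p₀, (ind p z - v p) - v p₀, ?_⟩
        have h1 : ∀ᶠ w in 𝓝 z, ∀ p ∈ T.erase p₀, ind p w = ind p z := by
          rw [Filter.eventually_all_finset]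
          intro p hp
          rw [Finset.mem_erase, hTm] at hp
          refine hloc p hp.2 z hzK ?_
          rintro ⟨t', ht', hzt'⟩
          have heq : p₀ * uc t = p * uc t' := by
            have := hzt.symm.trans hzt'
            exact mul_left_cancel₀ hr0 (add_left_cancel this)
          have hnot : p * uc t' ∉ Θ := by
            intro h
            exact hzK (hzt' ▸ hΘK _ h)
          have ht0 : t' ≠ 0 := by
            rintro rfl
            rw [uc_zero, mul_one] at hnot
            exact hnot hp.2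
          have htg : t' ≠ gap Θ p := by
            rintro rfl
            exact hnot (hgap p hp.2).2.2.1
          have hin : p * uc t' ∈ arcAfter Θ p :=
            ⟨t', ⟨lt_of_le_of_ne ht'.1 (Ne.symm ht0), lt_of_le_of_ne ht'.2 htg⟩, rfl⟩
          have hin0 : p * uc t' ∈ arcAfter Θ p₀ := ⟨t, ht, heq.symm⟩
          exact hp.1 (arcAfter_disjoint hΘf hΘ1 hp.2 hp₀ hin hin0)
        have h2 : ∀ᶠ w in 𝓝 z, w ∉ sphere x r → ind p₀ w = b w := by
          obtain ⟨ε, hε, hεK⟩ := Metric.isOpen_iff.mp hK.closed.isOpen_compl z hzK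
          obtain ⟨e, he⟩ : ∃ e, e = p₀ * uc t := ⟨_, rfl⟩
          have he1 : ‖e‖ = 1 := by rw [he, norm_mul, hΘ1 _ hp₀, norm_uc, mul_one]
          rw [← he] at hzt
          obtain ⟨N, hN, hNε, hNi, hNo⟩ := outer_nbhd (x := x) hr he1 hε
          rw [← hzt] at hN hNε
          have hpol : Tendsto (fun ρ : ℝ => pol x p₀ (ρ, t)) (𝓝 r) (𝓝 z) := by
            have hc : Continuous fun ρ : ℝ => pol x p₀ (ρ, t) :=
              (continuous_pol x p₀).comp (by fun_prop)
            have h3 : pol x p₀ (r, t) = z := by simp only [pol]; rw [hzt, he]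
            rw [← h3]
            exact hc.tendsto r
          have hNi' : N ∩ ball x r ⊆ U p₀ := by
            refine hNi.subset_of_closure_inter_subset (hUo p₀ hp₀) ?_ ?_
            · obtain ⟨ρ, h3, h4, h5⟩ := (((hpol.mono_left (nhdsWithin_le_nhds
                (s := Iio r))).eventually hN).and ((hUr p₀ hp₀ t ht).1.and
                (Ioo_mem_nhdsLT hr))).exists
              refine ⟨pol x p₀ (ρ, t), ⟨h3, ?_⟩, h4⟩
              rw [mem_ball, dist_eq_norm, norm_pol_sub (hΘ1 _ hp₀) h5.1.le]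
              exact h5.2
            · rintro w ⟨h3, h4⟩
              refine hUc p₀ hp₀ w h3 ?_
              rintro (h | h)
              · exact hεK (hNε h4.1) h
              · have := hcs p₀ hp₀ h
                rw [mem_sphere] at this
                have h5 := mem_ball.mp h4.2
                linarith
          have hNo' : Disjoint (N ∩ (closedBall x r)ᶜ) (U p₀) := by
            rw [disjoint_iff_inter_eq_empty, ← not_nonempty_iff_eq_empty]
            intro hne'
            have h6 : N ∩ (closedBall x r)ᶜ ⊆ U p₀ := by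
              refine hNo.subset_of_closure_inter_subset (hUo p₀ hp₀) hne' ?_
              rintro w ⟨h3, h4⟩
              refine hUc p₀ hp₀ w h3 ?_
              rintro (h | h)
              · exact hεK (hNε h4.1) h
              · exact h4.2 (sphere_subset_closedBall (hcs p₀ hp₀ h))
            obtain ⟨ρ, h3, h4, h5⟩ := (((hpol.mono_left (nhdsWithin_le_nhds
                (s := Ioi r))).eventually hN).and ((hUr p₀ hp₀ t ht).2.and
                self_mem_nhdsWithin)).exists
            refine h4 (h6 ⟨h3, ?_⟩)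
            have h5' : r < ρ := h5
            rw [mem_compl_iff, mem_closedBall, not_le, dist_eq_norm,
              norm_pol_sub (hΘ1 _ hp₀) (by linarith)]
            exact h5'
          filter_upwards [hN] with w hw hws
          rw [hind, hb]
          by_cases h3 : w ∈ ball x r
          · simp only [if_pos h3, if_pos (hNi' ⟨hw, h3⟩)]
          · have h4 : w ∈ (closedBall x r)ᶜ := by
              rw [mem_compl_iff, mem_closedBall, not_le]
              rw [mem_ball, not_lt] at h3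
              exact lt_of_le_of_ne h3 fun h5 => hws (mem_sphere.mpr h5.symm)
            simp only [if_neg h3, if_neg (disjoint_left.mp hNo' ⟨hw, h4⟩)]
        filter_upwards [h1, h2] with w hw1 hw2 hws
        rw [hG]
        simp only
        rw [← Finset.add_sum_erase T _ ((hTm p₀).2 hp₀), hw2 hws,
          Finset.sum_congr rfl fun p hp => by rw [hw1 p hp]]
        ring
      · refine ⟨G z, ?_⟩
        have h1 : ∀ᶠ w in 𝓝 z, ∀ p ∈ T, ind p w = ind p z := by
          rw [Filter.eventually_all_finset]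
          intro p hp
          rw [hTm] at hp
          exact hloc p hp z hzK fun h => hzs (hcs p hp h)
        have h2 : ∀ᶠ w in 𝓝 z, b w = b z := by
          rw [hb]
          by_cases h : z ∈ ball x r
          · filter_upwards [isOpen_ball.mem_nhds h] with w hw
            simp only [if_pos h, if_pos hw]
          · have h3 : z ∉ closedBall x r := by
              rw [mem_closedBall, not_le]
              rw [mem_ball, not_lt] at h
              exact lt_of_le_of_ne h fun h5 => hzs (mem_sphere.mpr h5.symm)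
            filter_upwards [isClosed_closedBall.isOpen_compl.mem_nhds h3] with w hw
            simp only [if_neg h, if_neg fun h4 => hw (ball_subset_closedBall h4)]
        filter_upwards [h1, h2] with w hw1 hw2 _
        rw [hG]
        simp only
        rw [hw2, Finset.sum_congr rfl fun p hp => by rw [hw1 p hp]]
    -- the sets where `G` has a given value
    obtain ⟨A, hA⟩ : ∃ A : ℤ → Set ℂ, A = fun c => {z | ∀ᶠ w in 𝓝 z, w ∉ sphere x r → G w = c} :=
      ⟨_, rfl⟩
    have hAo : ∀ c, IsOpen (A c) := by rw [hA]; exact fun c => isOpen_setOf_eventually_nhds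
    have hAd : ∀ c c' z, z ∈ A c → z ∈ A c' → c = c' := by
      intro c c' z h1 h2
      rw [hA] at h1 h2
      have h3 : ∃ᶠ w in 𝓝 z, w ∉ sphere x r := by
        intro h4
        have h5 : sphere x r ∈ 𝓝 z := by
          filter_upwards [h4] with w hw
          exact not_not.mp hw
        have h6 : z ∈ interior (sphere x r) := mem_interior_iff_mem_nhds.mpr h5
        rw [interior_sphere x hr.ne'] at h6
        exact h6
      obtain ⟨w, hw, hw1, hw2⟩ := (h3.and_eventually (h1.and h2)).exists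
      rw [← hw1 hw, ← hw2 hw]
    have hsub0 : Kᶜ ⊆ A 0 := by
      refine hK.compl.subset_left_of_subset_union (hAo 0)
        (v := ⋃ c ∈ {c : ℤ | c ≠ 0}, A c) (isOpen_biUnion fun c _ => hAo c) ?_ ?_ ?_
      · rw [disjoint_left]
        intro z hz hz'
        rw [mem_iUnion₂] at hz'
        obtain ⟨c, hc, hz'⟩ := hz'
        exact hc (hAd c 0 z hz' hz)
      · intro z hz
        obtain ⟨c, hc⟩ := hclaim z hz
        have hzc : z ∈ A c := by rw [hA]; exact hc
        by_cases h0 : c = 0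
        · left; rw [← h0]; exact hzc
        · right; rw [mem_iUnion₂]; exact ⟨c, h0, hzc⟩
      · refine ⟨o, hOK ho, ?_⟩
        rw [hA]
        filter_upwards [hOo.mem_nhds ho] with w hw _
        rw [hG]
        simp only
        have h1 : ∑ p ∈ T, (ind p w - v p) = 0 := by
          refine Finset.sum_eq_zero fun p hp => ?_
          rw [hTm] at hp
          rw [hind, hv]
          by_cases h : O ⊆ U p
          · simp only [if_pos h, if_pos (h hw), sub_self]
          · simp only [if_neg h, if_neg (disjoint_left.mp (hval p hp h) hw), sub_self]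
        have h2 : b w = 0 := by
          rw [hb]
          exact if_neg fun h => hOx w hw (ball_subset_closedBall h)
        rw [h1, h2, sub_zero]
    have hz₀A : z₀ ∈ A 0 := hsub0 hz₀K
    rw [hA] at hz₀A
    have hz₀s : z₀ ∉ sphere x r := by
      intro h
      rw [mem_sphere] at h
      have := mem_ball.mp hz₀
      linarith
    have h0 : G z₀ = 0 := (hz₀A.self_of_nhds) hz₀s
    have hb0 : b z₀ = 1 := by rw [hb]; exact if_pos hz₀
    have hsum : ∑ p ∈ T, (ind p z₀ - v p) = 1 := by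
      rw [hG] at h0
      simp only at h0
      rw [hb0] at h0
      linarith
    obtain ⟨p, hpT, hpos⟩ : ∃ p ∈ T, 0 < ind p z₀ - v p := by
      by_contra hc
      push Not at hc
      have := Finset.sum_nonpos hc
      rw [hsum] at this
      omega
    have hp := (hTm p).1 hpT
    have hzU : z₀ ∈ U p := by
      by_contra h
      rw [hind, hv] at hpos
      simp only [if_neg h] at hpos
      split_ifs at hpos <;> omega
    have hnU : ¬ O ⊆ U p := by
      intro h
      rw [hind, hv] at hpos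
      simp only [if_pos hzU, if_pos h] at hpos
      omega
    have hdis := hval p hp hnU
    refine ⟨U p, Ia p, hUo p hp, ?_, fun z hz h => hUs p hp hz (Or.inl h), hzU, hIac p,
      hIas p hp, ?_, ?_⟩
    · refine (isBounded_closedBall (x := (0 : ℂ)) (r := s)).subset fun z hz => ?_
      by_contra h
      refine disjoint_left.mp hdis ?_ hz
      rw [hO]
      rintro (h2 | h2)
      · exact hUs p hp hz (Or.inl h2)
      · exact h h2
    · intro z hz
      by_cases hzK : z ∈ K
      · exact Or.inl (Or.inr hzK)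
      · by_cases hzc : z ∈ cArc x r p (gap Θ p)
        · right
          obtain ⟨t, ht, hzt⟩ := hzc
          rw [hIa]
          refine ⟨t, ⟨lt_of_le_of_ne ht.1 ?_, lt_of_le_of_ne ht.2 ?_⟩, hzt.symm⟩
          · rintro rfl
            rw [uc_zero, mul_one] at hzt
            exact hzK (hzt ▸ hΘK p hp)
          · rintro rfl
            exact hzK (hzt ▸ hΘK _ (hgap p hp).2.2.1)
        · exact Or.inl (Or.inl (hUc p hp z hz fun h => h.elim hzK hzc))
    · rw [disjoint_left]
      intro z hz hz'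
      rw [hIa] at hz'
      obtain ⟨t, ht, rfl⟩ := hz'
      exact hUs p hp hz (Or.inr ⟨t, ⟨ht.1.le, ht.2.le⟩, rfl⟩)

end Vale.Agent.P128.GM
end

section

/-! # P128, Theorem C, part C4(b): the energy at a dangling piece -/

open MeasureTheory Set Metric Filter InnerProductSpace
open scoped ENNReal NNReal ContDiff Topology Real

namespace Vale.Agent.P128.GM

open Vale.Agent.P128

variable {u : ℂ → ℝ} {K : Set ℂ}

/-- **C4(b)** -/
theorem GMin.piece_energy (h : GMin u K) (hC : Cont K) {U : Set ℂ} {x : ℂ}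
    (hU : IsPiece K x U) {d : ℝ} (hd : 0 < d) (hUd : U ⊆ closedBall x d)
    (hlen : ENNReal.ofReal d ≤ μH[1] U) : d / 100000 ≤ Ec u x (6 * d) := by
  have hL : Cont (K \ U) := IsPiece.cont hC hU
  exact h.piece_energy_of hU hd hUd hL
    (fun s hs hf hne z₀ hz₀ hz₀K => exists_outer hL hs hf hne hz₀ hz₀K)
    (h.shift x).osc_arc
    (fun r J hr hosc => h.remove_piece hU hd hr hUd hosc hlen)

end Vale.Agent.P128.GM
end

section

/-! Equality in Bonnet's inequality on a circle meeting `K` in one point. -/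

set_option linter.all false

open MeasureTheory Set Metric Filter
open scoped ENNReal NNReal ContDiff Topology Real

namespace Vale.Agent.P128.GM

open Vale.Agent.P128

/-- Euler-Lagrange equation from equality in the Poincaré inequality. -/
theorem rg_euler {a b : ℝ} (hab : b = a + 2 * π) {f h : ℝ → ℝ}
    (hf : MemLp f 2 (volume.restrict (Ioo a b))) (hh : MemLp h 2 (volume.restrict (Ioo a b)))
    (hw : ∀ φ : ℝ → ℝ, ContDiff ℝ ∞ φ → HasCompactSupport φ → tsupport φ ⊆ Ioo a b →
      ∫ t in Ioo a b, f t * deriv φ t = - ∫ t in Ioo a b, h t * φ t)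
    (h0 : ∫ t in Ioo a b, f t = 0)
    (heq : 4 * ∫ t in Ioo a b, h t ^ 2 ≤ ∫ t in Ioo a b, f t ^ 2)
    {φ : ℝ → ℝ} (hφ : ContDiff ℝ ∞ φ) (hφc : HasCompactSupport φ) (hφs : tsupport φ ⊆ Ioo a b) :
    ∫ t in Ioo a b, f t * φ t = 4 * ∫ t in Ioo a b, h t * deriv φ t := by
  have hπ := Real.pi_pos
  have hlt : a < b := by rw [hab]; linarith
  have hfin : IsFiniteMeasure (volume.restrict (Ioo a b)) := ⟨by simp⟩
  set μ : Measure ℝ := volume.restrict (Ioo a b) with hμ
  have hφcont : Continuous φ := hφ.continuous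
  have hφd : Continuous (deriv φ) := hφ.continuous_deriv (by simp)
  have hφdc : HasCompactSupport (deriv φ) := hφc.deriv
  have mφ : MemLp φ 2 μ := (hφcont.memLp_of_hasCompactSupport hφc).restrict _
  have mφ' : MemLp (deriv φ) 2 μ := (hφd.memLp_of_hasCompactSupport hφdc).restrict _
  -- weak derivative of φ
  have hwφ : ∀ ψ : ℝ → ℝ, ContDiff ℝ ∞ ψ → HasCompactSupport ψ → tsupport ψ ⊆ Ioo a b →
      ∫ t in Ioo a b, φ t * deriv ψ t = - ∫ t in Ioo a b, deriv φ t * ψ t := by
    intro ψ h1 h2 h3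
    have z1 : ∀ t, t ∉ Ioo a b → ψ t = 0 := fun t ht =>
      image_eq_zero_of_notMem_tsupport fun hm => ht (h3 hm)
    have z2 : ∀ t, t ∉ Ioo a b → deriv ψ t = 0 := fun t ht =>
      image_eq_zero_of_notMem_tsupport fun hm => ht (h3 (tsupport_deriv_subset hm))
    rw [setIntegral_eq_integral_of_forall_compl_eq_zero fun t ht => by rw [z2 t ht, mul_zero],
      setIntegral_eq_integral_of_forall_compl_eq_zero fun t ht => by rw [z1 t ht, mul_zero]]
    have hψd : Continuous (deriv ψ) := h1.continuous_deriv (by simp)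
    refine integral_mul_deriv_eq_deriv_mul_of_integrable
      (fun t _ => (hφ.differentiable (by simp) t).hasDerivAt)
      (fun t _ => (h1.differentiable (by simp) t).hasDerivAt) ?_ ?_ ?_
    · exact (hφcont.mul hψd).integrable_of_hasCompactSupport hφc.mul_right
    · exact (hφd.mul h1.continuous).integrable_of_hasCompactSupport h2.mul_left
    · exact (hφcont.mul h1.continuous).integrable_of_hasCompactSupport hφc.mul_right
  -- integrability of all the products
  have i1 : Integrable (fun t => f t ^ 2) μ := hf.integrable_sq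
  have i2 : Integrable (fun t => f t * φ t) μ := hf.integrable_mul mφ
  have i3 : Integrable (fun t => φ t ^ 2) μ := mφ.integrable_sq
  have i4 : Integrable (fun t => h t ^ 2) μ := hh.integrable_sq
  have i5 : Integrable (fun t => h t * deriv φ t) μ := hh.integrable_mul mφ'
  have i6 : Integrable (fun t => deriv φ t ^ 2) μ := mφ'.integrable_sq
  have i7 : Integrable f μ := hf.integrable (by norm_num)
  have i8 : Integrable φ μ := mφ.integrable (by norm_num)
  obtain ⟨X, hX⟩ : ∃ X, X = (∫ t, f t * φ t ∂μ) - 4 * ∫ t, h t * deriv φ t ∂μ := ⟨_, rfl⟩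
  obtain ⟨Y, hY⟩ : ∃ Y, Y = 4 * (∫ t, deriv φ t ^ 2 ∂μ) - (∫ t, φ t ^ 2 ∂μ) +
    (2 * π)⁻¹ * (∫ t, φ t ∂μ) ^ 2 := ⟨_, rfl⟩
  have key : ∀ t : ℝ, 2 * t * X ≤ t ^ 2 * Y := by
    intro c
    have hP := arc_poincare hlt (f := fun t => f t + c * φ t) (h := fun t => h t + c * deriv φ t)
      (hf.add (mφ.const_mul c)) (hh.add (mφ'.const_mul c)) ?_
    · have e0 : b - a = 2 * π := by rw [hab]; ring
      have e1 : ∫ t, (f t + c * φ t) ∂μ = c * ∫ t, φ t ∂μ := by
        rw [integral_add i7 (i8.const_mul c), integral_const_mul, h0, zero_add]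
      rw [← hμ, e1, e0] at hP
      have e2 : ∫ t, (f t + c * φ t - (2 * π)⁻¹ * (c * ∫ t, φ t ∂μ)) ^ 2 ∂μ =
          (∫ t, f t ^ 2 ∂μ) + 2 * c * (∫ t, f t * φ t ∂μ) + c ^ 2 * (∫ t, φ t ^ 2 ∂μ) -
            (2 * π)⁻¹ * (c * ∫ t, φ t ∂μ) ^ 2 := by
        obtain ⟨q, hq⟩ : ∃ q, q = (2 * π)⁻¹ * (c * ∫ t, φ t ∂μ) := ⟨_, rfl⟩
        have e3 : ∀ t, (f t + c * φ t - (2 * π)⁻¹ * (c * ∫ t, φ t ∂μ)) ^ 2 =
            f t ^ 2 + 2 * c * (f t * φ t) + c ^ 2 * (φ t ^ 2) + q ^ 2 - 2 * q * f t
              - 2 * q * c * φ t := by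
          intro t; rw [← hq]; ring
        simp only [e3]
        have j1 : Integrable (fun t => f t ^ 2 + 2 * c * (f t * φ t)) μ := i1.add (i2.const_mul _)
        have j2 : Integrable (fun t => f t ^ 2 + 2 * c * (f t * φ t) + c ^ 2 * (φ t ^ 2)) μ :=
          j1.add (i3.const_mul _)
        have j3 : Integrable (fun t => f t ^ 2 + 2 * c * (f t * φ t) + c ^ 2 * (φ t ^ 2) + q ^ 2) μ :=
          j2.add (integrable_const _)
        have j4 : Integrable (fun t => f t ^ 2 + 2 * c * (f t * φ t) + c ^ 2 * (φ t ^ 2) + q ^ 2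
            - 2 * q * f t) μ := j3.sub (i7.const_mul _)
        rw [integral_sub j4 (i8.const_mul _), integral_sub j3 (i7.const_mul _),
          integral_add j2 (integrable_const _), integral_add j1 (i3.const_mul _),
          integral_add i1 (i2.const_mul _), integral_const_mul, integral_const_mul,
          integral_const_mul, integral_const_mul, h0, integral_const]
        have e4 : μ.real univ = 2 * π := by
          rw [hμ, Measure.real, Measure.restrict_apply_univ, Real.volume_Ioo, e0,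
            ENNReal.toReal_ofReal (by positivity)]
        rw [e4, smul_eq_mul, hq]
        field_simp
        ring
      have e5 : ∫ t, (h t + c * deriv φ t) ^ 2 ∂μ =
          (∫ t, h t ^ 2 ∂μ) + 2 * c * (∫ t, h t * deriv φ t ∂μ) +
            c ^ 2 * (∫ t, deriv φ t ^ 2 ∂μ) := by
        have e6 : ∀ t, (h t + c * deriv φ t) ^ 2 =
            h t ^ 2 + 2 * c * (h t * deriv φ t) + c ^ 2 * (deriv φ t ^ 2) := by
          intro t; ring
        simp only [e6]
        have j1 : Integrable (fun t => h t ^ 2 + 2 * c * (h t * deriv φ t)) μ :=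
          i4.add (i5.const_mul _)
        rw [integral_add j1 (i6.const_mul _),
          integral_add i4 (i5.const_mul _), integral_const_mul, integral_const_mul]
      rw [e2, e5, show (2 * π / π) = 2 by field_simp] at hP
      rw [hX, hY]
      nlinarith [hP, heq]
    · intro ψ h1 h2 h3
      have hψd : Continuous (deriv ψ) := h1.continuous_deriv (by simp)
      have mψ : MemLp ψ 2 μ := (h1.continuous.memLp_of_hasCompactSupport h2).restrict _
      have mψ' : MemLp (deriv ψ) 2 μ := (hψd.memLp_of_hasCompactSupport h2.deriv).restrict _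
      simp only [add_mul, mul_assoc]
      have k1 : Integrable (fun t => f t * deriv ψ t) μ := hf.integrable_mul mψ'
      have k2 : Integrable (fun t => φ t * deriv ψ t) μ := mφ.integrable_mul mψ'
      have k3 : Integrable (fun t => h t * ψ t) μ := hh.integrable_mul mψ
      have k4 : Integrable (fun t => deriv φ t * ψ t) μ := mφ'.integrable_mul mψ
      rw [integral_add k1 (k2.const_mul c), integral_add k3 (k4.const_mul c),
        integral_const_mul, integral_const_mul, hw ψ h1 h2 h3, hwφ ψ h1 h2 h3]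
      ring
  have hX0 : X = 0 := by
    by_contra hne
    have h1 := key (X / (|Y| + 1))
    have hY1 : 0 < |Y| + 1 := by positivity
    have hX2 : 0 < X ^ 2 := by positivity
    have h2 : (X / (|Y| + 1)) ^ 2 * Y ≤ (X / (|Y| + 1)) ^ 2 * (|Y| + 1) := by
      have := le_abs_self Y
      gcongr
      linarith
    have h3 : (X / (|Y| + 1)) ^ 2 * (|Y| + 1) = X ^ 2 / (|Y| + 1) := by field_simp
    have h4 : 2 * (X / (|Y| + 1)) * X = 2 * (X ^ 2 / (|Y| + 1)) := by ring
    have h5 : 0 < X ^ 2 / (|Y| + 1) := by positivity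
    rw [h4] at h1
    rw [h3] at h2
    linarith
  rw [hX] at hX0
  linarith

/-- Solutions of `4 f'' + f = 0` -/
theorem rg_ode {a b : ℝ} (hab : a < b) {f h : ℝ → ℝ}
    (hf : ∀ t ∈ Ioo a b, HasDerivAt f (h t) t)
    (hh : ∀ t ∈ Ioo a b, HasDerivAt h (-(f t) / 4) t) :
    ∃ P Q : ℝ, ∀ t ∈ Ioo a b,
      f t = P * Real.cos ((t - a) / 2) + Q * Real.sin ((t - a) / 2) ∧
      h t = -(P / 2) * Real.sin ((t - a) / 2) + Q / 2 * Real.cos ((t - a) / 2) := by
  set t₀ := (a + b) / 2 with ht₀
  have ht₀m : t₀ ∈ Ioo a b := ⟨by rw [ht₀]; linarith, by rw [ht₀]; linarith⟩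
  have dc : ∀ t : ℝ, HasDerivAt (fun t => Real.cos ((t - a) / 2)) (-(Real.sin ((t - a) / 2)) / 2) t := by
    intro t
    have h1 : HasDerivAt (fun t : ℝ => (t - a) / 2) (1 / 2) t :=
      ((hasDerivAt_id t).sub_const a).div_const 2
    have h2 := (Real.hasDerivAt_cos ((t - a) / 2)).comp t h1
    refine h2.congr_deriv ?_
    ring
  have ds : ∀ t : ℝ, HasDerivAt (fun t => Real.sin ((t - a) / 2)) (Real.cos ((t - a) / 2) / 2) t := by
    intro t
    have h1 : HasDerivAt (fun t : ℝ => (t - a) / 2) (1 / 2) t :=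
      ((hasDerivAt_id t).sub_const a).div_const 2
    have h2 := (Real.hasDerivAt_sin ((t - a) / 2)).comp t h1
    refine h2.congr_deriv ?_
    ring
  set Pf : ℝ → ℝ := fun t => f t * Real.cos ((t - a) / 2) - 2 * h t * Real.sin ((t - a) / 2) with hPf
  set Qf : ℝ → ℝ := fun t => f t * Real.sin ((t - a) / 2) + 2 * h t * Real.cos ((t - a) / 2) with hQf
  have dP : ∀ t ∈ Ioo a b, HasDerivAt Pf 0 t := by
    intro t ht
    have h1 := ((hf t ht).mul (dc t)).sub (((hh t ht).const_mul 2).mul (ds t))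
    refine h1.congr_deriv ?_
    ring
  have dQ : ∀ t ∈ Ioo a b, HasDerivAt Qf 0 t := by
    intro t ht
    have h1 := ((hf t ht).mul (ds t)).add (((hh t ht).const_mul 2).mul (dc t))
    refine h1.congr_deriv ?_
    ring
  have hconst : ∀ {g : ℝ → ℝ}, (∀ t ∈ Ioo a b, HasDerivAt g 0 t) → ∀ t ∈ Ioo a b, g t = g t₀ := by
    intro g hg t ht
    have h1 : ∀ x ∈ Ioo a b, DifferentiableWithinAt ℝ g (Ioo a b) x := fun x hx =>
      (hg x hx).differentiableAt.differentiableWithinAt
    refine (convex_Ioo a b).is_const_of_fderivWithin_eq_zero (𝕜 := ℝ) h1 ?_ ht ht₀m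
    intro x hx
    rw [fderivWithin_eq_fderiv (isOpen_Ioo.uniqueDiffWithinAt hx) (hg x hx).differentiableAt]
    ext
    simp [(hg x hx).hasFDerivAt.fderiv]
  refine ⟨Pf t₀, Qf t₀, fun t ht => ?_⟩
  rw [← hconst dP t ht, ← hconst dQ t ht, hPf, hQf]
  have hsc := Real.sin_sq_add_cos_sq ((t - a) / 2)
  constructor
  · simp only []
    linear_combination (-(f t)) * hsc
  · simp only []
    linear_combination (-(h t)) * hsc

/-- Equality in Bonnet's inequality on a circle meeting `K` in one point. -/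
theorem rg_arc {u : ℂ → ℝ} {K : Set ℂ} (hK : IsClosed K) (hu : ContDiffOn ℝ 2 u Kᶜ)
    {s a b : ℝ} (hs : 0 < s) (hab : b = a + 2 * π) (hI : ∀ θ ∈ Ioo a b, circleMap 0 s θ ∉ K)
    {M : ℝ} (hM : ∀ θ ∈ Ioo a b, |u (circleMap 0 s θ)| ≤ M)
    (hT : IntegrableOn (fun θ => ut u s θ ^ 2) (Ioo a b))
    (hN : IntegrableOn (fun θ => un u s θ ^ 2) (Ioo a b))
    (h0 : ∫ θ in Ioo a b, un u s θ = 0)
    (hE : ∫ θ in Ioo a b, u (circleMap 0 s θ) * un u s θ = 1)
    (hTN : s * ((∫ θ in Ioo a b, ut u s θ ^ 2) + ∫ θ in Ioo a b, un u s θ ^ 2) = 1) :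
    ∃ A : ℝ, A ^ 2 = 2 * s / π ∧ ∀ θ ∈ Ioo a b,
      un u s θ = A / (2 * s) * Real.cos ((θ - a) / 2) ∧
      ut u s θ = -(A / (2 * s)) * Real.sin ((θ - a) / 2) := by
  have hKo : IsOpen Kᶜ := hK.isOpen_compl
  have hπ := Real.pi_pos
  have hlt : a < b := by rw [hab]; linarith
  have hba : b - a = 2 * π := by rw [hab]; ring
  set f₀ : ℝ → ℝ := fun θ => u (circleMap 0 s θ) with hf₀
  set h : ℝ → ℝ := fun θ => s * ut u s θ with hh
  have hcm : Continuous fun θ : ℝ => circleMap 0 s θ := continuous_circleMap 0 s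
  have hcmd : ContDiff ℝ 2 fun θ : ℝ => circleMap 0 s θ := by
    unfold circleMap
    exact contDiff_const.add (contDiff_const.mul
      (Complex.contDiff_exp.comp (Complex.ofRealCLM.contDiff.mul contDiff_const)))
  have hf2 : ContDiffOn ℝ 2 f₀ (Ioo a b) := hu.comp hcmd.contDiffOn fun θ hθ => hI θ hθ
  have hfc : ContinuousOn f₀ (Ioo a b) := hf2.continuousOn
  have hder : ∀ θ ∈ Ioo a b, HasDerivAt f₀ (h θ) θ := fun θ hθ =>
    hasDerivAt_circle ((hu.differentiableOn (by norm_num)).differentiableAt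
      (hKo.mem_nhds (hI θ hθ)))
  have hdeq : EqOn (deriv f₀) h (Ioo a b) := fun θ hθ => (hder θ hθ).deriv
  have hh1 : ContDiffOn ℝ 1 h (Ioo a b) :=
    (((contDiffOn_succ_iff_deriv_of_isOpen isOpen_Ioo (n := 1)).1 hf2).2.2).congr
      fun θ hθ => (hdeq hθ).symm
  have hhc : ContinuousOn h (Ioo a b) := hh1.continuousOn
  have hh2 : ContinuousOn (deriv h) (Ioo a b) := hh1.continuousOn_deriv_of_isOpen isOpen_Ioo le_rfl
  have hhd : ∀ θ ∈ Ioo a b, HasDerivAt h (deriv h θ) θ := fun θ hθ =>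
    ((hh1.differentiableOn one_ne_zero).differentiableAt (isOpen_Ioo.mem_nhds hθ)).hasDerivAt
  have hfin : IsFiniteMeasure (volume.restrict (Ioo a b)) := ⟨by simp⟩
  set μ : Measure ℝ := volume.restrict (Ioo a b) with hμ
  have hfm₀ : MemLp f₀ 2 μ := by
    refine MemLp.of_bound (hfc.aestronglyMeasurable measurableSet_Ioo) M ?_
    filter_upwards [ae_restrict_mem measurableSet_Ioo] with θ hθ
    exact hM θ hθ
  have hTm : MemLp (fun θ => ut u s θ) 2 μ :=
    (memLp_two_iff_integrable_sq (measurable_ut u s).aestronglyMeasurable).2 hT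
  have hNm : MemLp (fun θ => un u s θ) 2 μ :=
    (memLp_two_iff_integrable_sq (measurable_un u s).aestronglyMeasurable).2 hN
  have hhm : MemLp h 2 μ := hTm.const_mul s
  -- mean value
  obtain ⟨m, hm⟩ : ∃ m, m = (2 * π)⁻¹ * ∫ t, f₀ t ∂μ := ⟨_, rfl⟩
  set f : ℝ → ℝ := fun θ => f₀ θ - m with hf
  have hfm : MemLp f 2 μ := hfm₀.sub (memLp_const m)
  have hfder : ∀ θ ∈ Ioo a b, HasDerivAt f (h θ) θ := fun θ hθ => (hder θ hθ).sub_const m
  have hfcont : ContinuousOn f (Ioo a b) := hfc.sub continuousOn_const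
  have hmean : ∫ t, f t ∂μ = 0 := by
    rw [hf]
    simp only
    rw [integral_sub (hfm₀.integrable (by norm_num)) (integrable_const _), integral_const]
    have e4 : μ.real univ = 2 * π := by
      rw [hμ, Measure.real, Measure.restrict_apply_univ, Real.volume_Ioo, hba,
        ENNReal.toReal_ofReal (by positivity)]
    rw [e4, smul_eq_mul, hm]
    field_simp
    ring
  -- integration by parts against test functions
  have hparts : ∀ {g g' : ℝ → ℝ}, ContinuousOn g' (Ioo a b) →
      (∀ θ ∈ Ioo a b, HasDerivAt g (g' θ) θ) →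
      ∀ φ : ℝ → ℝ, ContDiff ℝ ∞ φ → HasCompactSupport φ → tsupport φ ⊆ Ioo a b →
      ∫ t in Ioo a b, g t * deriv φ t = - ∫ t in Ioo a b, g' t * φ t := by
    intro g g' hgc hgd φ h1 h2 h3
    have hφc : Continuous φ := h1.continuous
    have hφd : Continuous (deriv φ) := h1.continuous_deriv (by simp)
    have hz : ∀ θ, θ ∉ tsupport φ → φ θ = 0 := fun θ hθ => image_eq_zero_of_notMem_tsupport hθ
    have hz' : ∀ θ, θ ∉ tsupport φ → deriv φ θ = 0 := fun θ hθ =>
      image_eq_zero_of_notMem_tsupport fun hm => hθ (tsupport_deriv_subset hm)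
    have hgcont : ContinuousOn g (Ioo a b) := fun θ hθ => (hgd θ hθ).continuousAt.continuousWithinAt
    have key : ∀ {q ψ : ℝ → ℝ}, ContinuousOn q (Ioo a b) → Continuous ψ →
        (∀ θ, θ ∉ tsupport φ → ψ θ = 0) → Integrable fun θ => q θ * ψ θ := by
      intro q ψ hq hψ hψ0
      have h4 : IntegrableOn (fun θ => q θ * ψ θ) (tsupport φ) :=
        ((hq.mono h3).mul hψ.continuousOn).integrableOn_compact h2.isCompact
      refine (integrableOn_iff_integrable_of_support_subset ?_).1 h4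
      intro θ hθ
      by_contra hcon
      exact hθ (by simp [hψ0 θ hcon])
    have i1 : Integrable fun θ => g θ * deriv φ θ := key hgcont hφd hz'
    have i2 : Integrable fun θ => g' θ * φ θ := key hgc hφc hz
    have i3 : Integrable fun θ => g θ * φ θ := key hgcont hφc hz
    have hF : ∀ θ, HasDerivAt (fun θ => g θ * φ θ) (g' θ * φ θ + g θ * deriv φ θ) θ := by
      intro θ
      by_cases hθ : θ ∈ tsupport φ
      · exact (hgd θ (h3 hθ)).mul ((h1.differentiable (by simp)) θ).hasDerivAt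
      · rw [hz θ hθ, hz' θ hθ, mul_zero, mul_zero, add_zero]
        have h4 : (fun θ => g θ * φ θ) =ᶠ[𝓝 θ] fun _ => (0 : ℝ) := by
          filter_upwards [(isClosed_tsupport φ).isOpen_compl.mem_nhds hθ] with y hy
          simp [hz y hy]
        exact (hasDerivAt_const θ (0 : ℝ)).congr_of_eventuallyEq h4
    have h5 := integral_eq_zero_of_hasDerivAt_of_integrable hF (i2.add i1) i3
    rw [integral_add i2 i1] at h5
    rw [setIntegral_eq_integral_of_forall_compl_eq_zero fun θ hθ => by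
        rw [hz' θ fun hm => hθ (h3 hm), mul_zero],
      setIntegral_eq_integral_of_forall_compl_eq_zero fun θ hθ => by
        rw [hz θ fun hm => hθ (h3 hm), mul_zero]]
    linarith
  have hw := hparts hhc hfder
  -- the numbers
  have i1 : Integrable (fun t => f t ^ 2) μ := hfm.integrable_sq
  have i2 : Integrable (fun t => f t * un u s t) μ := hfm.integrable_mul hNm
  have i3 : Integrable (fun t => un u s t ^ 2) μ := hNm.integrable_sq
  have i4 : Integrable (fun t => h t ^ 2) μ := hhm.integrable_sq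
  have hW : ∫ t, f t * un u s t ∂μ = 1 := by
    have k1 : Integrable (fun t => f₀ t * un u s t) μ := hfm₀.integrable_mul hNm
    have k2 : Integrable (fun t => m * un u s t) μ := (hNm.integrable (by norm_num)).const_mul m
    have : (fun t => f t * un u s t) = fun t => f₀ t * un u s t - m * un u s t := by
      funext t; rw [hf]; ring
    rw [this, integral_sub k1 k2, integral_const_mul, h0, mul_zero, sub_zero]
    exact hE
  have hY : ∫ t, h t ^ 2 ∂μ = s ^ 2 * ∫ t, ut u s t ^ 2 ∂μ := by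
    rw [← integral_const_mul]
    refine integral_congr_ae (Eventually.of_forall fun t => ?_)
    simp only [hh]; ring
  have hX : ∫ t, f t ^ 2 ∂μ ≤ 4 * ∫ t, h t ^ 2 ∂μ := by
    have hP := arc_poincare hlt hfm hhm hw
    rw [← hμ, hmean, mul_zero, hba, show (2 * π / π) = 2 by field_simp] at hP
    simp only [sub_zero] at hP
    linarith
  have hsq : ∫ t, (f t - 2 * s * un u s t) ^ 2 ∂μ = (∫ t, f t ^ 2 ∂μ) - 4 * s * 1 +
      4 * s ^ 2 * ∫ t, un u s t ^ 2 ∂μ := by
    have e1 : ∀ t, (f t - 2 * s * un u s t) ^ 2 =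
        f t ^ 2 - 4 * s * (f t * un u s t) + 4 * s ^ 2 * (un u s t ^ 2) := by intro t; ring
    simp only [e1]
    have j1 : Integrable (fun t => f t ^ 2 - 4 * s * (f t * un u s t)) μ := i1.sub (i2.const_mul _)
    rw [integral_add j1 (i3.const_mul _), integral_sub i1 (i2.const_mul _), integral_const_mul,
      integral_const_mul, hW]
  have hsq0 : 0 ≤ ∫ t, (f t - 2 * s * un u s t) ^ 2 ∂μ := integral_nonneg fun t => by positivity
  have hTN' : 4 * (∫ t, h t ^ 2 ∂μ) + 4 * s ^ 2 * ∫ t, un u s t ^ 2 ∂μ = 4 * s := by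
    rw [hY]
    linear_combination (4 * s) * hTN
  have heq : 4 * ∫ t, h t ^ 2 ∂μ ≤ ∫ t, f t ^ 2 ∂μ := by linarith
  have hsqz : ∫ t, (f t - 2 * s * un u s t) ^ 2 ∂μ = 0 := by linarith
  -- first equality: `f = 2 s u_n`
  have hunc : ContinuousOn (fun θ => un u s θ) (Ioo a b) := by
    have hgradc : ContinuousOn (grad u) Kᶜ := by
      have h1 : ContinuousOn (fderiv ℝ u) Kᶜ :=
        (hu.of_le (by norm_num) : ContDiffOn ℝ 1 u Kᶜ).continuousOn_fderiv_of_isOpen hKo le_rfl
      have h2 : grad u = fun z => (fderiv ℝ u z 1 : ℂ) + (fderiv ℝ u z Complex.I : ℂ) * Complex.I := by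
        funext z
        apply Complex.ext <;> simp [grad]
      rw [h2]
      have h3 : ContinuousOn (fun z => fderiv ℝ u z 1) Kᶜ := h1.clm_apply continuousOn_const
      have h4 : ContinuousOn (fun z => fderiv ℝ u z Complex.I) Kᶜ := h1.clm_apply continuousOn_const
      exact (Complex.continuous_ofReal.comp_continuousOn h3).add
        ((Complex.continuous_ofReal.comp_continuousOn h4).mul continuousOn_const)
    have h1 : ContinuousOn (fun θ : ℝ => grad u (circleMap 0 s θ)) (Ioo a b) :=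
      hgradc.comp hcm.continuousOn fun θ hθ => hI θ hθ
    unfold un
    exact h1.inner (by fun_prop)
  have hfun : ∀ θ ∈ Ioo a b, f θ = 2 * s * un u s θ := by
    have j1 : Integrable (fun t => (f t - 2 * s * un u s t) ^ 2) μ :=
      (hfm.sub (hNm.const_mul (2 * s))).integrable_sq
    have h1 := (integral_eq_zero_iff_of_nonneg (fun t => by positivity) j1).1 hsqz
    refine MeasureTheory.Measure.eqOn_open_of_ae_eq (μ := volume) ?_ isOpen_Ioo hfcont
      (continuousOn_const.mul hunc)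
    filter_upwards [h1] with t ht
    simp only [Pi.zero_apply] at ht
    have := pow_eq_zero_iff (two_ne_zero) |>.1 ht
    linarith
  -- second equality : `f + 4 h' = 0`
  have hode : ∀ θ ∈ Ioo a b, f θ + 4 * deriv h θ = 0 := by
    have hc : ContinuousOn (fun θ => f θ + 4 * deriv h θ) (Ioo a b) :=
      hfcont.add (continuousOn_const.mul hh2)
    have h1 : ∀ᵐ θ : ℝ, θ ∈ Ioo a b → f θ + 4 * deriv h θ = 0 := by
      refine isOpen_Ioo.ae_eq_zero_of_integral_contDiff_smul_eq_zero
        (hc.locallyIntegrableOn measurableSet_Ioo) ?_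
      intro φ h1 h2 h3
      have e1 := rg_euler hab hfm hhm hw hmean heq h1 h2 h3
      have e2 := hparts hh2 hhd φ h1 h2 h3
      have hz : ∀ θ, θ ∉ Ioo a b → φ θ = 0 := fun θ hθ =>
        image_eq_zero_of_notMem_tsupport fun hm => hθ (h3 hm)
      have mφ : MemLp φ 2 μ := (h1.continuous.memLp_of_hasCompactSupport h2).restrict _
      have k1 : Integrable (fun t => f t * φ t) μ := hfm.integrable_mul mφ
      have k2 : Integrable (fun t => deriv h t * φ t) μ := by
        have h4 : IntegrableOn (fun θ => deriv h θ * φ θ) (tsupport φ) :=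
          ((hh2.mono h3).mul h1.continuous.continuousOn).integrableOn_compact h2.isCompact
        refine ((integrableOn_iff_integrable_of_support_subset ?_).1 h4).integrableOn
        intro θ hθ
        by_contra hcon
        exact hθ (by simp [image_eq_zero_of_notMem_tsupport hcon])
      rw [← setIntegral_eq_integral_of_forall_compl_eq_zero (s := Ioo a b) fun θ hθ => by
        rw [hz θ hθ, zero_smul]]
      have e3 : ∀ t, φ t • (f t + 4 * deriv h t) = f t * φ t + 4 * (deriv h t * φ t) := by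
        intro t; rw [smul_eq_mul]; ring
      simp only [e3]
      rw [integral_add k1 (k2.const_mul 4), integral_const_mul, e1, e2]
      ring
    have h2 : (fun θ => f θ + 4 * deriv h θ) =ᵐ[volume.restrict (Ioo a b)] fun _ => (0 : ℝ) := by
      rw [Filter.EventuallyEq, ae_restrict_iff' measurableSet_Ioo]
      exact h1
    exact MeasureTheory.Measure.eqOn_open_of_ae_eq h2 isOpen_Ioo hc continuousOn_const
  obtain ⟨P, Q, hPQ⟩ := rg_ode hlt hfder (fun t ht => by
    have h1 := hhd t ht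
    have h2 := hode t ht
    refine h1.congr_deriv ?_
    linarith)
  -- the mean value gives `Q = 0`
  have hcc : Continuous fun t : ℝ => Real.cos ((t - a) / 2) := by fun_prop
  have hsc : Continuous fun t : ℝ => Real.sin ((t - a) / 2) := by fun_prop
  have icc : Integrable (fun t : ℝ => Real.cos ((t - a) / 2)) μ :=
    (hcc.integrableOn_Icc (a := a) (b := b)).mono_set Ioo_subset_Icc_self
  have isc : Integrable (fun t : ℝ => Real.sin ((t - a) / 2)) μ :=
    (hsc.integrableOn_Icc (a := a) (b := b)).mono_set Ioo_subset_Icc_self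
  have Icos : ∫ t, Real.cos ((t - a) / 2) ∂μ = 0 := by
    rw [hμ, ← integral_Ioc_eq_integral_Ioo, ← intervalIntegral.integral_of_le hlt.le]
    rw [intervalIntegral.integral_comp_sub_right (fun t => Real.cos (t / 2)) a,
      intervalIntegral.integral_comp_div (fun t => Real.cos t) two_ne_zero, integral_cos]
    rw [hba, sub_self, show 2 * π / 2 = π by ring]
    simp
  have Isin : ∫ t, Real.sin ((t - a) / 2) ∂μ = 4 := by
    rw [hμ, ← integral_Ioc_eq_integral_Ioo, ← intervalIntegral.integral_of_le hlt.le]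
    rw [intervalIntegral.integral_comp_sub_right (fun t => Real.sin (t / 2)) a,
      intervalIntegral.integral_comp_div (fun t => Real.sin t) two_ne_zero, integral_sin]
    rw [hba, sub_self, show 2 * π / 2 = π by ring]
    simp
    norm_num
  have hQ : Q = 0 := by
    have h1 : ∫ t, f t ∂μ = ∫ t, (P * Real.cos ((t - a) / 2) + Q * Real.sin ((t - a) / 2)) ∂μ :=
      setIntegral_congr_fun measurableSet_Ioo fun t ht => (hPQ t ht).1
    rw [hmean, integral_add (icc.const_mul P) (isc.const_mul Q), integral_const_mul,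
      integral_const_mul, Icos, Isin] at h1
    linarith
  have hfin1 : ∀ θ ∈ Ioo a b, un u s θ = P / (2 * s) * Real.cos ((θ - a) / 2) ∧
      ut u s θ = -(P / (2 * s)) * Real.sin ((θ - a) / 2) := by
    intro θ hθ
    obtain ⟨h1, h2⟩ := hPQ θ hθ
    rw [hQ] at h1 h2
    have h3 := hfun θ hθ
    rw [h1] at h3
    simp only [hh] at h2
    constructor
    · field_simp
      linarith
    · field_simp
      field_simp at h2
      linarith
  refine ⟨P, ?_, hfin1⟩
  have h5 : (∫ θ in Ioo a b, ut u s θ ^ 2) + ∫ θ in Ioo a b, un u s θ ^ 2 =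
      (P / (2 * s)) ^ 2 * (2 * π) := by
    rw [← integral_add hT hN]
    have h6 : ∫ θ in Ioo a b, (ut u s θ ^ 2 + un u s θ ^ 2) = ∫ θ in Ioo a b, (P / (2 * s)) ^ 2 := by
      refine setIntegral_congr_fun measurableSet_Ioo fun t ht => ?_
      obtain ⟨h1, h2⟩ := hfin1 t ht
      simp only [h1, h2]
      have := Real.sin_sq_add_cos_sq ((t - a) / 2)
      linear_combination (P / (2 * s)) ^ 2 * this
    rw [h6, integral_const, smul_eq_mul, Measure.real, Measure.restrict_apply_univ,
      Real.volume_Ioo, hba, ENNReal.toReal_ofReal (by positivity)]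
    ring
  rw [h5] at hTN
  field_simp at hTN ⊢
  linarith

end Vale.Agent.P128.GM
end

section

/-! D-13 (GM/D/CFlux.lean) : Wall, Flux -/

open MeasureTheory Set Metric Filter InnerProductSpace
open scoped ENNReal NNReal ContDiff Topology Real

namespace Vale.Agent.P128.GM

open Vale.Agent.P128

variable {u : ℂ → ℝ} {G : ℂ → ℂ} {K L A W : Set ℂ} {η w : ℂ → ℝ} {δ : ℝ}

theorem CMin.sob_cfl (h : CMin u K) : Sob Kᶜ u (grad u) :=
  ⟨h.isOpen_compl, fun C hC hc => h.gm.sobolev.memLp C hc hC,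
    fun C hC hc => h.gm.sobolev.grad_memLp C hc hC, h.gm.sobolev.weak⟩

theorem CMin.wallMin (h : CMin u K) : WallMin K (grad u) := by
  intro L ξ Ξ hL hLf hξ hΞ hw hs
  obtain ⟨ρ, hρ⟩ := hs
  obtain ⟨R0, hR0⟩ := hL.isBounded.subset_closedBall (0 : ℂ)
  obtain ⟨R', hR'⟩ : ∃ R', R' = max R0 ρ := ⟨_, rfl⟩
  have hR1 : R0 ≤ R' := hR' ▸ le_max_left _ _
  have hR2 : ρ ≤ R' := hR' ▸ le_max_right _ _
  have hKL : IsClosed (K ∪ L) := h.closed.union hL.isClosed
  have hU : IsOpen (K ∪ L)ᶜ := hKL.isOpen_compl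
  have hsu : Sob (K ∪ L)ᶜ u (grad u) :=
    h.sob_cfl.mono hU (compl_subset_compl.2 subset_union_left)
  have hsξ : Sob (K ∪ L)ᶜ ξ Ξ :=
    ⟨hU, fun C _ _ => hξ.mono_measure Measure.restrict_le_self,
      fun C _ _ => hΞ.mono_measure Measure.restrict_le_self, hw⟩
  have hsum := hsu.add hsξ
  have hW : W12loc (K ∪ L)ᶜ (fun z => u z + ξ z) (fun z => grad u z + Ξ z) :=
    ⟨fun C hc hC => hsum.ul C hC hc, fun C hc hC => hsum.gl C hC hc, hsum.weak⟩
  have hcmp := h.minimal (x := 0) (r := R' + 1) (C := closedBall 0 R') hKL hW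
    (isCompact_closedBall _ _) (closedBall_subset_ball (by linarith)) (by
      intro z hz
      rcases hz with ⟨hz, hz'⟩ | ⟨hz, hz'⟩
      · rcases hz with hz | hz
        · exact absurd hz hz'
        · exact closedBall_subset_closedBall hR1 (hR0 hz)
      · exact absurd (Or.inl hz) hz') (Eventually.of_forall fun z hz => by
      rw [mem_closedBall, dist_zero_right, not_le] at hz
      show u z + ξ z = u z
      rw [(hρ z (by linarith)).1, add_zero])
    (SepOut.of_subset subset_union_left _)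
  obtain ⟨B, hB⟩ : ∃ B : Set ℂ, B = ball 0 (R' + 1) := ⟨_, rfl⟩
  rw [← hB] at hcmp
  have hKB : μH[1] (K ∩ B) ≠ ⊤ := hB ▸ h.len_fin 0 (R' + 1)
  have hi1 : IntegrableOn (fun z => ‖grad u z‖ ^ 2) B := hB ▸ h.integrableOn' 0 (R' + 1)
  have hm1 : MemLp (grad u) 2 (volume.restrict B) := hB ▸ h.memLp 0 (R' + 1)
  have hm2 : MemLp Ξ 2 (volume.restrict B) := hΞ.mono_measure Measure.restrict_le_self
  have hi2 : IntegrableOn (fun z => ‖Ξ z‖ ^ 2) B := hm2.norm.integrable_sq
  have hi3 : IntegrableOn (fun z => ‖grad u z + Ξ z‖ ^ 2) B := (hm1.add hm2).norm.integrable_sq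
  have hi4 : IntegrableOn (fun z => (inner ℝ (grad u z) (Ξ z) : ℝ)) B := by
    refine Integrable.mono' (hi1.add hi2)
      (hm1.1.inner hm2.1) (Eventually.of_forall fun z => ?_)
    refine (norm_inner_le' _ _).trans ?_
    show _ ≤ ‖grad u z‖ ^ 2 + ‖Ξ z‖ ^ 2
    nlinarith only [sq_nonneg (‖grad u z‖ - ‖Ξ z‖),
      mul_nonneg (norm_nonneg (grad u z)) (norm_nonneg (Ξ z))]
  unfold genergy at hcmp
  rw [h.gm.restrict_compl] at hcmp
  have e1 : ∫⁻ z in B, ENNReal.ofReal (‖grad u z‖ ^ 2) =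
      ENNReal.ofReal (∫ z in B, ‖grad u z‖ ^ 2) :=
    (ofReal_integral_eq_lintegral_ofReal hi1 (Eventually.of_forall fun _ => by positivity)).symm
  have e2 : ∫⁻ z in B, ENNReal.ofReal (‖grad u z + Ξ z‖ ^ 2) =
      ENNReal.ofReal (∫ z in B, ‖grad u z + Ξ z‖ ^ 2) :=
    (ofReal_integral_eq_lintegral_ofReal hi3 (Eventually.of_forall fun _ => by positivity)).symm
  have e3 : μH[1] ((K ∪ L) ∩ B) ≤ μH[1] (K ∩ B) + μH[1] L := by
    rw [union_inter_distrib_right]
    exact (measure_union_le _ _).trans (add_le_add le_rfl (measure_mono inter_subset_left))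
  have h1 : ENNReal.ofReal (∫ z in B, ‖grad u z‖ ^ 2) + μH[1] (K ∩ B) ≤
      (ENNReal.ofReal (∫ z in B, ‖grad u z + Ξ z‖ ^ 2) + μH[1] L) + μH[1] (K ∩ B) := by
    rw [← e1, ← e2]
    refine hcmp.trans ?_
    have e4 : ∫⁻ z in B \ (K ∪ L), ENNReal.ofReal (‖grad u z + Ξ z‖ ^ 2) ≤
        ∫⁻ z in B, ENNReal.ofReal (‖grad u z + Ξ z‖ ^ 2) := lintegral_mono_set sdiff_subset
    calc _ ≤ (∫⁻ z in B, ENNReal.ofReal (‖grad u z + Ξ z‖ ^ 2)) + (μH[1] (K ∩ B) + μH[1] L) :=
          add_le_add e4 e3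
      _ = _ := by ring
  have h2 := (ENNReal.add_le_add_iff_right hKB).1 h1
  rw [← ENNReal.ofReal_toReal hLf, ← ENNReal.ofReal_add (by positivity) (by positivity),
    ENNReal.ofReal_le_ofReal_iff (by positivity)] at h2
  have e5 : ∫ z in B, ‖grad u z + Ξ z‖ ^ 2 = (∫ z in B, ‖grad u z‖ ^ 2) +
      2 * (∫ z in B, (inner ℝ (grad u z) (Ξ z) : ℝ)) + ∫ z in B, ‖Ξ z‖ ^ 2 := by
    have i12 : IntegrableOn (fun z => ‖grad u z‖ ^ 2 + 2 * (inner ℝ (grad u z) (Ξ z) : ℝ)) B :=
      hi1.add (hi4.const_mul 2)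
    rw [← integral_const_mul, ← integral_add hi1 (hi4.const_mul 2), ← integral_add i12 hi2]
    refine integral_congr_ae (Eventually.of_forall fun z => ?_)
    exact norm_add_sq_real _ _
  have hout : ∀ z, z ∉ B → Ξ z = 0 := by
    intro z hz
    rw [hB, mem_ball, dist_zero_right, not_lt] at hz
    exact (hρ z (by linarith)).2
  have e6 : ∫ z in B, (inner ℝ (grad u z) (Ξ z) : ℝ) = ∫ z, (inner ℝ (grad u z) (Ξ z) : ℝ) :=
    setIntegral_eq_integral_of_forall_compl_eq_zero fun z hz => by rw [hout z hz, inner_zero_right]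
  have e7 : ∫ z in B, ‖Ξ z‖ ^ 2 = ∫ z, ‖Ξ z‖ ^ 2 :=
    setIntegral_eq_integral_of_forall_compl_eq_zero fun z hz => by rw [hout z hz]; simp
  rw [e5, e6, e7] at h2
  linarith

theorem CMin.flux (h : CMin u K) (hp : NoPiece K) :
    ∀ᵐ s : ℝ, 0 < s → ∀ α β : ℝ, α < β → β ≤ α + 2 * π → circleMap 0 s α ∈ K →
      circleMap 0 s β ∈ K → (∀ θ ∈ Ioo α β, circleMap 0 s θ ∉ K) →
      ∫ θ in α..β, un u s θ = 0 := by
  filter_upwards [flux_arc h.closed hp 0 (measurable_grad u)
    (fun R => h.memLp 0 R) h.wallMin h.ae_finite] with s hs hs0 α β h1 h2 h3 h4 h5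
  have h6 := hs hs0 α β h1 h2 h3 h4 h5
  have hnsl : ∀ s θ : ℝ, nsl (grad u) 0 s θ = s * un u s θ := fun _ _ => rfl
  simp only [hnsl] at h6
  rw [intervalIntegral.integral_const_mul] at h6
  exact (mul_eq_zero.1 h6).resolve_left hs0.ne'

end Vale.Agent.P128.GM
end
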