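import Vale.Agent.P128.MathlibUsed
import Vale.Agent.P128.Bdl.B5
import Vale.Agent.P128.Bdl.B17
import Vale.Agent.P128.Bdl.B6
import Vale.Agent.P128.Bdl.B1
import Vale.Agent.P128.Bdl.B14
import Vale.Agent.P128.Bdl.B12
import Vale.Agent.P128.Bdl.B9
import Vale.Agent.P128.Bdl.B8
import Vale.Agent.P128.Bdl.B10
import Vale.Agent.P128.Bdl.B3

set_option linter.all false

section

set_option linter.all false

/-! Approximation of `W^{1,2}` competitors by locally Lipschitz ones (Meyers-Serrin). -/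

open MeasureTheory Set Metric Filter Function
open scoped ENNReal NNReal ContDiff Topology

namespace Vale.Agent.P128.Q

open Vale.Agent.P128
open Vale.Agent.P128.GM (LocLip genergy IsGlobalMin W12loc)

theorem q7_ll_lip {U : Set ℂ} (hU : IsOpen U) {f : ℂ → ℝ} {A : ℝ≥0} (hf : LipschitzWith A f) :
    LocLip U f :=
  GM.LocLip.of_locallyLipschitzOn hU (hf.locallyLipschitz.locallyLipschitzOn)

theorem q7_ll_sum {U : Set ℂ} (hU : IsOpen U) {f : ℕ → ℂ → ℝ} (hf : ∀ i, LocLip U (f i)) (n : ℕ) :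
    LocLip U fun z => ∑ i ∈ Finset.range n, f i z := by
  induction n with
  | zero =>
    simp only [Finset.range_zero, Finset.sum_empty]
    exact GM.LocLip.const hU 0
  | succ n ih =>
    simp only [Finset.sum_range_succ]
    exact ih.add (hf n)

theorem q7_W_mono {U V : Set ℂ} {v : ℂ → ℝ} {H : ℂ → ℂ} (h : W12loc U v H) (hVU : V ⊆ U) :
    W12loc V v H :=
  ⟨fun C h1 h2 => h.memLp C h1 (h2.trans hVU), fun C h1 h2 => h.grad_memLp C h1 (h2.trans hVU),
    h.weak.mono hVU⟩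

theorem q7_grad_sum {f : ℕ → ℂ → ℝ} {z : ℂ} (n : ℕ)
    (hf : ∀ i, DifferentiableAt ℝ (f i) z) :
    grad (fun y => ∑ i ∈ Finset.range n, f i y) z = ∑ i ∈ Finset.range n, grad (f i) z := by
  induction n with
  | zero =>
    simp only [Finset.range_zero, Finset.sum_empty]
    exact GM.grad_const 0 z
  | succ n ih =>
    simp only [Finset.sum_range_succ]
    rw [GM.grad_add _ (hf n), ih]
    exact DifferentiableAt.fun_sum fun i _ => hf i

theorem q7_grad_lip {f : ℂ → ℝ} {A : ℝ≥0} (hf : LipschitzWith A f) (z : ℂ) :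
    ‖grad f z‖ ≤ A := by
  rw [GM.norm_grad]
  exact norm_fderiv_le_of_lipschitz ℝ hf

theorem q7_geo (n : ℕ) : ∑ i ∈ Finset.range n, ((2 : ℝ) ^ (i + 1))⁻¹ ≤ 1 := by
  have : ∑ i ∈ Finset.range n, ((2 : ℝ) ^ (i + 1))⁻¹ = 1 - ((2 : ℝ) ^ n)⁻¹ := by
    induction n with
    | zero => simp
    | succ n ih =>
      rw [Finset.sum_range_succ, ih, pow_succ]
      field_simp
      ring
  rw [this]
  have : 0 < ((2 : ℝ) ^ n)⁻¹ := by positivity
  linarith only [this]

theorem q7_cs (e : ℕ → ℝ) (n : ℕ) :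
    (∑ i ∈ Finset.range n, e i) ^ 2 ≤ ∑ i ∈ Finset.range n, 2 ^ (i + 1) * e i ^ 2 := by
  have h := Finset.sum_sq_le_sum_mul_sum_of_sq_eq_mul (Finset.range n) (r := e)
    (f := fun i => ((2 : ℝ) ^ (i + 1))⁻¹) (g := fun i => 2 ^ (i + 1) * e i ^ 2)
    (fun i _ => by positivity) (fun i _ => by positivity) (fun i _ => by
      rw [← mul_assoc, inv_mul_cancel₀ (by positivity), one_mul])
  refine h.trans ?_
  refine mul_le_of_le_one_left (Finset.sum_nonneg fun i _ => by positivity) (q7_geo n)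

theorem q7_sq_add {a b η : ℝ} (hη : 0 < η) :
    (a + b) ^ 2 ≤ (1 + η) * a ^ 2 + (1 + η⁻¹) * b ^ 2 := by
  have h1 : 0 ≤ (η * a - b) ^ 2 * η⁻¹ := by positivity
  have h2 : (η * a - b) ^ 2 * η⁻¹ = η * a ^ 2 - 2 * a * b + η⁻¹ * b ^ 2 := by
    field_simp
    ring
  rw [h2] at h1
  linarith only [h1]

/-- C7 (Q/Approx.lean) -/
theorem approx_locLip {L K₀ : Set ℂ} {u₀ v : ℂ → ℝ} {H : ℂ → ℂ} (hL : IsClosed L)
    (hK : IsClosed K₀) (hv : W12loc Lᶜ v H) (hu : LocLip K₀ᶜ u₀) {x : ℂ} {r : ℝ} {C : Set ℂ}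
    (hC : IsCompact C) (hCr : C ⊆ ball x r) (hLK : ∀ z, z ∉ C → (z ∈ L ↔ z ∈ K₀))
    (hvu : ∀ᵐ z, z ∉ C → v z = u₀ z)
    (hfin : ∫⁻ z in ball x r \ L, ENNReal.ofReal (‖H z‖ ^ 2) < ⊤) {ε : ℝ≥0∞} (hε : 0 < ε) :
    ∃ (w : ℂ → ℝ) (C' : Set ℂ), IsCompact C' ∧ C ⊆ C' ∧ C' ⊆ ball x r ∧ LocLip Lᶜ w ∧
      (∀ z, z ∉ C' → z ∉ K₀ → w z = u₀ z) ∧
      ∫⁻ z in ball x r \ L, ENNReal.ofReal (‖grad w z‖ ^ 2) ≤
        (∫⁻ z in ball x r \ L, ENNReal.ofReal (‖H z‖ ^ 2)) + ε := by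
  have hU : IsOpen Lᶜ := hL.isOpen_compl
  have hK' : IsOpen K₀ᶜ := hK.isOpen_compl
  rcases le_or_gt r 0 with hr | hr
  · have hb : ball x r = ∅ := ball_eq_empty.2 hr
    have hC0 : C = ∅ := subset_empty_iff.1 (hb ▸ hCr)
    have hLK' : L = K₀ := by
      ext z
      exact hLK z (by rw [hC0]; exact notMem_empty z)
    refine ⟨u₀, ∅, isCompact_empty, hC0.subset, empty_subset _, by rwa [hLK'], fun z _ _ => rfl, ?_⟩
    rw [hb, empty_sdiff]
    simp
  -- radii
  obtain ⟨r₀, hr0, hr0r, hCr0⟩ : ∃ r₀, 0 < r₀ ∧ r₀ < r ∧ C ⊆ closedBall x r₀ := by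
    rcases C.eq_empty_or_nonempty with h | h
    · exact ⟨r / 2, by positivity, by linarith, by rw [h]; exact empty_subset _⟩
    · obtain ⟨z, hz, hmax⟩ := hC.exists_isMaxOn h (f := fun z => dist z x)
        (by fun_prop : Continuous fun z => dist z x).continuousOn
      have hz' : dist z x < r := hCr hz
      refine ⟨max (dist z x) (r / 2), lt_max_of_lt_right (by positivity),
        max_lt hz' (by linarith), fun y hy => ?_⟩
      exact mem_closedBall.2 ((hmax hy).trans (le_max_left _ _))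
  obtain ⟨r₁, hr01, hr1r⟩ := exists_between hr0r
  obtain ⟨r₂, hr12, hr2r⟩ := exists_between hr1r
  obtain ⟨χ, φ, Λ', Λ, S, hχl, hχ01, hχ1, hχ0, hφl, hφ1, hSc, hSs, hSφ, hφ0, hloc⟩ :=
    q7_part hL x hr12 hr2r
  -- the open set outside of the small disk
  set O : Set ℂ := (closedBall x r₀)ᶜ ∩ Lᶜ with hO
  have hOo : IsOpen O := isClosed_closedBall.isOpen_compl.inter hU
  have hOK : O ⊆ K₀ᶜ := fun z hz hc => hz.2 ((hLK z fun h => hz.1 (hCr0 h)).2 hc)
  have huO : LocLip O u₀ := hu.mono hOo hOK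
  have hHO : ∀ᵐ z, z ∈ O → H z = grad u₀ z := by
    refine GM.clUniq hOo (q7_W_mono hv inter_subset_right) (huO.w12loc hOo) ?_
    filter_upwards [hvu] with z hz hzO using hz fun h => hzO.1 (hCr0 h)
  -- parameters
  set B : Set ℂ := ball x r \ L with hB
  have hBo : IsOpen B := isOpen_ball.sdiff hL
  set E : ℝ := (∫⁻ z in B, ENNReal.ofReal (‖H z‖ ^ 2)).toReal with hE
  have hE0 : 0 ≤ E := ENNReal.toReal_nonneg
  have hEeq : ENNReal.ofReal E = ∫⁻ z in B, ENNReal.ofReal (‖H z‖ ^ 2) :=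
    ENNReal.ofReal_toReal hfin.ne
  obtain ⟨ε', hε', hεε⟩ : ∃ ε' : ℝ, 0 < ε' ∧ ENNReal.ofReal ε' ≤ ε := by
    refine ⟨(min ε 1).toReal, ENNReal.toReal_pos (lt_min hε one_pos).ne'
      (lt_of_le_of_lt (min_le_right _ _) ENNReal.one_lt_top).ne, ?_⟩
    rw [ENNReal.ofReal_toReal (lt_of_le_of_lt (min_le_right _ _) ENNReal.one_lt_top).ne]
    exact min_le_left _ _
  set η : ℝ := ε' / (2 * (E + 1)) with hη
  have hη0 : 0 < η := by (clear * - hε'; positivity)
  have hηi : 0 < 1 + η⁻¹ := by (clear * - hε'; positivity)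
  set δ : ℝ := ε' / (2 * (1 + η⁻¹)) with hδ
  have hδ0 : 0 < δ := by (clear * - hε'; positivity)
  have hpar : (1 + η) * E + (1 + η⁻¹) * δ ≤ E + ε' := by
    have e1 : η * E ≤ ε' / 2 := by
      rw [hη, div_mul_eq_mul_div, div_le_iff₀ (by positivity)]
      linarith only [hε']
    have e2 : (1 + η⁻¹) * δ = ε' / 2 := by
      rw [hδ]
      field_simp
    rw [e2]
    linarith only [e1]
  -- local approximations
  set δi : ℕ → ℝ := fun i => δ / 2 / 2 ^ i / (2 ^ (i + 2) * (1 + (Λ i : ℝ) ^ 2)) with hδi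
  have hδi0 : ∀ i, 0 < δi i := fun i => by
    simp only [hδi]
    (clear * - hε'; positivity)
  have hSU : ∀ i, S i ⊆ Lᶜ := fun i z hz => (hSs i hz).2
  choose f hf1 hf2 hf3 using fun i => q7_local hU hv (hSc i) (hSU i) (hδi0 i)
  have hfd : ∀ i z, DifferentiableAt ℝ (f i) z := fun i z => (hf1 i).differentiable (by simp) z
  -- the function
  set w : ℂ → ℝ := fun z => ∑' i, φ i z * f i z + (1 - χ z) * u₀ z with hw
  have hwfin : ∀ (n : ℕ) (z : ℂ), (∀ i, n < i → φ i z = 0) →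
      w z = ∑ i ∈ Finset.range (n + 1), φ i z * f i z + (1 - χ z) * u₀ z := by
    intro n z hz
    rw [hw]
    simp only
    rw [tsum_eq_sum (s := Finset.range (n + 1))]
    intro i hi
    rw [Finset.mem_range, not_lt] at hi
    rw [hz i (by omega), zero_mul]
  have hw0 : ∀ z ∉ ball x r₂, w z = u₀ z := by
    intro z hz
    rw [hwfin 0 z fun i _ => hφ0 i z hz, hχ0 z hz]
    simp [hφ0 0 z hz]
  -- the exterior part
  have h1χ : LipschitzWith (0 + Λ') fun z => 1 - χ z := (LipschitzWith.const 1).sub hχl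
  have hext : LocLip Lᶜ fun z => (1 - χ z) * u₀ z := by
    refine GM.LocLip.of_local fun z hz => ?_
    by_cases h : z ∈ ball x r₁
    · refine ⟨ball x r₁ ∩ Lᶜ, fun _ => 0, isOpen_ball.inter hU, ⟨h, hz⟩, inter_subset_right,
        GM.LocLip.const (isOpen_ball.inter hU) 0, fun y hy => ?_⟩
      show (1 - χ y) * u₀ y = 0
      rw [hχ1 y (ball_subset_closedBall hy.1), sub_self, zero_mul]
    · have h' : z ∉ closedBall x r₀ := fun hc => h (closedBall_subset_ball hr01 hc)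
      exact ⟨O, _, hOo, ⟨h', hz⟩, inter_subset_right, (q7_ll_lip hOo h1χ).mul huO,
        fun y _ => rfl⟩
  have hwL : LocLip Lᶜ w := by
    refine GM.LocLip.of_local fun z hz => ?_
    by_cases h : z ∈ ball x r
    · obtain ⟨n, V, hV, hzV, hVB, hV2⟩ := hloc z ⟨h, hz⟩
      have hVL : V ⊆ Lᶜ := fun y hy => (hVB hy).2
      refine ⟨V, fun z => ∑ i ∈ Finset.range (n + 1), φ i z * f i z + (1 - χ z) * u₀ z, hV, hzV,
        hVL, ?_, fun y hy => hwfin n y (hV2 y hy).1⟩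
      exact (q7_ll_sum hV (fun i => (q7_ll_lip hV (hφl i)).mul
        (GM.LocLip.of_contDiff (hf1 i) hV)) _).add (hext.mono hV hVL)
    · have h' : z ∉ closedBall x r₂ := fun hc => h (closedBall_subset_ball hr2r hc)
      have hO2 : IsOpen ((closedBall x r₂)ᶜ ∩ Lᶜ) := isClosed_closedBall.isOpen_compl.inter hU
      refine ⟨(closedBall x r₂)ᶜ ∩ Lᶜ, u₀, hO2, ⟨h', hz⟩, inter_subset_right,
        huO.mono hO2 fun y hy => ⟨fun hc => hy.1 (closedBall_subset_closedBall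
          (hr01.trans hr12).le hc), hy.2⟩, fun y hy => ?_⟩
      exact hw0 y fun hc => hy.1 (ball_subset_closedBall hc)
  refine ⟨w, closedBall x r₂, isCompact_closedBall _ _,
    hCr0.trans (closedBall_subset_closedBall (hr01.trans hr12).le),
    closedBall_subset_ball hr2r, hwL,
    fun z hz _ => hw0 z fun hc => hz (ball_subset_closedBall hc), ?_⟩
  -- the error function
  set g : ℕ → ℂ → ℝ≥0∞ := fun i z => ENNReal.ofReal (2 ^ (i + 2)) *
    (ENNReal.ofReal (‖grad (f i) z - H z‖ ^ 2) +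
      ENNReal.ofReal ((Λ i : ℝ) ^ 2) * ENNReal.ofReal ((f i z - v z) ^ 2)) with hg
  set F : ℂ → ℝ≥0∞ := fun z => ∑' i, (S i).indicator (g i) z with hF
  have hSm : ∀ i, MeasurableSet (S i) := fun i => (hSc i).measurableSet
  have hm1 : ∀ i, AEMeasurable (fun z => ENNReal.ofReal (‖grad (f i) z - H z‖ ^ 2))
      (volume.restrict (S i)) := fun i =>
    (((GM.measurable_grad (f i)).aestronglyMeasurable.sub
      (hv.grad_memLp _ (hSc i) (hSU i)).1).norm.pow 2).aemeasurable.ennreal_ofReal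
  have hm2 : ∀ i, AEMeasurable (fun z => ENNReal.ofReal ((f i z - v z) ^ 2))
      (volume.restrict (S i)) := fun i =>
    ((((hf1 i).continuous.aestronglyMeasurable).sub
      (hv.memLp _ (hSc i) (hSU i)).1).pow 2).aemeasurable.ennreal_ofReal
  have hgm : ∀ i, AEMeasurable ((S i).indicator (g i)) volume := fun i =>
    (aemeasurable_indicator_iff (hSm i)).2
      (((hm1 i).add ((hm2 i).const_mul _)).const_mul _)
  have hFm : AEMeasurable F (volume.restrict B) :=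
    AEMeasurable.ennreal_tsum fun i => (hgm i).restrict
  have hFint : ∫⁻ z in B, F z ≤ ENNReal.ofReal δ := by
    rw [hF, lintegral_tsum fun i => (hgm i).restrict]
    have hterm : ∀ i, ∫⁻ z in B, (S i).indicator (g i) z ≤ ENNReal.ofReal (δ / 2 / 2 ^ i) := by
      intro i
      refine (setLIntegral_le_lintegral _ _).trans ?_
      rw [lintegral_indicator (hSm i)]
      simp only [hg]
      rw [lintegral_const_mul' _ _ ENNReal.ofReal_ne_top,
        lintegral_add_left' (hm1 i), lintegral_const_mul' _ _ ENNReal.ofReal_ne_top]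
      calc ENNReal.ofReal (2 ^ (i + 2)) * ((∫⁻ z in S i, ENNReal.ofReal (‖grad (f i) z - H z‖ ^ 2)) +
            ENNReal.ofReal ((Λ i : ℝ) ^ 2) * ∫⁻ z in S i, ENNReal.ofReal ((f i z - v z) ^ 2))
          ≤ ENNReal.ofReal (2 ^ (i + 2)) * (ENNReal.ofReal (δi i) +
            ENNReal.ofReal ((Λ i : ℝ) ^ 2) * ENNReal.ofReal (δi i)) := by
            gcongr
            · exact hf3 i
            · exact hf2 i
        _ = ENNReal.ofReal (2 ^ (i + 2) * (δi i + (Λ i : ℝ) ^ 2 * δi i)) := by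
            rw [← ENNReal.ofReal_mul (by (clear * -; positivity)), ← ENNReal.ofReal_add (hδi0 i).le
              (mul_nonneg (by (clear * -; positivity)) (hδi0 i).le), ← ENNReal.ofReal_mul (by positivity)]
        _ = ENNReal.ofReal (δ / 2 / 2 ^ i) := by
            congr 1
            simp only [hδi]
            field_simp
    refine (ENNReal.tsum_le_tsum hterm).trans (le_of_eq ?_)
    rw [← ENNReal.ofReal_tsum_of_nonneg (fun i => by (clear * - hε'; positivity)) (summable_geometric_two' δ),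
      tsum_geometric_two']
  -- the pointwise inequality
  have hdφ : ∀ᵐ z : ℂ, ∀ i, DifferentiableAt ℝ (φ i) z :=
    ae_all_iff.2 fun i => (hφl i).ae_differentiableAt
  have hpt : ∀ᵐ z ∂(volume.restrict B), ENNReal.ofReal (‖grad w z‖ ^ 2) ≤
      ENNReal.ofReal (1 + η) * ENNReal.ofReal (‖H z‖ ^ 2) + ENNReal.ofReal (1 + η⁻¹) * F z := by
    filter_upwards [ae_restrict_of_ae hdφ, ae_restrict_of_ae (hχl.ae_differentiableAt),
      ae_restrict_of_ae (huO.ae_diff hOo), ae_restrict_of_ae hHO, ae_restrict_of_ae hvu,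
      ae_restrict_mem hBo.measurableSet] with z dφ dχ du hHz hvz hzB
    obtain ⟨n, V, hV, hzV, hVB, hV2⟩ := hloc z hzB
    have hVn : V ∈ 𝓝 z := hV.mem_nhds hzV
    -- the exterior part
    have hext' : grad (fun y => (1 - χ y) * u₀ y) z = (1 - χ z) • H z - v z • grad χ z ∧
        DifferentiableAt ℝ (fun y => (1 - χ y) * u₀ y) z := by
      by_cases h : z ∈ ball x r₁
      · have e1 : (fun y => (1 - χ y) * u₀ y) =ᶠ[𝓝 z] fun _ => 0 := by
          filter_upwards [isOpen_ball.mem_nhds h] with y hy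
          rw [hχ1 y (ball_subset_closedBall hy), sub_self, zero_mul]
        have e2 : χ =ᶠ[𝓝 z] fun _ => 1 := by
          filter_upwards [isOpen_ball.mem_nhds h] with y hy
          exact hχ1 y (ball_subset_closedBall hy)
        refine ⟨?_, (differentiableAt_const 0).congr_of_eventuallyEq e1⟩
        rw [GM.grad_congr e1, GM.grad_congr e2, GM.grad_const, GM.grad_const,
          hχ1 z (ball_subset_closedBall h)]
        simp
      · have hzO : z ∈ O := ⟨fun hc => h (closedBall_subset_ball hr01 hc), hzB.2⟩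
        have d1 : DifferentiableAt ℝ (fun y => 1 - χ y) z := (differentiableAt_const 1).sub dχ
        have d2 := du hzO
        refine ⟨?_, d1.mul d2⟩
        rw [GM.grad_mul d1 d2, GM.grad_sub (differentiableAt_const 1) dχ, GM.grad_const,
          hHz hzO, hvz fun hc => hzO.1 (hCr0 hc), zero_sub, smul_neg, ← sub_eq_add_neg]
    have hdf : ∀ i, DifferentiableAt ℝ (fun y => φ i y * f i y) z := fun i =>
      (dφ i).mul (hfd i z)
    have hgw : grad w z = (∑ i ∈ Finset.range (n + 1), (φ i z • grad (f i) z +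
        f i z • grad (φ i) z)) + ((1 - χ z) • H z - v z • grad χ z) := by
      have e1 : w =ᶠ[𝓝 z] fun y => ∑ i ∈ Finset.range (n + 1), φ i y * f i y +
          (1 - χ y) * u₀ y := by
        filter_upwards [hVn] with y hy using hwfin n y (hV2 y hy).1
      rw [GM.grad_congr e1, GM.grad_add (DifferentiableAt.fun_sum fun i _ => hdf i) hext'.2,
        hext'.1, q7_grad_sum (n + 1) hdf]
      congr 1
      exact Finset.sum_congr rfl fun i _ => GM.grad_mul (dφ i) (hfd i z)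
    have hs1 : ∑ i ∈ Finset.range (n + 1), φ i z = χ z := (hV2 z hzV).2
    have hs2 : ∑ i ∈ Finset.range (n + 1), grad (φ i) z = grad χ z := by
      rw [← q7_grad_sum (n + 1) dφ]
      refine GM.grad_congr ?_
      filter_upwards [hVn] with y hy using (hV2 y hy).2
    have hdiff : grad w z = H z + ∑ i ∈ Finset.range (n + 1), (φ i z • (grad (f i) z - H z) +
        (f i z - v z) • grad (φ i) z) := by
      have e1 : ∑ i ∈ Finset.range (n + 1), (φ i z • (grad (f i) z - H z) +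
          (f i z - v z) • grad (φ i) z) = (∑ i ∈ Finset.range (n + 1), (φ i z • grad (f i) z +
          f i z • grad (φ i) z)) - (∑ i ∈ Finset.range (n + 1), φ i z) • H z -
          v z • ∑ i ∈ Finset.range (n + 1), grad (φ i) z := by
        rw [Finset.sum_smul, Finset.smul_sum, ← Finset.sum_sub_distrib,
          ← Finset.sum_sub_distrib]
        refine Finset.sum_congr rfl fun i _ => ?_
        rw [smul_sub, sub_smul]
        abel
      rw [e1, hs1, hs2, hgw, sub_smul, one_smul]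
      abel
    -- estimate
    set e : ℕ → ℝ := fun i => (S i).indicator (fun z => ‖grad (f i) z - H z‖ +
      (Λ i : ℝ) * |f i z - v z|) z with he
    have he0 : ∀ i, ‖φ i z • (grad (f i) z - H z) + (f i z - v z) • grad (φ i) z‖ ≤ e i := by
      intro i
      by_cases h : z ∈ S i
      · simp only [he, indicator_of_mem h]
        refine (norm_add_le _ _).trans (add_le_add ?_ ?_)
        · rw [norm_smul, Real.norm_eq_abs]
          exact mul_le_of_le_one_left (norm_nonneg _) (hφ1 i z)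
        · rw [norm_smul, Real.norm_eq_abs, mul_comm]
          exact mul_le_mul_of_nonneg_right (q7_grad_lip (hφl i) z) (abs_nonneg _)
      · simp only [he, indicator_of_notMem h]
        have e1 : φ i =ᶠ[𝓝 z] fun _ => 0 := by
          filter_upwards [(hSc i).isClosed.isOpen_compl.mem_nhds h] with y hy using hSφ i y hy
        rw [hSφ i z h, GM.grad_congr e1, GM.grad_const]
        simp
    have hsum : ‖∑ i ∈ Finset.range (n + 1), (φ i z • (grad (f i) z - H z) +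
        (f i z - v z) • grad (φ i) z)‖ ≤ ∑ i ∈ Finset.range (n + 1), e i :=
      (norm_sum_le _ _).trans (Finset.sum_le_sum fun i _ => he0 i)
    set T : ℕ → ℝ := fun i => 2 ^ (i + 1) * e i ^ 2 with hT
    have hT0 : ∀ i, 0 ≤ T i := fun i => by
      simp only [hT]
      (clear * -; positivity)
    have hn1 : ‖grad w z‖ ^ 2 ≤ (1 + η) * ‖H z‖ ^ 2 +
        (1 + η⁻¹) * ∑ i ∈ Finset.range (n + 1), T i := by
      have e1 : ‖grad w z‖ ≤ ‖H z‖ + ∑ i ∈ Finset.range (n + 1), e i := by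
        rw [hdiff]
        exact (norm_add_le _ _).trans (add_le_add le_rfl hsum)
      calc ‖grad w z‖ ^ 2 ≤ (‖H z‖ + ∑ i ∈ Finset.range (n + 1), e i) ^ 2 :=
            pow_le_pow_left₀ (norm_nonneg _) e1 2
        _ ≤ (1 + η) * ‖H z‖ ^ 2 + (1 + η⁻¹) * (∑ i ∈ Finset.range (n + 1), e i) ^ 2 :=
            q7_sq_add hη0
        _ ≤ _ := by
            gcongr
            exact q7_cs e (n + 1)
    have hTg : ∀ i, ENNReal.ofReal (T i) ≤ (S i).indicator (g i) z := by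
      intro i
      by_cases h : z ∈ S i
      · simp only [hT, he, hg, indicator_of_mem h]
        rw [← ENNReal.ofReal_mul (by (clear * -; positivity)), ← ENNReal.ofReal_add (by (clear * -; positivity))
          (by (clear * -; positivity)), ← ENNReal.ofReal_mul (by positivity)]
        refine ENNReal.ofReal_le_ofReal ?_
        have e1 : (‖grad (f i) z - H z‖ + (Λ i : ℝ) * |f i z - v z|) ^ 2 ≤
            2 * (‖grad (f i) z - H z‖ ^ 2 + (Λ i : ℝ) ^ 2 * (f i z - v z) ^ 2) := by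
          have e2 : (Λ i : ℝ) ^ 2 * (f i z - v z) ^ 2 = ((Λ i : ℝ) * |f i z - v z|) ^ 2 := by
            rw [mul_pow, sq_abs]
          rw [e2]
          linarith only [sq_nonneg (‖grad (f i) z - H z‖ - (Λ i : ℝ) * |f i z - v z|)]
        calc (2 : ℝ) ^ (i + 1) * (‖grad (f i) z - H z‖ + (Λ i : ℝ) * |f i z - v z|) ^ 2
            ≤ 2 ^ (i + 1) * (2 * (‖grad (f i) z - H z‖ ^ 2 +
              (Λ i : ℝ) ^ 2 * (f i z - v z) ^ 2)) := mul_le_mul_of_nonneg_left e1 (by positivity)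
          _ = _ := by ring
      · simp only [hT, he, indicator_of_notMem h]
        simp
    calc ENNReal.ofReal (‖grad w z‖ ^ 2) ≤ ENNReal.ofReal ((1 + η) * ‖H z‖ ^ 2 +
          (1 + η⁻¹) * ∑ i ∈ Finset.range (n + 1), T i) := ENNReal.ofReal_le_ofReal hn1
      _ = ENNReal.ofReal (1 + η) * ENNReal.ofReal (‖H z‖ ^ 2) +
          ENNReal.ofReal (1 + η⁻¹) * ∑ i ∈ Finset.range (n + 1), ENNReal.ofReal (T i) := by
          rw [ENNReal.ofReal_add (by (clear * - hε'; positivity)) (mul_nonneg hηi.le (Finset.sum_nonneg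
            fun i _ => hT0 i)), ENNReal.ofReal_mul (by (clear * - hε'; positivity)), ENNReal.ofReal_mul hηi.le,
            ENNReal.ofReal_sum_of_nonneg fun i _ => hT0 i]
      _ ≤ ENNReal.ofReal (1 + η) * ENNReal.ofReal (‖H z‖ ^ 2) +
          ENNReal.ofReal (1 + η⁻¹) * F z := by
          gcongr
          exact (Finset.sum_le_sum fun i _ => hTg i).trans
            (ENNReal.sum_le_tsum (f := fun i => (S i).indicator (g i) z) _)
  calc ∫⁻ z in B, ENNReal.ofReal (‖grad w z‖ ^ 2)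
      ≤ ∫⁻ z in B, (ENNReal.ofReal (1 + η) * ENNReal.ofReal (‖H z‖ ^ 2) +
          ENNReal.ofReal (1 + η⁻¹) * F z) := lintegral_mono_ae hpt
    _ = ENNReal.ofReal (1 + η) * (∫⁻ z in B, ENNReal.ofReal (‖H z‖ ^ 2)) +
          ENNReal.ofReal (1 + η⁻¹) * ∫⁻ z in B, F z := by
        rw [lintegral_add_right' _ (hFm.const_mul _), lintegral_const_mul'' _ hFm,
          lintegral_const_mul' _ _ ENNReal.ofReal_ne_top]
    _ ≤ ENNReal.ofReal (1 + η) * ENNReal.ofReal E +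
          ENNReal.ofReal (1 + η⁻¹) * ENNReal.ofReal δ := by
        rw [hEeq]
        gcongr
    _ = ENNReal.ofReal ((1 + η) * E + (1 + η⁻¹) * δ) := by
        rw [← ENNReal.ofReal_mul (by (clear * - hε'; positivity)), ← ENNReal.ofReal_mul hηi.le,
          ← ENNReal.ofReal_add (by (clear * - hε'; positivity)) (by (clear * - hε'; positivity))]
    _ ≤ ENNReal.ofReal (E + ε') := ENNReal.ofReal_le_ofReal hpar
    _ = ENNReal.ofReal E + ENNReal.ofReal ε' := ENNReal.ofReal_add hE0 hε'.le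
    _ ≤ (∫⁻ z in B, ENNReal.ofReal (‖H z‖ ^ 2)) + ε := by
        rw [hEeq]
        gcongr

end Vale.Agent.P128.Q
end

section

set_option linter.all false

/-! Part IV, T5: length and number of crossings. -/

open MeasureTheory Set Metric Filter ComplexConjugate
open scoped ENNReal NNReal Topology Real ContDiff

namespace Vale.Agent.P128.Q1

open Vale.Agent.P128

variable {K : Set ℂ} {y₀ : ℂ} {ρ δ : ℝ}

theorem FlatZone.Hn_ge (Z : FlatZone K y₀ ρ δ) (hδ : δ ≤ 1 / 200) {Ω : Set ℂ} {g u : ℂ → ℝ}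
    {G : ℂ → ℂ} {M : ℝ} (N : Nice Ω g u G K M) (hΩ : closedBall y₀ (2 * ρ) ⊆ Ω) {y : ℂ}
    (hy : y ∈ K) (hyy : dist y y₀ ≤ ρ / 8) {r : ℝ} (hr : 0 < r) (hrρ : r ≤ ρ / 16) :
    2 * r ≤ Hn K y r :=
  count_Hn_ge N (count_ball Z.pos hΩ hyy) (fun _ ht htρ => Z.two_le hδ hy hyy ht htρ) hr hrρ

theorem FlatZone.bad_le (Z : FlatZone K y₀ ρ δ) (hδ : δ ≤ 1 / 200) {Ω : Set ℂ} {g u : ℂ → ℝ}
    {G : ℂ → ℂ} {M : ℝ} (N : Nice Ω g u G K M) (hΩ : closedBall y₀ (2 * ρ) ⊆ Ω) {y : ℂ}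
    (hy : y ∈ K) (hyy : dist y y₀ ≤ ρ / 8) {r η : ℝ} (hr : 0 < r) (hrρ : r ≤ ρ / 16)
    (hη : 0 ≤ η) (hH : Hn K y r ≤ (2 + η) * r) :
    volume {t ∈ Ioo 0 r | 3 ≤ (K ∩ sphere y t).encard} ≤ ENNReal.ofReal (η * r) :=
  count_bad_le N (count_ball Z.pos hΩ hyy) (fun _ ht htρ => Z.two_le hδ hy hyy ht htρ) hr hrρ
    hη hH

end Vale.Agent.P128.Q1
end

section

set_option linter.all false

/-! Two crossings of a small circle are nearly antipodal. -/

open MeasureTheory Set Metric Filter ComplexConjugate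
open scoped ENNReal NNReal Topology Real ContDiff

namespace Vale.Agent.P128.Q1

open Vale.Agent.P128

/-- A unit vector with positive real part and small imaginary part is `uc φ` with `φ` small. -/
theorem Dirs_angle {w : ℂ} (hw : ‖w‖ = 1) (hre : 0 < w.re) (him : |w.im| ≤ 1 / 125) :
    ∃ φ : ℝ, uc φ = w ∧ |φ| ≤ π / 250 := by
  refine ⟨w.arg, uc_arg hw, ?_⟩
  have h1 : |w.arg| < π / 2 := Complex.abs_arg_lt_pi_div_two_iff.2 (Or.inl hre)
  have h2 := Real.mul_abs_le_abs_sin h1.le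
  rw [Complex.sin_arg, hw, div_one] at h2
  have h3 : 2 / π * |w.arg| ≤ 1 / 125 := h2.trans him
  have hpi := Real.pi_pos
  have h4 : π / 2 * (2 / π * |w.arg|) ≤ π / 2 * (1 / 125) :=
    mul_le_mul_of_nonneg_left h3 (by positivity)
  have h5 : π / 2 * (2 / π * |w.arg|) = |w.arg| := by
    field_simp
  rw [h5] at h4
  linarith only [h4]

theorem Dirs_uc_pi : uc π = -1 := by
  simp [uc, Complex.exp_pi_mul_I]

theorem Dirs_gap {T : Finset ℂ} {p : ℂ} {s : ℝ} (hs : 0 < s) (h : p * uc s ∈ T) :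
    gap (T : Set ℂ) p ≤ s := by
  refine csInf_le ⟨0, fun x hx => hx.1.le⟩ ⟨hs, ?_⟩
  exact_mod_cast h

theorem Dirs_aux {K : Set ℂ} {δ : ℝ} (hδ : δ ≤ 1 / 1000) {y : ℂ} {t : ℝ} (ht : 0 < t)
    (h2 : (K ∩ sphere y t).encard ≤ 2) {e : ℂ} (he : ‖e‖ = 1)
    (him : ∀ z ∈ K, dist z y ≤ 8 * t → |(conj e * (z - y)).im| ≤ 8 * δ * t)
    {p q : ℂ} (hp : p ∈ K) (hpt : dist p y = t) (hpe : 0 < (conj e * (p - y)).re)
    (hq : q ∈ K) (hqt : dist q y = t) (hqe : (conj e * (q - y)).re < 0) :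
    ∃ (T : Finset ℂ) (w₁ w₂ : ℂ), IsDirs K y t T ∧ w₁ ≠ w₂ ∧ T = {w₁, w₂} ∧
      ‖w₁‖ = 1 ∧ ‖w₂‖ = 1 ∧ K ∩ sphere y t = {y + t • w₁, y + t • w₂} ∧
      ∀ p ∈ T, gap (T : Set ℂ) p ≤ 51 / 50 * π := by
  classical
  have hpi := Real.pi_pos
  have htc : (t : ℂ) ≠ 0 := by exact_mod_cast ht.ne'
  have hne : p ≠ q := by
    rintro rfl
    linarith
  have hS : K ∩ sphere y t = {p, q} := by
    have hsub : ({p, q} : Set ℂ) ⊆ K ∩ sphere y t := by
      rintro z (rfl | rfl)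
      · exact ⟨hp, hpt⟩
      · exact ⟨hq, hqt⟩
    refine (Set.Finite.eq_of_subset_of_encard_le (Set.toFinite _) hsub ?_).symm
    rw [Set.encard_pair hne]
    exact h2
  set w₁ : ℂ := (p - y) / t with hw₁
  set w₂ : ℂ := (q - y) / t with hw₂
  have hy1 : y + t • w₁ = p := by
    rw [hw₁, Complex.real_smul, mul_div_cancel₀ _ htc]
    ring
  have hy2 : y + t • w₂ = q := by
    rw [hw₂, Complex.real_smul, mul_div_cancel₀ _ htc]
    ring
  have hn1 : ‖w₁‖ = 1 := by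
    rw [hw₁, norm_div, ← dist_eq_norm, hpt, Complex.norm_real, Real.norm_eq_abs, abs_of_pos ht,
      div_self ht.ne']
  have hn2 : ‖w₂‖ = 1 := by
    rw [hw₂, norm_div, ← dist_eq_norm, hqt, Complex.norm_real, Real.norm_eq_abs, abs_of_pos ht,
      div_self ht.ne']
  have hww : w₁ ≠ w₂ := by
    intro h
    apply hne
    rw [← hy1, ← hy2, h]
  have hce : e * conj e = 1 := by
    rw [Complex.mul_conj, Complex.normSq_eq_norm_sq, he]
    norm_num
  -- real and imaginary parts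
  have e1 : conj e * w₁ = (conj e * (p - y)) / (t : ℂ) := by rw [hw₁, mul_div_assoc]
  have e2 : conj e * w₂ = (conj e * (q - y)) / (t : ℂ) := by rw [hw₂, mul_div_assoc]
  have hcw1 : ‖conj e * w₁‖ = 1 := by rw [norm_mul, RCLike.norm_conj, he, hn1, one_mul]
  have hcw2 : ‖-(conj e * w₂)‖ = 1 := by
    rw [norm_neg, norm_mul, RCLike.norm_conj, he, hn2, one_mul]
  have hr1 : 0 < (conj e * w₁).re := by
    rw [e1, Complex.div_ofReal_re]
    exact div_pos hpe ht
  have hr2 : 0 < (-(conj e * w₂)).re := by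
    rw [e2, Complex.neg_re, Complex.div_ofReal_re]
    have := div_neg_of_neg_of_pos hqe ht
    linarith only [this]
  have hbd : ∀ z ∈ K, dist z y = t → |((conj e * (z - y)) / (t : ℂ)).im| ≤ 1 / 125 := by
    intro z hz hzt
    rw [Complex.div_ofReal_im, abs_div, abs_of_pos ht, div_le_iff₀ ht]
    have h3 := him z hz (by rw [hzt]; linarith only [ht])
    have h4 : 8 * δ * t ≤ 1 / 125 * t := mul_le_mul_of_nonneg_right (by linarith only [hδ]) ht.le
    exact h3.trans h4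
  have hi1 : |(conj e * w₁).im| ≤ 1 / 125 := by
    rw [e1]
    exact hbd p hp hpt
  have hi2 : |(-(conj e * w₂)).im| ≤ 1 / 125 := by
    rw [Complex.neg_im, abs_neg, e2]
    exact hbd q hq hqt
  obtain ⟨φ, hφ, hφb⟩ := Dirs_angle hcw1 hr1 hi1
  obtain ⟨ψ, hψ, hψb⟩ := Dirs_angle hcw2 hr2 hi2
  have hW1 : w₁ = e * uc φ := by
    rw [hφ, ← mul_assoc, hce, one_mul]
  have hW2 : w₂ = e * (uc π * uc ψ) := by
    rw [hψ, Dirs_uc_pi, neg_one_mul, neg_neg, ← mul_assoc, hce, one_mul]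
  have ha := abs_le.1 hφb
  have hb := abs_le.1 hψb
  have hm1 : w₁ * uc (π + ψ - φ) = w₂ := by
    rw [hW1, hW2, mul_assoc, ← uc_add, ← uc_add]
    congr 2
    ring
  have hm2 : w₂ * uc (π + φ - ψ) = w₁ := by
    rw [hW1, hW2, mul_assoc, ← uc_add, ← uc_add]
    have h5 : π + ψ + (π + φ - ψ) = 2 * π + φ := by ring
    rw [h5, uc_add, uc_two_pi, one_mul]
  refine ⟨{w₁, w₂}, w₁, w₂, ?_, hww, rfl, hn1, hn2, ?_, ?_⟩
  · intro w
    rw [Finset.mem_insert, Finset.mem_singleton]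
    constructor
    · rintro (rfl | rfl)
      · exact ⟨hn1, by rw [hy1]; exact hp⟩
      · exact ⟨hn2, by rw [hy2]; exact hq⟩
    · rintro ⟨h3, h4⟩
      have h5 : y + t • w ∈ K ∩ sphere y t := by
        refine ⟨h4, ?_⟩
        rw [mem_sphere, dist_eq_norm, add_sub_cancel_left, norm_smul, h3, mul_one,
          Real.norm_eq_abs, abs_of_pos ht]
      rw [hS] at h5
      have h6 : ∀ u : ℂ, y + t • w = y + t • u → w = u := by
        intro u hu
        have h7 := add_left_cancel hu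
        exact smul_right_injective ℂ ht.ne' h7
      rcases h5 with h5 | h5
      · exact Or.inl (h6 _ (h5.trans hy1.symm))
      · exact Or.inr (h6 _ (Set.mem_singleton_iff.1 h5 |>.trans hy2.symm))
  · rw [hy1, hy2]
    exact hS
  · intro u hu
    rw [Finset.mem_insert, Finset.mem_singleton] at hu
    rcases hu with rfl | rfl
    · refine (Dirs_gap (s := π + ψ - φ) (by linarith) ?_).trans (by linarith)
      rw [hm1]
      simp
    · refine (Dirs_gap (s := π + φ - ψ) (by linarith) ?_).trans (by linarith)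
      rw [hm2]
      simp

variable {K : Set ℂ} {y₀ : ℂ} {ρ δ : ℝ}

/-- Two crossings are nearly antipodal. -/
theorem FlatZone.dirs (Z : FlatZone K y₀ ρ δ) (hδ : δ ≤ 1 / 1000) {y : ℂ} (hy : y ∈ K)
    (hyy : dist y y₀ ≤ ρ / 8) {t : ℝ} (ht : 0 < t) (htρ : t ≤ ρ / 16)
    (h2 : (K ∩ sphere y t).encard ≤ 2) :
    ∃ (T : Finset ℂ) (w₁ w₂ : ℂ), IsDirs K y t T ∧ w₁ ≠ w₂ ∧ T = {w₁, w₂} ∧
      ‖w₁‖ = 1 ∧ ‖w₂‖ = 1 ∧ K ∩ sphere y t = {y + t • w₁, y + t • w₂} ∧
      ∀ p ∈ T, gap (T : Set ℂ) p ≤ 51 / 50 * π := by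
  obtain ⟨e, he, h1, -, ⟨p, hp, hpt, hpe⟩, q, hq, hqt, hqe⟩ :=
    Z.cross (by linarith only [hδ]) hy hyy ht htρ
  exact Dirs_aux hδ ht h2 he h1 hp hpt hpe hq hqt hqe

end Vale.Agent.P128.Q1
end

section

/-! Bonnet's inequality on circles whose points of `K` are joined in the closed disk. -/

open MeasureTheory Set Metric Filter
open scoped ENNReal NNReal Topology Real ContDiff

namespace Vale.Agent.P128.Q1

open Vale.Agent.P128

/-- Bonnet's inequality. -/
theorem bonnet_loc {Ω K : Set ℂ} {g u : ℂ → ℝ} {G : ℂ → ℂ} {M : ℝ}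
    (N : Nice Ω g u G K M) {x : ℂ} {R : ℝ} (hR : closedBall x R ⊆ Ω)
    (hub : ∀ z ∈ ball x R, |u z| ≤ M) :
    ∀ᵐ s : ℝ, s ∈ Ioo 0 R → IsPreconnected (K ∩ closedBall x s) →
      ∀ T : Finset ℂ, T.Nonempty → (∀ w, w ∈ T ↔ ‖w‖ = 1 ∧ x + s • w ∈ K) →
      ∀ a₀ : ℝ, 0 < a₀ → a₀ < 2 * π → (∀ p ∈ T, gap (T : Set ℂ) p ≤ a₀) →
      En G x s ≤ a₀ / (2 * π) * (s * (eT G x s + eN G x s)) +
        (2 * T.card + 2) * π * M ^ 2 * s ^ 2 := by
  have hπ := Real.pi_pos
  have hM := N.M_nonneg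
  filter_upwards [arc_flux N hR hub, N.flux_c hR, (N.loc hR).ae_circWeak, (N.loc hR).ae_slices,
    (N.loc hR).ae_nsl] with s hfl hfc hcw hsl hn hs hconn T hne hT a₀ ha0 ha2 hgap
  have hs0 := hs.1
  have hfl := hfl hs hconn
  have hfc := hfc hs 0
  have hcw := hcw hs0 hs.2
  obtain ⟨hf, hh⟩ := hsl hs0
  have hn := hn hs0
  have h1 : ∀ w ∈ T, ‖w‖ = 1 := fun w hw => ((hT w).mp hw).1
  set f : ℝ → ℝ := fun θ => u (circleMap x s θ) with hfdef
  set h : ℝ → ℝ := fun θ => s * inner ℝ (G (circleMap x s θ)) (circleMap 0 1 θ * Complex.I)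
    with hhdef
  have fm : Measurable f := N.um.comp (measurable_circleMap x s)
  have hm : Measurable h := measurable_const.mul ((N.Gm.comp (measurable_circleMap x s)).inner
      ((measurable_circleMap 0 1).mul_const _))
  have pf : Function.Periodic f (2 * π) := fun θ => by
    simp only [hfdef, periodic_circleMap x s θ]
  have ph : Function.Periodic h (2 * π) := fun θ => by
    simp only [hhdef, periodic_circleMap x s θ, periodic_circleMap 0 1 θ]
  have hΘ : {w : ℂ | ‖w‖ = 1 ∧ x + s • w ∈ K} = (T : Set ℂ) := by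
    ext w; exact (hT w).symm
  rw [hΘ] at hcw
  have hfin : IsFiniteMeasure (volume.restrict ang) := ⟨by simp⟩
  have hcs : ∀ θ : ℝ, circleMap x s θ ∈ ball x R := fun θ => by
    rw [mem_ball, dist_circleMap_center x hs0.le]; exact hs.2
  have hfM : ∀ θ, |f θ| ≤ M := fun θ => hub _ (hcs θ)
  set c : ℝ → ℝ := arcFun T f with hc
  have cm : Measurable c := measurable_arcFun h1 f
  have hcL : MemLp c 2 (volume.restrict ang) := memLp_arcFun h1 f
  have hpoin : ∫ t in ang, (f t - c t) ^ 2 ≤ (a₀ / π) ^ 2 * ∫ t in ang, h t ^ 2 :=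
    integral_sub_arcFun_sq_le hne h1 hcw pf ph fm hm hf hh hgap
  have hkL : MemLp (fun θ => f θ - c θ) 2 (volume.restrict ang) := hf.sub hcL
  have i1 : Integrable (fun θ => (f θ - c θ) * nsl G x s θ) (volume.restrict ang) :=
    hkL.integrable_mul hn
  have i2 : Integrable (fun θ => c θ * nsl G x s θ) (volume.restrict ang) :=
    hcL.integrable_mul hn
  -- splitting
  have hsplit : ∫ θ in ang, (f θ - 0) * nsl G x s θ =
      (∫ θ in ang, (f θ - c θ) * nsl G x s θ) + ∫ θ in ang, c θ * nsl G x s θ := by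
    rw [← integral_add i1 i2]
    exact integral_congr_ae (Eventually.of_forall fun θ => by simp only; ring)
  -- the first term
  have hT2 : ∫ θ in ang, h θ ^ 2 = s * eT G x s := tsl_sq G x s
  have hN2 : ∫ θ in ang, nsl G x s θ ^ 2 = s * eN G x s := nsl_sq G x s
  have ht1 : ∫ θ in ang, (f θ - c θ) * nsl G x s θ ≤
      a₀ / (2 * π) * (s * (eT G x s + eN G x s)) := by
    have j1 : Integrable (fun θ => π / (2 * a₀) * (f θ - c θ) ^ 2) (volume.restrict ang) :=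
      hkL.integrable_sq.const_mul _
    have j2 : Integrable (fun θ => a₀ / (2 * π) * nsl G x s θ ^ 2) (volume.restrict ang) :=
      hn.integrable_sq.const_mul _
    have h2 : ∫ θ in ang, (f θ - c θ) * nsl G x s θ ≤
        ∫ θ in ang, (π / (2 * a₀) * (f θ - c θ) ^ 2 + a₀ / (2 * π) * nsl G x s θ ^ 2) := by
      refine integral_mono i1 (j1.add j2) fun θ => ?_
      simp only
      have e : π / (2 * a₀) * (f θ - c θ) ^ 2 + a₀ / (2 * π) * nsl G x s θ ^ 2 -
          (f θ - c θ) * nsl G x s θ =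
          (π * (f θ - c θ) - a₀ * nsl G x s θ) ^ 2 / (2 * a₀ * π) := by
        field_simp
        ring
      have : 0 ≤ (π * (f θ - c θ) - a₀ * nsl G x s θ) ^ 2 / (2 * a₀ * π) := by (clear * - ha0; positivity)
      linarith only [this, e]
    rw [integral_add j1 j2, integral_const_mul, integral_const_mul, hN2] at h2
    have h3 : π / (2 * a₀) * ∫ θ in ang, (f θ - c θ) ^ 2 ≤
        π / (2 * a₀) * ((a₀ / π) ^ 2 * (s * eT G x s)) := by
      rw [← hT2]
      exact mul_le_mul_of_nonneg_left hpoin (by positivity)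
    have e2 : π / (2 * a₀) * ((a₀ / π) ^ 2 * (s * eT G x s)) = a₀ / (2 * π) * (s * eT G x s) := by
      field_simp
    rw [e2] at h3
    have e3 : a₀ / (2 * π) * (s * (eT G x s + eN G x s)) =
      a₀ / (2 * π) * (s * eT G x s) + a₀ / (2 * π) * (s * eN G x s) := by ring
    rw [e3]
    linarith only [h3, h2]
  -- the second term
  have pc : Function.Periodic (fun θ => c θ * nsl G x s θ) (2 * π) := fun θ => by
    simp only [hc, arcFun_periodic T f θ, periodic_nsl' G x s θ]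
  have ht2 : |∫ θ in ang, c θ * nsl G x s θ| ≤ 2 * T.card * π * M ^ 2 * s ^ 2 := by
    rw [integral_eq_sum_arcs hne h1 pc i2]
    refine (Finset.abs_sum_le_sum_abs _ _).trans ?_
    have hp : ∀ p ∈ T, |∫ t in Ioo 0 (gap (T : Set ℂ) p),
        c (p.arg + t) * nsl G x s (p.arg + t)| ≤ 2 * π * M ^ 2 * s ^ 2 := by
      intro p hp
      obtain ⟨g1, g2, g3, g4⟩ := gap_spec T.finite_toSet hp (h1 p hp)
      have hcp : ∀ t ∈ Ioo 0 (gap (T : Set ℂ) p), c (p.arg + t) = arcMean (T : Set ℂ) f p := by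
        intro t ht
        refine arcFun_eq h1 f hp ?_
        exact ⟨t, ht, by rw [uc_add, uc_arg (h1 p hp)]⟩
      have e1 : ∫ t in Ioo 0 (gap (T : Set ℂ) p), c (p.arg + t) * nsl G x s (p.arg + t) =
          arcMean (T : Set ℂ) f p * ∫ t in Ioo 0 (gap (T : Set ℂ) p), nsl G x s (p.arg + t) := by
        rw [← integral_const_mul]
        exact setIntegral_congr_fun measurableSet_Ioo fun t ht => by simp only [hcp t ht]
      rw [e1, abs_mul]
      have hmean : |arcMean (T : Set ℂ) f p| ≤ M := by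
        unfold arcMean
        rw [abs_mul, abs_of_pos (inv_pos.mpr g1)]
        have hb : |∫ t in Ioo 0 (gap (T : Set ℂ) p), f (p.arg + t)| ≤
            M * gap (T : Set ℂ) p := by
          have := norm_setIntegral_le_of_norm_le_const (μ := volume)
            (s := Ioo 0 (gap (T : Set ℂ) p)) (f := fun t => f (p.arg + t)) (C := M)
            measure_Ioo_lt_top (fun t _ => hfM _)
          rw [Real.norm_eq_abs] at this
          refine this.trans_eq ?_
          rw [Measure.real, Real.volume_Ioo, sub_zero, ENNReal.toReal_ofReal g1.le]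
        calc (gap (T : Set ℂ) p)⁻¹ * |∫ t in Ioo 0 (gap (T : Set ℂ) p), f (p.arg + t)|
            ≤ (gap (T : Set ℂ) p)⁻¹ * (M * gap (T : Set ℂ) p) :=
              mul_le_mul_of_nonneg_left hb (inv_pos.mpr g1).le
          _ = M := by field_simp
      have hflux : |∫ t in Ioo 0 (gap (T : Set ℂ) p), nsl G x s (p.arg + t)| ≤
          2 * M * (π * s ^ 2) := by
        have e2 : ∫ t in Ioo 0 (gap (T : Set ℂ) p), nsl G x s (p.arg + t) =
            ∫ θ in p.arg..(p.arg + gap (T : Set ℂ) p), nsl G x s θ := by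
          rw [← integral_Ioc_eq_integral_Ioo, ← intervalIntegral.integral_of_le g1.le,
            intervalIntegral.integral_comp_add_left (fun θ => nsl G x s θ) p.arg, add_zero]
        rw [e2]
        have hcm : ∀ θ : ℝ, circleMap x s θ = x + s • uc θ := fun θ => by
          rw [cm_eq', Complex.real_smul]
        refine hfl _ _ (by linarith only [g1]) (by linarith only [hgap p hp, ha2]) ?_ ?_ ?_
        · rw [hcm, uc_arg (h1 p hp)]
          exact ((hT p).mp hp).2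
        · rw [hcm, uc_add, uc_arg (h1 p hp)]
          exact ((hT _).mp (Finset.mem_coe.mp g3)).2
        · intro θ hθ hK
          rw [hcm] at hK
          have h5 : uc θ ∈ T := (hT _).mpr ⟨norm_uc θ, hK⟩
          refine g4 (θ - p.arg) (by linarith [hθ.1]) (by linarith only [hθ.2]) ?_
          have h6 : p * uc (θ - p.arg) = uc θ := by
            have h7 : uc (p.arg + (θ - p.arg)) = uc p.arg * uc (θ - p.arg) := uc_add _ _
            rw [uc_arg (h1 p hp), show p.arg + (θ - p.arg) = θ by ring] at h7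
            exact h7.symm
          rw [h6]
          exact Finset.mem_coe.mpr h5
      calc |arcMean (T : Set ℂ) f p| * |∫ t in Ioo 0 (gap (T : Set ℂ) p), nsl G x s (p.arg + t)|
          ≤ M * (2 * M * (π * s ^ 2)) := mul_le_mul hmean hflux (abs_nonneg _) hM
        _ = 2 * π * M ^ 2 * s ^ 2 := by ring
    refine (Finset.sum_le_sum hp).trans_eq ?_
    rw [Finset.sum_const, nsmul_eq_mul]
    ring
  -- the fidelity term
  have ht3 : |∫ z in ball x s, (u z - g z) * (u z - 0)| ≤ 2 * π * M ^ 2 * s ^ 2 := by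
    have := norm_setIntegral_le_of_norm_le_const (μ := volume)
      (s := ball x s) (f := fun z => (u z - g z) * (u z - 0)) (C := 2 * M * M)
      measure_ball_lt_top (fun z hz => by
        have h2 : |u z| ≤ M := hub z (ball_subset_ball hs.2.le hz)
        have h3 := N.gb z
        rw [Real.norm_eq_abs, abs_mul, sub_zero]
        have h4 : |u z - g z| ≤ 2 * M := by
          have := abs_sub (u z) (g z)
          linarith only [this, h3, h2]
        exact mul_le_mul h4 h2 (abs_nonneg _) (by linarith))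
    rw [Real.norm_eq_abs] at this
    refine this.trans_eq ?_
    have hv := restrict_ball_real x hs0
    rw [Measure.real, Measure.restrict_apply_univ] at hv
    rw [Measure.real, hv]
    ring
  rw [hsplit] at hfc
  have h4 := (abs_le.mp ht2).2
  have h5 := (abs_le.mp ht3).1
  have e4 : (2 * (T.card : ℝ) + 2) * π * M ^ 2 * s ^ 2 =
    2 * T.card * π * M ^ 2 * s ^ 2 + 2 * π * M ^ 2 * s ^ 2 := by ring
  rw [e4]
  linarith only [h5, h4, ht1, hfc]

end Vale.Agent.P128.Q1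
end

section

/-! P128 Q1, part IV, block T10: the chord competitor for two directions. -/

set_option linter.all false

open MeasureTheory Set Metric Filter ComplexConjugate
open scoped ENNReal NNReal Topology Real ContDiff

namespace Vale.Agent.P128.Q1

open Vale.Agent.P128

theorem chordStar_conj_mul {m : ℂ} (hm : ‖m‖ = 1) : conj m * m = 1 := by
  rw [mul_comm, Complex.mul_conj, Complex.normSq_eq_norm_sq, hm]
  norm_num

theorem chordStar_dir {p e : ℂ} (hp : ‖p‖ = 1) (he : ‖e‖ = 1) {c : ℝ} (hc : 0 < c)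
    (hcπ : c < π) : Real.cos c < (conj (p * uc c) * e).re ↔ ∃ t ∈ Ioo 0 (2 * c), e = p * uc t := by
  have hm : ‖p * uc c‖ = 1 := by rw [norm_mul, hp, norm_uc, mul_one]
  have hm0 : p * uc c ≠ 0 := by rw [← norm_ne_zero_iff, hm]; exact one_ne_zero
  have hre : ∀ τ : ℝ, (conj (p * uc c) * (p * uc c * uc τ)).re = Real.cos τ := by
    intro τ
    rw [← mul_assoc, chordStar_conj_mul hm, one_mul, uc_cos_sin]
    simp
    rfl
  constructor
  · intro h
    have hq : ‖e / (p * uc c)‖ = 1 := by rw [norm_div, he, hm, div_one]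
    have hα := uc_arg hq
    have hα1 := Complex.neg_pi_lt_arg (e / (p * uc c))
    have hα2 := Complex.arg_le_pi (e / (p * uc c))
    set τ := (e / (p * uc c)).arg with hτ
    have he' : e = p * uc c * uc τ := by
      rw [hα, mul_div_assoc']
      exact (mul_div_cancel_left₀ e hm0).symm
    rw [he', hre, ← Real.cos_abs τ] at h
    have h2 : |τ| < c := by
      by_contra hcon
      push Not at hcon
      have h3 : |τ| ≤ π := abs_le.2 ⟨hα1.le, hα2⟩
      have := Real.cos_le_cos_of_nonneg_of_le_pi hc.le h3 hcon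
      linarith
    rw [abs_lt] at h2
    refine ⟨τ + c, ⟨by linarith, by linarith⟩, ?_⟩
    rw [he', uc_add]
    ring
  · rintro ⟨t, ⟨h0, h1⟩, rfl⟩
    have h2 : p * uc t = p * uc c * uc (t - c) := by
      rw [mul_assoc, ← uc_add]; congr 2; ring
    rw [h2, hre, ← Real.cos_abs (t - c)]
    refine Real.cos_lt_cos_of_nonneg_of_le_pi (abs_nonneg _) hcπ.le ?_
    rw [abs_lt]
    constructor <;> linarith

/-- The region of one arc. -/
def chordStarU (x m : ℂ) (a c : ℝ) : Set ℂ :=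
  {z | max (dist z x) a * Real.cos c < (conj m * (z - x)).re}

theorem chordStar_isOpen (x m : ℂ) (a c : ℝ) : IsOpen (chordStarU x m a c) := by
  unfold chordStarU
  refine isOpen_lt (by fun_prop) ?_
  exact Complex.continuous_re.comp (by fun_prop)

theorem chordStar_closure {x m : ℂ} {a c : ℝ} {z : ℂ} (hz : z ∈ closure (chordStarU x m a c)) :
    max (dist z x) a * Real.cos c ≤ (conj m * (z - x)).re := by
  have hcl : IsClosed {z : ℂ | max (dist z x) a * Real.cos c ≤ (conj m * (z - x)).re} :=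
    isClosed_le (by fun_prop) (Complex.continuous_re.comp (by fun_prop))
  have hsub : chordStarU x m a c ⊆
      {z : ℂ | max (dist z x) a * Real.cos c ≤ (conj m * (z - x)).re} := fun y hy => by
    unfold chordStarU at hy
    rw [mem_ofPred_eq] at hy ⊢
    exact hy.le
  exact closure_minimal hsub hcl hz

/-- Boundary points of the region. -/
theorem chordStar_bdry {x p : ℂ} (hp : ‖p‖ = 1) {a c : ℝ} (ha : 0 < a) (hc : 0 < c) (hcπ : c < π)
    {z : ℂ} (h : max (dist z x) a * Real.cos c = (conj (p * uc c) * (z - x)).re) :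
    (∃ r : ℝ, a ≤ r ∧ r = dist z x ∧ (z = x + r • p ∨ z = x + r • (p * uc (2 * c)))) ∨
      z ∈ segment ℝ (x + a • p) (x + a • (p * uc (2 * c))) := by
  have hm : ‖p * uc c‖ = 1 := by rw [norm_mul, hp, norm_uc, mul_one]
  have hsin : 0 < Real.sin c := Real.sin_pos_of_pos_of_lt_pi hc hcπ
  set m : ℂ := p * uc c with hmdef
  have hmm := chordStar_conj_mul hm
  have hmc : ‖conj m‖ = 1 := by rw [RCLike.norm_conj, hm]
  set ζ : ℂ := conj m * (z - x) with hζ
  have hzζ : z = x + m * ζ := by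
    rw [hζ, ← mul_assoc, mul_comm m, hmm, one_mul]; ring
  have hnorm : ‖ζ‖ = dist z x := by rw [hζ, norm_mul, hmc, one_mul, dist_eq_norm]
  have hsq : ζ.re ^ 2 + ζ.im ^ 2 = dist z x ^ 2 := by
    rw [← hnorm, ← Complex.normSq_eq_norm_sq, Complex.normSq_apply]; ring
  have hp1 : p = m * uc (-c) := by
    rw [hmdef, mul_assoc, ← uc_add, add_neg_cancel, uc_zero, mul_one]
  have hp2 : p * uc (2 * c) = m * uc c := by
    rw [hmdef, mul_assoc, ← uc_add]; congr 2; ring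
  have hcs := Real.sin_sq_add_cos_sq c
  have hζeq : ζ = (ζ.re : ℂ) + ζ.im * Complex.I := (Complex.re_add_im ζ).symm
  rcases le_or_gt a (dist z x) with hr | hr
  · left
    rw [max_eq_left hr] at h
    refine ⟨dist z x, hr, rfl, ?_⟩
    have him : (ζ.im - dist z x * Real.sin c) * (ζ.im + dist z x * Real.sin c) = 0 := by
      have h3 : ζ.re ^ 2 = (dist z x * Real.cos c) ^ 2 := by rw [h]
      nlinarith
    rcases mul_eq_zero.mp him with h4 | h4
    · right
      rw [hp2, Complex.real_smul]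
      conv_lhs => rw [hzζ, hζeq, ← h, show ζ.im = dist z x * Real.sin c by linarith]
      rw [uc_cos_sin]
      push_cast
      ring
    · left
      rw [hp1, Complex.real_smul]
      conv_lhs => rw [hzζ, hζeq, ← h, show ζ.im = -(dist z x * Real.sin c) by linarith]
      rw [uc_cos_sin, Real.cos_neg, Real.sin_neg]
      push_cast
      ring
  · right
    rw [max_eq_right hr.le] at h
    have h3 : ζ.im ^ 2 ≤ (a * Real.sin c) ^ 2 := by
      have h4 : ζ.re ^ 2 = (a * Real.cos c) ^ 2 := by rw [h]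
      have h5 : dist z x ^ 2 ≤ a ^ 2 := pow_le_pow_left₀ dist_nonneg hr.le 2
      (by_contra nlg; linarith only [nlg, mul_eq_zero_of_left (sub_eq_zero.2 hcs) (ζ.im ^ 2 - ((a * Real.sin c) ^ 2)), mul_eq_zero_of_left (sub_eq_zero.2 hcs) (0 - (0 - (a * Real.sin c) ^ 2)), mul_nonneg (sq_nonneg (Real.sin c : ℝ)) (sub_nonneg.2 h5), mul_eq_zero_of_left (sub_eq_zero.2 h4) (0 - (0 - Real.sin c ^ 2)), mul_eq_zero_of_left (sub_eq_zero.2 hsq) (0 - (0 - Real.sin c ^ 2)), mul_eq_zero_of_left (sub_eq_zero.2 hcs) (0 - (0 - (a * Real.cos c) ^ 2)), mul_nonneg (sq_nonneg (Real.cos c : ℝ)) (sub_nonneg.2 h5), mul_eq_zero_of_left (sub_eq_zero.2 h4) (0 - (0 - Real.cos c ^ 2)), mul_eq_zero_of_left (sub_eq_zero.2 hsq) (0 - (0 - Real.cos c ^ 2))])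
    have h4 : |ζ.im| ≤ a * Real.sin c := abs_le_of_sq_le_sq h3 (by positivity)
    rw [abs_le] at h4
    have hden : 0 < a * Real.sin c := by positivity
    refine ⟨(1 - ζ.im / (a * Real.sin c)) / 2, (1 + ζ.im / (a * Real.sin c)) / 2, ?_, ?_, by ring, ?_⟩
    · have : ζ.im / (a * Real.sin c) ≤ 1 := (div_le_one hden).2 h4.2
      linarith only [this]
    · have : -1 ≤ ζ.im / (a * Real.sin c) := by rw [le_div_iff₀ hden]; linarith
      linarith only [this]
    · have h5 : ζ.im / (a * Real.sin c) * (a * Real.sin c) = ζ.im := by field_simp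
      set lam := ζ.im / (a * Real.sin c) with hlam
      have h6 : (lam : ℂ) * (a * Real.sin c) = ζ.im := by exact_mod_cast h5
      have h7 : ((a : ℂ) * Real.cos c) = ζ.re := by exact_mod_cast h
      rw [hp2]
      conv_lhs => rw [hp1]
      conv_rhs => rw [hzζ, hζeq]
      simp only [Complex.real_smul]
      rw [uc_cos_sin, uc_cos_sin, Real.cos_neg, Real.sin_neg]
      push_cast
      rw [← h6, ← h7]
      push_cast
      ring

/-- The chord competitor for two directions. -/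
theorem starData_chord {w₁ w₂ : ℂ} (h1 : ‖w₁‖ = 1) (h2 : ‖w₂‖ = 1) (hne : w₁ ≠ w₂) (x : ℂ)
    {a s : ℝ} (ha : 0 < a) (has : a < s) :
    StarData {w₁, w₂} x a s (2 * (s - a) + a * ‖w₁ - w₂‖) := by
  classical
  have hπ := Real.pi_pos
  obtain ⟨T, hT⟩ : ∃ T : Finset ℂ, T = {w₁, w₂} := ⟨_, rfl⟩
  rw [← hT]
  have hs0 : 0 < s := ha.trans has
  have hT1 : ∀ w ∈ T, ‖w‖ = 1 := by
    intro w hw
    rw [hT, Finset.mem_insert, Finset.mem_singleton] at hw
    rcases hw with rfl | rfl <;> assumption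
  set L : Set ℂ := segment ℝ (x + a • w₁) (x + s • w₁) ∪ segment ℝ (x + a • w₂) (x + s • w₂) ∪
    segment ℝ (x + a • w₁) (x + a • w₂) with hL
  have M1 : ∀ w ∈ T, ∀ ρ : ℝ, a ≤ ρ → ρ ≤ s → x + ρ • w ∈ L := by
    intro w hw ρ h3 h4
    rw [hT, Finset.mem_insert, Finset.mem_singleton] at hw
    rcases hw with rfl | rfl
    · exact Or.inl (Or.inl (mem_seg_ray x _ h3 h4))
    · exact Or.inl (Or.inr (mem_seg_ray x _ h3 h4))
  have hcb : ∀ (w : ℂ), ‖w‖ = 1 → ∀ ρ : ℝ, 0 ≤ ρ → ρ ≤ s → x + ρ • w ∈ closedBall x s := by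
    intro w hw ρ h3 h4
    rw [mem_closedBall, dist_eq_norm, norm_add_smul_sub x hw h3]; exact h4
  refine ⟨L, fun p => chordStarU x (p * uc (gap (T : Set ℂ) p / 2)) a (gap (T : Set ℂ) p / 2),
    ?_, ?_, ?_, ?_, ?_⟩
  · exact (((isCompact_seg _ _).union (isCompact_seg _ _)).union (isCompact_seg _ _)).isClosed
  · refine union_subset (union_subset ?_ ?_) ?_
    · exact (convex_closedBall x s).segment_subset (hcb _ h1 a ha.le has.le)
        (hcb _ h1 s hs0.le le_rfl)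
    · exact (convex_closedBall x s).segment_subset (hcb _ h2 a ha.le has.le)
        (hcb _ h2 s hs0.le le_rfl)
    · exact (convex_closedBall x s).segment_subset (hcb _ h1 a ha.le has.le)
        (hcb _ h2 a ha.le has.le)
  · have e1 : μH[1] (segment ℝ (x + a • w₁) (x + a • w₂)) = ENNReal.ofReal (a * ‖w₁ - w₂‖) := by
      rw [hausdorffMeasure_segment, edist_dist, dist_eq_norm]
      congr 1
      rw [show x + a • w₁ - (x + a • w₂) = a • (w₁ - w₂) by rw [smul_sub]; ring, norm_smul,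
        Real.norm_of_nonneg ha.le]
    calc μH[1] L ≤ (μH[1] (segment ℝ (x + a • w₁) (x + s • w₁)) +
          μH[1] (segment ℝ (x + a • w₂) (x + s • w₂))) +
          μH[1] (segment ℝ (x + a • w₁) (x + a • w₂)) :=
          (measure_union_le _ _).trans (add_le_add_left (measure_union_le _ _) _)
      _ = ENNReal.ofReal (2 * (s - a) + a * ‖w₁ - w₂‖) := by
          rw [hausdorff_ray x w₁ h1 has.le, hausdorff_ray x w₂ h2 has.le, e1,
            ← ENNReal.ofReal_add (by linarith) (by linarith),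
            ← ENNReal.ofReal_add (by linarith) (by (clear * - ha; positivity))]
          congr 1
          ring
      _ ≤ _ := le_rfl
  · intro r hr w hw
    exact M1 w hw r hr.1 hr.2
  · intro p hp
    obtain ⟨m1, m2, m3, m4⟩ := gap_spec T.finite_toSet hp (hT1 p hp)
    have hp1 := hT1 p hp
    have hp0 : p ≠ 0 := by rw [← norm_ne_zero_iff, hp1]; exact one_ne_zero
    obtain ⟨g, hg⟩ : ∃ g, g = gap (T : Set ℂ) p := ⟨_, rfl⟩
    rw [← hg] at m1 m2 m3 m4
    -- the other point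
    have hg2 : g < 2 * π := by
      rcases eq_or_lt_of_le m2 with h | h
      swap
      · exact h
      exfalso
      -- the other point of `T` is met before
      obtain ⟨q, hq, hqp⟩ : ∃ q ∈ T, q ≠ p := by
        rw [hT, Finset.mem_insert, Finset.mem_singleton] at hp
        rcases hp with rfl | rfl
        · exact ⟨w₂, by rw [hT]; simp, hne.symm⟩
        · exact ⟨w₁, by rw [hT]; simp, hne⟩
      have hq1 := hT1 q hq
      have hqn : ‖q / p‖ = 1 := by rw [norm_div, hq1, hp1, div_one]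
      have hα := uc_arg hqn
      have hα1 := Complex.neg_pi_lt_arg (q / p)
      have hα2 := Complex.arg_le_pi (q / p)
      have hmul : p * uc (q / p).arg = q := by rw [hα]; field_simp
      rcases lt_trichotomy (q / p).arg 0 with h3 | h3 | h3
      · refine m4 ((q / p).arg + 2 * π) (by linarith only [h3, hα1]) (by linarith only [h3, h]) ?_
        rw [uc_add, uc_two_pi, mul_one, hmul]
        exact hq
      · rw [h3, uc_zero, mul_one] at hmul
        exact hqp hmul.symm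
      · refine m4 _ h3 (by linarith only [h3, hα2, h]) ?_
        rw [hmul]
        exact hq
    have hc0 : 0 < g / 2 := by linarith
    have hcπ : g / 2 < π := by linarith
    have hgg : 2 * (g / 2) = g := by ring
    beta_reduce
    rw [← hg]
    refine ⟨chordStar_isOpen _ _ _ _, ?_, ?_, ?_⟩
    · rintro z ⟨hz, hzb⟩
      rcases eq_or_lt_of_le (chordStar_closure hz) with h | h
      · right
        rcases chordStar_bdry hp1 ha hc0 hcπ h with ⟨r, hr, hrd, h3⟩ | h3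
        · rw [mem_ball, ← hrd] at hzb
          rw [hgg] at h3
          rcases h3 with rfl | rfl
          · exact M1 p hp r hr hzb.le
          · exact M1 _ m3 r hr hzb.le
        · rw [hgg] at h3
          right
          have hgp : p * uc g ≠ p := by
            intro h4
            have h5 : uc g = 1 := mul_left_cancel₀ hp0 (by rw [mul_one]; exact h4)
            exact uc_eq_one h5 m1 hg2
          have m3' : p * uc g ∈ T := m3
          rw [hT, Finset.mem_insert, Finset.mem_singleton] at hp m3'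
          rcases hp with h4 | h4 <;> rcases m3' with h5 | h5
          · exact absurd (h5.trans h4.symm) hgp
          · rw [h5, h4] at h3; exact h3
          · rw [h5, h4, segment_symm] at h3; exact h3
          · exact absurd (h5.trans h4.symm) hgp
      · left; exact h
    · intro e he
      have h3 := chordStar_dir hp1 he hc0 hcπ
      rw [hgg] at h3
      change max (dist (x + a • e) x) a * Real.cos (g / 2) <
        (conj (p * uc (g / 2)) * (x + a • e - x)).re ↔ ∃ t ∈ Ioo 0 (gap (T : Set ℂ) p), e = p * uc t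
      rw [← hg, ← h3, dist_eq_norm, norm_add_smul_sub x he ha.le, max_self, add_sub_cancel_left,
        Complex.real_smul, show conj (p * uc (g / 2)) * ((a : ℂ) * e) =
          (a : ℂ) * (conj (p * uc (g / 2)) * e) by ring, Complex.re_ofReal_mul]
      exact mul_lt_mul_iff_right₀ ha
    · intro r hr
      rcases le_or_gt π g with h3 | h3
      · refine (measure_mono inter_subset_left).trans ?_
        rw [show ang = Ioo (-π) π from rfl, Real.volume_Ioo]
        exact ENNReal.ofReal_le_ofReal (by linarith only [h3])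
      · have h4 := volume_dir hp1 (α₁ := 0) (α₂ := g) m1.le (by linarith only [h3, hc0])
        refine (measure_mono ?_).trans (h4.le.trans (ENNReal.ofReal_le_ofReal (by linarith only [hc0])))
        rintro θ ⟨hθ, hθ'⟩
        refine ⟨hθ, ?_⟩
        have hcos : 0 < Real.cos (g / 2) := Real.cos_pos_of_mem_Ioo ⟨by linarith only [h3, hc0], by linarith only [h3]⟩
        have h5 : max (dist (x + r • uc θ) x) a * Real.cos (g / 2) <
          (conj (p * uc (g / 2)) * (x + r • uc θ - x)).re := hθ'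
        rw [dist_eq_norm, norm_add_smul_sub x (norm_uc θ) hr.le, add_sub_cancel_left,
          Complex.real_smul, show conj (p * uc (g / 2)) * ((r : ℂ) * uc θ) =
          (r : ℂ) * (conj (p * uc (g / 2)) * uc θ) by ring, Complex.re_ofReal_mul] at h5
        have h6 : r * Real.cos (g / 2) ≤ max r a * Real.cos (g / 2) :=
          mul_le_mul_of_nonneg_right (le_max_left _ _) hcos.le
        have h7 : Real.cos (g / 2) < (conj (p * uc (g / 2)) * uc θ).re :=
          lt_of_mul_lt_mul_left (h6.trans_lt h5) hr.le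
        obtain ⟨t, ht, h8⟩ := (chordStar_dir hp1 (norm_uc θ) hc0 hcπ).1 h7
        rw [hgg] at ht
        exact ⟨t, ht, h8⟩

end Vale.Agent.P128.Q1
end

section

/-! T11: the length estimate of the chord competitor. -/

set_option linter.all false

open MeasureTheory Set Metric Filter ComplexConjugate
open scoped ENNReal NNReal Topology Real ContDiff

namespace Vale.Agent.P128.Q1

open Vale.Agent.P128

theorem Nice.chord_est {Ω K : Set ℂ} {g u : ℂ → ℝ} {G : ℂ → ℂ} {M : ℝ}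
    (N : Nice Ω g u G K M) {x : ℂ} {R : ℝ} (hR : closedBall x R ⊆ Ω)
    (hub : ∀ z ∈ ball x R, |u z| ≤ M) :
    ∀ᵐ s : ℝ, s ∈ Ioo 0 R → ∀ (T : Finset ℂ) (w₁ w₂ : ℂ), IsDirs K x s T → w₁ ≠ w₂ →
      T = {w₁, w₂} → (∀ p ∈ T, gap (T : Set ℂ) p ≤ 11 / 10 * π) →
        Hn K x s ≤ 2 * s - s / 20 * (2 - ‖w₁ - w₂‖) + 2 * (s * eT G x s) +
          24 * π * M ^ 2 * s ^ 2 := by
  have hb : ∀ᵐ z ∂(volume.restrict (ball x R)), |u z| ≤ M :=
    ae_restrict_of_forall_mem measurableSet_ball hub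
  filter_upwards [N.comp_star hR, N.ae_convert hR, N.ae_finite_sphere x, N.ae_eU_le hb le_rfl]
    with s h1 h2 hfin heU hs T w₁ w₂ hT hne hTe hgap
  obtain ⟨hs0, hsR⟩ := hs
  have hπ := Real.pi_pos
  have hw1 : w₁ ∈ T := by rw [hTe]; simp
  have hw2 : w₂ ∈ T := by rw [hTe]; simp
  have n1 : ‖w₁‖ = 1 := ((hT w₁).mp hw1).1
  have n2 : ‖w₂‖ = 1 := ((hT w₂).mp hw2).1
  have hcard : T.card = 2 := by rw [hTe]; exact Finset.card_pair hne
  have ha : 0 < s / 20 := by positivity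
  have has : s / 20 < s := by linarith only [ha]
  have hstar : StarData T x (s / 20) s (2 * (s - s / 20) + s / 20 * ‖w₁ - w₂‖) := by
    rw [hTe]; exact starData_chord n1 n2 hne x ha has
  have hc : (T.card : ℝ) * (s / 20) ^ 2 ≤ s ^ 2 / 100 := by
    rw [hcard]; push_cast; linarith only [sq_nonneg s]
  have h5 := h1 hs0 hsR T ⟨w₁, hw1⟩ hT (11 / 10 * π) (s / 20) _ hgap ha has hc hstar
  have hκ : (s + s / 20) / (2 * (s - s / 20)) * (11 / 10 * π / π) ^ 2 + 1 / 2 =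
      21 / 38 * (11 / 10) ^ 2 + 1 / 2 := by
    have e1 : (s + s / 20) / (2 * (s - s / 20)) = 21 / 38 := by field_simp; ring
    have e2 : 11 / 10 * π / π = 11 / 10 := by field_simp
    rw [e1, e2]
  rw [hκ] at h5
  have hnn := norm_nonneg (w₁ - w₂)
  have hA0 : 0 ≤ 2 * (s - s / 20) + s / 20 * ‖w₁ - w₂‖ := by
    have := mul_nonneg ha.le hnn
    linarith only [this, ha]
  have h6 := h2 hs0 hsR hfin _ (21 / 38 * (11 / 10) ^ 2 + 1 / 2) (2 / 3) (18 * π * M ^ 2 * s ^ 2)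
    hA0 (by norm_num) (by norm_num) (by (clear * - hs0; positivity)) h5
  have p1 : 0 ≤ En G x s := integral_nonneg fun _ => by (clear * -; positivity)
  have p2 : 0 ≤ Un g u x s := integral_nonneg fun _ => by (clear * -; positivity)
  have hT0 : 0 ≤ s * eT G x s := mul_nonneg hs0.le (eT_nonneg G x hs0.le)
  have hU := mul_le_mul_of_nonneg_left (heU ⟨hs0, hsR⟩) hs0.le
  have hp : 0 ≤ π * M ^ 2 * s ^ 2 := by (clear * - hs0; positivity)
  have e3 : s * (8 * π * M ^ 2 * s) = 8 * (π * M ^ 2 * s ^ 2) := by ring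
  rw [e3] at hU
  have e4 : (21 / 38 * (11 / 10) ^ 2 + 1 / 2) * (s * eT G x s) ≤ 2 * (s * eT G x s) :=
    mul_le_mul_of_nonneg_right (by norm_num) hT0
  linarith only [e4, hp, hU, p2, p1, h6]

end Vale.Agent.P128.Q1
end

section

/-! Part IV (a)-(c): decay of the flatness near points where `K` is close to lines. -/

set_option linter.all false

open MeasureTheory Set Metric Filter ComplexConjugate
open scoped ENNReal NNReal Topology Real ContDiff

namespace Vale.Agent.P128.Q1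

open Vale.Agent.P128

/-- existence of good radii -/
theorem mn_good {q : ℝ → ℝ} {s D : ℝ} {B : Set ℝ} {P : ℝ → Prop} (hs : 0 < s) (hD : 0 < D)
    (hq0 : ∀ t, 0 < t → 0 ≤ q t) (hqi : IntervalIntegrable q volume s (2 * s))
    (hqD : ∫ t in s..(2 * s), q t ≤ D) (hB : volume (B ∩ Ioo 0 (2 * s)) ≤ ENNReal.ofReal (s / 50))
    (hP : ∀ᵐ t : ℝ, t ∈ Ioo s (2 * s) → P t) :
    ∃ t ∈ Ioo s (2 * s), t ∉ B ∧ q t ≤ 4 * D / s ∧ P t := by
  by_contra hcon
  push Not at hcon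
  obtain ⟨B', hB', hB'm, hB'v⟩ := exists_measurable_superset volume (B ∩ Ioo 0 (2 * s))
  set S : Set ℝ := Ioo s (2 * s) \ B' with hS
  have hSm : MeasurableSet S := measurableSet_Ioo.diff hB'm
  have hsub : S ⊆ Ioc s (2 * s) := sdiff_subset.trans Ioo_subset_Ioc_self
  have hvol : s / 2 ≤ volume.real S := by
    have h1 : volume (Ioo s (2 * s)) ≤ volume S + volume B' := by
      calc volume (Ioo s (2 * s)) ≤ volume (S ∪ B') := by
            refine measure_mono fun t ht => ?_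
            by_cases h : t ∈ B'
            · exact Or.inr h
            · exact Or.inl ⟨ht, h⟩
        _ ≤ volume S + volume B' := measure_union_le _ _
    have hSf : volume S ≠ ⊤ := ne_top_of_le_ne_top (by simp) (measure_mono hsub)
    rw [Real.volume_Ioo, show 2 * s - s = s by ring] at h1
    have h2 : ENNReal.ofReal s ≤ ENNReal.ofReal (volume.real S + s / 50) := by
      rw [ENNReal.ofReal_add measureReal_nonneg (by positivity), ofReal_measureReal hSf]
      exact h1.trans (by gcongr; rw [hB'v]; exact hB)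
    have h3 := (ENNReal.ofReal_le_ofReal_iff (by positivity)).1 h2
    linarith only [h3, hs]
  have hqS : IntegrableOn q (Ioc s (2 * s)) := by
    have := hqi.1
    exact this
  have h1 : ∫ t in S, (4 * D / s) ≤ ∫ t in S, q t := by
    refine setIntegral_mono_ae_restrict (by
      refine integrableOn_const ?_
      exact ne_top_of_le_ne_top (by simp) (measure_mono hsub)) (hqS.mono_set hsub) ?_
    rw [Filter.EventuallyLE, ae_restrict_iff' hSm]
    filter_upwards [hP] with t ht htS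
    by_contra hlt
    push Not at hlt
    refine hcon t htS.1 ?_ hlt.le (ht htS.1)
    intro htB
    exact htS.2 (hB' ⟨htB, hs.trans htS.1.1, htS.1.2⟩)
  have h2 : ∫ t in S, q t ≤ ∫ t in Ioc s (2 * s), q t := by
    refine setIntegral_mono_set hqS ?_ hsub.eventuallyLE
    rw [Filter.EventuallyLE, ae_restrict_iff' measurableSet_Ioc]
    exact Eventually.of_forall fun t ht => hq0 t (hs.trans ht.1)
  rw [setIntegral_const, smul_eq_mul] at h1
  rw [intervalIntegral.integral_of_le (by linarith only [hs])] at hqD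
  have h3 : s / 2 * (4 * D / s) ≤ volume.real S * (4 * D / s) := by gcongr
  have h4 : s / 2 * (4 * D / s) = 2 * D := by field_simp; norm_num
  linarith only [h4, h3, h2, h1, hqD, hD]

theorem mn_card {w₁ w₂ : ℂ} {T : Finset ℂ} (hT : T = {w₁, w₂}) (hne : w₁ ≠ w₂) : T.card = 2 := by
  rw [hT]; exact Finset.card_pair hne

theorem mn_encard {S : Set ℂ} (h : ¬ 3 ≤ S.encard) : S.encard ≤ 2 := by
  rw [not_le] at h
  have h2 : S.encard < 2 + 1 := by rwa [show (2 : ℕ∞) + 1 = 3 by norm_num]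
  exact (ENat.lt_add_one_iff (by norm_num)).1 h2

/-- energy decay -/
theorem mn_decay {Ω K : Set ℂ} {g u : ℂ → ℝ} {G : ℂ → ℂ} {M : ℝ}
    (N : Nice Ω g u G K M) {y₀ : ℂ} {ρ δ : ℝ} (Z : FlatZone K y₀ ρ δ) (hδ : δ ≤ 1 / 1000)
    (hΩ : closedBall y₀ (2 * ρ) ⊆ Ω) (hub : ∀ z ∈ ball y₀ (2 * ρ), |u z| ≤ M)
    (hH : ∀ y ∈ K, dist y y₀ ≤ ρ → ∀ r, 0 < r → r ≤ ρ → Hn K y r ≤ (2 + 1 / 100) * r)
    {y : ℂ} (hy : y ∈ K) (hyy : dist y y₀ ≤ ρ / 8) {r : ℝ} (hr : 0 < r) (hrρ : r ≤ ρ / 16) :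
    En G y r ≤ 3 * (r / (ρ / 16)) ^ (3 / 2 : ℝ) *
      (En G y (ρ / 16) + 150 * (6 * π * M ^ 2) * (ρ / 16) ^ 2) := by
  have hπ := Real.pi_pos
  have hρ := Z.pos
  have hsubB : closedBall y (ρ / 16) ⊆ Ω := by
    refine Subset.trans (closedBall_subset_closedBall' ?_) hΩ
    linarith only [hrρ, hr, hyy]
  have hub' : ∀ z ∈ ball y (ρ / 16), |u z| ≤ M := fun z hz =>
    hub z (ball_subset_ball' (by linarith only [hrρ, hr, hyy]) hz)
  refine decay_ode (E := En G y) (q := fun t => eT G y t + eN G y t) (ρ := ρ / 16)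
    (κ := 51 / 100) (A := 6 * π * M ^ 2) (η := 1 / 100)
    (B := {t | 3 ≤ (K ∩ sphere y t).encard}) (by positivity) (by norm_num) le_rfl (by positivity)
    le_rfl (fun t _ _ => En_nonneg G y t)
    (fun t ht _ => add_nonneg (eT_nonneg G y ht.le) (eN_nonneg G y ht.le))
    (fun s t hs hst _ => N.incr_E y hs hst) ?_ ?_ r hr hrρ
  · intro r hr hr1
    have h1 := Z.bad_le (hδ.trans (by norm_num)) N hΩ hy hyy hr hr1 (η := 1 / 100) (by norm_num)
      (hH y hy (hyy.trans (by linarith only [hr1, hr])) r hr (by linarith only [hr1, hr]))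
    refine le_trans (le_of_eq ?_) h1
    congr 1
    ext t
    simp only [mem_inter_iff, mem_setOf_eq]
    tauto
  · filter_upwards [bonnet_loc N hsubB hub'] with t ht htR htB
    have h2 := mn_encard htB
    obtain ⟨T, w₁, w₂, hT, hne, hTe, n1, n2, hK, hgap⟩ := Z.dirs hδ hy hyy htR.1 htR.2.le h2
    have hconn := Z.conn_ball (hδ.trans (by norm_num)) hy hyy htR.1 htR.2.le h2
    have hTne : T.Nonempty := by rw [hTe]; exact ⟨w₁, by simp⟩
    have h3 := ht htR hconn T hTne hT (51 / 50 * π) (by positivity) (by linarith only [hπ]) hgap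
    rw [mn_card hTe hne] at h3
    have e1 : 51 / 50 * π / (2 * π) = 51 / 100 := by field_simp; norm_num
    rw [e1] at h3
    push_cast at h3
    linarith only [h3]

/-- a power of a product -/
theorem mn_pow {x : ℝ} (hx : 0 ≤ x) : (32 * x) ^ (3 / 2 : ℝ) ≤ 200 * (x * x ^ (1 / 2 : ℝ)) := by
  rw [Real.mul_rpow (by norm_num) hx]
  have h1 : (32 : ℝ) ^ (3 / 2 : ℝ) ≤ 200 := by
    have : (32 : ℝ) ^ (3 / 2 : ℝ) = 32 * √32 := by
      rw [show (3 / 2 : ℝ) = 1 + 1 / 2 by norm_num, Real.rpow_add (by norm_num), Real.rpow_one,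
        ← Real.sqrt_eq_rpow]
    rw [this]
    have : √32 ≤ 6 := by
      rw [Real.sqrt_le_left (by norm_num)]; norm_num
    linarith only [this]
  have h2 : x ^ (3 / 2 : ℝ) = x * x ^ (1 / 2 : ℝ) := by
    rcases hx.eq_or_lt with rfl | hx
    · rw [Real.zero_rpow (by norm_num), zero_mul]
    · rw [show (3 / 2 : ℝ) = 1 + 1 / 2 by norm_num, Real.rpow_add hx, Real.rpow_one]
  rw [h2]
  have h3 : 0 ≤ x * x ^ (1 / 2 : ℝ) := mul_nonneg hx (Real.rpow_nonneg hx _)
  exact mul_le_mul_of_nonneg_right h1 h3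

theorem mn_lin {ξ D P F W : ℝ} (h1 : ξ ≤ 16 * D + F) (h2 : D = 10000 * W) (h3 : F ≤ P)
    (h4 : P ≤ 400 * W) (h5 : 0 ≤ W) : ξ ≤ 180000 * W := by
  rw [h2] at h1; linarith

theorem mn_lin2 {E p M ρ : ℝ} (hρ : 0 ≤ ρ) (hp : 0 ≤ p) (hp4 : p < 3.15)
    (h : E ≤ 2 * p * (ρ / 16) + p * M ^ 2 * (ρ / 16) ^ 2) :
    E + 150 * (6 * p * M ^ 2) * (ρ / 16) ^ 2 ≤ 15 * ρ * (1 + M ^ 2 * ρ) := by
  have h1 : 0 ≤ M ^ 2 * ρ ^ 2 := by positivity
  have h2 : p * (M ^ 2 * ρ ^ 2) ≤ 3.15 * (M ^ 2 * ρ ^ 2) := mul_le_mul_of_nonneg_right hp4.le h1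
  have h3 : p * ρ ≤ 3.15 * ρ := mul_le_mul_of_nonneg_right hp4.le hρ
  have e1 : 2 * p * (ρ / 16) + p * M ^ 2 * (ρ / 16) ^ 2 + 150 * (6 * p * M ^ 2) * (ρ / 16) ^ 2 =
    p * ρ / 8 + 901 / 256 * (p * (M ^ 2 * ρ ^ 2)) := by ring
  have e2 : 15 * ρ * (1 + M ^ 2 * ρ) = 15 * ρ + 15 * (M ^ 2 * ρ ^ 2) := by ring
  rw [e2]
  linarith only [h3, h2, h1, h, hρ]

theorem mn_final {t ξ s κ x : ℝ} (hs : 0 < s) (hx0 : 0 < x) (hκ1 : 1 ≤ κ) (ht0 : 0 < t)
    (ht : t ≤ 2 * s) (hξ : 0 ≤ ξ) (h3 : ξ ≤ 180000 * (κ * (s * x ^ (1 / 2 : ℝ)))) :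
    50 * √(t * ξ) ≤ 30000 * √κ * x ^ (1 / 4 : ℝ) * s := by
  have htξ : t * ξ ≤ 360000 * (κ * (s ^ 2 * x ^ (1 / 2 : ℝ))) := by
    calc t * ξ ≤ 2 * s * (180000 * (κ * (s * x ^ (1 / 2 : ℝ)))) := by gcongr
      _ = _ := by ring
  have hq4 : x ^ (1 / 2 : ℝ) = (x ^ (1 / 4 : ℝ)) ^ 2 := by
    rw [← Real.rpow_natCast, ← Real.rpow_mul hx0.le]
    norm_num
  have hsq : √(t * ξ) ≤ 600 * (√κ * x ^ (1 / 4 : ℝ) * s) := by
    rw [Real.sqrt_le_left (by positivity)]
    refine htξ.trans (le_of_eq ?_)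
    rw [hq4, mul_pow, mul_pow, mul_pow, Real.sq_sqrt (by linarith only [hκ1])]
    ring
  calc 50 * √(t * ξ) ≤ 50 * (600 * (√κ * x ^ (1 / 4 : ℝ) * s)) := by gcongr
    _ = 30000 * √κ * x ^ (1 / 4 : ℝ) * s := by ring

/-- MAIN THEOREM OF PART IV (a)-(c). -/
theorem line_decay : ∃ C : ℝ, 0 < C ∧ ∀ {Ω K : Set ℂ} {g u : ℂ → ℝ} {G : ℂ → ℂ} {M : ℝ}
    (N : Nice Ω g u G K M) {y₀ : ℂ} {ρ δ : ℝ} (Z : FlatZone K y₀ ρ δ) (hδ : δ ≤ 1 / 1000)
    (hΩ : closedBall y₀ (2 * ρ) ⊆ Ω) (hub : ∀ z ∈ ball y₀ (2 * ρ), |u z| ≤ M)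
    (hH : ∀ y ∈ K, dist y y₀ ≤ ρ → ∀ r, 0 < r → r ≤ ρ → Hn K y r ≤ (2 + 1 / 100) * r),
    ∀ y ∈ K, dist y y₀ ≤ ρ / 8 → ∀ s, 0 < s → s ≤ ρ / 64 → ∃ e : ℂ, ‖e‖ = 1 ∧
      ∀ z ∈ K, dist z y ≤ s → |(conj e * (z - y)).im| ≤
        C * √(1 + M ^ 2 * ρ) * (s / ρ) ^ (1 / 4 : ℝ) * s := by
  refine ⟨30000, by norm_num, ?_⟩
  intro Ω K g u G M N y₀ ρ δ Z hδ hΩ hub hH y hy hyy s hs hsρ
  have hπ := Real.pi_pos
  have hπ4 : π < 3.15 := Real.pi_lt_d2
  have hρ := Z.pos
  have hsubB : closedBall y (ρ / 16) ⊆ Ω := by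
    refine Subset.trans (closedBall_subset_closedBall' ?_) hΩ
    linarith only [hsρ, hs, hyy]
  have hsubB2 : closedBall y (ρ / 8) ⊆ Ω := by
    refine Subset.trans (closedBall_subset_closedBall' ?_) hΩ
    linarith only [hsρ, hs, hyy]
  have hub' : ∀ z ∈ ball y (ρ / 16), |u z| ≤ M := fun z hz =>
    hub z (ball_subset_ball' (by linarith only [hsρ, hs, hyy]) hz)
  have hM := N.M_nonneg
  set x : ℝ := s / ρ with hx
  have hx0 : 0 < x := by positivity
  have hx1 : x ≤ 1 := by rw [hx, div_le_one hρ]; linarith only [hsρ, hs]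
  set κ : ℝ := 1 + M ^ 2 * ρ with hκ
  have hκ1 : 1 ≤ κ := by rw [hκ]; have : 0 ≤ M ^ 2 * ρ := by positivity
                         linarith only [this]
  have hxs : 0 < x ^ (1 / 2 : ℝ) := Real.rpow_pos_of_pos hx0 _
  have hxx : x ≤ x ^ (1 / 2 : ℝ) := by
    calc x = x ^ (1 : ℝ) := (Real.rpow_one x).symm
      _ ≤ x ^ (1 / 2 : ℝ) := Real.rpow_le_rpow_of_exponent_ge hx0 hx1 (by norm_num)
  set D : ℝ := 10000 * κ * (s * x ^ (1 / 2 : ℝ)) with hD
  have hD0 : 0 < D := by rw [hD]; (clear * - hρ hs; positivity)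
  have hsx : s = ρ * x := by rw [hx]; field_simp
  -- energy at scale 2 s
  have hE2 : En G y (2 * s) ≤ D := by
    have h1 := mn_decay N Z hδ hΩ hub hH hy hyy (r := 2 * s) (by positivity) (by linarith only [hsρ, hs])
    have h2 : En G y (ρ / 16) ≤ 2 * π * (ρ / 16) + π * M ^ 2 * (ρ / 16) ^ 2 := by
      have h3 := N.circle_bound (x := y) (s := ρ / 16) (R := ρ / 8) (by positivity) (by linarith only [hsρ, hs])
        hsubB2
      have h4 := Hn_nonneg K y (ρ / 16)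
      have h5 := Un_nonneg g u y (ρ / 16)
      linarith only [h5, h4, h3]
    have h3 : 2 * s / (ρ / 16) = 32 * x := by rw [hx]; field_simp; norm_num
    rw [h3] at h1
    have h4 := mn_pow hx0.le
    have h5 : En G y (ρ / 16) + 150 * (6 * π * M ^ 2) * (ρ / 16) ^ 2 ≤ 15 * ρ * κ :=
      mn_lin2 hρ.le hπ.le hπ4 h2
    have h6 : 0 ≤ En G y (ρ / 16) + 150 * (6 * π * M ^ 2) * (ρ / 16) ^ 2 :=
      add_nonneg (En_nonneg G y _) (by (clear * - hρ; positivity))
    calc En G y (2 * s) ≤ _ := h1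
      _ ≤ 3 * (200 * (x * x ^ (1 / 2 : ℝ))) * (15 * ρ * κ) := by
          have : 0 ≤ x * x ^ (1 / 2 : ℝ) := by positivity
          gcongr
      _ = 9000 * κ * (s * x ^ (1 / 2 : ℝ)) := by rw [hsx]; ring
      _ ≤ D := by rw [hD]; gcongr; norm_num
  -- a good radius
  obtain ⟨hqi, hqI⟩ := N.incr_E y hs (by linarith only [hs] : s ≤ 2 * s)
  have hbad := Z.bad_le (hδ.trans (by norm_num)) N hΩ hy hyy (r := 2 * s) (by positivity)
    (by linarith only [hsρ, hs]) (η := 1 / 100) (by norm_num) (hH y hy (hyy.trans (by linarith only [hsρ, hs])) (2 * s)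
      (by positivity) (by linarith only [hsρ, hs]))
  have hch := Nice.chord_est N hsubB hub'
  obtain ⟨t, ht, htB, htq, htP⟩ := mn_good (q := fun t => eT G y t + eN G y t) (s := s) (D := D)
    (B := {t | 3 ≤ (K ∩ sphere y t).encard})
    (P := fun t => ∀ (T : Finset ℂ) (w₁ w₂ : ℂ), IsDirs K y t T → w₁ ≠ w₂ →
      T = {w₁, w₂} → (∀ p ∈ T, gap (T : Set ℂ) p ≤ 11 / 10 * π) →
        Hn K y t ≤ 2 * t - t / 20 * (2 - ‖w₁ - w₂‖) + 2 * (t * eT G y t) +
          24 * π * M ^ 2 * t ^ 2) hs hD0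
    (fun t ht => add_nonneg (eT_nonneg G y ht.le) (eN_nonneg G y ht.le)) hqi
    (by rw [hqI]; linarith only [En_nonneg G y s, hE2])
    (by
      refine le_trans (le_of_eq ?_) (hbad.trans (ENNReal.ofReal_le_ofReal (by linarith only [])))
      congr 1
      ext t
      simp only [mem_inter_iff, mem_setOf_eq]
      tauto)
    (by
      filter_upwards [hch] with t ht hts
      exact ht ⟨hs.trans hts.1, by linarith only [hts.2, hsρ, hs]⟩)
  have ht0 : 0 < t := hs.trans ht.1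
  have htρ : t ≤ ρ / 16 := by linarith only [ht.2, ht0, hsρ]
  have h2 := mn_encard htB
  obtain ⟨T, w₁, w₂, hT, hne, hTe, n1, n2, hK, hgap⟩ := Z.dirs hδ hy hyy ht0 htρ h2
  have hconn := Z.conn_ball (hδ.trans (by norm_num)) hy hyy ht0 htρ h2
  have hup := htP T w₁ w₂ hT hne hTe fun p hp => (hgap p hp).trans (by linarith only [hπ])
  have hlow := Z.Hn_ge (hδ.trans (by norm_num)) N hΩ hy hyy ht0 htρ
  obtain ⟨ξ, hξ⟩ : ∃ ξ, ξ = 2 * (t * eT G y t) + 24 * π * M ^ 2 * t ^ 2 := ⟨_, rfl⟩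
  have heT := eT_nonneg G y ht0.le
  have heN := eN_nonneg G y ht0.le
  have hξ0 : 0 ≤ ξ := by rw [hξ]; (clear * - ht0 heT; positivity)
  have hfin : μH[1] (K ∩ closedBall y t) ≠ ⊤ :=
    ne_top_of_le_ne_top N.min.1.finite.ne (measure_mono inter_subset_left)
  obtain ⟨e, he, hee⟩ := beta_good hy ht0 hξ0 n1 n2 hK hconn hfin hlow (by rw [hξ]; linarith only [hup])
  refine ⟨e, he, fun z hz hzy => (hee z hz (hzy.trans ht.1.le)).trans ?_⟩
  -- the final estimate
  have hξ1 : ξ ≤ 16 * D + 96 * π * M ^ 2 * s ^ 2 := by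
    have h3 : eT G y t ≤ 4 * D / s := by linarith only [heN, htq]
    have h4 : t * eT G y t ≤ 2 * s * (4 * D / s) := by
      have : t ≤ 2 * s := ht.2.le
      gcongr
    have h5 : 2 * s * (4 * D / s) = 8 * D := by field_simp; norm_num
    have h6 : t ^ 2 ≤ 4 * s ^ 2 := by (by_contra nlg; linarith only [nlg, mul_pos (sub_pos.2 ht.2) (sub_pos.2 ht0), mul_pos (sub_pos.2 ht.2) (sub_pos.2 ht.2), mul_nonneg (le_of_lt (sub_pos.2 (not_le.1 nlg))) (sub_nonneg.2 hx1), mul_pos (sub_pos.2 (not_le.1 nlg)) (sub_pos.2 hx0)])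
    have h7 : 24 * π * M ^ 2 * t ^ 2 ≤ 24 * π * M ^ 2 * (4 * s ^ 2) := by gcongr
    rw [hξ]
    linarith only [h7, h5, h4]
  have hMs : M ^ 2 * s ^ 2 ≤ κ * (s * x ^ (1 / 2 : ℝ)) := by
    have h3 : M ^ 2 * s ^ 2 = M ^ 2 * ρ * (s * x) := by rw [hx]; field_simp
    rw [h3]
    have h4 : M ^ 2 * ρ ≤ κ := by rw [hκ]; linarith only []
    gcongr
  have h3 : ξ ≤ 180000 * (κ * (s * x ^ (1 / 2 : ℝ))) := by
    have h4 : 96 * π * M ^ 2 * s ^ 2 ≤ 96 * π * (κ * (s * x ^ (1 / 2 : ℝ))) := by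
      calc 96 * π * M ^ 2 * s ^ 2 = 96 * π * (M ^ 2 * s ^ 2) := by ring
        _ ≤ _ := by gcongr
    have h7 : 0 ≤ κ * (s * x ^ (1 / 2 : ℝ)) := by (clear * - hρ hs; positivity)
    have h5 : 96 * π * (κ * (s * x ^ (1 / 2 : ℝ))) ≤ 400 * (κ * (s * x ^ (1 / 2 : ℝ))) :=
      mul_le_mul_of_nonneg_right (by linarith only [hπ4]) h7
    have h6 : D = 10000 * (κ * (s * x ^ (1 / 2 : ℝ))) := by rw [hD]; ring
    exact mn_lin hξ1 h6 h4 h5 h7
  exact mn_final hs hx0 hκ1 ht0 ht.2.le hξ0 h3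

end Vale.Agent.P128.Q1
end

section

/-! P128, Q1: from the types of the points to decaying flatness (`Reg`) and tangents (`Tan`). -/

set_option linter.all false

open MeasureTheory Set Metric Filter ComplexConjugate
open scoped ENNReal NNReal Topology Real ContDiff

namespace Vale.Agent.P128.Q1

open Vale.Agent.P128

variable {Ω : Set ℂ} {g u : ℂ → ℝ} {G : ℂ → ℂ} {K : Set ℂ} {M : ℝ} {x₀ : ℂ} {R₀ : ℝ}

theorem LineClose.lineAt {y : ℂ} {r δ : ℝ} (h : LineClose G K y r δ) : LineAt K δ y r := by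
  obtain ⟨⟨a, ha, h1, h2⟩, -, -⟩ := h
  refine ⟨a, ha, fun z hz hzr => ?_, h2⟩
  obtain ⟨t, -, ht⟩ := h1 z ⟨hz, hzr⟩
  have haa := conj_mul_self_of_norm ha
  have e1 : conj a * (z - y) = conj a * (z - (y + t * a)) + t := by
    linear_combination (t : ℂ) * haa
  rw [e1, Complex.add_im, Complex.ofReal_im, add_zero]
  refine (Complex.abs_im_le_norm _).trans ?_
  rw [norm_mul, Complex.norm_conj, ha, one_mul, ← dist_eq_norm]
  exact ht

/-- The constant of `line_decay`. -/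
theorem exists_reg_const : ∃ C₀ : ℝ, 1 ≤ C₀ ∧ ∀ {Ω K : Set ℂ} {g u : ℂ → ℝ} {G : ℂ → ℂ} {M : ℝ}
    {x₀ : ℂ} {R₀ : ℝ} (_ : MS Ω g u G K M x₀ R₀) {y₀ : ℂ} {ρ : ℝ}, 0 < ρ → ρ ≤ 1 → y₀ ∈ K →
    closedBall y₀ (2 * ρ) ⊆ closedBall x₀ (4 * R₀) →
    (∀ y ∈ K, dist y y₀ ≤ ρ → ∀ r, 0 < r → r ≤ ρ → LineClose G K y r (1 / 1000)) →
    Reg K (C₀ * √(1 + M ^ 2)) y₀ (ρ / 64) := by
  obtain ⟨C, hC, H⟩ := line_decay
  refine ⟨max C 1, le_max_right _ _, ?_⟩
  intro Ω K g u G M x₀ R₀ h y₀ ρ hρ hρ1 hy₀ hsub hline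
  have hΩ : closedBall y₀ (2 * ρ) ⊆ Ω := hsub.trans h.sub
  have Z : FlatZone K y₀ ρ (1 / 1000) :=
    ⟨hρ, h.N.min.1.isCompact_inter hΩ, fun y hy hyy r hr hrρ => (hline y hy hyy r hr hrρ).lineAt⟩
  have hub : ∀ z ∈ ball y₀ (2 * ρ), |u z| ≤ M := fun z hz => h.bd z (hsub (ball_subset_closedBall hz))
  have hH : ∀ y ∈ K, dist y y₀ ≤ ρ → ∀ r, 0 < r → r ≤ ρ → Hn K y r ≤ (2 + 1 / 100) * r := by
    intro y hy hyy r hr hrρ
    have := (abs_le.1 (hline y hy hyy r hr hrρ).2.2).2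
    linarith only [this, hr]
  refine ⟨by positivity, ?_, ?_⟩
  · intro s hs hsρ
    obtain ⟨e, he, h1⟩ := H h.N Z le_rfl hΩ hub hH y₀ hy₀ (by rw [dist_self]; positivity) s hs hsρ
    refine ⟨e, he, fun z hz hzs => (h1 z hz hzs).trans ?_⟩
    have hs0 : 0 ≤ s / ρ := by positivity
    have h2 : s / ρ ≤ s / (ρ / 64) := by
      rw [div_div_eq_mul_div]
      gcongr
      linarith only [hs]
    have h3 : √(1 + M ^ 2 * ρ) ≤ √(1 + M ^ 2) := by
      apply Real.sqrt_le_sqrt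
      have : M ^ 2 * ρ ≤ M ^ 2 * 1 := mul_le_mul_of_nonneg_left hρ1 (sq_nonneg _)
      linarith
    gcongr
    exact le_max_left _ _
  · intro s hs hsρ
    obtain ⟨e, he, h1, -, hp, hq⟩ := Z.cross (by norm_num) hy₀ (by rw [dist_self]; positivity) hs
      (by linarith : s ≤ ρ / 16)
    refine ⟨e, he, fun z hz hzs => (h1 z hz (by linarith)).trans (by linarith), hp, hq⟩

/-- Decay of the flatness away from `x`. -/
theorem MS.reg_away (h : MS Ω g u G K M x₀ R₀) {x : ℂ} (hx : x ∈ K ∩ ball x₀ R₀)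
    (hl : LineAway G K x) : ∃ R c C : ℝ, 0 < R ∧ R ≤ R₀ ∧ 0 < c ∧ c ≤ 1 ∧ 1 ≤ C ∧
      ∀ y ∈ K, y ≠ x → dist y x ≤ R → Reg K C y (c * dist y x) := by
  obtain ⟨C₀, hC₀, H⟩ := exists_reg_const
  obtain ⟨r₁, hr₁, c, hc, h1⟩ := hl (1 / 1000) (by norm_num)
  obtain ⟨k, hk⟩ : ∃ k, k = min (c / 2) (1 / 2) := ⟨_, rfl⟩
  have hk0 : 0 < k := by rw [hk]; positivity
  have hkc : k ≤ c / 2 := by rw [hk]; exact min_le_left _ _
  have hk2 : k ≤ 1 / 2 := by rw [hk]; exact min_le_right _ _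
  have hR0 := h.R0
  have hR1 := h.R1
  refine ⟨min (r₁ / 2) R₀, k / 64, C₀ * √(1 + M ^ 2), by positivity, min_le_right _ _,
    by positivity, by linarith only [hk2, hk0], ?_, ?_⟩
  · have : 1 ≤ √(1 + M ^ 2) := by
      rw [Real.one_le_sqrt]
      have := sq_nonneg M
      linarith only [this]
    (by_contra nlg; linarith only [nlg, mul_nonneg (sub_nonneg.2 hR1) (sub_nonneg.2 this), mul_nonneg (le_of_lt (sub_pos.2 hR0)) (sub_nonneg.2 this), mul_nonneg (sub_nonneg.2 hC₀) (sub_nonneg.2 this), mul_nonneg (sub_nonneg.2 hC₀) (sub_nonneg.2 hR1), mul_nonneg (sub_nonneg.2 hC₀) (le_of_lt (sub_pos.2 hR0)), mul_nonneg (le_of_lt (sub_pos.2 (not_le.1 nlg))) (sub_nonneg.2 hR1), mul_pos (sub_pos.2 (not_le.1 nlg)) (sub_pos.2 hR0)])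
  · intro y hy hyx hyR
    have hd : 0 < dist y x := dist_pos.2 hyx
    have hdr : dist y x ≤ r₁ / 2 := hyR.trans (min_le_left _ _)
    have hdR : dist y x ≤ R₀ := hyR.trans (min_le_right _ _)
    have hxx : dist x x₀ < R₀ := hx.2
    have hkd : k * dist y x ≤ 1 / 2 * dist y x := mul_le_mul_of_nonneg_right hk2 hd.le
    have e1 : k / 64 * dist y x = k * dist y x / 64 := by ring
    rw [e1]
    refine H h (by positivity) (by linarith only [hkd, hdR, hR1, hk2, hk0]) hy ?_ ?_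
    · refine closedBall_subset_closedBall' ?_
      have := dist_triangle y x x₀
      linarith only [this, hkd, hxx, hdR, hd]
    · intro z hz hzy r hr hrk
      have hzx : dist y x / 2 ≤ dist z x := by
        have := dist_triangle y z x
        rw [dist_comm y z] at this
        linarith only [this, hzy, hkd]
      have hzx' : dist z x ≤ r₁ := by
        have := dist_triangle z y x
        linarith only [this, hrk, hr, hzy, hkd, hdr]
      refine h1 z ⟨hz, hzx'⟩ ?_ r hr ?_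
      · exact dist_pos.1 (by linarith only [hzx, hrk, hr, hkd])
      · calc r ≤ k * dist y x := hrk
          _ ≤ c / 2 * dist y x := mul_le_mul_of_nonneg_right hkc hd.le
          _ = c * (dist y x / 2) := by ring
          _ ≤ c * dist z x := mul_le_mul_of_nonneg_left hzx hc.le

/-- Decay of the flatness at a point of line type. -/
theorem MS.reg_line (h : MS Ω g u G K M x₀ R₀) {x : ℂ} (hx : x ∈ K ∩ ball x₀ R₀)
    (hl : LineType G K x) : ∃ ρ C : ℝ, 0 < ρ ∧ 1 ≤ C ∧ Reg K C x ρ := by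
  obtain ⟨C₀, hC₀, H⟩ := exists_reg_const
  obtain ⟨r₁, hr₁, h1⟩ := hl (1 / 1000) (by norm_num)
  have hR0 := h.R0
  have hR1 := h.R1
  have hm : 0 < min r₁ R₀ := lt_min hr₁ hR0
  have hmr : min r₁ R₀ ≤ r₁ := min_le_left _ _
  have hmR : min r₁ R₀ ≤ R₀ := min_le_right _ _
  refine ⟨min r₁ R₀ / 64, C₀ * √(1 + M ^ 2), by positivity, ?_, ?_⟩
  · have : 1 ≤ √(1 + M ^ 2) := by
      rw [Real.one_le_sqrt]
      have := sq_nonneg M
      linarith
    (by_contra nlg; linarith [mul_nonneg (sub_nonneg.2 hmR) (sub_nonneg.2 this), mul_nonneg (le_of_lt (sub_pos.2 hm)) (sub_nonneg.2 this), mul_nonneg (sub_nonneg.2 hR1) (sub_nonneg.2 this), mul_nonneg (sub_nonneg.2 hC₀) (sub_nonneg.2 this), mul_nonneg (sub_nonneg.2 hC₀) (sub_nonneg.2 hmR), mul_nonneg (sub_nonneg.2 hC₀) (le_of_lt (sub_pos.2 hm)), mul_nonneg (sub_nonneg.2 hC₀) (sub_nonneg.2 hR1), mul_nonneg (le_of_lt (sub_pos.2 (not_le.1 nlg))) (sub_nonneg.2 hmR), mul_pos (sub_pos.2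 (not_le.1 nlg)) (sub_pos.2 hm), mul_nonneg (le_of_lt (sub_pos.2 (not_le.1 nlg))) (sub_nonneg.2 hR1)])
  · have hxx : dist x x₀ < R₀ := hx.2
    refine H h hm (by linarith) hx.1 ?_ ?_
    · refine closedBall_subset_closedBall' ?_
      linarith
    · intro z hz hzy r hr hrk
      exact h1 z ⟨hz, hzy.trans hmr⟩ r hr (hrk.trans hmr)

theorem LineType.away {x : ℂ} (hl : LineType G K x) : LineAway G K x := by
  intro δ hδ
  obtain ⟨r₁, hr₁, h1⟩ := hl δ hδ
  exact ⟨r₁, hr₁, 1, one_pos, fun y hy _ r hr hrd => h1 y hy r hr (by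
    rw [one_mul] at hrd; exact hrd.trans hy.2)⟩

end Vale.Agent.P128.Q1
end

section

/-! P128, Q1: the three types of points give cones. -/

set_option linter.all false

open MeasureTheory Set Metric Filter ComplexConjugate
open scoped ENNReal NNReal Topology Real ContDiff

namespace Vale.Agent.P128.Q1

open Vale.Agent.P128

variable {Ω : Set ℂ} {g u : ℂ → ℝ} {G : ℂ → ℂ} {K : Set ℂ} {M : ℝ} {x₀ : ℂ} {R₀ : ℝ}

theorem glue_uc_add_int (t : ℝ) (q : ℤ) : uc (t + 2 * π * q) = uc t := by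
  unfold uc
  rw [Complex.exp_eq_exp_iff_exists_int]
  exact ⟨q, by push_cast; ring⟩

theorem nearRays_of_ray {x : ℂ} {r δ : ℝ} (h : NearRay K x r δ) :
    ∃ θ : ℝ, NearRays K x 1 θ r δ := by
  obtain ⟨w, hw, h1, h2⟩ := h
  have hk : ∀ k : ℤ, uc (w.arg + 2 * π * k / ((1 : ℕ) : ℝ)) = w := by
    intro k
    rw [Nat.cast_one, div_one, glue_uc_add_int, uc_arg hw]
  refine ⟨w.arg, fun y hy hyr => ?_, fun k ρ hρ hρr => ?_⟩
  · obtain ⟨ρ, hρ, h3⟩ := h1 y ⟨hy, hyr⟩
    refine ⟨0, ρ, hρ.1, ?_⟩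
    rw [hk, ← Complex.real_smul]
    exact h3
  · obtain ⟨y, hy, h3⟩ := h2 ρ ⟨hρ, hρr⟩
    refine ⟨y, hy, ?_⟩
    rw [hk, ← Complex.real_smul]
    exact h3

theorem nearRays_of_tripod {x : ℂ} {r δ : ℝ} (h : NearTripod K x r δ) :
    ∃ θ : ℝ, NearRays K x 3 θ r δ := by
  obtain ⟨w, hw, h1, h2⟩ := h
  have hk : ∀ k : ℕ, uc (w.arg + 2 * π * ((k : ℤ) : ℝ) / ((3 : ℕ) : ℝ)) =
      w * Complex.exp (2 * Real.pi / 3 * Complex.I) ^ k := by
    intro k
    rw [uc_add, uc_arg hw]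
    congr 1
    rw [← Complex.exp_nat_mul]
    unfold uc
    congr 1
    push_cast
    ring
  refine ⟨w.arg, fun y hy hyr => ?_, fun k ρ hρ hρr => ?_⟩
  · obtain ⟨k, ρ, hρ, h3⟩ := h1 y ⟨hy, hyr⟩
    refine ⟨k, ρ, hρ.1, ?_⟩
    rw [hk, ← Complex.real_smul]
    exact h3
  · obtain ⟨k', hk'⟩ : ∃ k' : ℕ, (k' : ℤ) = k % 3 := ⟨(k % 3).toNat, by
      rw [Int.toNat_of_nonneg (Int.emod_nonneg _ (by norm_num))]⟩
    obtain ⟨y, hy, h3⟩ := h2 k' ρ ⟨hρ, hρr⟩
    refine ⟨y, hy, ?_⟩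
    have e1 : k = (k' : ℤ) + 3 * (k / 3) := by omega
    have e2 : w.arg + 2 * π * (k : ℝ) / ((3 : ℕ) : ℝ) =
        w.arg + 2 * π * ((k' : ℤ) : ℝ) / ((3 : ℕ) : ℝ) + 2 * π * ((k / 3 : ℤ) : ℝ) := by
      conv_lhs => rw [e1]
      push_cast
      ring
    rw [e2, glue_uc_add_int, hk, ← Complex.real_smul]
    exact h3

theorem nearRays_of_line {x : ℂ} {r δ : ℝ} (h : LineClose G K x r δ) :
    ∃ θ : ℝ, NearRays K x 2 θ r δ := by
  obtain ⟨⟨a, ha, h1, h2⟩, -, -⟩ := h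
  have hpi : uc π = -1 := by
    unfold uc
    exact Complex.exp_pi_mul_I
  have hk : ∀ k : ℤ, uc (a.arg + 2 * π * k / ((2 : ℕ) : ℝ)) = a ∨
      uc (a.arg + 2 * π * k / ((2 : ℕ) : ℝ)) = -a := by
    intro k
    rcases Int.emod_two_eq_zero_or_one k with h | h
    · left
      obtain ⟨q, hq⟩ : ∃ q, k = 2 * q := ⟨k / 2, by omega⟩
      rw [hq, show a.arg + 2 * π * ((2 * q : ℤ) : ℝ) / ((2 : ℕ) : ℝ) = a.arg + 2 * π * q by
        push_cast; ring, glue_uc_add_int, uc_arg ha]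
    · right
      obtain ⟨q, hq⟩ : ∃ q, k = 2 * q + 1 := ⟨k / 2, by omega⟩
      rw [hq, show a.arg + 2 * π * ((2 * q + 1 : ℤ) : ℝ) / ((2 : ℕ) : ℝ) =
        (a.arg + π) + 2 * π * q by push_cast; ring, glue_uc_add_int, uc_add, uc_arg ha, hpi]
      ring
  refine ⟨a.arg, fun y hy hyr => ?_, fun k ρ hρ hρr => ?_⟩
  · obtain ⟨t, -, h3⟩ := h1 y ⟨hy, hyr⟩
    rcases le_total 0 t with ht | ht
    · refine ⟨0, t, ht, ?_⟩
      have : uc (a.arg + 2 * π * ((0 : ℤ) : ℝ) / ((2 : ℕ) : ℝ)) = a := by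
        rw [Int.cast_zero, mul_zero, zero_div, add_zero, uc_arg ha]
      rw [this]
      exact h3
    · refine ⟨1, -t, by linarith, ?_⟩
      have : uc (a.arg + 2 * π * ((1 : ℤ) : ℝ) / ((2 : ℕ) : ℝ)) = -a := by
        rw [show a.arg + 2 * π * ((1 : ℤ) : ℝ) / ((2 : ℕ) : ℝ) = a.arg + π by push_cast; ring,
          uc_add, uc_arg ha, hpi]
        ring
      rw [this]
      have e1 : x + ((-t : ℝ) : ℂ) * -a = x + t * a := by push_cast; ring
      rw [e1]
      exact h3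
  · rcases hk k with hk | hk
    · obtain ⟨y, hy, h3⟩ := h2 ρ (by rw [abs_of_nonneg hρ]; exact hρr)
      refine ⟨y, hy, ?_⟩
      rw [hk]
      exact h3
    · obtain ⟨y, hy, h3⟩ := h2 (-ρ) (by rw [abs_neg, abs_of_nonneg hρ]; exact hρr)
      refine ⟨y, hy, ?_⟩
      rw [hk]
      have e1 : x + (ρ : ℂ) * -a = x + ((-ρ : ℝ) : ℂ) * a := by push_cast; ring
      rw [e1]
      exact h3

/-- A point away from which `K` is close to lines, and at which `K` is close to rays. -/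
theorem MS.cone (h : MS Ω g u G K M x₀ R₀) {x : ℂ} (hx : x ∈ K ∩ ball x₀ R₀)
    (hl : LineAway G K x) {m : ℕ} (hm : m = 1 ∨ m = 2 ∨ m = 3)
    (hrays : ∀ δ > 0, ∃ r₂ > 0, ∀ r, 0 < r → r ≤ r₂ → ∃ θ : ℝ, NearRays K x m θ r δ) :
    ∃ R c A, Cone K x m R c A := by
  obtain ⟨R, c, C, hR, hRR, hc, hc1, hC, H⟩ := h.reg_away hx hl
  refine ⟨R, c, 50 * C, ⟨hm, hx.1, ?_, hR, hc, hc1, by linarith, hrays, ?_⟩⟩
  · refine h.N.min.1.isCompact_inter (Subset.trans (closedBall_subset_closedBall' ?_) h.sub)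
    have : dist x x₀ < R₀ := hx.2
    have := h.R0
    linarith
  · intro y hy hyx hyR
    exact (H y hy hyx hyR).tangent (by linarith)

theorem MS.cone_line (h : MS Ω g u G K M x₀ R₀) {x : ℂ} (hx : x ∈ K ∩ ball x₀ R₀)
    (hl : LineType G K x) : ∃ R c A, Cone K x 2 R c A := by
  refine h.cone hx hl.away (Or.inr (Or.inl rfl)) fun δ hδ => ?_
  obtain ⟨r₁, hr₁, h1⟩ := hl δ hδ
  exact ⟨r₁, hr₁, fun r hr hrr =>
    nearRays_of_line (h1 x ⟨hx.1, mem_closedBall_self hr₁.le⟩ r hr hrr)⟩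

theorem MS.cone_tripod (h : MS Ω g u G K M x₀ R₀) {x : ℂ} (hx : x ∈ K ∩ ball x₀ R₀)
    (hl : TripodType G K x) : ∃ R c A, Cone K x 3 R c A := by
  refine h.cone hx hl.2 (Or.inr (Or.inr rfl)) fun δ hδ => ?_
  obtain ⟨r₁, hr₁, h1⟩ := hl.1 δ hδ
  exact ⟨r₁, hr₁, fun r hr hrr => nearRays_of_tripod (h1 r hr hrr).1⟩

theorem MS.cone_tip (h : MS Ω g u G K M x₀ R₀) {x : ℂ} (hx : x ∈ K ∩ ball x₀ R₀)
    (hl : TipType G K x) : ∃ R c A, Cone K x 1 R c A := by
  refine h.cone hx hl.2 (Or.inl rfl) fun δ hδ => ?_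
  obtain ⟨r₁, hr₁, h1⟩ := hl.1 δ hδ
  exact ⟨r₁, hr₁, fun r hr hrr => nearRays_of_ray (h1 r hr hrr).1⟩

end Vale.Agent.P128.Q1
end

section

/-! P128, Q1, part V: decay of the energy at a tripod point (from connectedness and gaps). -/

open MeasureTheory Set Metric Filter
open scoped ENNReal NNReal Topology Real

namespace Vale.Agent.P128.Q1

open Vale.Agent.P128

/-- Decay of the energy at a point at which `K` crosses every small circle in three points with
gaps at most `4 π / 5` which are joined in the disk. -/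
theorem tri_decay_aux {Ω : Set ℂ} {g u : ℂ → ℝ} {G : ℂ → ℂ} {K : Set ℂ} {M : ℝ} {x₀ : ℂ} {R₀ : ℝ}
    (h : MS Ω g u G K M x₀ R₀) {x : ℂ} (hx : x ∈ ball x₀ R₀) {s₁ : ℝ} (hs₁ : 0 < s₁)
    (hconn : ∀ s, 0 < s → s < s₁ → IsPreconnected (K ∩ closedBall x s))
    (hgap : ∀ s, 0 < s → s < s₁ → ∃ T : Finset ℂ, T.card = 3 ∧
      (∀ w, w ∈ T ↔ ‖w‖ = 1 ∧ x + s • w ∈ K) ∧ ∀ p ∈ T, gap (T : Set ℂ) p ≤ 4 / 5 * π) :
    ∃ s₂ > 0, ∃ C : ℝ, 0 ≤ C ∧ ∀ s, 0 < s → s ≤ s₂ → En G x s ≤ C * s ^ (3 / 2 : ℝ) := by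
  have hR0 := h.R0
  have hπ := Real.pi_pos
  have hxd : dist x x₀ < R₀ := hx
  have hR : closedBall x (3 * R₀) ⊆ Ω := fun z hz => h.sub (by
    have h1 : dist z x ≤ 3 * R₀ := hz
    have h2 := dist_triangle z x x₀
    rw [mem_closedBall]
    linarith only [h1, h2, hxd])
  have hub : ∀ z ∈ ball x (3 * R₀), |u z| ≤ M := fun z hz => h.bd z (by
    have h1 : dist z x < 3 * R₀ := hz
    have h2 := dist_triangle z x x₀
    rw [mem_closedBall]
    linarith only [h1, h2, hxd])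
  set ρ : ℝ := min s₁ R₀ with hρ
  have hρ0 : 0 < ρ := lt_min hs₁ hR0
  set A : ℝ := 8 * π * M ^ 2 with hA
  have hA0 : 0 ≤ A := by positivity
  have hode := decay_ode (E := fun t => En G x t) (q := fun t => eT G x t + eN G x t)
    (ρ := ρ) (κ := 2 / 5) (A := A) (η := 0) (B := ∅) hρ0 (by norm_num) (by norm_num) hA0
    (by norm_num) (fun t _ _ => En_nonneg G x t) (fun t ht _ => ?_)
    (fun s t hs hst _ => h.N.incr_E x hs hst) (fun r _ _ => by simp) ?_
  · refine ⟨ρ, hρ0, 3 / ρ ^ (3 / 2 : ℝ) * (En G x ρ + 150 * A * ρ ^ 2), ?_, fun s hs hsρ => ?_⟩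
    · have h1 := En_nonneg G x ρ
      (clear * - hs₁ hR0 h1; positivity)
    · have h1 := hode s hs hsρ
      rw [Real.div_rpow hs.le hρ0.le] at h1
      calc En G x s ≤ 3 * (s ^ (3 / 2 : ℝ) / ρ ^ (3 / 2 : ℝ)) * (En G x ρ + 150 * A * ρ ^ 2) := h1
        _ = _ := by ring
  · have h1 : 0 ≤ eT G x t := mul_nonneg ht.le (integral_nonneg fun _ => sq_nonneg _)
    have h2 : 0 ≤ eN G x t := mul_nonneg ht.le (integral_nonneg fun _ => sq_nonneg _)
    exact add_nonneg h1 h2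
  · filter_upwards [bonnet_loc h.N hR hub] with s hs hsI _
    have hs1 : s < s₁ := hsI.2.trans_le (min_le_left _ _)
    have hsR : s < 3 * R₀ := by
      have := hsI.2.trans_le (min_le_right s₁ R₀)
      linarith only [this, hR0]
    obtain ⟨T, hT3, hT, hgT⟩ := hgap s hsI.1 hs1
    have hne : T.Nonempty := by
      rw [← Finset.card_pos, hT3]
      norm_num
    have h1 := hs ⟨hsI.1, hsR⟩ (hconn s hsI.1 hs1) T hne hT (4 / 5 * π) (by positivity)
      (by linarith only [hπ]) hgT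
    rw [hT3] at h1
    have h2 : 4 / 5 * π / (2 * π) = 2 / 5 := by
      field_simp
      norm_num
    rw [h2] at h1
    calc En G x s ≤ 2 / 5 * (s * (eT G x s + eN G x s)) +
          (2 * ((3 : ℕ) : ℝ) + 2) * π * M ^ 2 * s ^ 2 := h1
      _ = _ := by
        rw [hA]
        push_cast
        ring

end Vale.Agent.P128.Q1
end

section

/-! P128, Q1, part V: decay of the energy at a tripod point. -/

open MeasureTheory Set Metric Filter
open scoped ENNReal NNReal Topology Real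

namespace Vale.Agent.P128.Q1

open Vale.Agent.P128

/-- decay of the energy at a point of tripod type with three branches -/
theorem Branches.tri_decay {Ω : Set ℂ} {g u : ℂ → ℝ} {G : ℂ → ℂ} {K : Set ℂ} {M : ℝ} {x₀ : ℂ}
    {R₀ : ℝ} (h : MS Ω g u G K M x₀ R₀) {x : ℂ} (hx : x ∈ K ∩ ball x₀ R₀)
    (hl : TripodType G K x) {s₀ : ℝ} {φ : Fin 3 → ℝ → ℝ} (hφ : Branches K x s₀ 3 φ) :
    ∃ s₁ > 0, ∃ C : ℝ, 0 ≤ C ∧ ∀ s, 0 < s → s ≤ s₁ → En G x s ≤ C * s ^ (3 / 2 : ℝ) := by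
  obtain ⟨s₁, h1, h2, h3⟩ := hφ.gaps hl
  refine tri_decay_aux h hx.2 h1 (fun s hs hs1 => hφ.conn ⟨hs, hs1.trans h2⟩) fun s hs hs1 => ?_
  obtain ⟨T, hT1, hT2, -, hT4⟩ := h3 s hs hs1.le
  exact ⟨T, hT1, hT2, hT4⟩

end Vale.Agent.P128.Q1
end

section

/-! P128, Q1, Part V, TR6: good radii. -/

open MeasureTheory Set Metric Filter ComplexConjugate
open scoped ENNReal NNReal Topology Real ContDiff

namespace Vale.Agent.P128.Q1

open Vale.Agent.P128

variable {Ω : Set ℂ} {g u : ℂ → ℝ} {G : ℂ → ℂ} {K : Set ℂ} {M : ℝ} {x₀ : ℂ} {R₀ : ℝ}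

theorem tr6_norm_sq (a b : ℝ) :
    ‖Complex.exp (a * Complex.I) - Complex.exp (b * Complex.I)‖ ^ 2 = 2 - 2 * Real.cos (a - b) := by
  rw [← Complex.normSq_eq_norm_sq, Complex.normSq_apply, Complex.sub_re, Complex.sub_im,
    Complex.exp_ofReal_mul_I_re, Complex.exp_ofReal_mul_I_im, Complex.exp_ofReal_mul_I_re,
    Complex.exp_ofReal_mul_I_im, Real.cos_sub]
  have h1 := Real.sin_sq_add_cos_sq a
  have h2 := Real.sin_sq_add_cos_sq b
  linear_combination h1 + h2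

/-- Chebyshev: radii with small tangential energy and a given almost sure property. -/
theorem tr6_cheb (N : Nice Ω g u G K M) (x : ℂ) {t B : ℝ} (ht : 0 < t) (hB : 0 < B)
    (hE : En G x t ≤ B) {P : ℝ → Prop} (hP : ∀ᵐ s : ℝ, s ∈ Ioo (t / 2) t → P s) :
    ∃ s ∈ Ioo (t / 2) t, P s ∧ eT G x s ≤ 4 * B / t := by
  by_contra hcon
  push Not at hcon
  obtain ⟨h1, h2⟩ := N.incr_E x (s := t / 2) (t := t) (by positivity) (by linarith)
  have h3 : ∫ s in (t / 2)..t, (4 * B / t) ≤ ∫ s in (t / 2)..t, (eT G x s + eN G x s) := by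
    refine intervalIntegral.integral_mono_ae_restrict (by linarith)
      intervalIntegrable_const h1 ?_
    rw [Filter.EventuallyLE, ae_restrict_iff' measurableSet_Icc]
    have n1 : ∀ᵐ s : ℝ, s ≠ t / 2 := by
      rw [ae_iff]; simp
    have n2 : ∀ᵐ s : ℝ, s ≠ t := by
      rw [ae_iff]; simp
    filter_upwards [hP, n1, n2] with s hs hs1 hs2 hs3
    have hs4 : s ∈ Ioo (t / 2) t := ⟨lt_of_le_of_ne hs3.1 (Ne.symm hs1), lt_of_le_of_ne hs3.2 hs2⟩
    have := hcon s hs4 (hs hs4)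
    have h0 := eN_nonneg G x (s := s) (by linarith only [hs4.1, ht])
    linarith
  rw [h2, intervalIntegral.integral_const, smul_eq_mul] at h3
  have h4 : (t - t / 2) * (4 * B / t) = 2 * B := by field_simp; ring
  have h5 : 0 ≤ En G x (t / 2) := integral_nonneg fun _ => by positivity
  rw [h4] at h3
  linarith only [h5, h3, hE, hB]

theorem tr6_sin {D : ℝ} (hD : |D| ≤ 1) : D ^ 2 ≤ 16 * Real.sin (D / 2) ^ 2 := by
  have key : ∀ y : ℝ, 0 ≤ y → y ≤ 1 → y ^ 2 ≤ 16 * Real.sin (y / 2) ^ 2 := by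
    intro y hy0 hy1
    have hpi := Real.pi_gt_three
    have h1 := Real.mul_le_sin (x := y / 2) (by linarith) (by linarith)
    have h2 : 1 / 2 * (y / 2) ≤ 2 / π * (y / 2) := by
      refine mul_le_mul_of_nonneg_right ?_ (by linarith)
      rw [div_le_div_iff₀ (by norm_num) Real.pi_pos]
      linarith [Real.pi_lt_four]
    have h3 : y / 4 ≤ Real.sin (y / 2) := by linarith
    linarith only [mul_nonneg (sub_nonneg.2 h3) (sub_nonneg.2 h3), mul_nonneg (sub_nonneg.2 hy0) (sub_nonneg.2 h3)]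
  rcases le_total 0 D with h | h
  · rw [abs_of_nonneg h] at hD
    exact key D h hD
  · rw [abs_of_nonpos h] at hD
    have := key (-D) (by linarith) hD
    rw [neg_div, Real.sin_neg] at this
    linarith only [this]

theorem tr6_quarter {s : ℝ} (hs : 0 < s) : (s ^ (1 / 4 : ℝ)) ^ 2 = √s := by
  rw [← Real.rpow_natCast, ← Real.rpow_mul hs.le, Real.sqrt_eq_rpow]
  norm_num

theorem tr6_le_of_sq {a b : ℝ} (h : a ^ 2 ≤ b ^ 2) (hb : 0 ≤ b) : a ≤ b :=
  (abs_le_of_sq_le_sq' h hb).2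


theorem tr6_log {D s r : ℝ} (hs : 0 < s) (hr0 : 0 < r) (hr1 : s / 8 ≤ r)
    (h : |D| ≤ 1 / 3 * Real.log (s / r)) : |D| ≤ 1 := by
  refine h.trans ?_
  have e2 : Real.log (s / r) ≤ Real.log 8 := by
    refine Real.log_le_log (by positivity) ?_
    rw [div_le_iff₀ hr0]
    linarith
  have e3 : Real.log 8 = 3 * Real.log 2 := by
    rw [show (8 : ℝ) = 2 ^ 3 by norm_num, Real.log_pow]
    norm_num
  have e4 := Real.log_two_lt_d9
  linarith only [e4, e3, e2]

theorem tr6_osc {A ξ s r D : ℝ} (hA0 : 0 < A) (hξ0 : 0 ≤ ξ) (hs0 : 0 < s) (hs1 : s ≤ 1)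
    (hξA : ξ ≤ A * (s * √s)) (hr1 : s / 8 ≤ r) (hDle : |D| ≤ 1)
    (hd3 : (s - r) ^ 2 + 4 * r * s * Real.sin (D / 2) ^ 2 ≤ ((s - r) + ξ) ^ 2) :
    |D| ≤ 4 * √(4 * A + 2 * A ^ 2) * s ^ (1 / 4 : ℝ) := by
  have hr0 : 0 < r := by linarith only [hr1, hs0]
  have hq := tr6_quarter hs0
  have hsq0 : 0 < √s := Real.sqrt_pos.2 hs0
  have hsq1 : √s ≤ 1 := Real.sqrt_le_one.2 hs1
  have hssq : √s * √s = s := Real.mul_self_sqrt hs0.le
  have hS0 : 0 ≤ Real.sin (D / 2) ^ 2 := sq_nonneg _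
  have h4 : 4 * r * s * Real.sin (D / 2) ^ 2 ≤ 2 * ξ * s + ξ ^ 2 := by
    have e0 : ((s - r) + ξ) ^ 2 = (s - r) ^ 2 + 2 * (s * ξ) - 2 * (r * ξ) + ξ ^ 2 := by ring
    have e1 : 0 ≤ r * ξ := by positivity
    rw [e0] at hd3
    linarith only [e1, hd3]
  have h5 : s ^ 2 / 2 * Real.sin (D / 2) ^ 2 ≤ 4 * r * s * Real.sin (D / 2) ^ 2 := by
    refine mul_le_mul_of_nonneg_right ?_ hS0
    (by_contra nlg; linarith only [nlg, mul_nonneg (le_of_lt (sub_pos.2 hs0)) (sub_nonneg.2 hr1), mul_nonneg (le_of_lt (sub_pos.2 (not_le.1 nlg))) (sub_nonneg.2 hsq1), mul_pos (sub_pos.2 (not_le.1 nlg)) (sub_pos.2 hsq0)])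
  have hξ2 : ξ ^ 2 ≤ (A * (s * √s)) ^ 2 := pow_le_pow_left₀ hξ0 hξA 2
  have e1 : (A * (s * √s)) ^ 2 = A ^ 2 * s ^ 2 * (√s * √s) := by ring
  rw [e1, hssq] at hξ2
  have e2 : A ^ 2 * s ^ 2 * s ≤ A ^ 2 * s ^ 2 * √s := by
    refine mul_le_mul_of_nonneg_left ?_ (by positivity)
    (by_contra nlg; linarith only [nlg, mul_eq_zero_of_left (sub_eq_zero.2 hssq) (1 - (√s)), mul_eq_zero_of_left (sub_eq_zero.2 hssq) (√s - (0)), mul_nonneg (le_of_lt (sub_pos.2 hs0)) (sub_nonneg.2 hsq1), mul_pos (sub_pos.2 (not_le.1 nlg)) (sub_pos.2 hsq0)])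
  have e3 : ξ * s ≤ A * (s * √s) * s := mul_le_mul_of_nonneg_right hξA hs0.le
  have e4 : s ^ 2 * Real.sin (D / 2) ^ 2 ≤ 2 * (2 * ξ * s + ξ ^ 2) := by linarith only [h5, h4]
  have h6 : s ^ 2 * Real.sin (D / 2) ^ 2 ≤ s ^ 2 * ((4 * A + 2 * A ^ 2) * √s) := by
    refine e4.trans ?_
    have e5 : s ^ 2 * ((4 * A + 2 * A ^ 2) * √s) = 4 * (A * (s * √s) * s)
      + 2 * (A ^ 2 * s ^ 2 * √s) := by ring
    rw [e5]
    linarith only [e3, e2, hξ2]
  have h7 : Real.sin (D / 2) ^ 2 ≤ (4 * A + 2 * A ^ 2) * √s :=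
    le_of_mul_le_mul_left h6 (by positivity)
  have h8 := tr6_sin hDle
  have h9 : D ^ 2 ≤ (4 * √(4 * A + 2 * A ^ 2) * s ^ (1 / 4 : ℝ)) ^ 2 := by
    rw [mul_pow, mul_pow, Real.sq_sqrt (by positivity), hq]
    linarith only [h8, h7]
  exact abs_le_of_sq_le_sq h9 (by positivity)

theorem tr6_cos {A ξ s c : ℝ} (hA0 : 0 < A) (hs0 : 0 < s) (hs1 : s ≤ 1)
    (hξA : ξ ≤ A * (s * √s)) (hc1 : -1 ≤ c)
    (hp : s * (max 0 (√(1 - (2 - 2 * c) / 4) - 1 / 2)) ^ 2 ≤ 20 * ξ) :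
    c ≤ -(1 / 2) + (2 * √(20 * A) + 40 * A) * s ^ (1 / 4 : ℝ) := by
  have hq := tr6_quarter hs0
  set q : ℝ := s ^ (1 / 4 : ℝ) with hqd
  have hq0 : 0 < q := Real.rpow_pos_of_pos hs0 _
  have hq1 : q ≤ 1 := Real.rpow_le_one hs0.le hs1 (by norm_num)
  have hsqq : √s ≤ q := by rw [← hq]; (by_contra nlg; linarith only [nlg, mul_nonneg (le_of_lt (sub_pos.2 hq0)) (sub_nonneg.2 hq1), mul_nonneg (le_of_lt (sub_pos.2 (not_le.1 nlg))) (sub_nonneg.2 hq1), mul_pos (sub_pos.2 (not_le.1 nlg)) (sub_pos.2 hq0)])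
  set m : ℝ := max 0 (√(1 - (2 - 2 * c) / 4) - 1 / 2) with hm
  have hm0 : 0 ≤ m := le_max_left _ _
  have h1 : s * m ^ 2 ≤ s * (20 * A * √s) := by
    refine hp.trans ?_
    linarith only [hξA]
  have h2 : m ^ 2 ≤ 20 * A * √s := le_of_mul_le_mul_left h1 hs0
  have h3 : m ≤ √(20 * A) * q := by
    refine tr6_le_of_sq ?_ (by positivity)
    rw [mul_pow, Real.sq_sqrt (by positivity), hq]
    exact h2
  have h4 : √(1 - (2 - 2 * c) / 4) ≤ 1 / 2 + m := by
    have := le_max_right 0 (√(1 - (2 - 2 * c) / 4) - 1 / 2)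
    linarith only [this]
  have h5 : 1 - (2 - 2 * c) / 4 ≤ (1 / 2 + m) ^ 2 := by
    rw [← Real.sq_sqrt (by linarith only [hc1] : (0 : ℝ) ≤ 1 - (2 - 2 * c) / 4)]
    exact pow_le_pow_left₀ (Real.sqrt_nonneg _) h4 2
  have h6 : c ≤ -(1 / 2) + 2 * m + 2 * m ^ 2 := by linarith only [h5]
  have h7 : m ^ 2 ≤ 20 * A * q := h2.trans (mul_le_mul_of_nonneg_left hsqq (by positivity))
  linarith only [h7, h6, h3]

theorem tr6_pow {CE t : ℝ} (ht : 0 < t) {e : ℝ} (h : e ≤ CE * t ^ (3 / 2 : ℝ)) :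
    e ≤ (CE + 1) * (t * √t) := by
  refine h.trans ?_
  have e : t ^ (3 / 2 : ℝ) = t * √t := by
    rw [Real.sqrt_eq_rpow, show (3 / 2 : ℝ) = 1 + 1 / 2 by norm_num, Real.rpow_add ht,
      Real.rpow_one]
  rw [e]
  have : 0 ≤ t * √t := by positivity
  linarith only [this]

theorem tr6_err {CE M s t e : ℝ} (hCE : 0 ≤ CE) (ht2 : t / 2 < s) (hst : s < t) (ht : 0 < t)
    (hs1 : s ≤ 1) (he : e ≤ 4 * ((CE + 1) * (t * √t)) / t) :
    2 * (s * e) + 24 * π * M ^ 2 * s ^ 2 ≤ (12 * (CE + 1) + 24 * π * M ^ 2) * (s * √s) := by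
  have hs0 : 0 < s := by linarith
  have hsq0 : 0 < √s := Real.sqrt_pos.2 hs0
  have hsq1 : √s ≤ 1 := Real.sqrt_le_one.2 hs1
  have hssq : √s * √s = s := Real.mul_self_sqrt hs0.le
  have hsqt : √t ≤ 3 / 2 * √s := by
    rw [Real.sqrt_le_left (by positivity)]
    rw [mul_pow, Real.sq_sqrt hs0.le]
    linarith
  have e1 : e ≤ 6 * (CE + 1) * √s := by
    refine he.trans ?_
    have e2 : 4 * ((CE + 1) * (t * √t)) / t = 4 * (CE + 1) * √t := by
      field_simp
    rw [e2]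
    have h4 : 0 ≤ 4 * (CE + 1) := by positivity
    have := mul_le_mul_of_nonneg_left hsqt h4
    linarith only [this]
  have e3 : s ^ 2 ≤ s * √s := by
    have : s ≤ √s := by (by_contra nlg; linarith only [nlg, mul_eq_zero_of_left (sub_eq_zero.2 hssq) (1 - (√s)), mul_eq_zero_of_left (sub_eq_zero.2 hssq) (√s - (0)), mul_nonneg (le_of_lt (sub_pos.2 hs0)) (sub_nonneg.2 hsq1), mul_pos (sub_pos.2 (not_le.1 nlg)) (sub_pos.2 hsq0)])
    (by_contra nlg; linarith only [nlg, mul_nonneg (le_of_lt (sub_pos.2 hs0)) (sub_nonneg.2 this), mul_nonneg (le_of_lt (sub_pos.2 (not_le.1 nlg))) (sub_nonneg.2 hsq1), mul_pos (sub_pos.2 (not_le.1 nlg)) (sub_pos.2 hsq0)])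
  have e4 : s * e ≤ s * (6 * (CE + 1) * √s) := mul_le_mul_of_nonneg_left e1 hs0.le
  have e5 : 24 * π * M ^ 2 * s ^ 2 ≤ 24 * π * M ^ 2 * (s * √s) :=
    mul_le_mul_of_nonneg_left e3 (by positivity)
  linarith only [e5, e4]

/-- Good radii from the star competitor (hypothesis `hstar`, the conclusion of `tri_star`). -/
theorem Branches.good_of_star (h : MS Ω g u G K M x₀ R₀) {x : ℂ} (hx : x ∈ K ∩ ball x₀ R₀)
    (hl : TripodType G K x) {s₀ : ℝ} {φ : Fin 3 → ℝ → ℝ} (hφ : Branches K x s₀ 3 φ)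
    (hstar : ∀ᵐ s : ℝ, s ∈ Ioo 0 R₀ → ∀ T : Finset ℂ, T.card = 3 →
      (∀ w, w ∈ T ↔ ‖w‖ = 1 ∧ x + s • w ∈ K) → (∀ p ∈ T, gap (T : Set ℂ) p ≤ 4 / 5 * π) →
      ∀ w ∈ T, ∀ w' ∈ T, w ≠ w' →
        Hn K x s ≤ 3 * s - s / 20 * max 0 (√(1 - ‖w - w'‖ ^ 2 / 4) - 1 / 2) ^ 2 +
          2 * (s * eT G x s) + 24 * π * M ^ 2 * s ^ 2) :
    ∃ s₁ > 0, s₁ < s₀ ∧ ∃ C : ℝ, 0 ≤ C ∧ ∀ t, 0 < t → t ≤ s₁ → ∃ s ∈ Ioo (t / 2) t,
      (∀ i, ∀ r, s / 8 ≤ r → r ≤ s → |φ i s - φ i r| ≤ C * s ^ (1 / 4 : ℝ)) ∧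
      ∀ i j, i ≠ j → Real.cos (φ i s - φ j s) ≤ -(1 / 2) + C * s ^ (1 / 4 : ℝ) := by
  obtain ⟨sa, hsa0, hsas, hslow⟩ := hφ.slow (ε := 1 / 3) (by norm_num)
  obtain ⟨sb, hsb0, hsbs, hgaps⟩ := hφ.gaps hl
  obtain ⟨sc, hsc0, CE, hCE, hdec⟩ := hφ.tri_decay h hx hl
  have hR0 := h.R0
  have hKm : MeasurableSet K := h.N.min.1.measurableSet h.N.isOpen
  have hfin : ∀ s : ℝ, μH[1] (K ∩ closedBall x s) ≠ ⊤ := fun s =>
    ne_top_of_le_ne_top h.N.min.1.finite.ne (measure_mono inter_subset_left)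
  have hA0 : 0 < 12 * (CE + 1) + 24 * π * M ^ 2 := by (clear * - hCE; positivity)
  set s₁ : ℝ := min (min sa sb) (min (min sc 1) R₀) with hs₁
  have hs₁0 : 0 < s₁ := lt_min (lt_min hsa0 hsb0) (lt_min (lt_min hsc0 one_pos) hR0)
  have h1a : s₁ ≤ sa := (min_le_left _ _).trans (min_le_left _ _)
  have h1b : s₁ ≤ sb := (min_le_left _ _).trans (min_le_right _ _)
  have h1c : s₁ ≤ sc := (min_le_right _ _).trans ((min_le_left _ _).trans (min_le_left _ _))
  have h1d : s₁ ≤ 1 := (min_le_right _ _).trans ((min_le_left _ _).trans (min_le_right _ _))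
  have h1e : s₁ ≤ R₀ := (min_le_right _ _).trans (min_le_right _ _)
  clear_value s₁
  generalize hA : 12 * (CE + 1) + 24 * π * M ^ 2 = A at hA0
  refine ⟨s₁, hs₁0, h1a.trans_lt hsas, 4 * √(4 * A + 2 * A ^ 2) + (2 * √(20 * A) + 40 * A),
    by (clear * - hA0; positivity), fun t ht hts => ?_⟩
  -- choice of the radius
  have hEt : En G x t ≤ (CE + 1) * (t * √t) := tr6_pow ht (hdec t ht (hts.trans h1c))
  have hB : 0 < (CE + 1) * (t * √t) := by (clear * - hCE ht; positivity)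
  have hstar' : ∀ᵐ s : ℝ, s ∈ Ioo (t / 2) t → ∀ T : Finset ℂ, T.card = 3 →
      (∀ w, w ∈ T ↔ ‖w‖ = 1 ∧ x + s • w ∈ K) → (∀ p ∈ T, gap (T : Set ℂ) p ≤ 4 / 5 * π) →
      ∀ w ∈ T, ∀ w' ∈ T, w ≠ w' →
        Hn K x s ≤ 3 * s - s / 20 * max 0 (√(1 - ‖w - w'‖ ^ 2 / 4) - 1 / 2) ^ 2 +
          2 * (s * eT G x s) + 24 * π * M ^ 2 * s ^ 2 := by
    filter_upwards [hstar] with s hs hs2
    exact hs ⟨by linarith only [hs2.1, ht], by linarith [hs2.2]⟩
  obtain ⟨s, hsI, hP, heT⟩ := tr6_cheb h.N x ht hB hEt hstar'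
  refine ⟨s, hsI, ?_⟩
  have hs0 : 0 < s := by linarith only [hsI.1, ht]
  have hst : s < t := hsI.2
  have hs1 : s ≤ 1 := by linarith
  have hss0 : s < s₀ := by linarith
  -- bound for the error term
  have heT0 := eT_nonneg G x hs0.le
  have hξ0 : 0 ≤ 2 * (s * eT G x s) + 24 * π * M ^ 2 * s ^ 2 := by (clear * - hs0 heT0; positivity)
  have hξA : 2 * (s * eT G x s) + 24 * π * M ^ 2 * s ^ 2 ≤ A * (s * √s) := by
    rw [← hA]
    exact tr6_err hCE hsI.1 hst ht hs1 heT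
  generalize hξ : 2 * (s * eT G x s) + 24 * π * M ^ 2 * s ^ 2 = ξ at hξ0 hξA
  -- the finite set
  obtain ⟨T, hTc, hT1, hT2, hT3⟩ := hgaps s hs0 (by linarith)
  have hmem : ∀ i, Complex.exp (φ i s * Complex.I) ∈ T := fun i => (hT2 _).2 ⟨i, rfl⟩
  have hinj := hφ.inj s ⟨hs0, hss0⟩
  have hpair : ∀ i j, i ≠ j → Hn K x s ≤ 3 * s - s / 20 * max 0
      (√(1 - ‖Complex.exp (φ i s * Complex.I) - Complex.exp (φ j s * Complex.I)‖ ^ 2 / 4)
        - 1 / 2) ^ 2 + ξ := by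
    intro i j hij
    have := hP T hTc hT1 hT3 _ (hmem i) _ (hmem j) (fun hh => hij (hinj hh))
    rw [← hξ]
    linarith only [this]
  have hHle : Hn K x s ≤ 3 * s + ξ := by
    have := hpair 0 1 (by decide)
    have h0 : 0 ≤ s / 20 * max 0
      (√(1 - ‖Complex.exp (φ 0 s * Complex.I) - Complex.exp (φ 1 s * Complex.I)‖ ^ 2 / 4)
        - 1 / 2) ^ 2 := by (clear * - hs0; positivity)
    linarith only [h0, this]
  have hC1 : 0 ≤ 4 * √(4 * A + 2 * A ^ 2) * s ^ (1 / 4 : ℝ) := by positivity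
  have hC2 : 0 ≤ (2 * √(20 * A) + 40 * A) * s ^ (1 / 4 : ℝ) := by positivity
  constructor
  · intro i r hr1 hr2
    have hr0 : 0 < r := by linarith only [hr1, hs0]
    have hch := hφ.chord_le hr0 hr2 hss0 (hfin s) hKm i
    have hd : dist (arm x (φ i) r) (arm x (φ i) s) ≤ (s - r) + ξ := by linarith only [hch, hHle]
    have hd2 := dist_arm_sq x (φ i) r s
    have hd3 : dist (arm x (φ i) r) (arm x (φ i) s) ^ 2 ≤ ((s - r) + ξ) ^ 2 :=
      pow_le_pow_left₀ dist_nonneg hd 2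
    rw [hd2] at hd3
    have hDle : |φ i s - φ i r| ≤ 1 :=
      tr6_log hs0 hr0 hr1 (hslow i r s hr0 hr2 (by linarith only [hst, hts, h1a]))
    have h10 := tr6_osc hA0 hξ0 hs0 hs1 hξA hr1 hDle hd3
    linarith only [h10, hC2]
  · intro i j hij
    have hp := hpair i j hij
    have hlow := hφ.chord_le hs0 le_rfl hss0 (hfin s) hKm i
    rw [dist_self] at hlow
    rw [tr6_norm_sq (φ i s) (φ j s)] at hp
    have h10 := tr6_cos hA0 hs0 hs1 hξA (Real.neg_one_le_cos (φ i s - φ j s)) (by linarith only [hlow, hp])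
    linarith only [h10, hC1]

/-- The ball of radius `R₀` about a point of `ball x₀ R₀` is admissible for `tri_star`. -/
theorem MS.tr6_ball (h : MS Ω g u G K M x₀ R₀) {x : ℂ} (hx : x ∈ ball x₀ R₀) :
    closedBall x R₀ ⊆ Ω ∧ ∀ z ∈ ball x R₀, |u z| ≤ M := by
  have hR0 := h.R0
  rw [mem_ball] at hx
  have hsub4 : closedBall x R₀ ⊆ closedBall x₀ (4 * R₀) := by
    intro z hz
    rw [mem_closedBall] at hz ⊢
    have := dist_triangle z x x₀
    linarith
  exact ⟨hsub4.trans h.sub, fun z hz => h.bd z (hsub4 (ball_subset_closedBall hz))⟩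

/-- The rates of the arms from the star competitor. -/
theorem Branches.tripod_rates_of_star (h : MS Ω g u G K M x₀ R₀) {x : ℂ}
    (hx : x ∈ K ∩ ball x₀ R₀) (hl : TripodType G K x) {s₀ : ℝ} {φ : Fin 3 → ℝ → ℝ}
    (hφ : Branches K x s₀ 3 φ)
    (hstar : ∀ᵐ s : ℝ, s ∈ Ioo 0 R₀ → ∀ T : Finset ℂ, T.card = 3 →
      (∀ w, w ∈ T ↔ ‖w‖ = 1 ∧ x + s • w ∈ K) → (∀ p ∈ T, gap (T : Set ℂ) p ≤ 4 / 5 * π) →
      ∀ w ∈ T, ∀ w' ∈ T, w ≠ w' →
        Hn K x s ≤ 3 * s - s / 20 * max 0 (√(1 - ‖w - w'‖ ^ 2 / 4) - 1 / 2) ^ 2 +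
          2 * (s * eT G x s) + 24 * π * M ^ 2 * s ^ 2) :
    ∃ (s₁ : ℝ) (a : Fin 3 → ℝ), 0 < s₁ ∧ s₁ ≤ s₀ ∧ Rates s₁ 3 φ a ∧
      ∀ i j, i ≠ j → Real.cos (a i - a j) = -(1 / 2) :=
  tripod_rates_of_good (hφ.good_of_star h hx hl hstar)

end Vale.Agent.P128.Q1
end
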