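import Vale.Agent.P128.MathlibUsed
import Vale.Agent.P128.Bdl.B4
import Vale.Agent.P128.Bdl.B9
import Vale.Agent.P128.Bdl.B5
import Vale.Agent.P128.Bdl.B6
import Vale.Agent.P128.Bdl.B8
import Vale.Agent.P128.Bdl.B12
import Vale.Agent.P128.Bdl.B14
import Vale.Agent.P128.Bdl.B17
import Vale.Agent.P128.Bdl.B1
import Vale.Agent.P128.Bdl.B10

set_option linter.all false

section

open MeasureTheory Set Metric Filter
open scoped ENNReal NNReal Topology Real ContDiff

namespace Vale.Agent.P128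

/-- The cut-off product of a test function and the crack-tip function. -/
theorem exists_cut_product {x p : ℂ} (hp : ‖p‖ = 1) {s d : ℝ} (hs : 0 < s) (hd : |d| ≤ 1 / 2)
    {φ : ℂ → ℝ} (g1 : ContDiff ℝ ∞ φ)
    (g4 : Disjoint (tsupport φ) (slit x p (d * s) s)) :
    ∃ Φ : ℂ → ℝ, ContDiff ℝ ∞ Φ ∧ (∀ z ∈ closedBall x s, Φ z = φ z * tipW x p s d z) ∧
      ∀ z ∈ ball x s, ∀ v : ℂ, fderiv ℝ Φ z v =
        tipW x p s d z * fderiv ℝ φ z v + inner ℝ (tipG x p s d z) v * φ z := by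
  have hsub : slit x p (d * s) s ⊆ (tsupport φ)ᶜ := fun z hz hz' => disjoint_left.mp g4 hz' hz
  obtain ⟨δ, hδ, hδs⟩ := (isCompact_slit x p (d * s) s).exists_thickening_subset_open
    (isClosed_tsupport φ).isOpen_compl hsub
  obtain ⟨n, hn⟩ := exists_nat_one_div_lt hδ
  have hds : d * s ≤ s := by
    have := (abs_le.mp hd).2
    nlinarith
  have hzero : ∀ z, z ∉ tsupport φ → φ =ᶠ[𝓝 z] fun _ => 0 := by
    intro z hz
    filter_upwards [(isClosed_tsupport φ).isOpen_compl.mem_nhds hz] with y hy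
    exact image_eq_zero_of_notMem_tsupport hy
  set Φ : ℂ → ℝ := fun z => (1 - rcut n s ‖z - x‖) * (φ z * tipW x p s d z) with hΦ
  have hin : ∀ z ∈ closedBall x s, Φ z = φ z * tipW x p s d z := by
    intro z hz
    rw [mem_closedBall, dist_eq_norm] at hz
    simp only [hΦ]
    rw [cut_of_le hz]; ring
  -- points where the product vanishes
  have hoff : ∀ z, tw x p s d z ∉ Complex.slitPlane →
      (z ∉ tsupport φ ∨ s + 1 / (n + 1) < ‖z - x‖) := by
    intro z hz
    obtain ⟨τ, hτ, rfl⟩ := mem_ray_of_tw hp hs hz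
    rcases lt_or_ge τ (s + δ) with h | h
    · left
      refine hδs ?_
      rw [mem_thickening_iff]
      rcases le_or_gt τ s with h2 | h2
      · exact ⟨x + τ • p, ⟨τ, ⟨hτ, h2⟩, rfl⟩, by rw [dist_self]; exact hδ⟩
      · refine ⟨x + s • p, ⟨s, ⟨hds, le_rfl⟩, rfl⟩, ?_⟩
        rw [dist_eq_norm, show x + τ • p - (x + s • p) = (τ - s) • p by rw [sub_smul]; ring,
          norm_smul, hp, mul_one, Real.norm_eq_abs, abs_of_pos (by linarith only [h2])]
        linarith only [h]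
    · right
      rw [show x + τ • p - x = τ • p by ring, norm_smul, hp, mul_one, Real.norm_eq_abs,
        abs_of_pos (by linarith)]
      linarith only [h, hn]
  have hΦc : ContDiff ℝ ∞ Φ := by
    rw [contDiff_iff_contDiffAt]
    intro z
    by_cases hz : tw x p s d z ∈ Complex.slitPlane
    · exact (contDiff_const.sub (contDiff_rcut_rho n hs x)).contDiffAt.mul
        (g1.contDiffAt.mul (contDiffAt_tipW hz))
    · have h0 : Φ =ᶠ[𝓝 z] fun _ => 0 := by
        rcases hoff z hz with h | h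
        · filter_upwards [hzero z h] with y hy
          simp only [hΦ, hy]; ring
        · have ho : IsOpen {y : ℂ | s + 1 / (n + 1) < ‖y - x‖} :=
            isOpen_lt continuous_const (by fun_prop)
          filter_upwards [ho.mem_nhds h] with y hy
          simp only [hΦ]
          rw [cut_of_ge (le_of_lt hy)]; ring
      exact contDiffAt_const.congr_of_eventuallyEq h0
  refine ⟨Φ, hΦc, hin, ?_⟩
  intro z hz v
  have hev : Φ =ᶠ[𝓝 z] fun y => φ y * tipW x p s d y := by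
    filter_upwards [isOpen_ball.mem_nhds hz] with y hy
    exact hin y (ball_subset_closedBall hy)
  rw [hev.fderiv_eq]
  by_cases hzs : tw x p s d z ∈ Complex.slitPlane
  · obtain ⟨h1, h2⟩ := hasFDerivAt_tipW hs hzs v
    have h3 : HasFDerivAt φ (fderiv ℝ φ z) z := (g1.differentiable (by simp) z).hasFDerivAt
    have h4 := (h3.mul h1).fderiv
    have h5 : fderiv ℝ (fun y => φ y * tipW x p s d y) z =
        φ z • fderiv ℝ (tipW x p s d) z + tipW x p s d z • fderiv ℝ φ z := h4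
    rw [h5]
    simp only [_root_.add_apply, _root_.smul_apply, smul_eq_mul]
    rw [h2]; ring
  · have h1 : z ∉ tsupport φ := by
      rcases hoff z hzs with h | h
      · exact h
      · rw [mem_ball, dist_eq_norm] at hz
        have : (0 : ℝ) < 1 / (n + 1) := by (clear * -; positivity)
        linarith only [this, h, hz]
    have h0 := hzero z h1
    have h2 : (fun y => φ y * tipW x p s d y) =ᶠ[𝓝 z] fun _ => 0 := by
      filter_upwards [h0] with y hy
      rw [hy]; ring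
    rw [h2.fderiv_eq, h0.fderiv_eq, h0.eq_of_nhds]
    simp

/-- Integration by parts for the crack-tip function. -/
theorem tip_ibp {x p : ℂ} (hp : ‖p‖ = 1) {s d : ℝ} (hs : 0 < s) (hd : |d| ≤ 1 / 2)
    {φ : ℂ → ℝ} (g1 : ContDiff ℝ ∞ φ)
    (g4 : Disjoint (tsupport φ) (slit x p (d * s) s)) (v : ℂ) :
    ∫ z in ball x s, (tipW x p s d z * fderiv ℝ φ z v + inner ℝ (tipG x p s d z) v * φ z) =
      s * ∫ θ in ang, tipW x p s d (circleMap x s θ) *
        (φ (circleMap x s θ) * inner ℝ (circleMap 0 1 θ) v) := by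
  obtain ⟨Φ, h1, h2, h3⟩ := exists_cut_product hp hs hd g1 g4
  have hAe := annu_zero_ae x (s := s)
  have hcf : Continuous fun z => fderiv ℝ Φ z v :=
    (h1.continuous_fderiv (by simp)).clm_apply continuous_const
  have e1 : ∫ z in ball x s, (tipW x p s d z * fderiv ℝ φ z v +
      inner ℝ (tipG x p s d z) v * φ z) = ∫ z in annu x 0 s,
      (extU x (fun _ => 1) (fun _ => 1) z * fderiv ℝ Φ z v +
        inner ℝ (extG x (fun _ => 1) (fun _ => 0) (fun _ => 1) (fun _ => 0) z) v * Φ z) := by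
    rw [setIntegral_congr_set hAe]
    refine setIntegral_congr_fun measurableSet_ball fun z hz => ?_
    rw [← h3 z hz v, extG_zero]
    simp [extU]
  have D1 : IntegrableOn (fun z => extU x (fun _ => 1) (fun _ => 1) z * fderiv ℝ Φ z v +
      inner ℝ (extG x (fun _ => 1) (fun _ => 0) (fun _ => 1) (fun _ => 0) z) v * Φ z)
      (annu x 0 s) := by
    have : (fun z => extU x (fun _ => 1) (fun _ => 1) z * fderiv ℝ Φ z v +
      inner ℝ (extG x (fun _ => 1) (fun _ => 0) (fun _ => 1) (fun _ => 0) z) v * Φ z) =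
      fun z => fderiv ℝ Φ z v := by
      funext z
      rw [extG_zero]
      simp [extU]
    rw [this]
    refine (hcf.continuousOn.integrableOn_compact (isCompact_closedBall x s)).mono_set ?_
    intro z hz
    exact mem_closedBall.mpr hz.2.le
  have I1 := annulus_ibp (x := x) (a := 0) (s := s) (ζ := fun _ => 1) (ζ' := fun _ => 0)
      (f := fun _ => 1) (h := fun _ => 0) le_rfl hs
      (fun r => hasDerivAt_const r 1) continuous_const measurable_const measurable_const
      (integrable_const 1) (integrable_const 0) (circWeak_const ∅ 1) h1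
      (fun r _ w hw => absurd hw (notMem_empty w)) v D1
  rw [e1, I1]
  simp only [mul_one, one_mul, zero_mul, sub_zero]
  congr 1
  refine integral_congr_ae (Eventually.of_forall fun θ => ?_)
  simp only
  rw [h2 _ (by rw [mem_closedBall, dist_cm x hs])]
  ring

/-- The energy of the crack-tip function. -/
theorem lintegral_inv_dist (y : ℂ) {s : ℝ} (hs : 0 < s) :
    ∫⁻ z in ball y s, ENNReal.ofReal (1 / ‖z - y‖) = ENNReal.ofReal (2 * π * s) := by
  have hπ := Real.pi_pos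
  have hm : Measurable fun z : ℂ => ENNReal.ofReal (1 / ‖z - y‖) := by fun_prop
  rw [← setLIntegral_congr (annu_zero_ae y (s := s)), lintegral_annu y hm le_rfl]
  have : ∀ r ∈ Ioo 0 s, ENNReal.ofReal r * ∫⁻ θ in ang,
      ENNReal.ofReal (1 / ‖circleMap y r θ - y‖) = ENNReal.ofReal (2 * π) := by
    intro r hr
    have h1 : ∀ θ, ENNReal.ofReal (1 / ‖circleMap y r θ - y‖) = ENNReal.ofReal (1 / r) := by
      intro θ
      rw [← dist_eq_norm, dist_cm y hr.1]
    simp only [h1]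
    rw [lintegral_const, Measure.restrict_apply_univ, Real.volume_Ioo, ← mul_assoc,
      ← ENNReal.ofReal_mul hr.1.le, ← ENNReal.ofReal_mul (by have := hr.1; positivity)]
    congr 1
    have := hr.1.ne'
    field_simp
    ring
  rw [setLIntegral_congr_fun measurableSet_Ioo this, lintegral_const, Measure.restrict_apply_univ,
    Real.volume_Ioo, ← ENNReal.ofReal_mul (by positivity)]
  congr 1
  ring

/-- The bathtub principle for the inverse distance. -/
theorem lintegral_inv_dist_le (x y : ℂ) {s : ℝ} (hs : 0 < s) :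
    ∫⁻ z in ball x s, ENNReal.ofReal (1 / ‖z - y‖) ≤ ENNReal.ofReal (2 * π * s) := by
  rw [← lintegral_inv_dist y hs]
  set F : ℂ → ℝ≥0∞ := fun z => ENNReal.ofReal (1 / ‖z - y‖) with hF
  have hB : MeasurableSet (ball y s) := measurableSet_ball
  have hA : MeasurableSet (ball x s) := measurableSet_ball
  have hvol : volume (ball x s \ ball y s) = volume (ball y s \ ball x s) := by
    have h1 := measure_inter_add_sdiff (μ := volume) (ball x s) hB
    have h2 := measure_inter_add_sdiff (μ := volume) (ball y s) hA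
    rw [inter_comm] at h2
    have h3 : volume (ball x s) = volume (ball y s) := by
      rw [Complex.volume_ball, Complex.volume_ball]
    rw [h3, ← h2] at h1
    have hfin : volume (ball x s ∩ ball y s) ≠ ⊤ :=
      ne_of_lt (lt_of_le_of_lt (measure_mono inter_subset_left) measure_ball_lt_top)
    exact (ENNReal.add_right_inj hfin).mp h1
  rw [← lintegral_inter_add_sdiff F (ball x s) hB, ← lintegral_inter_add_sdiff F (ball y s) hA,
    inter_comm (ball y s)]
  refine add_le_add le_rfl ?_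
  calc ∫⁻ z in ball x s \ ball y s, F z ≤ ∫⁻ _ in ball x s \ ball y s, ENNReal.ofReal (1 / s) := by
        refine setLIntegral_mono measurable_const fun z hz => ENNReal.ofReal_le_ofReal ?_
        have h1 : s ≤ ‖z - y‖ := by
          have := hz.2
          rw [mem_ball, not_lt, dist_eq_norm] at this
          exact this
        exact one_div_le_one_div_of_le hs h1
    _ = ENNReal.ofReal (1 / s) * volume (ball y s \ ball x s) := by
        rw [lintegral_const, Measure.restrict_apply_univ, hvol]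
    _ = ∫⁻ _ in ball y s \ ball x s, ENNReal.ofReal (1 / s) := by
        rw [lintegral_const, Measure.restrict_apply_univ]
    _ ≤ ∫⁻ z in ball y s \ ball x s, F z := by
        have hne : ∀ᵐ z ∂(volume.restrict (ball y s \ ball x s)), z ≠ y :=
          ae_restrict_of_ae (compl_mem_ae_iff.mpr (measure_singleton y))
        refine lintegral_mono_ae ?_
        filter_upwards [ae_restrict_mem (hB.diff hA), hne] with z hz hzy
        refine ENNReal.ofReal_le_ofReal ?_
        have h1 : ‖z - y‖ < s := by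
          have := hz.1
          rwa [mem_ball, dist_eq_norm] at this
        exact one_div_le_one_div_of_le (norm_pos_iff.mpr (sub_ne_zero.mpr hzy)) h1.le

theorem lintegral_tipG {x p : ℂ} (hp : ‖p‖ = 1) {s : ℝ} (hs : 0 < s) (d : ℝ) :
    ∫⁻ z in ball x s, ENNReal.ofReal (‖tipG x p s d z‖ ^ 2) ≤ ENNReal.ofReal (π / 2) := by
  have hπ := Real.pi_pos
  have hne : ∀ᵐ z ∂(volume.restrict (ball x s)), z ≠ x + (d * s) • p :=
    ae_restrict_of_ae (compl_mem_ae_iff.mpr (measure_singleton _))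
  calc ∫⁻ z in ball x s, ENNReal.ofReal (‖tipG x p s d z‖ ^ 2)
      = ∫⁻ z in ball x s, ENNReal.ofReal (1 / (4 * s)) *
          ENNReal.ofReal (1 / ‖z - (x + (d * s) • p)‖) := by
        refine lintegral_congr_ae ?_
        filter_upwards [hne] with z hz
        rw [norm_tipG_sq hp hs hz, ← ENNReal.ofReal_mul (by positivity)]
        congr 1
        rw [one_div_mul_one_div]
    _ = ENNReal.ofReal (1 / (4 * s)) *
          ∫⁻ z in ball x s, ENNReal.ofReal (1 / ‖z - (x + (d * s) • p)‖) :=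
        lintegral_const_mul _ (by fun_prop)
    _ ≤ ENNReal.ofReal (1 / (4 * s)) * ENNReal.ofReal (2 * π * s) := by
        gcongr
        exact lintegral_inv_dist_le x _ hs
    _ = ENNReal.ofReal (π / 2) := by
        rw [← ENNReal.ofReal_mul (by positivity)]
        congr 1
        field_simp
        norm_num

end Vale.Agent.P128
end

section

set_option linter.all false

/-! Comparison of energies for the local setting `MS`. -/

open MeasureTheory Set Metric Filter
open scoped ENNReal NNReal ContDiff Topology Real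

namespace Vale.Agent.P128.Q

open Vale.Agent.P128
open Vale.Agent.P128.GM (LocLip genergy IsGlobalMin W12loc)

/-! ### Truncation -/

/-- truncation -/
noncomputable def q4t (m t : ℝ) : ℝ := max (-m) (min m t)

theorem q4t_lip (m : ℝ) : LipschitzWith 1 (q4t m) :=
  (LipschitzWith.id.const_min m).const_max (-m)

theorem q4t_abs {m : ℝ} (hm : 0 ≤ m) (t : ℝ) : |q4t m t| ≤ m := by
  unfold q4t
  rw [abs_le]
  exact ⟨le_max_left _ _, max_le (by linarith) (min_le_left _ _)⟩

theorem q4t_eq {m t : ℝ} (h : |t| ≤ m) : q4t m t = t := by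
  rw [abs_le] at h
  unfold q4t
  rw [min_eq_right h.2, max_eq_right h.1]

theorem q4_grad_comp {w : ℂ → ℝ} {z : ℂ} (hw : DifferentiableAt ℝ w z) {F : ℝ → ℝ}
    (hF : LipschitzWith 1 F) : ‖grad (fun y => F (w y)) z‖ ≤ ‖grad w z‖ := by
  rw [GM.norm_grad, GM.norm_grad]
  by_cases hd : DifferentiableAt ℝ (fun y => F (w y)) z
  · refine le_of_forall_pos_le_add fun ε hε => ?_
    refine hd.hasFDerivAt.le_of_lip' (by positivity) ?_
    have h1 := hw.hasFDerivAt.isLittleO.def hε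
    filter_upwards [h1] with y hy
    have h2 : ‖F (w y) - F (w z)‖ ≤ ‖w y - w z‖ := by
      have := hF.dist_le_mul (w y) (w z)
      rwa [NNReal.coe_one, one_mul, dist_eq_norm, dist_eq_norm] at this
    refine h2.trans ?_
    have h3 : w y - w z = (w y - w z - fderiv ℝ w z (y - z)) + fderiv ℝ w z (y - z) := by ring
    rw [h3]
    calc _ ≤ ‖w y - w z - fderiv ℝ w z (y - z)‖ + ‖fderiv ℝ w z (y - z)‖ := norm_add_le _ _
      _ ≤ ε * ‖y - z‖ + ‖fderiv ℝ w z‖ * ‖y - z‖ := add_le_add hy ((fderiv ℝ w z).le_opNorm _)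
      _ = _ := by ring
  · rw [fderiv_zero_of_not_differentiableAt hd, norm_zero]
    exact norm_nonneg _

/-! ### Basic facts -/

variable {Ω K : Set ℂ} {g u : ℂ → ℝ} {M R₀ : ℝ} {x₀ : ℂ}

/-- A4 (Q/MSCompare.lean) -/
theorem MS.vol_zero (S : MS Ω g u K M x₀ R₀) : volume K = 0 :=
  GM.volume_eq_zero_of_hausdorff S.nice.min.1.finite.ne

theorem MS.q4_ae (S : MS Ω g u K M x₀ R₀) : ∀ᵐ z : ℂ, z ∉ K := by
  rw [ae_iff]
  simpa using S.vol_zero

theorem MS.q4_meas (S : MS Ω g u K M x₀ R₀) : MeasurableSet K :=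
  S.nice.min.1.measurableSet S.nice.isOpen

theorem MS.q4_int (S : MS Ω g u K M x₀ R₀) {x : ℂ} {s : ℝ} (h : ball x s ⊆ Ω) :
    IntegrableOn (fun z => ‖grad u z‖ ^ 2) (ball x s) := by
  have h1 : IntegrableOn (fun z => ‖(Ω \ K).indicator (grad u) z‖ ^ 2) (ball x s) :=
    (S.nice.G_memLp.restrict _).norm.integrable_sq
  refine h1.congr ?_
  filter_upwards [ae_restrict_of_ae S.q4_ae, ae_restrict_mem measurableSet_ball] with z hz hzb
  have hm : z ∈ Ω \ K := ⟨h hzb, hz⟩
  rw [indicator_of_mem hm]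

theorem q4_ball_Ω (S : MS Ω g u K M x₀ R₀) : ball x₀ (2 * R₀) ⊆ Ω :=
  ball_subset_closedBall.trans S.sub

/-! ### The comparison -/

/-- the competitor -/
noncomputable def q4w (M : ℝ) (C' : Set ℂ) (u w : ℂ → ℝ) (z : ℂ) : ℝ := by
  classical exact if z ∈ C' then q4t M (w z) else u z

theorem q4w_in {M : ℝ} {C' : Set ℂ} {u w : ℂ → ℝ} {z : ℂ} (h : z ∈ C') :
    q4w M C' u w z = q4t M (w z) := by
  unfold q4w
  rw [if_pos h]

theorem q4w_out {M : ℝ} {C' : Set ℂ} {u w : ℂ → ℝ} {z : ℂ} (h : z ∉ C') :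
    q4w M C' u w z = u z := by
  unfold q4w
  rw [if_neg h]

theorem q4_open {L : Set ℂ} (hΩ : IsOpen Ω) (hL : Ω ∩ closure L ⊆ L) : IsOpen (Ω \ L) := by
  have : Ω \ L = Ω ∩ (closure L)ᶜ := by
    ext z
    constructor
    · rintro ⟨h1, h2⟩
      exact ⟨h1, fun h3 => h2 (hL ⟨h1, h3⟩)⟩
    · rintro ⟨h1, h2⟩
      exact ⟨h1, fun h3 => h2 (subset_closure h3)⟩
  rw [this]
  exact hΩ.inter isClosed_closure.isOpen_compl

theorem q4_radius {C : Set ℂ} {x : ℂ} {s : ℝ} (hs : 0 < s) (hC : IsCompact C)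
    (hCs : C ⊆ ball x s) : ∃ s₁, 0 < s₁ ∧ s₁ < s ∧ C ⊆ closedBall x s₁ := by
  rcases C.eq_empty_or_nonempty with h | h
  · exact ⟨s / 2, by positivity, by linarith only [hs], by rw [h]; exact empty_subset _⟩
  · obtain ⟨z, hz, hmax⟩ := hC.exists_isMaxOn h (f := fun z => dist z x)
      (by fun_prop : Continuous fun z => dist z x).continuousOn
    have hz' : dist z x < s := hCs hz
    refine ⟨max (dist z x) (s / 2), lt_max_of_lt_right (by positivity),
      max_lt hz' (by linarith), fun y hy => ?_⟩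
    exact mem_closedBall.2 ((hmax hy).trans (le_max_left _ _))

theorem MS.compare (S : MS Ω g u K M x₀ R₀) {x : ℂ} {s : ℝ} (hs : 0 < s)
    (hb : closedBall x s ⊆ ball x₀ (2 * R₀)) {w : ℂ → ℝ} {L : Set ℂ} (hLΩ : L ⊆ Ω)
    (hL : Ω ∩ closure L ⊆ L) (hw : LocLip (Ω \ L) w)
    (hi : IntegrableOn (fun z => ‖grad w z‖ ^ 2) (ball x s)) (hl : μH[1] (L ∩ ball x s) < ⊤)
    (hC : ∃ C : Set ℂ, IsCompact C ∧ C ⊆ ball x s ∧ (∀ z, z ∉ C → (z ∈ L ↔ z ∈ K)) ∧
      ∀ z ∈ Ω, z ∉ C → z ∉ K → w z = u z) :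
    dir u x s + len K x s ≤ dir w x s + len L x s + 4 * π * M ^ 2 * s ^ 2 := by
  obtain ⟨C, hCc, hCs, hCL, hCu⟩ := hC
  obtain ⟨s₁, hs1, hs1s, hCs1⟩ := q4_radius hs hCc hCs
  have N := S.nice
  have hM0 : 0 ≤ M := N.M_nonneg
  have hΩ := N.isOpen
  have hbΩ : closedBall x s ⊆ Ω := hb.trans (q4_ball_Ω S)
  have hΩL : IsOpen (Ω \ L) := q4_open hΩ hL
  have hΩK : IsOpen (Ω \ K) := N.min.1.isOpen_diff hΩ
  set C' : Set ℂ := closedBall x s₁ with hC'
  have hC's : C' ⊆ ball x s := closedBall_subset_ball hs1s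
  have hC'c : IsOpen (C'ᶜ) := isClosed_closedBall.isOpen_compl
  have hnC : ∀ z, z ∉ C' → z ∉ C := fun z hz hc => hz (hCs1 hc)
  set W : ℂ → ℝ := q4w M C' u w with hW
  -- outside of the small disk
  have hout : ∀ z ∉ C', W z = u z := fun z hz => q4w_out hz
  have hLK : ∀ z ∉ C', z ∈ L ↔ z ∈ K := fun z hz => hCL z (hnC z hz)
  -- inside the large disk
  have hin : ∀ z ∈ ball x s ∩ (Ω \ L), W z = q4t M (w z) := by
    rintro z ⟨hz1, hz2, hz3⟩
    by_cases h : z ∈ C'
    · exact q4w_in h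
    · have hzK : z ∉ K := fun hc => hz3 ((hLK z h).2 hc)
      rw [hout z h, hCu z hz2 (hnC z h) hzK, q4t_eq]
      exact S.bdd z (hb (ball_subset_closedBall hz1))
  have hLip : LocLip (Ω \ L) W := by
    refine GM.LocLip.of_local fun z hz => ?_
    by_cases h : z ∈ ball x s
    · refine ⟨ball x s ∩ (Ω \ L), fun y => q4t M (w y), isOpen_ball.inter hΩL, ⟨h, hz⟩,
        inter_subset_right, ?_, fun y hy => hin y hy⟩
      exact (hw.mono (isOpen_ball.inter hΩL) inter_subset_right).comp_lipschitz (q4t_lip M)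
    · have hzC : z ∉ C' := fun hc => h (hC's hc)
      refine ⟨C'ᶜ ∩ (Ω \ L), w, hC'c.inter hΩL, ⟨hzC, hz⟩, inter_subset_right,
        hw.mono (hC'c.inter hΩL) inter_subset_right, fun y hy => ?_⟩
      have hyK : y ∉ K := fun hc => hy.2.2 ((hLK y hy.1).2 hc)
      rw [hout y hy.1, hCu y hy.2.1 (hnC y hy.1) hyK]
  -- the length of `L`
  have hLfin : μH[1] L < ⊤ := by
    have h1 : L ⊆ (L ∩ ball x s) ∪ K := by
      intro z hz
      by_cases h : z ∈ ball x s
      · exact Or.inl ⟨hz, h⟩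
      · exact Or.inr ((hLK z fun hc => h (hC's hc)).1 hz)
    refine (measure_mono h1).trans_lt ((measure_union_le _ _).trans_lt ?_)
    exact ENNReal.add_lt_top.2 ⟨hl, N.min.1.finite⟩
  have hLvol : volume L = 0 := GM.volume_eq_zero_of_hausdorff hLfin.ne
  have hLae : ∀ᵐ z : ℂ, z ∉ L := by
    rw [ae_iff]
    simpa using hLvol
  have hKae := S.q4_ae
  -- gradients
  have hgW : ∀ᵐ z : ℂ, z ∈ ball x s → ‖grad W z‖ ≤ ‖grad w z‖ := by
    filter_upwards [hw.ae_diff hΩL, hLae] with z hz hzL hzb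
    have hzΩ : z ∈ Ω \ L := ⟨hbΩ (ball_subset_closedBall hzb), hzL⟩
    have h1 : W =ᶠ[𝓝 z] fun y => q4t M (w y) := by
      filter_upwards [(isOpen_ball.inter hΩL).mem_nhds ⟨hzb, hzΩ⟩] with y hy using hin y hy
    rw [GM.grad_congr h1]
    exact q4_grad_comp (hz hzΩ) (q4t_lip M)
  have hgu : ∀ z ∉ C', grad W z = grad u z := by
    intro z hz
    refine GM.grad_congr ?_
    filter_upwards [hC'c.mem_nhds hz] with y hy using hout y hy
  have hgw : ∀ z ∈ Ω \ K, z ∉ C' → grad w z = grad u z := by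
    intro z hz hzC
    refine GM.grad_congr ?_
    filter_upwards [(hΩK.inter hC'c).mem_nhds ⟨hz, hzC⟩] with y hy
    exact hCu y hy.1.1 (hnC y hy.2) hy.1.2
  set H : ℂ → ℂ := (Ω \ L).indicator (grad W) with hH
  have hHout : ∀ z ∉ C', H z = (Ω \ K).indicator (grad u) z := by
    intro z hz
    by_cases h : z ∈ Ω \ L
    · have h' : z ∈ Ω \ K := ⟨h.1, fun hc => h.2 ((hLK z hz).2 hc)⟩
      rw [hH, indicator_of_mem h, indicator_of_mem h', hgu z hz]
    · have h' : z ∉ Ω \ K := fun h' => h ⟨h'.1, fun hc => h'.2 ((hLK z hz).1 hc)⟩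
      rw [hH, indicator_of_notMem h, indicator_of_notMem h']
  -- admissibility
  have hWmeas : AEStronglyMeasurable W (volume.restrict Ω) := by
    have h1 : AEStronglyMeasurable W (volume.restrict (Ω \ L)) :=
      hLip.continuousOn.aestronglyMeasurable hΩL.measurableSet
    have h2 : (volume.restrict (Ω \ L) : Measure ℂ) = volume.restrict Ω :=
      Measure.restrict_congr_set (sdiff_null_ae_eq_self hLvol)
    rwa [h2] at h1
  have hWle : ∀ z, |W z| ≤ |u z| + C'.indicator (fun _ => M) z := by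
    intro z
    by_cases h : z ∈ C'
    · rw [hW, q4w_in h, indicator_of_mem h]
      have := q4t_abs hM0 (w z)
      have := abs_nonneg (u z)
      linarith
    · rw [hout z h, indicator_of_notMem h, add_zero]
  have hWmem : MemLp W 2 (volume.restrict Ω) := by
    have h1 : MemLp (fun z => |u z| + C'.indicator (fun _ => M) z) 2 (volume.restrict Ω) := by
      refine (N.u_memLp.restrict Ω).norm.add ?_
      refine MemLp.restrict _ ?_
      exact memLp_indicator_const 2 isClosed_closedBall.measurableSet M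
        (Or.inr (isCompact_closedBall x s₁).measure_lt_top.ne)
    refine h1.mono hWmeas (Eventually.of_forall fun z => ?_)
    rw [Real.norm_eq_abs, Real.norm_eq_abs]
    exact (hWle z).trans (le_abs_self _)
  have hHmem : MemLp H 2 (volume.restrict (Ω \ L)) := by
    have hwm : MemLp ((ball x s).indicator (grad w)) 2 volume := by
      rw [memLp_indicator_iff_restrict measurableSet_ball,
        memLp_two_iff_integrable_sq_norm (GM.measurable_grad w).aestronglyMeasurable]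
      exact hi
    have h1 : MemLp (fun z => ‖(ball x s).indicator (grad w) z‖ +
        ‖(Ω \ K).indicator (grad u) z‖) 2 (volume.restrict (Ω \ L)) :=
      (hwm.restrict _).norm.add (N.G_memLp.restrict _).norm
    refine h1.mono ((GM.measurable_grad W).indicator hΩL.measurableSet).aestronglyMeasurable ?_
    filter_upwards [ae_restrict_of_ae hgW] with z hz
    rw [Real.norm_eq_abs, abs_of_nonneg (by (clear * -; positivity))]
    by_cases h : z ∈ C'
    · have hzb : z ∈ ball x s := hC's h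
      rw [indicator_of_mem hzb]
      have h2 : ‖H z‖ ≤ ‖grad W z‖ := norm_indicator_le_norm_self _ _
      have h3 := hz hzb
      have h4 := norm_nonneg ((Ω \ K).indicator (grad u) z)
      linarith
    · rw [hHout z h]
      have h4 := norm_nonneg ((ball x s).indicator (grad w) z)
      linarith
  have hadm : Admissible Ω W H L :=
    { subset := hLΩ
      relClosed := hL
      finite := hLfin
      memLp := hWmem
      grad_memLp := hHmem
      weak := by
        refine (hLip.isWeakGrad hΩL).congr (Filter.EventuallyEq.refl _ _) ?_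
        filter_upwards [ae_restrict_mem hΩL.measurableSet] with z hz
        rw [hH, indicator_of_mem hz] }
  -- the comparison
  have hcmp := N.compare hs1s hbΩ hadm hout hHout hLK
  -- lintegral notation
  set D : (ℂ → ℝ) → Set ℂ → ℝ≥0∞ := fun v V => ∫⁻ z in V, ENNReal.ofReal (‖grad v z‖ ^ 2) with hD
  have hrestK : ∀ V : Set ℂ, (volume.restrict (V \ K) : Measure ℂ) = volume.restrict V :=
    fun V => Measure.restrict_congr_set (sdiff_null_ae_eq_self S.vol_zero)
  have hrestL : ∀ V : Set ℂ, (volume.restrict (V \ L) : Measure ℂ) = volume.restrict V :=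
    fun V => Measure.restrict_congr_set (sdiff_null_ae_eq_self hLvol)
  have hC'Ω : C' ⊆ Ω := hC's.trans (ball_subset_closedBall.trans hbΩ)
  have hC'm : MeasurableSet C' := isClosed_closedBall.measurableSet
  have e1 : D u C' + μH[1] (K ∩ C') ≤
      energy g u ((Ω \ K).indicator (grad u)) K C' := by
    unfold energy
    refine le_trans (le_of_eq ?_) le_self_add
    congr 1
    rw [hrestK]
    refine lintegral_congr_ae ?_
    filter_upwards [ae_restrict_of_ae hKae, ae_restrict_mem hC'm] with z hz hzC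
    have hm : z ∈ Ω \ K := ⟨hC'Ω hzC, hz⟩
    rw [indicator_of_mem hm]
  have e2 : energy g W H L C' ≤
      D w C' + μH[1] (L ∩ C') + ENNReal.ofReal (4 * π * M ^ 2 * s ^ 2) := by
    unfold energy
    refine add_le_add (add_le_add ?_ le_rfl) ?_
    · rw [hrestL]
      refine lintegral_mono_ae ?_
      filter_upwards [ae_restrict_of_ae hgW, ae_restrict_mem hC'm] with z hz hzC
      refine ENNReal.ofReal_le_ofReal ?_
      have h2 : ‖H z‖ ≤ ‖grad W z‖ := norm_indicator_le_norm_self _ _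
      have h3 := hz (hC's hzC)
      have h4 := norm_nonneg (H z)
      linarith only [mul_nonneg (sub_nonneg.2 h3) (sub_nonneg.2 h4), mul_nonneg (sub_nonneg.2 h3) (sub_nonneg.2 h3), mul_nonneg (sub_nonneg.2 h2) (sub_nonneg.2 h4), mul_nonneg (sub_nonneg.2 h2) (sub_nonneg.2 h3), mul_nonneg (sub_nonneg.2 h2) (sub_nonneg.2 h2)]
    · have h1 : ∀ z ∈ C', ENNReal.ofReal ((W z - g z) ^ 2) ≤ ENNReal.ofReal (4 * M ^ 2) := by
        intro z hz
        refine ENNReal.ofReal_le_ofReal ?_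
        have h2 : |W z| ≤ M := by
          rw [hW, q4w_in hz]
          exact q4t_abs hM0 _
        have h3 := N.gb z
        rw [abs_le] at h2 h3
        nlinarith
      refine (setLIntegral_mono measurable_const h1).trans ?_
      rw [setLIntegral_const]
      have h2 : volume C' ≤ ENNReal.ofReal (π * s ^ 2) := by
        refine (measure_mono (hC's)).trans ?_
        rw [Complex.volume_ball, ← ENNReal.ofReal_pow hs.le, mul_comm π,
          ENNReal.ofReal_mul (by positivity)]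
        refine le_of_eq (congrArg _ ?_)
        exact (ENNReal.ofReal_coe_nnreal (p := NNReal.pi)).symm
      refine (mul_le_mul_right h2 _).trans ?_
      rw [← ENNReal.ofReal_mul (by (clear * -; positivity))]
      refine ENNReal.ofReal_le_ofReal (le_of_eq (by ring))
  have e3 := e1.trans (hcmp.trans e2)
  -- the annulus
  set A : Set ℂ := ball x s \ C' with hA
  have hAm : MeasurableSet A := measurableSet_ball.diff hC'm
  have e4 : D w A = D u A := by
    refine lintegral_congr_ae ?_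
    filter_upwards [ae_restrict_of_ae hKae, ae_restrict_mem hAm] with z hz hzA
    rw [hgw z ⟨hbΩ (ball_subset_closedBall hzA.1), hz⟩ hzA.2]
  have e5 : L ∩ A = K ∩ A := by
    ext z
    constructor
    · rintro ⟨h1, h2⟩
      exact ⟨(hLK z h2.2).1 h1, h2⟩
    · rintro ⟨h1, h2⟩
      exact ⟨(hLK z h2.2).2 h1, h2⟩
  have hun : ball x s = C' ∪ A := (union_sdiff_cancel hC's).symm
  have hdis : Disjoint C' A := disjoint_sdiff_right
  have hD2 : ∀ v : ℂ → ℝ, D v (ball x s) = D v C' + D v A := by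
    intro v
    rw [hun]
    exact lintegral_union hAm hdis
  have hLm : MeasurableSet L := hadm.measurableSet hΩ
  have hH2 : ∀ J : Set ℂ, MeasurableSet J →
      μH[1] (J ∩ ball x s) = μH[1] (J ∩ C') + μH[1] (J ∩ A) := by
    intro J hJ
    rw [hun, inter_union_distrib_left]
    exact measure_union (hdis.mono inter_subset_right inter_subset_right) (hJ.inter hAm)
  have e6 : D u (ball x s) + μH[1] (K ∩ ball x s) ≤
      D w (ball x s) + μH[1] (L ∩ ball x s) + ENNReal.ofReal (4 * π * M ^ 2 * s ^ 2) := by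
    rw [hD2 u, hD2 w, hH2 K S.q4_meas, hH2 L hLm, e4, e5]
    calc D u C' + D u A + (μH[1] (K ∩ C') + μH[1] (K ∩ A))
        = (D u C' + μH[1] (K ∩ C')) + (D u A + μH[1] (K ∩ A)) := by ring
      _ ≤ (D w C' + μH[1] (L ∩ C') + ENNReal.ofReal (4 * π * M ^ 2 * s ^ 2)) +
          (D u A + μH[1] (K ∩ A)) := add_le_add e3 le_rfl
      _ = _ := by ring
  have hiu := S.q4_int (ball_subset_closedBall.trans hbΩ)
  have hKfin : μH[1] (K ∩ ball x s) ≠ ⊤ :=
    ((measure_mono inter_subset_left).trans_lt N.min.1.finite).ne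
  rw [hD] at e6
  simp only at e6
  rw [GM.GMin.lintegral_grad hiu, GM.GMin.lintegral_grad hi, ← ENNReal.ofReal_toReal hKfin,
    ← ENNReal.ofReal_toReal hl.ne, ← ENNReal.ofReal_add (by (clear * -; positivity)) (by (clear * -; positivity)),
    ← ENNReal.ofReal_add (by (clear * -; positivity)) (by (clear * -; positivity)),
    ← ENNReal.ofReal_add (by (clear * -; positivity)) (by (clear * - hs; positivity))] at e6
  have h0 : 0 ≤ ∫ z in ball x s, ‖grad w z‖ ^ 2 := integral_nonneg fun _ => by (clear * -; positivity)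
  have h1 : 0 ≤ (μH[1] (L ∩ ball x s)).toReal := ENNReal.toReal_nonneg
  exact (ENNReal.ofReal_le_ofReal_iff (by (clear * - h0 h1 hs; positivity))).1 e6

end Vale.Agent.P128.Q
end

section

/-! Uniform lower bound for the energy density at the points of `K`. -/

open MeasureTheory Set Metric Filter
open scoped ENNReal NNReal ContDiff Topology Real

namespace Vale.Agent.P128.Q

open Vale.Agent.P128
open Vale.Agent.P128.GM (LocLip genergy IsGlobalMin W12loc)

variable {Ω K : Set ℂ} {g u : ℂ → ℝ} {M R₀ : ℝ} {x₀ : ℂ}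

/-- energy in a disk, for the indicator of the gradient and for the gradient itself -/
theorem MS.a5_En_eq (S : MS Ω g u K M x₀ R₀) {x : ℂ} {s : ℝ} (h : ball x s ⊆ Ω) :
    En ((Ω \ K).indicator (grad u)) x s = dir u x s := by
  unfold En dir
  have h0 : volume K = 0 := GM.volume_eq_zero_of_hausdorff S.nice.min.1.finite.ne
  have h1 : ∀ᵐ z : ℂ, z ∉ K := by
    rw [ae_iff]
    simpa using h0
  refine setIntegral_congr_ae measurableSet_ball ?_
  filter_upwards [h1] with z hz hzb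
  have hm : z ∈ Ω \ K := ⟨h hzb, hz⟩
  rw [indicator_of_mem hm]

theorem MS.a5_Hn_le (S : MS Ω g u K M x₀ R₀) (x : ℂ) {s t : ℝ} (h : s < t) :
    Hn K x s ≤ len K x t := by
  unfold Hn len
  refine ENNReal.toReal_mono ?_ ?_
  · exact ((measure_mono inter_subset_left).trans_lt S.nice.min.1.finite).ne
  · exact measure_mono (inter_subset_inter_right _ (closedBall_subset_ball h))

theorem MS.a5_En_mono (S : MS Ω g u K M x₀ R₀) {x : ℂ} {s t : ℝ} (h : s ≤ t) (ht : ball x t ⊆ Ω) :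
    dir u x s ≤ dir u x t := by
  rw [← S.a5_En_eq ht, ← S.a5_En_eq ((ball_subset_ball h).trans ht)]
  exact setIntegral_mono_set (S.nice.G_memLp.norm.integrable_sq.integrableOn)
    (Eventually.of_forall fun z => sq_nonneg _) (Eventually.of_forall (ball_subset_ball h))

/-- one centre, one radius, closed form -/
theorem MS.a5_one (S : MS Ω g u K M x₀ R₀) {x : ℂ} (hx : x ∈ K ∩ closedBall x₀ R₀) {s : ℝ}
    (hs : 0 < s) (hs1 : s ≤ R₀ / 2) (hs2 : 100 * M ^ 2 * s ≤ 1 / 4) :
    3 / 4 * s ≤ dir u x s + Hn K x s := by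
  have hπ := Real.pi_pos
  have hπ2 : π < 3.15 := Real.pi_lt_d2
  have hR0 := S.pos
  have hM2 : 0 ≤ M ^ 2 := sq_nonneg _
  have hxd : dist x x₀ ≤ R₀ := mem_closedBall.mp hx.2
  have hB : ∀ y, dist y x < R₀ / 2 → closedBall y (R₀ / 2) ⊆ Ω ∧
      EstB g u ((Ω \ K).indicator (grad u)) K y (R₀ / 2) (60 * M ^ 2) := by
    intro y hy
    have hyΩ : closedBall y (R₀ / 2) ⊆ Ω := by
      refine (closedBall_subset_closedBall' (?_ : R₀ / 2 + dist y x₀ ≤ 2 * R₀)).trans S.sub
      have h1 := dist_triangle y x x₀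
      linarith only [h1, hy, hxd]
    exact ⟨hyΩ, S.nice.estB_sixty hyΩ⟩
  have h1 := S.nice.lower_density S.red hx.1 (by linarith only [hs1, hs] : 0 < R₀ / 2) (by positivity) hB hs hs1
  unfold wf at h1
  have hbd : ∀ᵐ z ∂(volume.restrict (ball x (R₀ / 2))), |u z| ≤ M := by
    refine (ae_restrict_iff' measurableSet_ball).mpr (Eventually.of_forall fun z hz => ?_)
    refine S.bdd z ?_
    rw [mem_ball] at hz ⊢
    have h1 := dist_triangle z x x₀
    linarith only [h1, hz, hxd, hs1, hs]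
  have h2 := S.nice.Un_le hbd le_rfl hs.le hs1
  have hxb : ball x s ⊆ Ω := by
    refine ball_subset_closedBall.trans ?_
    refine (closedBall_subset_closedBall' (?_ : s + dist x x₀ ≤ 2 * R₀)).trans S.sub
    linarith only [hxd, hs1, hs]
  rw [S.a5_En_eq hxb] at h1
  have h3 : s * 1 ≤ s * ((dir u x s + 1 * Hn K x s + 1 * Un g u x s) / s + 60 * M ^ 2 * s) := by
    gcongr
  have e1 : s * ((dir u x s + 1 * Hn K x s + 1 * Un g u x s) / s + 60 * M ^ 2 * s) =
      dir u x s + Hn K x s + Un g u x s + 60 * (M ^ 2 * s ^ 2) := by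
    field_simp
  rw [e1] at h3
  have h4 : π * (M ^ 2 * s ^ 2) ≤ 3.15 * (M ^ 2 * s ^ 2) := by gcongr
  have h5 : 100 * (M ^ 2 * s ^ 2) ≤ 1 / 4 * s := by
    calc 100 * (M ^ 2 * s ^ 2) = 100 * M ^ 2 * s * s := by ring
      _ ≤ 1 / 4 * s := by gcongr
  have h6 : Un g u x s ≤ 4 * (π * (M ^ 2 * s ^ 2)) := by linarith only [h2]
  have h7 : 0 ≤ M ^ 2 * s ^ 2 := by (clear * - hs; positivity)
  linarith only [h6, h5, h4, h3, hs]

/-- A5 (Q/Low.lean) -/
theorem MS.low (S : MS Ω g u K M x₀ R₀) : ∃ ρ : ℝ, 0 < ρ ∧ ρ ≤ R₀ ∧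
    ∀ x ∈ K ∩ closedBall x₀ R₀, ∀ s ∈ Ioc 0 ρ, s / 2 ≤ dir u x s + len K x s := by
  have hR0 := S.pos
  have hM1 := S.one_le
  have hM2 : 0 < M ^ 2 := by positivity
  refine ⟨min (R₀ / 2) (1 / (400 * M ^ 2)), by positivity, (min_le_left _ _).trans (by linarith only [hR0]), ?_⟩
  intro x hx s hs
  have hs1 : s ≤ R₀ / 2 := hs.2.trans (min_le_left _ _)
  have hs2 : s ≤ 1 / (400 * M ^ 2) := hs.2.trans (min_le_right _ _)
  have hs0 := hs.1
  have hs3 : 100 * M ^ 2 * s ≤ 1 / 4 := by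
    rw [le_div_iff₀ (by positivity)] at hs2
    linarith only [hs2]
  have hxd : dist x x₀ ≤ R₀ := mem_closedBall.mp hx.2
  have hxb : ball x s ⊆ Ω := by
    refine ball_subset_closedBall.trans ?_
    refine (closedBall_subset_closedBall' (?_ : s + dist x x₀ ≤ 2 * R₀)).trans S.sub
    linarith only [hxd, hs0, hs1]
  have h1 := S.a5_one hx (s := 2 / 3 * s) (by positivity) (by linarith only [hs0, hs1]) (by linarith only [hs3])
  have h2 := S.a5_Hn_le x (s := 2 / 3 * s) (t := s) (by linarith only [hs0])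
  have h3 := S.a5_En_mono (x := x) (s := 2 / 3 * s) (t := s) (by linarith only [hs0]) hxb
  linarith only [h3, h2, h1]

end Vale.Agent.P128.Q
end

section

/-! Blow-ups of minimizers are almost minimizers. -/

open MeasureTheory Set Metric Filter
open scoped ENNReal NNReal ContDiff Topology Real Pointwise

namespace Vale.Agent.P128.Q

open Vale.Agent.P128
open Vale.Agent.P128.GM (LocLip genergy IsGlobalMin W12loc)

variable {Ω K : Set ℂ} {g u : ℂ → ℝ} {M R₀ : ℝ} {x₀ : ℂ}

/-- gradient of a blow-up -/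
theorem q6_grad_blow (u : ℂ → ℝ) (x : ℂ) {r : ℝ} (hr : 0 < r) (z : ℂ) :
    grad (blow u x r) z = √r • grad u (x + r * z) := by
  have h1 : blow u x r = (√r)⁻¹ • fun z : ℂ => (fun v => u (x + v)) (r • z) := by
    funext z; simp [blow]
  have hs : 0 < √r := Real.sqrt_pos.mpr hr
  have hc : (√r)⁻¹ * r = √r := by
    rw [inv_mul_eq_div, Real.div_sqrt]
  have h2 : fderiv ℝ (blow u x r) z = √r • fderiv ℝ u (x + r * z) := by
    rw [h1, fderiv_const_smul_field, Pi.smul_apply,
      fderiv_comp_smul (f := fun v => u (x + v)), fderiv_comp_add_left, smul_smul, hc]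
    simp
  unfold grad
  rw [h2]
  apply Complex.ext <;> simp

theorem q6_mem_ball {x z w : ℂ} {r : ℝ} (hr : 0 < r) {s : ℝ} :
    x + r * w ∈ ball (x + r * z) (r * s) ↔ w ∈ ball z s := by
  rw [mem_ball, mem_ball, dist_eq_norm, dist_eq_norm]
  have : x + r * w - (x + r * z) = r * (w - z) := by ring
  rw [this, norm_mul, Complex.norm_real, Real.norm_eq_abs, abs_of_pos hr]
  exact mul_lt_mul_iff_right₀ hr

theorem q6_indicator (F : ℂ → ℝ) (x z : ℂ) {r : ℝ} (hr : 0 < r) (s : ℝ) :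
    (ball z s).indicator (fun w => F (x + r * w)) =
      fun w : ℂ => (fun v => ((ball (x + r * z) (r * s)).indicator F) (x + v)) (r • w) := by
  funext w
  have e : r • w = (r : ℂ) * w := by simp
  simp only [e]
  by_cases h : w ∈ ball z s
  · rw [indicator_of_mem h, indicator_of_mem ((q6_mem_ball hr).mpr h)]
  · rw [indicator_of_notMem h, indicator_of_notMem fun h' => h ((q6_mem_ball hr).mp h')]

theorem q6_setIntegral (F : ℂ → ℝ) (x z : ℂ) {r : ℝ} (hr : 0 < r) (s : ℝ) :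
    ∫ w in ball z s, F (x + r * w) = (r ^ 2)⁻¹ * ∫ w in ball (x + r * z) (r * s), F w := by
  rw [← integral_indicator measurableSet_ball, ← integral_indicator measurableSet_ball,
    q6_indicator F x z hr s, Measure.integral_comp_smul, Complex.finrank_real_complex,
    integral_add_left_eq_self, smul_eq_mul, abs_of_pos (by positivity)]

theorem q6_integrableOn (F : ℂ → ℝ) (x z : ℂ) {r : ℝ} (hr : 0 < r) (s : ℝ) :
    IntegrableOn (fun w => F (x + r * w)) (ball z s) ↔
      IntegrableOn F (ball (x + r * z) (r * s)) := by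
  rw [← integrable_indicator_iff measurableSet_ball, ← integrable_indicator_iff measurableSet_ball,
    q6_indicator F x z hr s,
    integrable_comp_smul_iff volume
      (fun v => (ball (x + r * z) (r * s)).indicator F (x + v)) hr.ne']
  exact ⟨fun h => by simpa using h.comp_add_left (-x), fun h => h.comp_add_left x⟩

theorem q6_norm_grad_sq (u : ℂ → ℝ) (x : ℂ) {r : ℝ} (hr : 0 < r) (z : ℂ) :
    ‖grad (blow u x r) z‖ ^ 2 = r * ‖grad u (x + r * z)‖ ^ 2 := by
  rw [q6_grad_blow u x hr, norm_smul, Real.norm_eq_abs, abs_of_nonneg (Real.sqrt_nonneg _), mul_pow,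
    Real.sq_sqrt hr.le]

/-- A6 -/
theorem dir_blow (u : ℂ → ℝ) (x z : ℂ) {r : ℝ} (hr : 0 < r) (s : ℝ) :
    dir (blow u x r) z s = dir u (x + r * z) (r * s) / r := by
  unfold dir
  simp only [q6_norm_grad_sq u x hr]
  rw [integral_const_mul, q6_setIntegral (fun w => ‖grad u w‖ ^ 2) x z hr s]
  field_simp

theorem q6_int_blow (u : ℂ → ℝ) (x z : ℂ) {r : ℝ} (hr : 0 < r) (s : ℝ) :
    IntegrableOn (fun w => ‖grad (blow u x r) w‖ ^ 2) (ball z s) ↔
      IntegrableOn (fun w => ‖grad u w‖ ^ 2) (ball (x + r * z) (r * s)) := by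
  simp only [q6_norm_grad_sq u x hr]
  rw [← q6_integrableOn (fun w => ‖grad u w‖ ^ 2) x z hr s]
  exact integrable_const_mul_iff (IsUnit.mk0 _ hr.ne') _

theorem q6_inter_ball (K : Set ℂ) (x z : ℂ) {r : ℝ} (hr : 0 < r) (s : ℝ) :
    K ∩ ball (x + r * z) (r * s) = (fun w => x + w) '' (r • (blowSet K x r ∩ ball z s)) := by
  have hrc : (r : ℂ) ≠ 0 := by exact_mod_cast hr.ne'
  ext p
  constructor
  · rintro ⟨h1, h2⟩
    have e : x + r * ((p - x) / r) = p := by
      rw [mul_div_cancel₀ _ hrc]; ring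
    refine ⟨r • ((p - x) / r), smul_mem_smul_set ⟨?_, ?_⟩, ?_⟩
    · show x + r * ((p - x) / r) ∈ K
      rw [e]; exact h1
    · rw [← q6_mem_ball (x := x) hr, e]; exact h2
    · simpa using e
  · rintro ⟨-, ⟨w, ⟨h1, h2⟩, rfl⟩, rfl⟩
    have e : x + r • w = x + r * w := by simp
    simp only [e]
    exact ⟨h1, (q6_mem_ball hr).mpr h2⟩

theorem q6_hm_blow (K : Set ℂ) (x z : ℂ) {r : ℝ} (hr : 0 < r) (s : ℝ) :
    μH[1] (K ∩ ball (x + r * z) (r * s)) =
      ENNReal.ofReal r * μH[1] (blowSet K x r ∩ ball z s) := by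
  rw [q6_inter_ball K x z hr s]
  have h1 : μH[1] ((fun w => x + w) '' (r • (blowSet K x r ∩ ball z s))) =
      μH[1] (r • (blowSet K x r ∩ ball z s)) :=
    (IsometryEquiv.addLeft x).hausdorffMeasure_image 1 _
  rw [h1, Measure.hausdorffMeasure_smul₀ zero_le_one hr.ne', NNReal.rpow_one]
  rw [ENNReal.smul_def, smul_eq_mul]
  congr 1
  rw [← enorm_eq_nnnorm, Real.enorm_of_nonneg hr.le]

theorem len_blow (K : Set ℂ) (x z : ℂ) {r : ℝ} (hr : 0 < r) (s : ℝ) :
    len (blowSet K x r) z s = len K (x + r * z) (r * s) / r := by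
  unfold len
  rw [q6_hm_blow K x z hr s, ENNReal.toReal_mul, ENNReal.toReal_ofReal hr.le]
  field_simp

theorem q6_affine_inv {x p : ℂ} {r : ℝ} (hr : 0 < r) : x + r * ((p - x) / r) = p := by
  have hrc : (r : ℂ) ≠ 0 := by exact_mod_cast hr.ne'
  rw [mul_div_cancel₀ _ hrc]; ring

theorem q6_inv_affine {x z : ℂ} {r : ℝ} (hr : 0 < r) : (x + r * z - x) / r = z := by
  have hrc : (r : ℂ) ≠ 0 := by exact_mod_cast hr.ne'
  rw [add_sub_cancel_left, mul_div_cancel_left₀ _ hrc]

theorem q6_isOpen_of_rel {U A : Set ℂ} (hU : IsOpen U) (hA : U ∩ closure A ⊆ A) :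
    IsOpen (U \ A) := by
  have : U \ A = U ∩ (closure A)ᶜ := by
    ext z
    exact ⟨fun h => ⟨h.1, fun hz => h.2 (hA ⟨h.1, hz⟩)⟩,
      fun h => ⟨h.1, fun hz => h.2 (subset_closure hz)⟩⟩
  rw [this]
  exact hU.inter isClosed_closure.isOpen_compl

theorem MS.q6_isOpen (S : MS Ω g u K M x₀ R₀) : IsOpen (Ω \ K) :=
  q6_isOpen_of_rel S.nice.isOpen S.nice.min.1.relClosed

theorem q6_locLip {U : Set ℂ} {w : ℂ → ℝ} (h : LocLip U w) (c : ℝ) (x : ℂ) {r : ℝ}
    (hr : 0 < r) : LocLip {p | (p - x) / r ∈ U} fun p => c * w ((p - x) / r) := by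
  intro p hp
  obtain ⟨N, δ, hδ, hU, hL⟩ := h _ hp
  have hd : ∀ a b : ℂ, dist ((a - x) / r) ((b - x) / r) = dist a b / r := by
    intro a b
    rw [dist_eq_norm, dist_eq_norm, ← sub_div, sub_sub_sub_cancel_right, norm_div,
      Complex.norm_real, Real.norm_eq_abs, abs_of_pos hr]
  have hb : ∀ a ∈ ball p (r * δ), (a - x) / r ∈ ball ((p - x) / r) δ := by
    intro a ha
    rw [mem_ball, hd, div_lt_iff₀ hr, mul_comm]
    exact ha
  refine ⟨⟨|c| * N / r, by (clear * - hr; positivity)⟩, r * δ, by positivity, fun a ha => hU (hb a ha), ?_⟩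
  refine LipschitzOnWith.of_dist_le_mul fun a ha b hb' => ?_
  have h1 := hL.dist_le_mul _ (hb a ha) _ (hb b hb')
  rw [hd] at h1
  rw [Real.dist_eq, ← mul_sub, abs_mul, ← Real.dist_eq]
  calc |c| * dist (w ((a - x) / r)) (w ((b - x) / r)) ≤ |c| * (N * (dist a b / r)) :=
        mul_le_mul_of_nonneg_left h1 (abs_nonneg c)
    _ = _ := by
      show |c| * (N * (dist a b / r)) = (|c| * N / r) * dist a b
      ring

/-- blow-ups of competitors -/
theorem MS.q6_min (S : MS Ω g u K M x₀ R₀) {x : ℂ} {ρ r : ℝ} (hr : 0 < r)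
    (hB : ball x ρ ⊆ ball x₀ (2 * R₀)) (y : ℂ) (s : ℝ) (hs : 0 < s) (hys : ‖y‖ + s < ρ / r)
    (w : ℂ → ℝ) (L : Set ℂ) (hLc : ∀ z ∈ closure L, ‖z‖ < ρ / r → z ∈ L)
    (hw : LocLip (ball 0 (ρ / r) \ L) w)
    (hi : IntegrableOn (fun z => ‖grad w z‖ ^ 2) (ball y s)) (hl : μH[1] (L ∩ ball y s) < ⊤)
    (hC : ∃ C : Set ℂ, IsCompact C ∧ C ⊆ ball y s ∧
      (∀ z, z ∉ C → (z ∈ L ↔ z ∈ blowSet K x r)) ∧
      ∀ z, z ∉ C → z ∉ blowSet K x r → w z = blow u x r z) :
    dir (blow u x r) y s + len (blowSet K x r) y s ≤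
      dir w y s + len L y s + 4 * π * M ^ 2 * r * s ^ 2 := by
  obtain ⟨C, hCc, hCb, hCL, hCw⟩ := hC
  have hΩ : ball x₀ (2 * R₀) ⊆ Ω := ball_subset_closedBall.trans S.sub
  have hsr : 0 < √r := Real.sqrt_pos.mpr hr
  set C₁ : Set ℂ := (fun z => x + r * z) '' C with hC₁
  have hC₁c : IsCompact C₁ := hCc.image (by fun_prop)
  have hC₁m : ∀ p, p ∈ C₁ ↔ (p - x) / r ∈ C := by
    intro p
    constructor
    · rintro ⟨z, hz, rfl⟩
      rw [q6_inv_affine hr]; exact hz
    · intro h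
      exact ⟨_, h, q6_affine_inv hr⟩
  have hC₁b : C₁ ⊆ ball (x + r * y) (r * s) := by
    rintro _ ⟨z, hz, rfl⟩
    exact (q6_mem_ball hr).mpr (hCb hz)
  have hcb : closedBall (x + r * y) (r * s) ⊆ ball x ρ := by
    intro p hp
    rw [mem_closedBall] at hp
    rw [mem_ball]
    have h1 : dist (x + r * y) x = r * ‖y‖ := by
      rw [dist_eq_norm, add_sub_cancel_left, norm_mul, Complex.norm_real, Real.norm_eq_abs,
        abs_of_pos hr]
    have h2 : r * (‖y‖ + s) < ρ := by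
      rw [lt_div_iff₀ hr] at hys
      linarith
    calc dist p x ≤ dist p (x + r * y) + dist (x + r * y) x := dist_triangle _ _ _
      _ ≤ r * s + r * ‖y‖ := by rw [h1]; linarith only [hp]
      _ < ρ := by linarith
  have hBm : ∀ p, p ∈ ball x ρ ↔ ‖(p - x) / r‖ < ρ / r := by
    intro p
    rw [mem_ball, dist_eq_norm, norm_div, Complex.norm_real, Real.norm_eq_abs, abs_of_pos hr,
      div_lt_div_iff_of_pos_right hr]
  set L₁ : Set ℂ := {p | (p - x) / r ∈ L} with hL₁
  set w₁ : ℂ → ℝ := fun p => √r * w ((p - x) / r) with hw₁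
  have hLK : ∀ p, p ∉ C₁ → (p ∈ L₁ ↔ p ∈ K) := by
    intro p hp
    rw [hC₁m] at hp
    have h1 := hCL _ hp
    have h2 : (p - x) / r ∈ blowSet K x r ↔ p ∈ K := by
      show x + r * ((p - x) / r) ∈ K ↔ p ∈ K
      rw [q6_affine_inv hr]
    exact h1.trans h2
  have hwu : ∀ p, p ∉ C₁ → p ∉ K → w₁ p = u p := by
    intro p hp hpK
    have h2 : (p - x) / r ∉ blowSet K x r := by
      show ¬ x + r * ((p - x) / r) ∈ K
      rw [q6_affine_inv hr]; exact hpK
    have h3 := hCw _ (fun h => hp ((hC₁m p).mpr h)) h2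
    show √r * w ((p - x) / r) = u p
    rw [h3, blow, q6_affine_inv hr, mul_inv_cancel_left₀ hsr.ne']
  have hbw : blow w₁ x r = w := by
    funext z
    show (√r)⁻¹ * (√r * w ((x + r * z - x) / r)) = w z
    rw [q6_inv_affine hr, inv_mul_cancel_left₀ hsr.ne']
  have hbL : blowSet L₁ x r = L := by
    ext z
    show (x + r * z - x) / r ∈ L ↔ z ∈ L
    rw [q6_inv_affine hr]
  have hC₁Ω : C₁ ⊆ Ω := fun p hp =>
    hΩ (hB (hcb (ball_subset_closedBall (hC₁b hp))))
  have hC₁B : C₁ ⊆ ball x ρ := fun p hp => hcb (ball_subset_closedBall (hC₁b hp))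
  have hL₁Ω : L₁ ⊆ Ω := by
    intro p hp
    by_cases h : p ∈ C₁
    · exact hC₁Ω h
    · exact S.nice.min.1.subset ((hLK p h).mp hp)
  have hcont : Continuous fun p : ℂ => (p - x) / r := by fun_prop
  have hL₁c : Ω ∩ closure L₁ ⊆ L₁ := by
    rintro p ⟨hpΩ, hp⟩
    by_cases hpB : p ∈ ball x ρ
    · exact hLc _ (hcont.closure_preimage_subset L hp) ((hBm p).mp hpB)
    · have hpC : p ∈ C₁ᶜ := fun h => hpB (hC₁B h)
      have h1 : p ∈ closure (C₁ᶜ ∩ L₁) :=
        hC₁c.isClosed.isOpen_compl.inter_closure ⟨hpC, hp⟩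
      have h2 : C₁ᶜ ∩ L₁ ⊆ K := fun q hq => (hLK q hq.1).mp hq.2
      have h3 : p ∈ K := S.nice.min.1.relClosed ⟨hpΩ, closure_mono h2 h1⟩
      exact (hLK p hpC).mpr h3
  have hU₁ : IsOpen (Ω \ L₁) := q6_isOpen_of_rel S.nice.isOpen hL₁c
  have hw₁L : LocLip (Ω \ L₁) w₁ := by
    refine GM.LocLip.of_local' fun p hp => ?_
    by_cases hpB : p ∈ ball x ρ
    · refine ⟨ball x ρ ∩ (Ω \ L₁), isOpen_ball.inter hU₁, ⟨hpB, hp⟩, inter_subset_right, ?_⟩
      refine (q6_locLip hw (√r) x hr).mono (isOpen_ball.inter hU₁) fun q hq => ?_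
      refine ⟨?_, hq.2.2⟩
      rw [mem_ball_zero_iff]
      exact (hBm q).mp hq.1
    · have hpC : p ∉ C₁ := fun h => hpB (hC₁B h)
      refine ⟨(Ω \ L₁) \ C₁, hU₁.sdiff hC₁c.isClosed, ⟨hp, hpC⟩, sdiff_subset, ?_⟩
      have h1 : (Ω \ L₁) \ C₁ ⊆ Ω \ K := fun q hq =>
        ⟨hq.1.1, fun hK => hq.1.2 ((hLK q hq.2).mpr hK)⟩
      refine ((GM.LocLip.of_contDiffOn S.q6_isOpen S.smooth).mono
        (hU₁.sdiff hC₁c.isClosed) h1).congr fun q hq => ?_
      exact (hwu q hq.2 (h1 hq).2).symm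
  have hi₁ : IntegrableOn (fun z => ‖grad w₁ z‖ ^ 2) (ball (x + r * y) (r * s)) := by
    rw [← q6_int_blow w₁ x y hr s, hbw]; exact hi
  have hl₁ : μH[1] (L₁ ∩ ball (x + r * y) (r * s)) < ⊤ := by
    rw [q6_hm_blow L₁ x y hr s, hbL]
    exact ENNReal.mul_lt_top ENNReal.ofReal_lt_top hl
  have key := S.compare (x := x + r * y) (s := r * s) (by positivity) (hcb.trans hB) hL₁Ω hL₁c
    hw₁L hi₁ hl₁ ⟨C₁, hC₁c, hC₁b, hLK, fun p _ hp hpK => hwu p hp hpK⟩
  have e1 : dir w y s = dir w₁ (x + r * y) (r * s) / r := by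
    rw [← dir_blow w₁ x y hr s, hbw]
  have e2 : len L y s = len L₁ (x + r * y) (r * s) / r := by
    rw [← len_blow L₁ x y hr s, hbL]
  rw [dir_blow u x y hr, len_blow K x y hr, e1, e2, ← add_div, ← add_div]
  have e3 : 4 * π * M ^ 2 * r * s ^ 2 = (4 * π * M ^ 2 * (r * s) ^ 2) / r := by
    field_simp
  rw [e3, ← add_div]
  exact div_le_div_of_nonneg_right key hr.le

theorem MS.q6_int_grad (S : MS Ω g u K M x₀ R₀) {x : ℂ} {ρ : ℝ} (h : ball x ρ ⊆ Ω) :
    IntegrableOn (fun z => ‖grad u z‖ ^ 2) (ball x ρ) := by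
  have h1 := S.nice.min.1.grad_memLp
  have h2 : IntegrableOn (fun z => ‖(Ω \ K).indicator (grad u) z‖ ^ 2) (Ω \ K) :=
    h1.integrable_norm_pow (by norm_num)
  have h3 : IntegrableOn (fun z => ‖grad u z‖ ^ 2) (Ω \ K) := by
    refine h2.congr_fun (fun z hz => ?_) S.q6_isOpen.measurableSet
    simp only [indicator_of_mem hz]
  have h4 : IntegrableOn (fun z => ‖grad u z‖ ^ 2) (ball x ρ \ K) :=
    h3.mono_set (sdiff_subset_sdiff_left h)
  have h5 : (ball x ρ \ K : Set ℂ) =ᵐ[volume] ball x ρ := by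
    refine (ae_eq_set).mpr ⟨?_, ?_⟩
    · rw [sdiff_eq_empty.mpr sdiff_subset, measure_empty]
    · exact measure_mono_null (fun z hz => by
        by_contra hK
        exact hz.2 ⟨hz.1, hK⟩) S.vol_zero
  exact h4.congr_set_ae h5.symm

theorem MS.amin {c₁ : ℝ} (hc₁ : 0 < c₁) (S : MS Ω g u K M x₀ R₀)
    (hgrad : ∀ (z : ℂ) (d : ℝ), 0 < d → ball z (2 * d) ⊆ ball x₀ (2 * R₀) \ K →
      ∀ a ∈ ball z d, ∀ b ∈ ball z d,
        ‖grad u a‖ ≤ c₁ * (√(dir u z (2 * d)) / d + M * d) ∧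
        ‖grad u a - grad u b‖ ≤ c₁ * (√(dir u z (2 * d)) / d ^ 2 * ‖a - b‖ + M * d)) :
    ∃ ρ : ℝ, 0 < ρ ∧ ∀ x ∈ K ∩ closedBall x₀ (R₀ / 2), ∀ r : ℝ, 0 < r → r < ρ →
      AMin c₁ (ρ / r) (4 * π * M ^ 2 * r) (blow u x r) (blowSet K x r) := by
  obtain ⟨ρ₀, hρ₀, hρR, hlow⟩ := S.low
  have hR₀ := S.pos
  have hM := S.one_le
  refine ⟨min (min 1 (R₀ / 2)) ρ₀, by positivity, ?_⟩
  set ρ := min (min 1 (R₀ / 2)) ρ₀ with hρ
  have hρ1 : ρ ≤ 1 := (min_le_left _ _).trans (min_le_left _ _)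
  have hρ2 : ρ ≤ R₀ / 2 := (min_le_left _ _).trans (min_le_right _ _)
  have hρ3 : ρ ≤ ρ₀ := min_le_right _ _
  rintro x ⟨hxK, hx⟩ r hr hrρ
  rw [mem_closedBall] at hx
  have hsr : 0 < √r := Real.sqrt_pos.mpr hr
  have hr1 : r ≤ 1 := hrρ.le.trans hρ1
  have hBR : ball x ρ ⊆ ball x₀ R₀ := ball_subset_ball' (by linarith only [hx, hρ2])
  have hB2 : ball x ρ ⊆ ball x₀ (2 * R₀) := hBR.trans (ball_subset_ball (by linarith only [hrρ, hr, hρ2]))
  have hBΩ : ball x ρ ⊆ Ω := hB2.trans (ball_subset_closedBall.trans S.sub)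
  have hmem : ∀ z : ℂ, ‖z‖ < ρ / r → x + r * z ∈ ball x ρ := by
    intro z hz
    rw [mem_ball, dist_eq_norm, add_sub_cancel_left, norm_mul, Complex.norm_real,
      Real.norm_eq_abs, abs_of_pos hr]
    rw [lt_div_iff₀ hr] at hz
    linarith only [hz]
  have hball : ∀ (z : ℂ) (s : ℝ), ‖z‖ + s ≤ ρ / r → ball (x + r * z) (r * s) ⊆ ball x ρ := by
    intro z s hzs
    refine ball_subset_ball' ?_
    rw [dist_eq_norm, add_sub_cancel_left, norm_mul, Complex.norm_real,
      Real.norm_eq_abs, abs_of_pos hr]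
    rw [le_div_iff₀ hr] at hzs
    linarith only [hzs]
  have hcontφ : Continuous fun z : ℂ => x + r * z := by fun_prop
  constructor
  · positivity
  · intro z hz hzR
    have h1 : x + r * z ∈ closure K := hcontφ.closure_preimage_subset K hz
    exact S.nice.min.1.relClosed ⟨hBΩ (hmem z hzR), h1⟩
  · have h1 : ContDiffOn ℝ 1 (fun z : ℂ => u (x + r * z)) (ball 0 (ρ / r) \ blowSet K x r) := by
      refine S.smooth.comp (ContDiff.contDiffOn (by fun_prop)) fun z hz => ⟨?_, hz.2⟩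
      exact hBΩ (hmem z (mem_ball_zero_iff.mp hz.1))
    exact contDiffOn_const.mul h1
  · refine ⟨(√r)⁻¹ * M, fun z hz => ?_⟩
    rw [blow, abs_mul, abs_of_pos (inv_pos.mpr hsr)]
    exact mul_le_mul_of_nonneg_left (S.bdd _ (hB2 (hmem z (mem_ball_zero_iff.mp hz))))
      (inv_nonneg.mpr hsr.le)
  · rw [q6_int_blow u x 0 hr (ρ / r), mul_zero, add_zero, mul_div_cancel₀ _ hr.ne']
    exact S.q6_int_grad hBΩ
  · have h1 := q6_hm_blow K x 0 hr (ρ / r)
    rw [mul_zero, add_zero, mul_div_cancel₀ _ hr.ne'] at h1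
    have h2 : μH[1] (K ∩ ball x ρ) < ⊤ :=
      (measure_mono inter_subset_left).trans_lt S.nice.min.1.finite
    rw [h1] at h2
    by_contra h3
    rw [not_lt, top_le_iff] at h3
    rw [h3, ENNReal.mul_top (by simpa using hr)] at h2
    exact lt_irrefl _ h2
  · intro y hy s hs hys
    rw [dir_blow u x y hr, len_blow K x y hr, ← add_div, le_div_iff₀ hr]
    have h1 : x + r * y ∈ K ∩ closedBall x₀ R₀ :=
      ⟨hy, ball_subset_closedBall (hBR (hmem y (by linarith only [hys, hs])))⟩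
    have h2 : r * s ∈ Ioc 0 ρ₀ := by
      refine ⟨by positivity, ?_⟩
      have h3 : s ≤ ρ / r := by linarith only [norm_nonneg y, hys]
      rw [le_div_iff₀ hr] at h3
      linarith only [h3, hρ3]
    have h4 := hlow _ h1 _ h2
    linarith only [h4]
  · intro y s hs hys w L hLc hw hi hl hC
    exact S.q6_min hr hB2 y s hs hys w L hLc hw hi hl hC
  · intro z d hd hzd hzK a ha b hb
    have h1 : ball (x + r * z) (2 * (r * d)) ⊆ ball x₀ (2 * R₀) \ K := by
      have e : 2 * (r * d) = r * (2 * d) := by ring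
      rw [e]
      intro p hp
      refine ⟨hB2 (hball z (2 * d) hzd.le hp), fun hpK => ?_⟩
      have h2 : (p - x) / r ∈ ball z (2 * d) := by
        rw [← q6_mem_ball (x := x) hr, q6_affine_inv hr]; exact hp
      have h3 : (p - x) / r ∈ blowSet K x r := by
        show x + r * ((p - x) / r) ∈ K
        rw [q6_affine_inv hr]; exact hpK
      exact (eq_empty_iff_forall_notMem.mp hzK) _ ⟨h2, h3⟩
    have ha' : x + r * a ∈ ball (x + r * z) (r * d) := (q6_mem_ball hr).mpr ha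
    have hb' : x + r * b ∈ ball (x + r * z) (r * d) := (q6_mem_ball hr).mpr hb
    obtain ⟨g1, g2⟩ := hgrad (x + r * z) (r * d) (by positivity) h1 _ ha' _ hb'
    have hD : dir u (x + r * z) (2 * (r * d)) = r * dir (blow u x r) z (2 * d) := by
      have e : 2 * (r * d) = r * (2 * d) := by ring
      rw [dir_blow u x z hr, e]
      field_simp
    set D := dir (blow u x r) z (2 * d) with hDdef
    have hsD : √(r * D) = √r * √D := Real.sqrt_mul hr.le D
    have hss : √r * √r = r := Real.mul_self_sqrt hr.le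
    have hκ : √r * (M * (r * d)) ≤ 4 * π * M ^ 2 * r * d := by
      have h3 : √r ≤ 1 := Real.sqrt_le_one.mpr hr1
      have h4 : M ≤ 4 * π * M ^ 2 := by (by_contra nlg; linarith only [nlg, mul_pos (sub_pos.2 hrρ) (sub_pos.2 hrρ), mul_pos (sub_pos.2 hr) (sub_pos.2 hrρ), mul_pos (sub_pos.2 hr) (sub_pos.2 hr), mul_nonneg (sub_nonneg.2 hρ1) (sub_nonneg.2 h3), mul_nonneg (sub_nonneg.2 hρ1) (le_of_lt (sub_pos.2 hsr)), mul_nonneg (sub_nonneg.2 hρ1) (le_of_lt (sub_pos.2 hrρ)), mul_nonneg (sub_nonneg.2 hρ1) (le_of_lt (sub_pos.2 hr)), mul_nonneg (sub_nonneg.2 hM) (sub_nonneg.2 h3), mul_nonneg (sub_nonneg.2 hM) (le_of_lt (sub_pos.2 hsr)), mul_nonneg (sub_nonneg.2 hM) (sub_nonneg.2 hM), mul_pos (sub_pos.2 (not_le.1 nlg)) (sub_pos.2 hrρ), mul_pos (sub_pos.2 (not_le.1 nlg)) (sub_pos.2 hr), mul_nonneg (le_of_lt (sub_pos.2 (not_le.1 nlg))) (sub_nonneg.2 hρ1), mul_nonneg (sq_nonneg (M : ℝ)) (le_of_lt (sub_pos.2 Real.pi_gt_three))])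
      have h5 : 0 ≤ M * (r * d) := by positivity
      calc √r * (M * (r * d)) ≤ 1 * (M * (r * d)) := mul_le_mul_of_nonneg_right h3 h5
        _ = M * (r * d) := one_mul _
        _ ≤ (4 * π * M ^ 2) * (r * d) := mul_le_mul_of_nonneg_right h4 (by positivity)
        _ = _ := by ring
    have hab : ‖(x + r * a) - (x + r * b)‖ = r * ‖a - b‖ := by
      have : (x + r * a) - (x + r * b) = r * (a - b) := by ring
      rw [this, norm_mul, Complex.norm_real, Real.norm_eq_abs, abs_of_pos hr]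
    rw [hD, hsD] at g1 g2
    rw [hab] at g2
    constructor
    · rw [q6_grad_blow u x hr, norm_smul, Real.norm_eq_abs, abs_of_pos hsr]
      have e : √r * (√r * √D / (r * d)) = √D / d := by
        rw [← mul_div_assoc, ← mul_assoc, hss, mul_div_mul_left _ _ hr.ne']
      calc √r * ‖grad u (x + r * a)‖
          ≤ √r * (c₁ * (√r * √D / (r * d) + M * (r * d))) :=
            mul_le_mul_of_nonneg_left g1 hsr.le
        _ = c₁ * (√r * (√r * √D / (r * d)) + √r * (M * (r * d))) := by ring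
        _ ≤ c₁ * (√D / d + 4 * π * M ^ 2 * r * d) := by
          rw [e]
          exact mul_le_mul_of_nonneg_left (by linarith only [hκ]) hc₁.le
    · rw [q6_grad_blow u x hr, q6_grad_blow u x hr, ← smul_sub, norm_smul, Real.norm_eq_abs,
        abs_of_pos hsr]
      have e : √r * (√r * √D / (r * d) ^ 2 * (r * ‖a - b‖)) = √D / d ^ 2 * ‖a - b‖ := by
        have : √r * (√r * √D / (r * d) ^ 2 * (r * ‖a - b‖)) =
            (√r * √r) * √D / (r * d) ^ 2 * (r * ‖a - b‖) := by ring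
        rw [this, hss]
        field_simp
      calc √r * ‖grad u (x + r * a) - grad u (x + r * b)‖
          ≤ √r * (c₁ * (√r * √D / (r * d) ^ 2 * (r * ‖a - b‖) + M * (r * d))) :=
            mul_le_mul_of_nonneg_left g2 hsr.le
        _ = c₁ * (√r * (√r * √D / (r * d) ^ 2 * (r * ‖a - b‖)) + √r * (M * (r * d))) := by ring
        _ ≤ c₁ * (√D / d ^ 2 * ‖a - b‖ + 4 * π * M ^ 2 * r * d) := by
          rw [e]
          exact mul_le_mul_of_nonneg_left (by linarith only [hκ]) hc₁.le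

end Vale.Agent.P128.Q
end

section

/-! P128, Q1: the labelled points of `K` on small circles. -/

open Set Metric Filter ComplexConjugate
open scoped Topology Real

namespace Vale.Agent.P128.Q1

open Vale.Agent.P128

variable {K : Set ℂ} {x : ℂ} {m : ℕ} {r ε₀ δ : ℝ} {Θ : ℝ → ℝ}

/-- Properties of a cone used to label the points on small circles. -/
structure Lab (K : Set ℂ) (x : ℂ) (m : ℕ) (r ε₀ δ : ℝ) (Θ : ℝ → ℝ) : Prop where
  hm : m = 1 ∨ m = 2 ∨ m = 3
  r0 : 0 < r
  comp : IsCompact (K ∩ closedBall x r)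
  δ0 : 0 < δ
  δ1 : δ ≤ 1 / 1000
  δe : 16 * δ ≤ ε₀
  near : ∀ y ∈ K, y ≠ x → dist y x ≤ r → ∀ z ∈ K, dist z y ≤ ε₀ * dist y x →
    dist z y ≤ 2 * |dist z x - dist y x|
  out : ∀ y ∈ K, y ≠ x → dist y x ≤ r → ∀ t, 0 < t → t ≤ ε₀ * dist y x →
    ∃ z ∈ K, dist z y = t ∧ dist y x + t / 2 ≤ dist z x
  sec : ∀ y ∈ K, y ≠ x → dist y x ≤ r → ∃ (k : ℤ) (φ : ℝ), y = x + dist y x * uc φ ∧
    |φ - (Θ (dist y x) + 2 * π * k / m)| ≤ δ
  ex : ∀ s, 0 < s → s ≤ r → ∀ k : ℤ, ∃ y ∈ K, dist y (x + s * uc (Θ s + 2 * π * k / m)) ≤ δ * s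
  var : ∀ s s', 0 < s' → s' ≤ s → s ≤ r → s ≤ 2 * s' → |Θ s - Θ s'| ≤ δ

/-- `φ` is the angle of a point of `K` on the circle of radius `s`, close to the `j`-th ray. -/
def IsAng (K : Set ℂ) (x : ℂ) (m : ℕ) (Θ : ℝ → ℝ) (δ : ℝ) (j : ℤ) (s φ : ℝ) : Prop :=
  x + s * uc φ ∈ K ∧ |φ - (Θ s + 2 * π * j / m)| ≤ δ

theorem dist_ray (x : ℂ) {s : ℝ} (hs : 0 ≤ s) (φ : ℝ) : dist (x + s * uc φ) x = s := by
  rw [dist_eq_norm, add_sub_cancel_left, norm_mul, norm_uc, Complex.norm_real,
    Real.norm_of_nonneg hs, mul_one]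

theorem dist_ray_ray (x : ℂ) {s : ℝ} (hs : 0 ≤ s) (φ ψ : ℝ) :
    dist (x + s * uc φ) (x + s * uc ψ) ≤ s * |φ - ψ| := by
  rw [dist_eq_norm, add_sub_add_left_eq_sub, ← mul_sub, norm_mul, Complex.norm_real,
    Real.norm_of_nonneg hs]
  exact mul_le_mul_of_nonneg_left (norm_uc_sub_uc φ ψ) hs

theorem ray_ne {x : ℂ} {s : ℝ} (hs : 0 < s) (φ : ℝ) : x + s * uc φ ≠ x := by
  intro h
  have := dist_ray x hs.le φ
  rw [h, dist_self] at this
  linarith

/-- A point of `K` near the `j`-th ray has an angle close to that of the ray. -/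
theorem Lab.sector (L : Lab K x m r ε₀ δ Θ) {s : ℝ} (hsr : s ≤ r) {j : ℤ} {z : ℂ} (hz : z ∈ K)
    {s' : ℝ} (hs' : 0 < s') (hzx : dist z x = s') (h1 : s / 2 ≤ s') (h2 : s' ≤ s)
    (h3 : dist z (x + s' * uc (Θ s + 2 * π * j / m)) ≤ 5 * δ * s) :
    ∃ φ, z = x + s' * uc φ ∧ IsAng K x m Θ δ j s' φ := by
  have hπ := Real.pi_pos
  have hδ0 := L.δ0
  have hδ1 := L.δ1
  have hm0 : (m : ℝ) ≠ 0 := by
    have : m ≠ 0 := by rcases L.hm with rfl | rfl | rfl <;> norm_num
    exact_mod_cast this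
  have hs0 : 0 < s := lt_of_lt_of_le hs' h2
  have hzne : z ≠ x := by
    intro h; rw [h, dist_self] at hzx; linarith only [hs0, h1, hzx]
  obtain ⟨k, φ', hφ, hφk⟩ := L.sec z hz hzne (by rw [hzx]; linarith only [h2, hsr])
  rw [hzx] at hφ hφk
  have hvar := L.var s s' hs' h2 hsr (by linarith only [h1])
  have e1 : ‖uc φ' - uc (Θ s + 2 * π * j / m)‖ ≤ 10 * δ := by
    rw [hφ, dist_eq_norm, add_sub_add_left_eq_sub, ← mul_sub, norm_mul, Complex.norm_real,
      Real.norm_of_nonneg hs'.le] at h3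
    have h4 : s' * ‖uc φ' - uc (Θ s + 2 * π * j / m)‖ ≤ s' * (10 * δ) := by
      refine h3.trans ?_
      (by_contra nlg; linarith only [nlg, mul_nonneg (sub_nonneg.2 h1) (le_of_lt (sub_pos.2 hδ0)), mul_nonneg (le_of_lt (sub_pos.2 (not_le.1 nlg))) (sub_nonneg.2 hδ1), mul_pos (sub_pos.2 (not_le.1 nlg)) (sub_pos.2 hδ0)])
    exact le_of_mul_le_mul_left h4 hs'
  have e2 : ‖uc (Θ s + 2 * π * k / m) - uc φ'‖ ≤ 2 * δ := by
    refine (norm_uc_sub_uc _ _).trans ?_
    have : Θ s + 2 * π * k / m - φ' = (Θ s - Θ s') - (φ' - (Θ s' + 2 * π * k / m)) := by ring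
    rw [this]
    have := abs_sub (Θ s - Θ s') (φ' - (Θ s' + 2 * π * k / m))
    linarith only [this, hvar, hφk]
  have e3 : ‖uc (Θ s + 2 * π * k / m) - uc (Θ s + 2 * π * j / m)‖ < 1 := by
    have := norm_add_le (uc (Θ s + 2 * π * k / m) - uc φ') (uc φ' - uc (Θ s + 2 * π * j / m))
    rw [sub_add_sub_cancel] at this
    linarith only [this, e2, e1, hδ1, hδ0]
  obtain ⟨n, hn⟩ := uc_eq_iff (ray_eq_of_near L.hm (Θ s) k j e3)
  refine ⟨φ' - 2 * π * n, ?_, ?_, ?_⟩
  · have h5 := uc_add_turn (φ' - 2 * π * n) n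
    rw [sub_add_cancel] at h5
    rw [← h5]; exact hφ
  · have h5 := uc_add_turn (φ' - 2 * π * n) n
    rw [sub_add_cancel] at h5
    rw [← h5, ← hφ]; exact hz
  · have h6 : φ' - 2 * π * n - (Θ s' + 2 * π * j / m) = φ' - (Θ s' + 2 * π * k / m) := by
      linarith
    rw [h6]; exact hφk

/-- Existence of the points of `K` near the rays on small circles. -/
theorem Lab.exists_ang (L : Lab K x m r ε₀ δ Θ) {s : ℝ} (hs : 0 < s) (hsr : s ≤ r) (j : ℤ) :
    ∃ φ, IsAng K x m Θ δ j s φ := by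
  have hδ0 := L.δ0
  have hδ1 := L.δ1
  have hδe := L.δe
  obtain ⟨w, hw⟩ : ∃ w, w = uc (Θ s + 2 * π * j / m) := ⟨_, rfl⟩
  have hw1 : ‖w‖ = 1 := by rw [hw]; exact norm_uc _
  set A : Set ℂ := (K ∩ closedBall x r) ∩
    {z | s / 2 ≤ dist z x ∧ dist z x ≤ s ∧ dist z (x + dist z x * w) ≤ 5 * δ * s} with hA
  have hAc : IsCompact A := by
    have cd : Continuous fun z : ℂ => dist z x := continuous_id.dist continuous_const
    have cr : Continuous fun z : ℂ => x + (dist z x : ℂ) * w :=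
      continuous_const.add ((Complex.continuous_ofReal.comp cd).mul continuous_const)
    have c1 : IsClosed {z : ℂ | s / 2 ≤ dist z x} := isClosed_le continuous_const cd
    have c2 : IsClosed {z : ℂ | dist z x ≤ s} := isClosed_le cd continuous_const
    have c3 : IsClosed {z : ℂ | dist z (x + (dist z x : ℂ) * w) ≤ 5 * δ * s} :=
      isClosed_le (continuous_id.dist cr) continuous_const
    exact L.comp.inter_right (c1.inter (c2.inter c3))
  have hAne : A.Nonempty := by
    obtain ⟨y, hy, hyd⟩ := L.ex (3 / 4 * s) (by positivity) (by linarith only [hsr, hs]) j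
    have hvar := L.var s (3 / 4 * s) (by positivity) (by linarith only [hs]) hsr (by linarith only [hs])
    obtain ⟨t, ht⟩ : ∃ t, t = 3 / 4 * s := ⟨_, rfl⟩
    rw [← ht] at hyd hvar
    have ht0 : 0 < t := by rw [ht]; positivity
    have h1 := dist_ray x ht0.le (Θ t + 2 * π * j / m)
    have t1 := dist_triangle y (x + t * uc (Θ t + 2 * π * j / m)) x
    have t2 := dist_triangle (x + t * uc (Θ t + 2 * π * j / m)) y x
    rw [dist_comm (x + t * uc (Θ t + 2 * π * j / m)) y] at t2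
    rw [h1] at t1 t2
    have hδt : δ * t ≤ 1 / 1000 * t := mul_le_mul_of_nonneg_right hδ1 ht0.le
    have hyx1 : s / 2 ≤ dist y x := by linarith only [hδt, t2, ht0, ht, hyd]
    have hyx2 : dist y x ≤ s := by linarith only [hδt, t1, ht0, ht, hyd]
    refine ⟨y, ⟨hy, by rw [mem_closedBall]; linarith only [hyx2, hsr]⟩, hyx1, hyx2, ?_⟩
    have h2 : dist (x + t * uc (Θ t + 2 * π * j / m)) (x + t * w) ≤ δ * t := by
      rw [hw]
      refine (dist_ray_ray x ht0.le _ _).trans ?_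
      rw [show Θ t + 2 * π * j / m - (Θ s + 2 * π * j / m) = Θ t - Θ s by ring, abs_sub_comm]
      rw [mul_comm]
      exact mul_le_mul_of_nonneg_right hvar ht0.le
    have h3 : dist (x + t * w) (x + dist y x * w) ≤ δ * t := by
      rw [dist_eq_norm, add_sub_add_left_eq_sub, ← sub_mul, norm_mul, hw1, mul_one,
        ← Complex.ofReal_sub, Complex.norm_real, Real.norm_eq_abs, abs_le]
      constructor <;> linarith
    have h4 := dist_triangle4 y (x + t * uc (Θ t + 2 * π * j / m)) (x + t * w)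
      (x + dist y x * w)
    have h5 : δ * t ≤ δ * s := mul_le_mul_of_nonneg_left (by linarith only [ht0, ht]) hδ0.le
    have h6 : 0 < δ * s := by positivity
    linarith only [h6, h5, h4, h3, h2, hyd]
  obtain ⟨z, hzA, hmax⟩ := hAc.exists_isMaxOn hAne
    (f := fun z => dist z x) (by fun_prop)
  obtain ⟨⟨hzK, hzr⟩, hz1, hz2, hz3⟩ := hzA
  obtain ⟨s', hs'd⟩ : ∃ s', s' = dist z x := ⟨_, rfl⟩
  rw [← hs'd] at hz1 hz2 hz3
  have hs'0 : 0 < s' := by linarith
  rw [hw] at hz3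
  obtain ⟨φ, hzφ, hφ⟩ := L.sector hsr hzK hs'0 hs'd.symm hz1 hz2 hz3
  rcases hz2.eq_or_lt with heq | hlt
  · rw [heq] at hφ
    exact ⟨φ, hφ⟩
  exfalso
  have hzne : z ≠ x := by
    intro h; rw [h, dist_self] at hs'd; linarith
  obtain ⟨t, ht⟩ : ∃ t, t = min (s - s') (δ * s / 2) := ⟨_, rfl⟩
  have ht0 : 0 < t := by
    rw [ht]; exact lt_min (by linarith) (by positivity)
  have ht1 : t ≤ s - s' := by rw [ht]; exact min_le_left _ _
  have ht2 : t ≤ δ * s / 2 := by rw [ht]; exact min_le_right _ _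
  have hte : t ≤ ε₀ * dist z x := by
    rw [← hs'd]
    have h1 : δ * s / 2 ≤ δ * s' := by (by_contra nlg; linarith only [nlg, mul_nonneg (sub_nonneg.2 hz1) (sub_nonneg.2 ht2), mul_nonneg (sub_nonneg.2 hz1) (le_of_lt (sub_pos.2 ht0)), mul_nonneg (le_of_lt (sub_pos.2 (not_le.1 nlg))) (sub_nonneg.2 ht1), mul_pos (sub_pos.2 (not_le.1 nlg)) (sub_pos.2 ht0), mul_pos (sub_pos.2 (not_le.1 nlg)) (sub_pos.2 hs'0)])
    have h2 : δ * s' ≤ ε₀ * s' := mul_le_mul_of_nonneg_right (by linarith) hs'0.le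
    linarith
  obtain ⟨z', hz'K, hz'd, hz'x⟩ := L.out z hzK hzne (by rw [← hs'd]; linarith) t ht0 hte
  rw [← hs'd] at hz'x
  have hz'2 : dist z' x ≤ s' + t := by
    have := dist_triangle z' z x
    rw [hz'd, ← hs'd] at this
    linarith only [this]
  have hvar := L.var s s' hs'0 hz2 hsr (by linarith)
  have hz'A : z' ∈ A := by
    refine ⟨⟨hz'K, by rw [mem_closedBall]; linarith only [hz'2, ht1, hsr]⟩, by linarith only [hz'x, ht0, hz1], by linarith only [hz'2, ht1], ?_⟩
    have h1 : dist z (x + s' * w) ≤ 2 * δ * s' := by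
      rw [hzφ, hw]
      refine (dist_ray_ray x hs'0.le _ _).trans ?_
      have h2 : |φ - (Θ s + 2 * π * j / m)| ≤ 2 * δ := by
        have := abs_sub (φ - (Θ s' + 2 * π * j / m)) (Θ s - Θ s')
        rw [show φ - (Θ s' + 2 * π * j / m) - (Θ s - Θ s') = φ - (Θ s + 2 * π * j / m) by ring]
          at this
        linarith only [hφ.2, this, hvar]
      rw [mul_comm]
      exact mul_le_mul_of_nonneg_right h2 hs'0.le
    have h3 : dist (x + s' * w) (x + dist z' x * w) ≤ t := by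
      rw [dist_eq_norm, add_sub_add_left_eq_sub, ← sub_mul, norm_mul, hw1, mul_one,
        ← Complex.ofReal_sub, Complex.norm_real, Real.norm_eq_abs, abs_le]
      constructor <;> linarith
    have h4 := dist_triangle4 z' z (x + s' * w) (x + dist z' x * w)
    have h5 : δ * s' ≤ δ * s := mul_le_mul_of_nonneg_left (by linarith) hδ0.le
    have h6 : 0 < δ * s := by positivity
    linarith only [h5, h4, h3, h1, hz'd, ht2, ht0]
  have := hmax hz'A
  simp only [mem_ofPred_eq] at this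
  rw [← hs'd] at this
  linarith

/-- Uniqueness of the angle. -/
theorem Lab.unique (L : Lab K x m r ε₀ δ Θ) {s : ℝ} (hs : 0 < s) (hsr : s ≤ r) {j : ℤ}
    {φ ψ : ℝ} (hφ : IsAng K x m Θ δ j s φ) (hψ : IsAng K x m Θ δ j s ψ) : φ = ψ := by
  have hπ := Real.pi_gt_three
  have hδ1 := L.δ1
  have h1 : |ψ - φ| ≤ 2 * δ := by
    have := abs_sub (ψ - (Θ s + 2 * π * j / m)) (φ - (Θ s + 2 * π * j / m))
    rw [sub_sub_sub_cancel_right] at this
    linarith only [hψ.2, hφ.2, this]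
  have h2 := L.near _ hφ.1 (ray_ne hs φ) (by rw [dist_ray x hs.le]; exact hsr) _ hψ.1 (by
    rw [dist_ray x hs.le]
    refine (dist_ray_ray x hs.le _ _).trans ?_
    rw [mul_comm]
    refine mul_le_mul_of_nonneg_right ?_ hs.le
    linarith [L.δe, L.δ0])
  rw [dist_ray x hs.le, dist_ray x hs.le, sub_self, abs_zero, mul_zero] at h2
  have h3 : x + s * uc ψ = x + s * uc φ := dist_le_zero.1 h2
  have h4 : uc φ = uc ψ := by
    have h5 := add_left_cancel h3
    exact (mul_left_cancel₀ (by exact_mod_cast hs.ne') h5).symm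
  refine uc_inj h4 ?_
  rw [abs_sub_comm]
  linarith

/-- The labelled angles. -/
theorem Lab.exists_fun (L : Lab K x m r ε₀ δ Θ) : ∃ φ : Fin m → ℝ → ℝ,
    ∀ (i : Fin m) (s : ℝ), 0 < s → s ≤ r → IsAng K x m Θ δ (i : ℕ) s (φ i s) := by
  refine ⟨fun i s => if h : 0 < s ∧ s ≤ r then
    (L.exists_ang h.1 h.2 ((i : ℕ) : ℤ)).choose else 0, ?_⟩
  intro i s h1 h2
  simp only [h1, h2, and_self, dif_pos]
  exact (L.exists_ang h1 h2 ((i : ℕ) : ℤ)).choose_spec

theorem Lab.sphere_eq (L : Lab K x m r ε₀ δ Θ) {φ : Fin m → ℝ → ℝ}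
    (hφ : ∀ (i : Fin m) (s : ℝ), 0 < s → s ≤ r → IsAng K x m Θ δ (i : ℕ) s (φ i s))
    {s : ℝ} (hs : 0 < s) (hsr : s ≤ r) :
    K ∩ sphere x s = range fun i : Fin m => x + s * Complex.exp (φ i s * Complex.I) := by
  have hm : 0 < m := by rcases L.hm with rfl | rfl | rfl <;> norm_num
  have hm0 : (m : ℝ) ≠ 0 := by exact_mod_cast hm.ne'
  ext z
  constructor
  · rintro ⟨hzK, hzs⟩
    rw [mem_sphere] at hzs
    have hzne : z ≠ x := by
      intro h; rw [h, dist_self] at hzs; linarith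
    obtain ⟨k, ψ, hψ, hψk⟩ := L.sec z hzK hzne (by rw [hzs]; exact hsr)
    rw [hzs] at hψ hψk
    have hmz : (0 : ℤ) < m := by exact_mod_cast hm
    obtain ⟨i, hi⟩ : ∃ i : ℕ, (i : ℤ) = k % m := ⟨(k % m).toNat, Int.toNat_of_nonneg
      (Int.emod_nonneg k hmz.ne')⟩
    have him : i < m := by
      have := Int.emod_lt_of_pos k hmz
      rw [← hi] at this
      exact_mod_cast this
    have hki : k = i + m * (k / m) := by
      rw [hi]; exact (Int.emod_add_mul_ediv k m).symm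
    obtain ⟨q, hq⟩ : ∃ q, q = k / m := ⟨_, rfl⟩
    rw [← hq] at hki
    refine ⟨⟨i, him⟩, ?_⟩
    have h1 : IsAng K x m Θ δ ((⟨i, him⟩ : Fin m) : ℕ) s (ψ - 2 * π * q) := by
      have h5 := uc_add_turn (ψ - 2 * π * q) q
      rw [sub_add_cancel] at h5
      refine ⟨by rw [← h5, ← hψ]; exact hzK, ?_⟩
      have h6 : ψ - 2 * π * q - (Θ s + 2 * π * (((⟨i, him⟩ : Fin m) : ℕ) : ℤ) / m) =
          ψ - (Θ s + 2 * π * k / m) := by
        rw [hki]
        push_cast
        field_simp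
        ring
      rw [h6]
      exact hψk
    have h2 := L.unique hs hsr (hφ ⟨i, him⟩ s hs hsr) h1
    have h5 := uc_add_turn (ψ - 2 * π * q) q
    rw [sub_add_cancel] at h5
    show x + s * uc (φ ⟨i, him⟩ s) = z
    rw [h2, ← h5, ← hψ]
  · rintro ⟨i, rfl⟩
    exact ⟨(hφ i s hs hsr).1, by rw [mem_sphere]; exact dist_ray x hs.le _⟩

theorem Lab.inj (L : Lab K x m r ε₀ δ Θ) {φ : Fin m → ℝ → ℝ}
    (hφ : ∀ (i : Fin m) (s : ℝ), 0 < s → s ≤ r → IsAng K x m Θ δ (i : ℕ) s (φ i s))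
    {s : ℝ} (hs : 0 < s) (hsr : s ≤ r) :
    Function.Injective fun i : Fin m => Complex.exp (φ i s * Complex.I) := by
  have hπ := Real.pi_pos
  have hm : 0 < m := by rcases L.hm with rfl | rfl | rfl <;> norm_num
  have hm0 : (m : ℝ) ≠ 0 := by exact_mod_cast hm.ne'
  intro i j hij
  have hij : uc (φ i s) = uc (φ j s) := hij
  have h1 := (hφ i s hs hsr).2
  have h2 := (hφ j s hs hsr).2
  have h3 : ‖uc (Θ s + 2 * π * ((i : ℕ) : ℤ) / m) - uc (Θ s + 2 * π * ((j : ℕ) : ℤ) / m)‖ < 1 := by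
    have a1 := norm_uc_sub_uc (Θ s + 2 * π * ((i : ℕ) : ℤ) / m) (φ i s)
    have a2 := norm_uc_sub_uc (φ j s) (Θ s + 2 * π * ((j : ℕ) : ℤ) / m)
    rw [abs_sub_comm] at a1
    have a3 := norm_add_le (uc (Θ s + 2 * π * ((i : ℕ) : ℤ) / m) - uc (φ i s))
      (uc (φ j s) - uc (Θ s + 2 * π * ((j : ℕ) : ℤ) / m))
    rw [hij, sub_add_sub_cancel] at a3
    rw [hij] at a1
    linarith only [L.δ1, a3, a2, a1, h2, h1]
  obtain ⟨n, hn⟩ := uc_eq_iff (ray_eq_of_near L.hm (Θ s) ((i : ℕ) : ℤ) ((j : ℕ) : ℤ) h3)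
  have h4 : (((i : ℕ) : ℤ) : ℝ) = ((j : ℕ) : ℤ) + n * m := by
    have h5 : 2 * π * ((i : ℕ) : ℤ) / m = 2 * π * ((j : ℕ) : ℤ) / m + 2 * π * n := by linarith
    field_simp at h5
    linarith
  have h5 : ((i : ℕ) : ℤ) = ((j : ℕ) : ℤ) + n * m := by exact_mod_cast h4
  have hi := i.2
  have hj := j.2
  have h6 : n = 0 := by
    have h7 : n * m < m := by omega
    have h8 : -(m : ℤ) < n * m := by omega
    have hmz : (0 : ℤ) < m := by exact_mod_cast hm
    have h9 : n < 1 := by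
      by_contra hcon
      push Not at hcon
      linarith only [mul_nonneg (le_of_lt (sub_pos.2 hmz)) (sub_nonneg.2 hcon), h7]
    have h10 : -1 < n := by
      by_contra hcon
      push Not at hcon
      linarith only [mul_pos (sub_pos.2 h8) (sub_pos.2 h9), mul_nonneg (le_of_lt (sub_pos.2 h7)) (sub_nonneg.2 hcon), hcon, h8]
    omega
  rw [h6, zero_mul, add_zero] at h5
  exact Fin.ext (by exact_mod_cast h5)

/-- The labelled points move slowly. -/
theorem Lab.step (L : Lab K x m r ε₀ δ Θ) {φ : Fin m → ℝ → ℝ}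
    (hφ : ∀ (i : Fin m) (s : ℝ), 0 < s → s ≤ r → IsAng K x m Θ δ (i : ℕ) s (φ i s)) (i : Fin m)
    {s s' : ℝ} (hs : 0 < s) (hsr : s ≤ r) (hs' : 0 < s') (hsr' : s' ≤ r) (h : |s' - s| ≤ δ * s) :
    |φ i s' - φ i s| ≤ 3 * δ ∧
      dist (x + s' * uc (φ i s')) (x + s * uc (φ i s)) ≤ 2 * |s' - s| := by
  have hδ0 := L.δ0
  have hδ1 := L.δ1
  have h1 := (hφ i s hs hsr).2
  have h2 := (hφ i s' hs' hsr').2
  have hs1 := abs_le.1 h
  have hδs : δ * s ≤ 1 / 1000 * s := mul_le_mul_of_nonneg_right hδ1 hs.le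
  have h3 : |Θ s' - Θ s| ≤ δ := by
    rcases le_total s s' with hle | hle
    · exact L.var s' s hs hle hsr' (by linarith)
    · rw [abs_sub_comm]
      exact L.var s s' hs' hle hsr (by linarith)
  have h4 : |φ i s' - φ i s| ≤ 3 * δ := by
    have e1 : φ i s' - φ i s = (φ i s' - (Θ s' + 2 * π * ((i : ℕ) : ℤ) / m)) + (Θ s' - Θ s) -
        (φ i s - (Θ s + 2 * π * ((i : ℕ) : ℤ) / m)) := by ring
    rw [e1]
    have a1 := abs_sub ((φ i s' - (Θ s' + 2 * π * ((i : ℕ) : ℤ) / m)) + (Θ s' - Θ s))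
      (φ i s - (Θ s + 2 * π * ((i : ℕ) : ℤ) / m))
    have a2 := abs_add_le (φ i s' - (Θ s' + 2 * π * ((i : ℕ) : ℤ) / m)) (Θ s' - Θ s)
    linarith only [a2, a1, h3, h2, h1]
  refine ⟨h4, ?_⟩
  have h5 := L.near _ (hφ i s hs hsr).1 (ray_ne hs _) (by rw [dist_ray x hs.le]; exact hsr) _
    (hφ i s' hs' hsr').1 (by
      rw [dist_ray x hs.le]
      have a1 := dist_triangle (x + s' * uc (φ i s')) (x + s * uc (φ i s'))
        (x + s * uc (φ i s))
      have a2 := dist_ray_ray x hs.le (φ i s') (φ i s)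
      have a3 : dist (x + s' * uc (φ i s')) (x + s * uc (φ i s')) = |s' - s| := by
        rw [dist_eq_norm, add_sub_add_left_eq_sub, ← sub_mul, norm_mul, norm_uc, mul_one,
          ← Complex.ofReal_sub, Complex.norm_real, Real.norm_eq_abs]
      have a4 : s * |φ i s' - φ i s| ≤ s * (3 * δ) := mul_le_mul_of_nonneg_left h4 hs.le
      have a5 : 16 * δ * s ≤ ε₀ * s := mul_le_mul_of_nonneg_right L.δe hs.le
      have a6 : 0 < δ * s := by positivity
      linarith only [a6, a5, a4, a3, a2, a1, h])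
  rw [dist_ray x hs.le, dist_ray x hs'.le] at h5
  exact h5

end Vale.Agent.P128.Q1
end

section

/-! P128, Q1: from the flatness in the plane to the derivative of the angle. -/

set_option linter.all false

open Set Metric Filter ComplexConjugate
open scoped Topology Real

namespace Vale.Agent.P128.Q1

open Vale.Agent.P128

theorem expand {x e : ℂ} {s s' p p' α E : ℝ} (hs : 0 < s) (h1 : |s' - s| ≤ s / 10)
    (h2 : |p' - p| ≤ 1 / 10) (hα : |α| ≤ 1 / 4) (he : e = uc (p + α))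
    (hd : dist (x + s' * uc p') (x + s * uc p) ≤ 2 * |s' - s|)
    (hE : |(conj e * ((x + s' * uc p') - (x + s * uc p))).im| ≤ E) :
    |p' - p - Real.tan α * ((s' - s) / s)| ≤ 2 * E / s + 40 * (|s' - s| / s) ^ 2 := by
  obtain ⟨ψ, hψ⟩ : ∃ ψ, ψ = p' - p := ⟨_, rfl⟩
  rw [← hψ] at h2 ⊢
  obtain ⟨h, hh⟩ : ∃ h, h = |s' - s| / s := ⟨_, rfl⟩
  have hhs : |s' - s| = h * s := by rw [hh]; field_simp
  have hh0 : 0 ≤ h := by rw [hh]; (clear * - hs; positivity)
  have hh1 : h ≤ 1 / 10 := by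
    rw [hh, div_le_iff₀ hs]; linarith only [h1]
  rw [← hh]
  have hE0 : 0 ≤ E := (abs_nonneg _).trans hE
  -- the imaginary part
  have hconj : conj e = uc (-(p + α)) := by
    rw [he]
    have h4 := uc_neg_mul (p + α)
    have h5 : conj (uc (p + α)) * uc (p + α) = 1 := by
      rw [mul_comm, Complex.mul_conj, Complex.normSq_eq_norm_sq, norm_uc]; norm_num
    exact mul_right_cancel₀ (uc_ne_zero _) (h5.trans h4.symm)
  have him : (conj e * ((x + s' * uc p') - (x + s * uc p))).im =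
      s' * Real.sin (ψ - α) + s * Real.sin α := by
    have e1 : conj e * ((x + s' * uc p') - (x + s * uc p)) =
        s' * uc (ψ - α) - s * uc (-α) := by
      have e2 : uc (ψ - α) = uc (-(p + α)) * uc p' := by
        rw [← uc_add]; congr 1; rw [hψ]; ring
      have e3 : uc (-α) = uc (-(p + α)) * uc p := by
        rw [← uc_add]; congr 1; ring
      rw [hconj, e2, e3]
      ring
    have e4 : ∀ t : ℝ, (uc t).im = Real.sin t := fun t => by
      unfold uc; rw [Complex.exp_ofReal_mul_I_im]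
    rw [e1, Complex.sub_im, Complex.im_ofReal_mul, Complex.im_ofReal_mul, e4, e4, Real.sin_neg]
    ring
  rw [him, Real.sin_sub] at hE
  -- the distance
  have hdd : dist (x + s' * uc p') (x + s * uc p) ^ 2 = (s' - s) ^ 2 +
      2 * s * s' * (1 - Real.cos ψ) := by
    have e1 : dist (x + s' * uc p') (x + s * uc p) = ‖(s' : ℂ) * uc ψ - s‖ := by
      rw [dist_eq_norm, show x + s' * uc p' - (x + s * uc p) = (s' * uc ψ - s) * uc p by
        have : uc p' = uc ψ * uc p := by rw [← uc_add]; congr 1; rw [hψ]; ring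
        rw [this]; ring, norm_mul, norm_uc, mul_one]
    rw [e1, ← Complex.normSq_eq_norm_sq, Complex.normSq_apply]
    have e2 : ((s' : ℂ) * uc ψ - s).re = s' * Real.cos ψ - s := by
      rw [Complex.sub_re, Complex.re_ofReal_mul, Complex.ofReal_re]
      unfold uc; rw [Complex.exp_ofReal_mul_I_re]
    have e3 : ((s' : ℂ) * uc ψ - s).im = s' * Real.sin ψ := by
      rw [Complex.sub_im, Complex.im_ofReal_mul, Complex.ofReal_im, sub_zero]
      unfold uc; rw [Complex.exp_ofReal_mul_I_im]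
    rw [e2, e3]
    have := Real.sin_sq_add_cos_sq ψ
    linear_combination s' ^ 2 * this
  have hss : (s' - s) ^ 2 = (h * s) ^ 2 := by rw [← hhs, sq_abs]
  have hs'1 : 9 / 10 * s ≤ s' := by
    have := (abs_le.1 h1).1
    linarith only [this]
  have hs'2 : s' ≤ 11 / 10 * s := by
    have := (abs_le.1 h1).2
    linarith only [this]
  have hs'0 : 0 < s' := by linarith only [hs'1, hs]
  have hψ1 : ψ ^ 2 ≤ 1 / 100 := by
    have := sq_le_sq' (abs_le.1 h2).1 (abs_le.1 h2).2
    linarith only [this]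
  have hcos : 49 / 100 * ψ ^ 2 ≤ 1 - Real.cos ψ := by
    have h3 := (abs_le.1 (Real.cos_bound (x := ψ) (by linarith only [h2]))).2
    have h4 : |ψ| ^ 4 = ψ ^ 2 * ψ ^ 2 := by
      rw [show |ψ| ^ 4 = (|ψ| ^ 2) * (|ψ| ^ 2) by ring, sq_abs]
    rw [h4] at h3
    have h5 : ψ ^ 2 * ψ ^ 2 ≤ 1 / 100 * ψ ^ 2 := mul_le_mul_of_nonneg_right hψ1 (sq_nonneg _)
    have := sq_nonneg ψ
    linarith only [this, h5, h3]
  have hcos2 : 1 - Real.cos ψ ≤ ψ ^ 2 / 2 := by
    have := Real.one_sub_sq_div_two_le_cos (x := ψ)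
    linarith only [this]
  have hψh : ψ ^ 2 ≤ 4 * h ^ 2 := by
    have h3 : dist (x + s' * uc p') (x + s * uc p) ^ 2 ≤ (2 * |s' - s|) ^ 2 := by
      gcongr
    rw [hdd, hss, hhs] at h3
    have h4 : 2 * s * s' * (49 / 100 * ψ ^ 2) ≤ 2 * s * s' * (1 - Real.cos ψ) :=
      mul_le_mul_of_nonneg_left hcos (by positivity)
    have h5 : 9 / 10 * s * (s * ψ ^ 2) ≤ s' * (s * ψ ^ 2) :=
      mul_le_mul_of_nonneg_right hs'1 (by positivity)
    have h6 : 441 / 500 * (s ^ 2 * ψ ^ 2) ≤ 3 * (s ^ 2 * h ^ 2) := by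
      have e1 : (h * s) ^ 2 = s ^ 2 * h ^ 2 := by ring
      have e2 : (2 * (h * s)) ^ 2 = 4 * (s ^ 2 * h ^ 2) := by ring
      have e3 : 2 * s * s' * (49 / 100 * ψ ^ 2) = 49 / 50 * (s' * (s * ψ ^ 2)) := by ring
      have e4 : 9 / 10 * s * (s * ψ ^ 2) = 9 / 10 * (s ^ 2 * ψ ^ 2) := by ring
      rw [e1, e2] at h3
      rw [e3] at h4
      rw [e4] at h5
      linarith only [h5, h4, h3]
    have h7 : s ^ 2 * ψ ^ 2 ≤ s ^ 2 * (4 * h ^ 2) := by
      have h8 : 0 ≤ s ^ 2 * h ^ 2 := by positivity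
      have e1 : s ^ 2 * (4 * h ^ 2) = 4 * (s ^ 2 * h ^ 2) := by ring
      rw [e1]
      linarith only [h8, h6]
    exact le_of_mul_le_mul_left h7 (by positivity)
  have hψh' : |ψ| ≤ 2 * h := by
    refine abs_le_of_sq_le_sq ?_ (by positivity)
    have e1 : (2 * h) ^ 2 = 4 * h ^ 2 := by ring
    rw [e1]
    exact hψh
  -- the third order term of the sine
  have hsin3 : |ψ - Real.sin ψ| ≤ ψ ^ 2 := by
    have h3 := Real.sin_bound (x := ψ) (by linarith only [h2])
    have h4 : |ψ - Real.sin ψ| ≤ |Real.sin ψ - (ψ - ψ ^ 3 / 6)| + |ψ ^ 3 / 6| := by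
      have : ψ - Real.sin ψ = -(Real.sin ψ - (ψ - ψ ^ 3 / 6)) + ψ ^ 3 / 6 := by ring
      rw [this]
      refine (abs_add_le _ _).trans ?_
      rw [abs_neg]
    have h5 : |ψ ^ 3 / 6| ≤ ψ ^ 2 / 6 := by
      rw [abs_div, abs_pow, show |ψ| ^ 3 = |ψ| ^ 2 * |ψ| by ring, sq_abs]
      rw [abs_of_pos (by norm_num : (0 : ℝ) < 6)]
      have : ψ ^ 2 * |ψ| ≤ ψ ^ 2 * 1 := mul_le_mul_of_nonneg_left (by linarith only [h2]) (sq_nonneg _)
      linarith only [this]
    have h6 : |ψ| ^ 5 / 100 ≤ ψ ^ 2 / 100 := by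
      rw [show |ψ| ^ 5 = |ψ| ^ 2 * |ψ| ^ 3 by ring, sq_abs]
      have h7 : |ψ| ^ 3 ≤ 1 := pow_le_one₀ (abs_nonneg _) (by linarith only [h2])
      have : ψ ^ 2 * |ψ| ^ 3 ≤ ψ ^ 2 * 1 := mul_le_mul_of_nonneg_left h7 (sq_nonneg _)
      linarith only [this]
    have := sq_nonneg ψ
    linarith only [this, h6, h5, h4, h3]
  -- the tangent
  have hα2 : α ^ 2 ≤ 1 / 16 := by
    have := sq_le_sq' (abs_le.1 hα).1 (abs_le.1 hα).2
    linarith only [this]
  have hc : 31 / 32 ≤ Real.cos α := by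
    have := Real.one_sub_sq_div_two_le_cos (x := α)
    linarith only [this, hα2]
  have hc0 : 0 < Real.cos α := by linarith only [hc]
  obtain ⟨T, hT⟩ : ∃ T, T = Real.tan α := ⟨_, rfl⟩
  rw [← hT]
  have hTc : Real.sin α = T * Real.cos α := by
    rw [hT, Real.tan_eq_sin_div_cos]; field_simp
  have hT1 : |T| ≤ 1 := by
    have h3 : |T| * Real.cos α ≤ 1 / 4 := by
      rw [← abs_of_pos hc0, ← abs_mul, ← hTc]
      exact Real.abs_sin_le_abs.trans hα
    by_contra hcon
    push Not at hcon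
    have h4 : 1 * Real.cos α ≤ |T| * Real.cos α := mul_le_mul_of_nonneg_right hcon.le hc0.le
    linarith only [h4, h3, hc0, hc]
  have hJ : |s' * Real.sin ψ - T * (s' * Real.cos ψ - s)| ≤ 2 * E := by
    have e1 : s' * (Real.sin ψ * Real.cos α - Real.cos ψ * Real.sin α) + s * Real.sin α =
        Real.cos α * (s' * Real.sin ψ - T * (s' * Real.cos ψ - s)) := by
      rw [hTc]; ring
    rw [e1, abs_mul, abs_of_pos hc0] at hE
    have h4 : 1 / 2 * |s' * Real.sin ψ - T * (s' * Real.cos ψ - s)| ≤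
        Real.cos α * |s' * Real.sin ψ - T * (s' * Real.cos ψ - s)| :=
      mul_le_mul_of_nonneg_right (by linarith only [hc0, hc]) (abs_nonneg _)
    linarith only [h4, hE]
  -- assembly
  have e1 : s * (ψ - T * ((s' - s) / s)) = (s' * Real.sin ψ - T * (s' * Real.cos ψ - s)) +
      (s - s') * ψ + s' * (ψ - Real.sin ψ) - T * (s' * (1 - Real.cos ψ)) := by
    field_simp
    ring
  have h3 : |s * (ψ - T * ((s' - s) / s))| ≤ 2 * E + 40 * (h ^ 2 * s) := by
    rw [e1]
    have a1 : |(s - s') * ψ| ≤ h * s * (2 * h) := by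
      rw [abs_mul, abs_sub_comm, hhs]
      exact mul_le_mul_of_nonneg_left hψh' (by positivity)
    have a2 : |s' * (ψ - Real.sin ψ)| ≤ 11 / 10 * s * (4 * h ^ 2) := by
      rw [abs_mul, abs_of_pos hs'0]
      exact mul_le_mul hs'2 (hsin3.trans hψh) (abs_nonneg _) (by positivity)
    have a3 : |T * (s' * (1 - Real.cos ψ))| ≤ 1 * (11 / 10 * s * (4 * h ^ 2)) := by
      rw [abs_mul]
      refine mul_le_mul hT1 ?_ (abs_nonneg _) zero_le_one
      rw [abs_mul, abs_of_pos hs'0]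
      refine mul_le_mul hs'2 ?_ (abs_nonneg _) (by positivity)
      rw [abs_of_nonneg (by have := Real.cos_le_one ψ; linarith only [this])]
      have := sq_nonneg ψ
      linarith only [this, hψh, hcos2]
    have b1 := abs_sub (s' * Real.sin ψ - T * (s' * Real.cos ψ - s) + (s - s') * ψ +
      s' * (ψ - Real.sin ψ)) (T * (s' * (1 - Real.cos ψ)))
    have b2 := abs_add_le (s' * Real.sin ψ - T * (s' * Real.cos ψ - s) + (s - s') * ψ)
      (s' * (ψ - Real.sin ψ))
    have b3 := abs_add_le (s' * Real.sin ψ - T * (s' * Real.cos ψ - s)) ((s - s') * ψ)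
    have hh2 : 0 ≤ h ^ 2 * s := by positivity
    have c1 : h * s * (2 * h) = 2 * (h ^ 2 * s) := by ring
    have c2 : 11 / 10 * s * (4 * h ^ 2) = 22 / 5 * (h ^ 2 * s) := by ring
    rw [c1] at a1
    rw [c2] at a2 a3
    linarith only [hh2, b3, b2, b1, a3, a2, a1, hJ]
  rw [abs_mul, abs_of_pos hs] at h3
  have h4 : 2 * E / s + 40 * h ^ 2 = (2 * E + 40 * (h ^ 2 * s)) / s := by field_simp
  rw [h4, le_div_iff₀ hs]
  linarith only [h3]

theorem deriv_of_expansion {φ T : ℝ → ℝ} {r δ B : ℝ} (hδ : 0 < δ) (hδ1 : δ ≤ 1 / 2) (hB : 0 ≤ B)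
    (hT : ∀ s, 0 < s → s < r → |T s| ≤ 1)
    (h : ∀ s s', 0 < s → s < r → 0 < s' → s' < r → |s' - s| ≤ δ * s →
      |φ s' - φ s - T s * ((s' - s) / s)| ≤ B * (|s' - s| / s) ^ (5 / 4 : ℝ)) :
    (∀ s ∈ Set.Ioo 0 r, HasDerivAt φ (T s / s) s) ∧
      ∃ C : ℝ, ∀ s t, 0 < s → s / 2 ≤ t → t ≤ s → s < r →
        |T s - T t| ≤ C * ((s - t) / s) ^ (1 / 4 : ℝ) := by
  have h54 : ∀ y : ℝ, 0 ≤ y → y ^ (5 / 4 : ℝ) = y * y ^ (1 / 4 : ℝ) := by
    intro y hy
    rcases hy.eq_or_lt with rfl | hy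
    · rw [Real.zero_rpow (by norm_num), zero_mul]
    · rw [show (5 / 4 : ℝ) = 1 + 1 / 4 by norm_num, Real.rpow_add hy, Real.rpow_one]
  constructor
  · intro s hs
    rw [hasDerivAt_iff_isLittleO, Asymptotics.isLittleO_iff]
    intro c hc
    have hs0 := hs.1
    have hcont : ContinuousAt (fun s' : ℝ => B / s * (|s' - s| / s) ^ (1 / 4 : ℝ)) s := by
      refine ContinuousAt.mul continuousAt_const ?_
      refine ContinuousAt.rpow_const (by fun_prop) (Or.inr (by norm_num))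
    have hval : B / s * (|s - s| / s) ^ (1 / 4 : ℝ) = 0 := by
      rw [sub_self, abs_zero, zero_div, Real.zero_rpow (by norm_num), mul_zero]
    have hev : ∀ᶠ s' in 𝓝 s, B / s * (|s' - s| / s) ^ (1 / 4 : ℝ) < c := by
      have := hcont.tendsto
      rw [hval] at this
      exact this.eventually (gt_mem_nhds hc)
    have hev2 : ∀ᶠ s' in 𝓝 s, |s' - s| < δ * s := by
      have : ContinuousAt (fun s' : ℝ => |s' - s|) s := by fun_prop
      have h2 := this.tendsto
      simp only [sub_self, abs_zero] at h2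
      exact h2.eventually (gt_mem_nhds (by positivity))
    filter_upwards [hev, hev2, Ioo_mem_nhds hs.1 hs.2] with s' h1 h2 h3
    have h4 := h s s' hs.1 hs.2 h3.1 h3.2 h2.le
    rw [h54 _ (by positivity)] at h4
    rw [Real.norm_eq_abs, Real.norm_eq_abs, smul_eq_mul]
    rw [show (s' - s) * (T s / s) = T s * ((s' - s) / s) by ring]
    refine h4.trans ?_
    have e1 : B * (|s' - s| / s * (|s' - s| / s) ^ (1 / 4 : ℝ)) =
        B / s * (|s' - s| / s) ^ (1 / 4 : ℝ) * |s' - s| := by ring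
    rw [e1]
    exact mul_le_mul_of_nonneg_right h1.le (abs_nonneg _)
  · refine ⟨4 * B + 2 + 2 * (2 / δ) ^ (1 / 4 : ℝ), ?_⟩
    intro s t hs hst hts hsr
    have ht : 0 < t := by linarith
    have htr : t < r := by linarith
    obtain ⟨η, hη⟩ : ∃ η, η = (s - t) / s := ⟨_, rfl⟩
    rw [← hη]
    have hη0 : 0 ≤ η := by rw [hη]; apply div_nonneg <;> linarith
    have hη1 : η ≤ 1 / 2 := by rw [hη, div_le_iff₀ hs]; linarith
    have hηs : s - t = η * s := by rw [hη]; field_simp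
    have hA : 0 ≤ (2 / δ) ^ (1 / 4 : ℝ) := by positivity
    have hq : 0 ≤ η ^ (1 / 4 : ℝ) := Real.rpow_nonneg hη0 _
    have hTs := hT s hs hsr
    have hTt := hT t ht htr
    by_cases hc : s - t ≤ δ * t
    · -- close
      have h1 := h s t hs hsr ht htr (by
        rw [abs_sub_comm, abs_of_nonneg (by linarith only [hts])]
        have : δ * t ≤ δ * s := mul_le_mul_of_nonneg_left hts hδ.le
        linarith only [this, hc])
      have h2 := h t s ht htr hs hsr (by rw [abs_of_nonneg (by linarith)]; exact hc)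
      rw [abs_sub_comm t s, abs_of_nonneg (by linarith only [hts] : 0 ≤ s - t), ← hη, h54 _ hη0] at h1
      have hbt : 0 ≤ (s - t) / t := by apply div_nonneg <;> linarith
      rw [abs_of_nonneg (by linarith : 0 ≤ s - t), h54 _ hbt] at h2
      have h3 : (s - t) / t ≤ 2 * η := by
        rw [div_le_iff₀ ht, hηs]
        (by_contra nlg; linarith only [nlg, mul_eq_zero_of_left (sub_eq_zero.2 hηs) (r - (t)), mul_eq_zero_of_left (sub_eq_zero.2 hηs) (t - (0)), mul_eq_zero_of_left (sub_eq_zero.2 hηs) (r - (s)), mul_nonneg (sub_nonneg.2 hst) (sub_nonneg.2 hts), mul_pos (sub_pos.2 (not_le.1 nlg)) (sub_pos.2 ht), mul_nonneg (le_of_lt (sub_pos.2 (not_le.1 nlg))) (sub_nonneg.2 hts)])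
      have h4 : ((s - t) / t) ^ (1 / 4 : ℝ) ≤ 3 / 2 * η ^ (1 / 4 : ℝ) := by
        refine (Real.rpow_le_rpow hbt h3 (by norm_num)).trans ?_
        rw [Real.mul_rpow (by norm_num) hη0]
        refine mul_le_mul_of_nonneg_right ?_ hq
        have h5 : ((2 : ℝ) ^ (1 / 4 : ℝ)) ^ 4 = 2 := by
          rw [← Real.rpow_natCast, ← Real.rpow_mul (by norm_num)]
          norm_num
        by_contra hcon
        push Not at hcon
        have : (3 / 2 : ℝ) ^ 4 < ((2 : ℝ) ^ (1 / 4 : ℝ)) ^ 4 := by gcongr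
        rw [h5] at this
        norm_num at this
      have h5 : (s - t) / t * ((s - t) / t) ^ (1 / 4 : ℝ) ≤ 2 * η * (3 / 2 * η ^ (1 / 4 : ℝ)) :=
        mul_le_mul h3 h4 (Real.rpow_nonneg hbt _) (by positivity)
      have h6 : |η * (T s - T t * (s / t))| ≤ 4 * B * (η * η ^ (1 / 4 : ℝ)) := by
        have e1 : η * (T s - T t * (s / t)) = (φ t - φ s - T s * ((t - s) / s)) +
            (φ s - φ t - T t * ((s - t) / t)) := by
          rw [hη]
          field_simp
          ring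
        rw [e1]
        refine (abs_add_le _ _).trans ?_
        have h7 : B * ((s - t) / t * ((s - t) / t) ^ (1 / 4 : ℝ)) ≤
          B * (2 * η * (3 / 2 * η ^ (1 / 4 : ℝ))) := mul_le_mul_of_nonneg_left h5 hB
        linarith only [h7, h2, h1]
      rcases hη0.eq_or_lt with h0 | h0
      · have : s = t := by
          rw [← h0, zero_mul] at hηs
          linarith
        rw [this, sub_self, abs_zero]
        (clear * - hB hδ hη0; positivity)
      · have h7 : |T s - T t * (s / t)| ≤ 4 * B * η ^ (1 / 4 : ℝ) := by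
          rw [abs_mul, abs_of_pos h0] at h6
          refine le_of_mul_le_mul_left ?_ h0
          linarith only [h6]
        have h8 : |T t * (s / t) - T t| ≤ 2 * η ^ (1 / 4 : ℝ) := by
          have e1 : T t * (s / t) - T t = T t * ((s - t) / t) := by field_simp
          rw [e1, abs_mul, abs_of_nonneg hbt]
          have h9 : |T t| * ((s - t) / t) ≤ 1 * (2 * η) :=
            mul_le_mul hTt h3 hbt zero_le_one
          have h10 : η ≤ η ^ (1 / 4 : ℝ) := by
            calc η = η ^ (1 : ℝ) := (Real.rpow_one η).symm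
              _ ≤ η ^ (1 / 4 : ℝ) :=
                Real.rpow_le_rpow_of_exponent_ge h0 (by linarith only [h0, hη1]) (by norm_num)
          linarith only [h10, h9]
        have e1 : T s - T t = (T s - T t * (s / t)) + (T t * (s / t) - T t) := by ring
        rw [e1]
        refine (abs_add_le _ _).trans ?_
        linarith only [mul_nonneg hA hq, h8, h7]
    · push Not at hc
      have h1 : δ / 2 ≤ η := by
        rw [hη, le_div_iff₀ hs]
        (by_contra nlg; linarith only [nlg, mul_eq_zero_of_left (sub_eq_zero.2 hηs) (1 / 2 - (η)), mul_eq_zero_of_left (sub_eq_zero.2 hηs) (η - (0)), mul_nonneg (sub_nonneg.2 hts) (sub_nonneg.2 hη1), mul_nonneg (sub_nonneg.2 hδ1) (le_of_lt (sub_pos.2 hc)), mul_eq_zero_of_left (sub_eq_zero.2 hηs) (1 / 2 - (δ)), mul_pos (sub_pos.2 hδ) (sub_pos.2 hc), mul_nonneg (le_of_lt (sub_pos.2 (not_le.1 nlg))) (sub_nonneg.2 hη1), mul_nonneg (le_of_lt (sub_pos.2 (not_le.1 nlg))) (sub_nonneg.2 hη0)])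
      have h2 : 1 ≤ (2 / δ) ^ (1 / 4 : ℝ) * η ^ (1 / 4 : ℝ) := by
        rw [← Real.mul_rpow (by positivity) hη0]
        refine Real.one_le_rpow ?_ (by norm_num)
        rw [div_mul_eq_mul_div, le_div_iff₀ hδ]
        linarith
      have h3 : |T s - T t| ≤ 2 := by
        have := abs_sub (T s) (T t)
        linarith only [this, hTt, hTs]
      have h4 : 0 ≤ (4 * B + 2) * η ^ (1 / 4 : ℝ) := by positivity
      linarith only [h4, h3, h2]

end Vale.Agent.P128.Q1
end

section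

/-! P128, Q1: the radial parametrisation of a set close to a cone. -/

open Set Metric Filter ComplexConjugate
open scoped Topology Real

namespace Vale.Agent.P128.Q1

open Vale.Agent.P128

variable {K : Set ℂ} {x : ℂ} {m : ℕ} {R c A : ℝ}

theorem Cone.exists_lab (h : Cone K x m R c A) : ∃ (r ε₀ δ : ℝ) (Θ : ℝ → ℝ), r ≤ R ∧ 2 * δ ≤ c ∧
    Lab K x m r ε₀ δ Θ := by
  obtain ⟨r₂, hr₂, ε₀, hε₀, hr₂R, hε₀1, hloc⟩ := h.loc
  obtain ⟨δ, hδ⟩ : ∃ δ, δ = min (min (ε₀ / 16) (1 / 1000)) (c / 2) := ⟨_, rfl⟩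
  have hc0 := h.c0
  have hδ0 : 0 < δ := by rw [hδ]; positivity
  have hδ1 : δ ≤ ε₀ / 16 := by rw [hδ]; exact (min_le_left _ _).trans (min_le_left _ _)
  have hδ2 : δ ≤ 1 / 1000 := by rw [hδ]; exact (min_le_left _ _).trans (min_le_right _ _)
  have hδ3 : δ ≤ c / 2 := by rw [hδ]; exact min_le_right _ _
  obtain ⟨r₃, hr₃, Θ, hsec, hex, hvar⟩ := h.exists_theta hδ0 (by linarith only [hδ1, hδ0, hε₀1])
  have m1 := min_le_left r₂ r₃
  have m2 := min_le_right r₂ r₃
  refine ⟨min r₂ r₃, ε₀, δ, Θ, by linarith only [m1, hr₂R], by linarith only [hδ3], ?_⟩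
  exact
    { hm := h.hm
      r0 := lt_min hr₂ hr₃
      comp := by
        have e1 : K ∩ closedBall x (min r₂ r₃) = (K ∩ closedBall x R) ∩ closedBall x (min r₂ r₃) := by
          rw [inter_assoc, inter_eq_right.2 (closedBall_subset_closedBall (by linarith only [m1, hr₂R]))]
        rw [e1]
        exact h.comp.inter_right isClosed_closedBall
      δ0 := hδ0
      δ1 := hδ2
      δe := by linarith only [hδ1]
      near := fun y hy hyx hyr => (hloc y hy hyx (by linarith only [hyr, m1])).1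
      out := fun y hy hyx hyr t h0 h1 => ((hloc y hy hyx (by linarith only [hyr, m1])).2 t h0 h1).1
      sec := fun y hy hyx hyr => hsec y hy hyx (by linarith only [hyr, m2])
      ex := fun s h0 h1 k => hex s h0 (by linarith only [h1, m2]) k
      var := fun s s' h0 h1 h2 h3 => hvar s s' h0 h1 (by linarith only [h2, m2]) h3 }

theorem Tan.neg {y e : ℂ} {ρ : ℝ} (h : Tan K A y ρ e) : Tan K A y ρ (-e) := by
  have hre : ∀ p : ℂ, (conj (-e) * (p - y)).re = -(conj e * (p - y)).re := by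
    intro p
    rw [map_neg, neg_mul, Complex.neg_re]
  refine ⟨h.pos, by rw [norm_neg]; exact h.norm, fun z hz hzr => ?_, fun s h0 h1 h2 => ?_⟩
  · rw [map_neg, neg_mul, Complex.neg_im, abs_neg]
    exact h.est z hz hzr
  · obtain ⟨⟨p, hp, hpd, hp0⟩, q, hq, hqd, hq0⟩ := h.cross s h0 h1 h2
    exact ⟨⟨q, hq, hqd, by rw [hre]; linarith⟩, p, hp, hpd, by rw [hre]; linarith⟩

theorem conj_uc (t : ℝ) : conj (uc t) = uc (-t) := by
  unfold uc
  rw [← Complex.exp_conj, map_mul, Complex.conj_I, Complex.conj_ofReal]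
  push_cast
  ring_nf

theorem im_tangent (x : ℂ) (s p α : ℝ) :
    (conj (uc (p + α)) * ((x + s * uc p) - x)).im = -(s * Real.sin α) := by
  rw [add_sub_cancel_left, conj_uc, show uc (-(p + α)) * (s * uc p) = s * uc (-α) by
    rw [mul_left_comm, ← uc_add]; ring_nf, Complex.im_ofReal_mul]
  have h1 : (uc (-α)).im = Real.sin (-α) := by
    unfold uc
    exact Complex.exp_ofReal_mul_I_im _
  rw [h1, Real.sin_neg]
  ring

/-- The angles of the tangents. -/
theorem Cone.exists_tan (h : Cone K x m R c A) : ∃ r₄ > 0, r₄ ≤ R ∧ ∀ s p : ℝ, 0 < s → s ≤ r₄ →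
    x + s * uc p ∈ K → ∃ α : ℝ, |α| ≤ 1 / 4 ∧ Tan K A (x + s * uc p) (c * s) (uc (p + α)) := by
  obtain ⟨r₂, hr₂, hr₂R, hrad⟩ := h.radial (ε := 1 / 20) (by norm_num)
  refine ⟨r₂, hr₂, hr₂R, ?_⟩
  intro s p hs hsr hK
  have hne := ray_ne (x := x) hs p
  have hd := dist_ray x hs.le p
  obtain ⟨e₀, hT₀⟩ := h.tan _ hK hne (by rw [hd]; linarith)
  -- the sign
  obtain ⟨e, hT, hre⟩ : ∃ e, Tan K A (x + s * uc p) (c * dist (x + s * uc p) x) e ∧
      0 ≤ (conj e * uc p).re := by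
    rcases le_total 0 (conj e₀ * uc p).re with h0 | h0
    · exact ⟨e₀, hT₀, h0⟩
    · refine ⟨-e₀, hT₀.neg, ?_⟩
      rw [map_neg, neg_mul, Complex.neg_re]
      linarith
  have him := hrad _ hK hne (by rw [hd]; exact hsr) e hT
  rw [hd] at him hT
  rw [add_sub_cancel_left, abs_im_scale _ _ hs] at him
  have him' : |(conj e * uc p).im| ≤ 1 / 20 := by
    rw [mul_comm (1 / 20 : ℝ)] at him
    exact le_of_mul_le_mul_left him hs
  have he := hT.norm
  have hq := norm_uc p
  have h1 := norm_sq_sub_sq hq he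
  have h2 : 1 ≤ ‖uc p + e‖ := by
    have h3 : (conj e * (uc p + e)).re = (conj e * uc p).re + 1 := by
      rw [mul_add, conj_mul_self_of_norm he, Complex.add_re, Complex.one_re]
    have h4 := Complex.abs_re_le_norm (conj e * (uc p + e))
    rw [h3, norm_mul, Complex.norm_conj, he, one_mul] at h4
    have := le_abs_self ((conj e * uc p).re + 1)
    linarith only [this, h4, hre]
  have h5 : ‖e - uc p‖ ≤ 1 / 10 := by
    have h6 : ‖uc p ^ 2 - e ^ 2‖ = ‖uc p - e‖ * ‖uc p + e‖ := by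
      rw [← norm_mul]
      congr 1
      ring
    rw [norm_sub_rev]
    have h7 : ‖uc p - e‖ * 1 ≤ ‖uc p - e‖ * ‖uc p + e‖ :=
      mul_le_mul_of_nonneg_left h2 (norm_nonneg _)
    rw [← h6, h1] at h7
    linarith only [h7, him']
  obtain ⟨φ, hφ, hφp⟩ := exists_angle he h5
  refine ⟨φ - p, by linarith only [hφp], ?_⟩
  rw [add_sub_cancel, ← hφ]
  exact hT

theorem abs_tan_le {α : ℝ} (h : |α| ≤ 1 / 4) : |Real.tan α| ≤ 2 * |Real.sin α| := by
  have h1 := Real.one_sub_sq_div_two_le_cos (x := α)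
  have h2 : α ^ 2 ≤ (1 / 4) ^ 2 := sq_le_sq' (abs_le.1 h).1 (abs_le.1 h).2
  have h3 : 1 / 2 ≤ Real.cos α := by linarith only [h2, h1]
  rw [Real.tan_eq_sin_div_cos, abs_div, abs_of_pos (by linarith only [h2, h1] : 0 < Real.cos α),
    div_le_iff₀ (by linarith only [h2, h1])]
  have := abs_nonneg (Real.sin α)
  linarith only [mul_nonneg (sub_nonneg.2 h3) (sub_nonneg.2 this)]

theorem Cone.branches (h : Cone K x m R c A) :
    ∃ (s₀ : ℝ) (φ : Fin m → ℝ → ℝ), Branches K x s₀ m φ ∧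
      ∀ i j : Fin m, Tendsto (fun s => φ i s - φ j s) (𝓝[>] 0)
        (𝓝 (2 * π * ((i : ℝ) - (j : ℝ)) / m)) := by
  have hπ := Real.pi_gt_three
  have hA0 : 0 < A := lt_of_lt_of_le one_pos h.A1
  have hc0 := h.c0
  obtain ⟨r, ε₀, δ, Θ, hrR, hδc, L⟩ := h.exists_lab
  obtain ⟨r₄, hr₄, hr₄R, htan⟩ := h.exists_tan
  obtain ⟨φ, hφ⟩ := L.exists_fun
  have hδ0 := L.δ0
  have hδ1 := L.δ1
  have hr0 := L.r0
  have hm : 0 < m := by rcases h.hm with rfl | rfl | rfl <;> norm_num
  have hm0 : (0 : ℝ) < m := by exact_mod_cast hm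
  obtain ⟨s₀, hs₀⟩ : ∃ s₀, s₀ = min r r₄ := ⟨_, rfl⟩
  have hs₀0 : 0 < s₀ := by rw [hs₀]; exact lt_min hr0 hr₄
  have hs₀r : s₀ ≤ r := by rw [hs₀]; exact min_le_left _ _
  have hs₀4 : s₀ ≤ r₄ := by rw [hs₀]; exact min_le_right _ _
  -- tangents
  have hex : ∀ (i : Fin m) (s : ℝ), ∃ α : ℝ, 0 < s → s ≤ s₀ →
      |α| ≤ 1 / 4 ∧ Tan K A (x + s * uc (φ i s)) (c * s) (uc (φ i s + α)) := by
    intro i s
    by_cases hs : 0 < s ∧ s ≤ s₀
    · obtain ⟨α, h1, h2⟩ := htan s (φ i s) hs.1 (by linarith [hs.2])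
        (hφ i s hs.1 (by linarith [hs.2])).1
      exact ⟨α, fun _ _ => ⟨h1, h2⟩⟩
    · exact ⟨0, fun h1 h2 => absurd ⟨h1, h2⟩ hs⟩
  choose α hα using hex
  obtain ⟨B, hB⟩ : ∃ B, B = 4 * A * (2 / c) ^ (1 / 4 : ℝ) + 40 := ⟨_, rfl⟩
  have hB0 : 0 ≤ B := by rw [hB]; positivity
  -- first order expansion
  have hexp : ∀ (i : Fin m) (s s' : ℝ), 0 < s → s < s₀ → 0 < s' → s' < s₀ → |s' - s| ≤ δ * s →
      |φ i s' - φ i s - Real.tan (α i s) * ((s' - s) / s)| ≤ B * (|s' - s| / s) ^ (5 / 4 : ℝ) := by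
    intro i s s' hs hss hs' hss' hd
    obtain ⟨hα1, hT⟩ := hα i s hs hss.le
    obtain ⟨hst, hdist⟩ := L.step hφ i hs (by linarith only [hss, hs₀r]) hs' (by linarith only [hss', hs₀r]) hd
    have hδs : δ * s ≤ 1 / 1000 * s := mul_le_mul_of_nonneg_right hδ1 hs.le
    have hδcs : 2 * δ * s ≤ c * s := mul_le_mul_of_nonneg_right hδc hs.le
    have hK' := (hφ i s' hs' (by linarith only [hss', hs₀r])).1
    have hest := hT.est _ hK' (by linarith only [hδcs, hdist, hd])
    obtain ⟨d, hdd⟩ : ∃ d, d = dist (x + s' * uc (φ i s')) (x + s * uc (φ i s)) := ⟨_, rfl⟩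
    rw [← hdd] at hest hdist
    have hd0 : 0 ≤ d := by rw [hdd]; exact dist_nonneg
    have hcs : 0 < c * s := by positivity
    obtain ⟨E, hE⟩ : ∃ E, E = A * (2 * |s' - s| / (c * s)) ^ (1 / 4 : ℝ) * (2 * |s' - s|) :=
      ⟨_, rfl⟩
    have hE1 : A * (d / (c * s)) ^ (1 / 4 : ℝ) * d ≤ E := by
      rw [hE]
      gcongr
    have hmain := expand (x := x) (e := uc (φ i s + α i s)) (s := s) (s' := s') (p := φ i s)
      (p' := φ i s') (α := α i s) (E := E) hs (by linarith only [hd0, hdist, hδs, hd]) (by linarith only [hst, hδ1, hδ0]) hα1 rfl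
      (by rw [← hdd]; exact hdist) (hest.trans hE1)
    refine hmain.trans ?_
    obtain ⟨σ, hσ⟩ : ∃ σ, σ = |s' - s| / s := ⟨_, rfl⟩
    have hσ0 : 0 ≤ σ := by rw [hσ]; (clear * - hs; positivity)
    have hσ1 : σ ≤ 1 := by
      rw [hσ, div_le_one hs]
      linarith only [hd0, hdist, hδs, hd]
    have hσs : |s' - s| = σ * s := by rw [hσ]; field_simp
    have e1 : 2 * E / s = 4 * A * (2 / c) ^ (1 / 4 : ℝ) * σ ^ (5 / 4 : ℝ) := by
      have e2 : 2 * |s' - s| / (c * s) = 2 / c * σ := by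
        rw [hσs]; field_simp
      have e3 : σ ^ (5 / 4 : ℝ) = σ * σ ^ (1 / 4 : ℝ) := by
        rcases hσ0.eq_or_lt with h0 | h0
        · rw [← h0, Real.zero_rpow (by norm_num), zero_mul]
        · rw [show (5 / 4 : ℝ) = 1 + 1 / 4 by norm_num, Real.rpow_add h0, Real.rpow_one]
      rw [hE, e2, Real.mul_rpow (by positivity) hσ0, e3, hσs]
      field_simp
      ring
    have e4 : σ ^ 2 ≤ σ ^ (5 / 4 : ℝ) := by
      rw [← Real.rpow_natCast]
      exact Real.rpow_le_rpow_of_exponent_ge' hσ0 hσ1 (by norm_num) (by norm_num)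
    rw [← hσ, e1, hB]
    linarith only [e4]
  have hT1 : ∀ (i : Fin m) (s : ℝ), 0 < s → s < s₀ → |Real.tan (α i s)| ≤ 1 := by
    intro i s hs hss
    obtain ⟨hα1, -⟩ := hα i s hs hss.le
    have h1 := abs_tan_le hα1
    have h2 := Real.abs_sin_le_abs (x := α i s)
    linarith only [h2, h1, hα1, hδ1, hδ0]
  have hder := fun i => deriv_of_expansion (φ := φ i) (T := fun s => Real.tan (α i s)) (r := s₀)
    hδ0 (by linarith only [hδ1, hδ0]) hB0 (hT1 i) (hexp i)
  have hsd : ∀ (i : Fin m) (s : ℝ), 0 < s → s < s₀ → s * deriv (φ i) s = Real.tan (α i s) := by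
    intro i s hs hss
    rw [((hder i).1 s ⟨hs, hss⟩).deriv]
    field_simp
  refine ⟨s₀, φ, ?_, ?_⟩
  · refine ⟨hs₀0, h.mem, ?_, ?_, ?_, ?_, ?_⟩
    · intro i s hs
      exact ((hder i).1 s hs).differentiableAt
    · intro s hs
      exact L.sphere_eq hφ hs.1 (by linarith [hs.2])
    · intro s hs
      exact L.inj hφ hs.1 (by linarith [hs.2])
    · intro i
      rw [Metric.tendsto_nhdsWithin_nhds]
      intro ε hε
      obtain ⟨r₅, hr₅, hr₅R, hrad⟩ := h.radial (ε := ε / 4) (by positivity)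
      refine ⟨min r₅ s₀, lt_min hr₅ hs₀0, ?_⟩
      intro s hs hsd'
      have hs : 0 < s := hs
      rw [Real.dist_eq, sub_zero, abs_of_pos hs] at hsd'
      have hs5 : s < r₅ := lt_of_lt_of_le hsd' (min_le_left _ _)
      have hs0' : s < s₀ := lt_of_lt_of_le hsd' (min_le_right _ _)
      rw [Real.dist_eq, sub_zero, hsd i s hs hs0']
      obtain ⟨hα1, hT⟩ := hα i s hs hs0'.le
      have hK := (hφ i s hs (by linarith)).1
      have hd := dist_ray x hs.le (φ i s)
      have h1 := hrad _ hK (ray_ne hs _) (by rw [hd]; linarith) (uc (φ i s + α i s))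
        (by rw [hd]; exact hT)
      rw [im_tangent, hd, abs_neg, abs_mul, abs_of_pos hs, mul_comm (ε / 4)] at h1
      have h2 := le_of_mul_le_mul_left h1 hs
      have h3 := abs_tan_le hα1
      linarith only [h3, h2, hε]
    · -- a common constant
      choose C hC using fun i => (hder i).2
      refine ⟨∑ i, |C i|, 1 / 4, by norm_num, by norm_num, ?_⟩
      intro i s t hs hst hts hss
      have ht : 0 < t := by linarith
      rw [hsd i s hs hss, hsd i t ht (by linarith)]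
      refine (hC i s t hs hst hts hss).trans ?_
      refine mul_le_mul_of_nonneg_right ?_ (by
        have : 0 ≤ (s - t) / s := div_nonneg (by linarith) hs.le
        positivity)
      exact (le_abs_self _).trans (Finset.single_le_sum (f := fun i => |C i|)
        (fun i _ => abs_nonneg _) (Finset.mem_univ i))
  · intro i j
    rw [Metric.tendsto_nhdsWithin_nhds]
    intro ε hε
    obtain ⟨η, hη⟩ : ∃ η, η = min (ε / 4) (1 / 1000) := ⟨_, rfl⟩
    have hη0 : 0 < η := by rw [hη]; positivity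
    have hη1 : η ≤ ε / 4 := by rw [hη]; exact min_le_left _ _
    have hη2 : η ≤ 1 / 1000 := by rw [hη]; exact min_le_right _ _
    obtain ⟨r₅, hr₅, Θ', hsec, -, -⟩ := h.exists_theta hη0 (by linarith only [hη2, hη0])
    refine ⟨min r₅ s₀, lt_min hr₅ hs₀0, ?_⟩
    intro s hs hsd'
    have hs : 0 < s := hs
    rw [Real.dist_eq, sub_zero, abs_of_pos hs] at hsd'
    have hs5 : s < r₅ := lt_of_lt_of_le hsd' (min_le_left _ _)
    have hs0' : s < s₀ := lt_of_lt_of_le hsd' (min_le_right _ _)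
    have key : ∀ i : Fin m, ∃ k : ℤ, |φ i s - (Θ' s + 2 * π * k / m)| ≤ η := by
      intro i
      have hd := dist_ray x hs.le (φ i s)
      obtain ⟨k, ψ, hψ, hk⟩ := hsec _ (hφ i s hs (by linarith)).1 (ray_ne hs _)
        (by rw [hd]; linarith)
      rw [hd] at hψ hk
      have h4 : uc (φ i s) = uc ψ := by
        have h5 := add_left_cancel hψ
        exact mul_left_cancel₀ (by exact_mod_cast hs.ne') h5
      obtain ⟨n, hn⟩ := uc_eq_iff h4
      refine ⟨k + m * n, ?_⟩
      have e1 : φ i s - (Θ' s + 2 * π * ((k + m * n : ℤ) : ℝ) / m) =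
          ψ - (Θ' s + 2 * π * k / m) := by
        rw [hn]
        push_cast
        field_simp
        ring
      rw [e1]
      exact hk
    obtain ⟨ki, hki⟩ := key i
    obtain ⟨kj, hkj⟩ := key j
    have hi := (hφ i s hs (by linarith)).2
    have hj := (hφ j s hs (by linarith only [hs0', hs₀r])).2
    rw [Real.dist_eq]
    have hm3 : (m : ℝ) ≤ 3 := by
      rcases h.hm with rfl | rfl | rfl <;> norm_num
    have a1 : |φ i s - φ j s - 2 * π * ((ki - kj : ℤ) : ℝ) / m| ≤ 2 * η := by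
      have e1 : φ i s - φ j s - 2 * π * ((ki - kj : ℤ) : ℝ) / m =
          (φ i s - (Θ' s + 2 * π * ki / m)) - (φ j s - (Θ' s + 2 * π * kj / m)) := by
        push_cast
        ring
      rw [e1]
      have := abs_sub (φ i s - (Θ' s + 2 * π * ki / m)) (φ j s - (Θ' s + 2 * π * kj / m))
      linarith only [this, hkj, hki]
    have a2 : |φ i s - φ j s - 2 * π * ((i : ℝ) - (j : ℝ)) / m| ≤ 2 * δ := by
      have e1 : φ i s - φ j s - 2 * π * ((i : ℝ) - (j : ℝ)) / m =
          (φ i s - (Θ s + 2 * π * (((i : ℕ) : ℤ) : ℝ) / m)) -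
            (φ j s - (Θ s + 2 * π * (((j : ℕ) : ℤ) : ℝ) / m)) := by
        push_cast
        ring
      rw [e1]
      have := abs_sub (φ i s - (Θ s + 2 * π * (((i : ℕ) : ℤ) : ℝ) / m))
        (φ j s - (Θ s + 2 * π * (((j : ℕ) : ℤ) : ℝ) / m))
      linarith only [this, hj, hi]
    have a3 : (ki - kj : ℤ) = (((i : ℕ) : ℤ) - ((j : ℕ) : ℤ)) := by
      have b1 : |2 * π * (((ki - kj - (((i : ℕ) : ℤ) - ((j : ℕ) : ℤ)) : ℤ)) : ℝ) / m| ≤
          2 * η + 2 * δ := by
        have e1 : 2 * π * (((ki - kj - (((i : ℕ) : ℤ) - ((j : ℕ) : ℤ)) : ℤ)) : ℝ) / m =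
            (φ i s - φ j s - 2 * π * ((i : ℝ) - (j : ℝ)) / m) -
              (φ i s - φ j s - 2 * π * ((ki - kj : ℤ) : ℝ) / m) := by
          push_cast
          ring
        rw [e1]
        have := abs_sub (φ i s - φ j s - 2 * π * ((i : ℝ) - (j : ℝ)) / m)
          (φ i s - φ j s - 2 * π * ((ki - kj : ℤ) : ℝ) / m)
        linarith only [this, a2, a1]
      obtain ⟨n, hn⟩ : ∃ n : ℤ, n = ki - kj - (((i : ℕ) : ℤ) - ((j : ℕ) : ℤ)) := ⟨_, rfl⟩
      rw [← hn] at b1
      have b2 : |(n : ℝ)| < 1 := by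
        rw [abs_div, abs_mul, abs_of_pos (by positivity : (0 : ℝ) < 2 * π), abs_of_pos hm0,
          div_le_iff₀ hm0] at b1
        by_contra hcon
        push Not at hcon
        have b3 : (2 * η + 2 * δ) * m ≤ (2 * η + 2 * δ) * 3 :=
          mul_le_mul_of_nonneg_left hm3 (by positivity)
        have b4 : 2 * π * 1 ≤ 2 * π * |(n : ℝ)| := mul_le_mul_of_nonneg_left hcon (by positivity)
        linarith only [b4, b3, b1, hη2, hη0, hδ1, hπ]
      have b5 : n = 0 := by
        have b6 := abs_lt.1 b2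
        have b7 : (-1 : ℤ) < n := by
          have := b6.1
          exact_mod_cast this
        have b8 : n < 1 := by
          have := b6.2
          exact_mod_cast this
        omega
      omega
    rw [a3] at a1
    push_cast at a1
    linarith only [a1, hη1, hη0]

end Vale.Agent.P128.Q1
end
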