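import Vale.Agent.P128.MathlibUsed
import Vale.Agent.P128.Bdl.B12
import Vale.Agent.P128.Bdl.B9
import Vale.Agent.P128.Bdl.B2
import Vale.Agent.P128.Bdl.K_GM_D_NetDefs
import Vale.Agent.P128.Bdl.B16
import Vale.Agent.P128.Bdl.B11
import Vale.Agent.P128.Bdl.B15
import Vale.Agent.P128.Bdl.B17
import Vale.Agent.P128.Bdl.B14
import Vale.Agent.P128.Bdl.B10
import Vale.Agent.P128.Bdl.B5
import Vale.Agent.P128.Bdl.B8

set_option linter.all false

section

open MeasureTheory Set Metric Filter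
open scoped ENNReal NNReal Topology Real ContDiff

namespace Vale.Agent.P128

theorem lintegral_prof_half {s : ℝ} (hs0 : 0 < s) :
    (∫⁻ r in Ioo (s / 2) s, ENNReal.ofReal (r * (fun _ : ℝ => 2 / s) r ^ 2) =
      ENNReal.ofReal (3 / 2)) ∧
    (∫⁻ r in Ioo (s / 2) s, ENNReal.ofReal ((fun r : ℝ => 2 * r / s - 1) r ^ 2 / r) ≤
      ENNReal.ofReal 1) := by
  constructor
  · have : ∀ r, ENNReal.ofReal (r * (fun _ : ℝ => 2 / s) r ^ 2) =
        ENNReal.ofReal (4 / s ^ 2) * ENNReal.ofReal r := by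
      intro r
      rw [← ENNReal.ofReal_mul (by positivity)]
      congr 1
      simp only
      ring
    simp only [this]
    rw [lintegral_const_mul _ (by fun_prop), lintegral_id_Ioo (by positivity) (by linarith),
      ← ENNReal.ofReal_mul (by positivity)]
    congr 1
    field_simp
    ring
  · calc ∫⁻ r in Ioo (s / 2) s, ENNReal.ofReal ((fun r : ℝ => 2 * r / s - 1) r ^ 2 / r)
        ≤ ∫⁻ _ in Ioo (s / 2) s, ENNReal.ofReal (2 / s) := by
          refine setLIntegral_mono measurable_const fun r hr => ENNReal.ofReal_le_ofReal ?_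
          simp only
          have h1 := hr.1
          have h2 := hr.2
          have hr0 : 0 < r := by linarith
          have h3 : 0 ≤ 2 * r / s - 1 := by
            rw [sub_nonneg, le_div_iff₀ hs0]; linarith
          have h4 : 2 * r / s - 1 ≤ 1 := by
            have : 2 * r / s ≤ 2 := by rw [div_le_iff₀ hs0]; linarith only [h2]
            linarith only [this]
          have h5 : (2 * r / s - 1) ^ 2 ≤ 1 := by linarith only [mul_nonneg (sub_nonneg.2 h4) (sub_nonneg.2 h4), mul_nonneg (sub_nonneg.2 h3) (sub_nonneg.2 h4)]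
          rw [div_le_div_iff₀ hr0 hs0]
          nlinarith
      _ = ENNReal.ofReal 1 := by
          rw [lintegral_const, Measure.restrict_apply_univ, Real.volume_Ioo,
            ← ENNReal.ofReal_mul (by positivity)]
          congr 1
          field_simp
          ring

/-- The oscillation of a function on the cut circle. -/
theorem cut_poincare {p : ℂ} (hp : ‖p‖ = 1) {M : ℝ} {f h : ℝ → ℝ} (hw : CircWeak {p} f h)
    (pf : Function.Periodic f (2 * π)) (ph : Function.Periodic h (2 * π)) (fm : Measurable f)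
    (hm : Measurable h) (hM : ∀ θ, |f θ| ≤ M) (hh : MemLp h 2 (volume.restrict ang)) :
    ∫ θ in ang, (f θ - (2 * π)⁻¹ * ∫ θ in ang, f θ) ^ 2 ≤ 4 * ∫ θ in ang, h θ ^ 2 := by
  have hπ := Real.pi_pos
  obtain ⟨m1, m2, m3⟩ := full_arc hp hw pf ph fm hm hM hh
  have h1 := arc_poincare (by positivity : (0 : ℝ) < 2 * π) m1 m2 m3
  obtain ⟨c, hc⟩ : ∃ c, c = (2 * π)⁻¹ * ∫ θ in ang, f θ := ⟨_, rfl⟩
  have p1 : Function.Periodic (fun θ => (f θ - c) ^ 2) (2 * π) := fun θ => by simp only [pf θ]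
  have p2 : Function.Periodic (fun θ => h θ ^ 2) (2 * π) := fun θ => by simp only [ph θ]
  have hc' : c = (2 * π - 0)⁻¹ * ∫ t in Ioo 0 (2 * π), f (p.arg + t) := by
    rw [hc, sub_zero, ← integral_ang_shift pf p.arg]
  rw [← hc, integral_ang_shift p1 p.arg, integral_ang_shift p2 p.arg]
  rw [← hc', sub_zero] at h1
  have e1 : (2 * π / π) ^ 2 = 4 := by
    have : 2 * π / π = 2 := by field_simp
    rw [this]; norm_num
  rw [e1] at h1
  exact h1

theorem abs_mean_le {C : ℝ} {f : ℝ → ℝ} (hf : ∀ θ, |f θ| ≤ C) :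
    |(2 * π)⁻¹ * ∫ θ in ang, f θ| ≤ C := by
  have hπ := Real.pi_pos
  have h1 := norm_setIntegral_le_of_norm_le_const (μ := volume) (s := ang) (f := f) (C := C)
    (by simp) (fun θ _ => hf θ)
  have h2 : (volume : Measure ℝ).real ang = 2 * π := by
    rw [measureReal_def, Real.volume_Ioo, ENNReal.toReal_ofReal (by linarith)]; ring
  rw [h2, Real.norm_eq_abs] at h1
  rw [abs_mul, abs_of_pos (by positivity)]
  calc (2 * π)⁻¹ * |∫ t in ang, f t| ≤ (2 * π)⁻¹ * (C * (2 * π)) :=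
        mul_le_mul_of_nonneg_left h1 (by positivity)
    _ = C := by field_simp

theorem lintegral_two_norm {μ : Measure ℂ} {P Q : ℂ → ℂ} (hP : Measurable P) {κ : ℝ}
    (hκ : 0 < κ) {X Y : ℝ} (hX : 0 ≤ X) (hY : 0 ≤ Y)
    (h1 : ∫⁻ z, ENNReal.ofReal (‖P z‖ ^ 2) ∂μ ≤ ENNReal.ofReal X)
    (h2 : ∫⁻ z, ENNReal.ofReal (‖Q z‖ ^ 2) ∂μ ≤ ENNReal.ofReal Y) :
    ∫⁻ z, ENNReal.ofReal (‖P z + Q z‖ ^ 2) ∂μ ≤
      ENNReal.ofReal ((1 + κ) * X + (1 + 1 / κ) * Y) := by
  calc ∫⁻ z, ENNReal.ofReal (‖P z + Q z‖ ^ 2) ∂μ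
      ≤ ∫⁻ z, (ENNReal.ofReal (1 + κ) * ENNReal.ofReal (‖P z‖ ^ 2) +
          ENNReal.ofReal (1 + 1 / κ) * ENNReal.ofReal (‖Q z‖ ^ 2)) ∂μ := by
        refine lintegral_mono fun z => ?_
        rw [← ENNReal.ofReal_mul (by positivity), ← ENNReal.ofReal_mul (by positivity),
          ← ENNReal.ofReal_add (by positivity) (by positivity)]
        refine ENNReal.ofReal_le_ofReal ?_
        have h3 := norm_add_le (P z) (Q z)
        have h4 := norm_nonneg (P z + Q z)
        obtain ⟨a, ha⟩ : ∃ a, a = ‖P z‖ := ⟨_, rfl⟩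
        obtain ⟨b, hb⟩ : ∃ b, b = ‖Q z‖ := ⟨_, rfl⟩
        obtain ⟨c, hc⟩ : ∃ c, c = ‖P z + Q z‖ := ⟨_, rfl⟩
        rw [← ha, ← hb, ← hc] at h3
        rw [← hc] at h4
        rw [← ha, ← hb, ← hc]
        have h5 : c ^ 2 ≤ (a + b) ^ 2 := by linarith only [mul_nonneg (sub_nonneg.2 h3) (sub_nonneg.2 h3), mul_nonneg (sub_nonneg.2 h4) (sub_nonneg.2 h3)]
        have h6 : 2 * a * b ≤ κ * a ^ 2 + 1 / κ * b ^ 2 := by
          have h7 : 0 ≤ 1 / κ * (κ * a - b) ^ 2 := by (clear * - hκ; positivity)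
          have h8 : 1 / κ * (κ * a - b) ^ 2 = κ * a ^ 2 - 2 * a * b + 1 / κ * b ^ 2 := by
            field_simp; ring
          linarith
        linarith only [h6, h5]
    _ = ENNReal.ofReal (1 + κ) * (∫⁻ z, ENNReal.ofReal (‖P z‖ ^ 2) ∂μ) +
          ENNReal.ofReal (1 + 1 / κ) * ∫⁻ z, ENNReal.ofReal (‖Q z‖ ^ 2) ∂μ := by
        rw [lintegral_add_left (by fun_prop), lintegral_const_mul' _ _ ENNReal.ofReal_ne_top,
          lintegral_const_mul' _ _ ENNReal.ofReal_ne_top]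
    _ ≤ ENNReal.ofReal (1 + κ) * ENNReal.ofReal X + ENNReal.ofReal (1 + 1 / κ) *
          ENNReal.ofReal Y := by gcongr
    _ = ENNReal.ofReal ((1 + κ) * X + (1 + 1 / κ) * Y) := by
        rw [← ENNReal.ofReal_mul (by positivity), ← ENNReal.ofReal_mul (by positivity),
          ← ENNReal.ofReal_add (by positivity) (by positivity)]

/-- The tail of the moved-tip competitor. -/
theorem tail_ext (x : ℂ) {p : ℂ} {s C : ℝ} (hs0 : 0 < s) {ρ h : ℝ → ℝ}
    (rm : Measurable ρ) (hm : Measurable h) (hρ : ∀ θ, |ρ θ| ≤ C)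
    (hh : MemLp h 2 (volume.restrict ang)) (hw : CircWeak {p} ρ h)
    (hP : ∫ θ in ang, ρ θ ^ 2 ≤ 4 * ∫ θ in ang, h θ ^ 2) :
    ∃ (Z : ℂ → ℝ) (Γ : ℂ → ℂ), Measurable Z ∧ Measurable Γ ∧ (∀ z, |Z z| ≤ C) ∧
      MemLp Γ 2 (volume.restrict (ball x s)) ∧
      (∫⁻ z in ball x s, ENNReal.ofReal (‖Γ z‖ ^ 2) ≤
        ENNReal.ofReal (7 * ∫ θ in ang, h θ ^ 2)) ∧
      ∀ φ : ℂ → ℝ, ContDiff ℝ ∞ φ → HasCompactSupport φ →
        Disjoint (tsupport φ) (slit x p (s / 2) s) → ∀ v : ℂ,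
        ∫ z in ball x s, (Z z * fderiv ℝ φ z v + inner ℝ (Γ z) v * φ z) =
          s * ∫ θ in ang, ρ θ * (φ (circleMap x s θ) * inner ℝ (circleMap 0 1 θ) v) := by
  have hC0 : 0 ≤ C := (abs_nonneg _).trans (hρ 0)
  have hfin : IsFiniteMeasure (volume.restrict ang) := ⟨by simp⟩
  have hr : MemLp ρ 2 (volume.restrict ang) :=
    MemLp.of_bound rm.aestronglyMeasurable C (Eventually.of_forall hρ)
  have ri : IntegrableOn ρ ang := hr.integrable (by norm_num)
  have hi : IntegrableOn h ang := hh.integrable (by norm_num)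
  let ζ : ℝ → ℝ := fun r => 2 * r / s - 1
  let ζ' : ℝ → ℝ := fun _ => 2 / s
  have hζ : ∀ r, HasDerivAt ζ (ζ' r) r := fun r => by
    have := (((hasDerivAt_id r).const_mul 2).div_const s).sub_const 1
    exact this.congr_deriv (by simp only [ζ']; ring)
  have hζc : Continuous ζ := by simp only [ζ]; fun_prop
  have hζ'c : Continuous ζ' := continuous_const
  obtain ⟨b1, b2⟩ := lintegral_prof_half hs0
  set Q := annu x (s / 2) s with hQ
  have hQm : MeasurableSet Q := measurableSet_annu x (s / 2) s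
  have hQB : Q ⊆ ball x s := fun z hz => hz.2
  have Zm : Measurable (Q.indicator (extU x ζ ρ)) :=
    (measurable_extU x hζc.measurable rm).indicator hQm
  have Γm : Measurable (Q.indicator (extG x ζ ζ' ρ h)) :=
    (measurable_extG x hζc.measurable hζ'c.measurable rm hm).indicator hQm
  have mG : MemLp (extG x ζ ζ' ρ h) 2 (volume.restrict Q) :=
    memLp_extG x (by positivity) hζc.measurable hζ'c.measurable rm hm hr hh
      (by rw [b1]; exact ENNReal.ofReal_lt_top) (lt_of_le_of_lt b2 ENNReal.ofReal_lt_top)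
  have hZb : ∀ z, |Q.indicator (extU x ζ ρ) z| ≤ C := by
    intro z
    by_cases hz : z ∈ Q
    · rw [indicator_of_mem hz]
      unfold extU
      have h1 := hz.1
      have h2 := hz.2
      rw [dist_eq_norm] at h1 h2
      have h3 : 0 ≤ ζ ‖z - x‖ := by
        simp only [ζ]; rw [sub_nonneg, le_div_iff₀ hs0]; linarith
      have h4 : ζ ‖z - x‖ ≤ 1 := by
        simp only [ζ]
        have : 2 * ‖z - x‖ / s ≤ 2 := by rw [div_le_iff₀ hs0]; linarith only [h2]
        linarith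
      rw [abs_mul, abs_of_nonneg h3]
      calc ζ ‖z - x‖ * |ρ (angl x z)| ≤ 1 * C :=
            mul_le_mul h4 (hρ _) (abs_nonneg _) zero_le_one
        _ = C := one_mul C
    · rw [indicator_of_notMem hz]; simpa using hC0
  have hrestr : (volume.restrict (ball x s)).restrict Q = volume.restrict Q := by
    rw [Measure.restrict_restrict hQm, inter_eq_self_of_subset_left hQB]
  refine ⟨Q.indicator (extU x ζ ρ), Q.indicator (extG x ζ ζ' ρ h), Zm, Γm, hZb, ?_, ?_, ?_⟩
  · rw [memLp_indicator_iff_restrict hQm, hrestr]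
    exact mG
  · have e1 : ∫⁻ z in ball x s, ENNReal.ofReal (‖Q.indicator (extG x ζ ζ' ρ h) z‖ ^ 2) =
        ∫⁻ z in Q, ENNReal.ofReal (‖extG x ζ ζ' ρ h z‖ ^ 2) := by
      rw [← lintegral_indicator measurableSet_ball, ← lintegral_indicator hQm]
      refine lintegral_congr fun z => ?_
      by_cases hz : z ∈ Q
      · rw [indicator_of_mem (hQB hz), indicator_of_mem hz, indicator_of_mem hz]
      · rw [indicator_of_notMem hz (fun z => ENNReal.ofReal (‖extG x ζ ζ' ρ h z‖ ^ 2))]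
        by_cases hz2 : z ∈ ball x s
        · rw [indicator_of_mem hz2, indicator_of_notMem hz]; simp
        · rw [indicator_of_notMem hz2]
    rw [e1, lintegral_extG x (by positivity) hζc.measurable hζ'c.measurable rm hm, b1,
      lintegral_sq_eq hr, lintegral_sq_eq hh]
    calc ENNReal.ofReal (3 / 2) * ENNReal.ofReal (∫ θ in ang, ρ θ ^ 2) +
          (∫⁻ r in Ioo (s / 2) s, ENNReal.ofReal (ζ r ^ 2 / r)) *
            ENNReal.ofReal (∫ θ in ang, h θ ^ 2)
        ≤ ENNReal.ofReal (3 / 2) * ENNReal.ofReal (4 * ∫ θ in ang, h θ ^ 2) +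
          ENNReal.ofReal 1 * ENNReal.ofReal (∫ θ in ang, h θ ^ 2) :=
          add_le_add (mul_le_mul' le_rfl (ENNReal.ofReal_le_ofReal hP))
            (mul_le_mul' b2 le_rfl)
      _ = ENNReal.ofReal (7 * ∫ θ in ang, h θ ^ 2) := by
          have h0 : 0 ≤ ∫ θ in ang, h θ ^ 2 := integral_nonneg fun _ => sq_nonneg _
          rw [← ENNReal.ofReal_mul (by norm_num), ← ENNReal.ofReal_mul (by norm_num),
            ← ENNReal.ofReal_add (by (clear * -; positivity)) (by (clear * -; positivity))]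
          congr 1
          ring
  · intro φ g1 g2 g4 v
    have hfinA := volume_annu_ne_top x (s / 2) s
    have mU : MemLp (extU x ζ ρ) 2 (volume.restrict Q) := by
      have hfQ : IsFiniteMeasure (volume.restrict Q) :=
        ⟨by rw [Measure.restrict_apply_univ]; exact hfinA.lt_top⟩
      refine MemLp.of_bound (measurable_extU x hζc.measurable rm).aestronglyMeasurable C
        ((ae_restrict_mem hQm).mono fun z hz => ?_)
      have := hZb z
      rwa [indicator_of_mem hz] at this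
    have D2 : IntegrableOn (fun z => extU x ζ ρ z * fderiv ℝ φ z v +
        inner ℝ (extG x ζ ζ' ρ h z) v * φ z) Q := integrableOn_density hfinA mU mG g1 g2 v
    have I2 := annulus_ibp (x := x) (a := s / 2) (s := s) (by positivity) (by linarith only [hs0]) hζ hζ'c
      rm hm ri hi hw g1 (fun r hr w hw hc => by
        rw [mem_singleton_iff.mp hw] at hc
        exact disjoint_left.mp g4 hc ⟨r, ⟨hr.1.le, hr.2.le⟩, rfl⟩) v D2
    have e1 : ∫ z in ball x s, (Q.indicator (extU x ζ ρ) z * fderiv ℝ φ z v +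
        inner ℝ (Q.indicator (extG x ζ ζ' ρ h) z) v * φ z) =
        ∫ z in Q, (extU x ζ ρ z * fderiv ℝ φ z v + inner ℝ (extG x ζ ζ' ρ h z) v * φ z) := by
      rw [← integral_indicator measurableSet_ball, ← integral_indicator hQm]
      refine integral_congr_ae (Eventually.of_forall fun z => ?_)
      by_cases hz : z ∈ Q
      · rw [indicator_of_mem (hQB hz), indicator_of_mem hz, indicator_of_mem hz,
          indicator_of_mem hz]
      · rw [indicator_of_notMem hz (fun z => extU x ζ ρ z * fderiv ℝ φ z v +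
          inner ℝ (extG x ζ ζ' ρ h z) v * φ z)]
        by_cases hz2 : z ∈ ball x s
        · rw [indicator_of_mem hz2, indicator_of_notMem hz, indicator_of_notMem hz]; simp
        · rw [indicator_of_notMem hz2]
    rw [e1, I2]
    have z1 : ζ s = 1 := by
      simp only [ζ]; rw [mul_div_assoc, div_self hs0.ne']; norm_num
    have z2 : ζ (s / 2) = 0 := by
      simp only [ζ]; rw [mul_div_cancel₀ s (two_ne_zero), div_self hs0.ne']; norm_num
    rw [z1, z2]
    ring

end Vale.Agent.P128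
end

section

/-! the ring argument -/

open MeasureTheory Set Metric Filter
open scoped ENNReal NNReal Topology

namespace Vale.Agent.P128.GM

open Vale.Agent.P128

variable {K : Set ℂ}

/-- what the ring argument uses about the cone with `N` branches -/
structure Ring (K : Set ℂ) (x : ℂ) (s : ℝ) (N : ℕ) : Prop where
  closed : IsClosed K
  fin : ∀ (y : ℂ) (r : ℝ), μH[1] (K ∩ ball y r) < ⊤
  low : ∀ y ∈ K, ∀ b > 0, 2 * b ≤ lh K y b
  pos : 1 ≤ N
  lin : ∀ r : ℝ, 0 < r → r < s → lh K x r = N * r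
  cross : ∀ᵐ r : ℝ, 0 < r → r < s → (K ∩ sphere x r).encard = N ∧
    ∀ p ∈ K ∩ sphere x r, ∀ q ∈ K ∩ sphere x r, p ≠ q → r ≤ dist p q

lemma NetRing_far {x y z : ℂ} {b t : ℝ} (ht : dist y x = t) (ht0 : 0 < t)
    (h1 : dist z x = t + b) (h2 : dist z y ≤ b) : z = y + b * ((y - x) / t) := by
  have h3 : dist z x ≤ dist z y + dist y x := dist_triangle z y x
  have h4 : dist z y = b := le_antisymm h2 (by linarith)
  rw [dist_eq_norm] at h1 h4 ht
  have h5 : SameRay ℝ (z - y) (y - x) := by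
    rw [sameRay_iff_norm_add, h4, ht, ← h1.trans (add_comm t b)]
    congr 1
    ring
  rw [sameRay_iff_norm_smul_eq, h4, ht] at h5
  simp only [Complex.real_smul] at h5
  have ht' : (t : ℂ) ≠ 0 := by exact_mod_cast ht0.ne'
  rw [← mul_div_assoc, h5]
  field_simp
  ring

lemma NetRing_near {x y z : ℂ} {b t : ℝ} (ht : dist y x = t) (ht0 : 0 < t)
    (h1 : dist z x = t - b) (h2 : dist z y ≤ b) : z = y - b * ((y - x) / t) := by
  rw [dist_comm] at h2
  have h3 : dist y x ≤ dist y z + dist z x := dist_triangle y z x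
  have h4 : dist y z = b := le_antisymm h2 (by linarith)
  rw [dist_eq_norm] at h1 h4 ht
  have h5 : SameRay ℝ (y - z) (z - x) := by
    rw [sameRay_iff_norm_add, h4, h1]
    have : y - z + (z - x) = y - x := by ring
    rw [this, ht]
    ring
  rw [sameRay_iff_norm_smul_eq, h4, h1] at h5
  simp only [Complex.real_smul] at h5
  have ht' : (t : ℂ) ≠ 0 := by exact_mod_cast ht0.ne'
  have h6 : (t : ℂ) * z = t * y - b * (y - x) := by
    push_cast at h5
    linear_combination h5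
  have h7 : z = (t * z) / t := by field_simp
  rw [h7, h6]
  field_simp

/-- The length of the ring. -/
lemma NetRing_ring {x : ℂ} {s : ℝ} {N : ℕ} (h : Ring K x s N) {a c : ℝ} (ha : 0 < a) (hac : a ≤ c)
    (hc : c < s) : (μH[1] ((K ∩ ball x c) \ ball x a)).toReal = N * (c - a) := by
  have h1 : μH[1] ((K ∩ ball x c) ∩ ball x a) + μH[1] ((K ∩ ball x c) \ ball x a) =
      μH[1] (K ∩ ball x c) := measure_inter_add_sdiff _ measurableSet_ball
  have h2 : (K ∩ ball x c) ∩ ball x a = K ∩ ball x a := by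
    rw [inter_assoc, inter_eq_self_of_subset_right (ball_subset_ball hac)]
  rw [h2] at h1
  have h3 := congrArg ENNReal.toReal h1
  have h4 : μH[1] ((K ∩ ball x c) \ ball x a) ≠ ⊤ :=
    ((measure_mono sdiff_subset).trans_lt (h.fin x c)).ne
  rw [ENNReal.toReal_add (h.fin x a).ne h4] at h3
  have h5 := h.lin a ha (hac.trans_lt hc)
  have h6 := h.lin c (ha.trans_le hac) hc
  unfold lh at h5 h6
  rw [h5, h6] at h3
  linarith

/-- The main estimate of the ring argument. -/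
lemma NetRing_null {x : ℂ} {s : ℝ} {N : ℕ} (h : Ring K x s N) {y : ℂ} (hy : y ∈ K) {b : ℝ}
    (hb : 0 < b) (hb4 : 4 * b ≤ dist y x) (hbs : dist y x + b < s) :
    volume (Ioo (dist y x - b) (dist y x + b) \ (fun z => dist z x) '' (K ∩ closedBall y b)) =
      0 := by
  set t := dist y x with ht
  set D := closedBall y b with hD
  set f : ℂ → ℝ := fun z => dist z x with hf
  have hfL : LipschitzWith 1 f := LipschitzWith.dist_left x
  have hfc : Continuous f := hfL.continuous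
  set J := f '' (K ∩ D) with hJ
  have hKD : IsCompact (K ∩ D) := (isCompact_closedBall y b).inter_left h.closed
  have hJc : IsClosed J := (hKD.image hfc).isClosed
  set I := Ioo (t - b) (t + b) with hI
  -- the good radii
  set G : Set ℝ := {r | (K ∩ sphere x r).encard = N ∧
    ∀ p ∈ K ∩ sphere x r, ∀ q ∈ K ∩ sphere x r, p ≠ q → r ≤ dist p q} with hG
  have hGae : ∀ᵐ r : ℝ, r ∈ I → r ∈ G := by
    filter_upwards [h.cross] with r hr hrI
    exact hr (by have := hrI.1; linarith) (by have := hrI.2; linarith)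
  have hvol : ∀ A : Set ℝ, volume (I ∩ A) = volume (I ∩ A ∩ G) := by
    intro A
    apply measure_congr
    filter_upwards [hGae] with r hr
    simp only [eq_iff_iff]
    constructor
    · intro hr'
      exact ⟨hr', hr hr'.1⟩
    · intro hr'
      exact hr'.1
  have hsph : ∀ r, f ⁻¹' {r} = sphere x r := fun r => rfl
  -- counting outside `D`
  have hcount : ∀ r ∈ I ∩ G, ((N - 1 : ℕ) : ℕ∞) ≤ ((K \ D) ∩ f ⁻¹' {r}).encard := by
    rintro r ⟨hr, hr1, hr2⟩
    have h1 : ((K ∩ sphere x r) \ D).encard + ((K ∩ sphere x r) ∩ D).encard =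
        (K ∩ sphere x r).encard := encard_sdiff_add_encard_inter _ _
    have h2 : ((K ∩ sphere x r) ∩ D).encard ≤ 1 := by
      rw [encard_le_one_iff]
      rintro p q ⟨hp, hpD⟩ ⟨hq, hqD⟩
      by_contra hpq
      have h3 := hr2 p hp q hq hpq
      have h4 : dist p q ≤ dist p y + dist q y := dist_triangle_right p q y
      have h5 : dist p y ≤ b := hpD
      have h6 : dist q y ≤ b := hqD
      have h7 := hr.1
      linarith only [h7, h6, h5, h4, h3, hb4, hb]
    have h3 : (K \ D) ∩ f ⁻¹' {r} = (K ∩ sphere x r) \ D := by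
      rw [hsph]
      ext z
      simp only [mem_inter_iff, Set.mem_sdiff]
      tauto
    rw [h3]
    have h4 : (N : ℕ∞) ≤ ((K ∩ sphere x r) \ D).encard + 1 := by
      rw [← hr1, ← h1]
      gcongr
    have h5 : (N : ℕ∞) = ((N - 1 : ℕ) : ℕ∞) + 1 := by
      have := h.pos
      norm_cast
      omega
    rw [h5] at h4
    exact (ENat.add_le_add_iff_right (by simp)).1 h4
  have hcount' : ∀ r ∈ I ∩ Jᶜ ∩ G, (N : ℕ∞) ≤ ((K \ D) ∩ f ⁻¹' {r}).encard := by
    rintro r ⟨⟨hr, hrJ⟩, hr1, hr2⟩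
    have h3 : (K \ D) ∩ f ⁻¹' {r} = K ∩ sphere x r := by
      rw [hsph]
      ext z
      simp only [mem_inter_iff, Set.mem_sdiff]
      constructor
      · rintro ⟨⟨hz1, _⟩, hz2⟩
        exact ⟨hz1, hz2⟩
      · rintro ⟨hz1, hz2⟩
        exact ⟨⟨hz1, fun hzD => hrJ ⟨z, ⟨hz1, hzD⟩, hz2⟩⟩, hz2⟩
    rw [h3, hr1]
  have e1 := eilenberg hfL (E := K \ D) (m := N - 1) (S := I ∩ J ∩ G)
    (fun r hr => hcount r ⟨hr.1.1, hr.2⟩)
  have e2 := eilenberg hfL (E := K \ D) (m := N) (S := I ∩ Jᶜ ∩ G) hcount'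
  rw [← hvol] at e1 e2
  -- `Out`
  set Out : Set ℂ := (K \ D) ∩ f ⁻¹' I with hOut
  have e3 : μH[1] (Out ∩ f ⁻¹' J) + μH[1] (Out \ f ⁻¹' J) = μH[1] Out :=
    measure_inter_add_sdiff _ (hJc.preimage hfc).measurableSet
  have e4 : μH[1] ((K \ D) ∩ f ⁻¹' (I ∩ J ∩ G)) ≤ μH[1] (Out ∩ f ⁻¹' J) := by
    apply measure_mono
    rintro z ⟨hz, hz1⟩
    exact ⟨⟨hz, hz1.1.1⟩, hz1.1.2⟩
  have e5 : μH[1] ((K \ D) ∩ f ⁻¹' (I ∩ Jᶜ ∩ G)) ≤ μH[1] (Out \ f ⁻¹' J) := by
    apply measure_mono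
    rintro z ⟨hz, hz1⟩
    exact ⟨⟨hz, hz1.1.1⟩, hz1.1.2⟩
  have hlow : ENNReal.ofReal (2 * b) ≤ μH[1] (K ∩ D) := by
    have h1 := h.low y hy b hb
    unfold lh at h1
    exact (ENNReal.ofReal_le_of_le_toReal h1).trans
      (measure_mono (inter_subset_inter_right _ ball_subset_closedBall))
  have hring : ∀ ε : ℝ, 0 < ε → t + b + ε < s →
      μH[1] (K ∩ D) + μH[1] Out ≤ ENNReal.ofReal (N * (2 * b + ε)) := by
    intro ε hε hεs
    have h1 := NetRing_ring h (a := t - b) (c := t + b + ε) (by linarith only [hb4, hb]) (by linarith) hεs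
    have h2 : μH[1] ((K ∩ ball x (t + b + ε)) \ ball x (t - b)) ≠ ⊤ :=
      ((measure_mono sdiff_subset).trans_lt (h.fin x _)).ne
    have h3 : μH[1] ((K ∩ ball x (t + b + ε)) \ ball x (t - b)) =
        ENNReal.ofReal (N * (2 * b + ε)) := by
      rw [← ENNReal.ofReal_toReal h2, h1]
      congr 1
      ring
    have hdis : Disjoint (K ∩ D) Out := by
      rw [Set.disjoint_left]
      rintro z hz hz'
      exact hz'.1.2 hz.2
    rw [← h3, ← measure_union' hdis hKD.measurableSet]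
    apply measure_mono
    rintro z (⟨hz, hzD⟩ | ⟨⟨hz, _⟩, hz2⟩)
    · have h5 : dist z y ≤ b := hzD
      have h6 : dist z x ≤ dist z y + dist y x := dist_triangle z y x
      have h7 : dist y x ≤ dist z y + dist z x := dist_triangle_left y x z
      refine ⟨⟨hz, ?_⟩, ?_⟩
      · rw [mem_ball]
        linarith
      · rw [mem_ball, not_lt]
        linarith
    · have h5 : t - b < dist z x := hz2.1
      have h6 : dist z x < t + b := hz2.2
      refine ⟨⟨hz, ?_⟩, ?_⟩
      · rw [mem_ball]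
        linarith
      · rw [mem_ball, not_lt]
        exact h5.le
  have hIfin : volume I ≠ ⊤ := by
    rw [hI, Real.volume_Ioo]
    exact ENNReal.ofReal_ne_top
  have hvI : volume (I ∩ J) + volume (I \ J) = ENNReal.ofReal (2 * b) := by
    rw [measure_inter_add_sdiff _ hJc.measurableSet, hI, Real.volume_Ioo]
    congr 1
    ring
  have hdiff : I \ J = I ∩ Jᶜ := Set.sdiff_eq I J
  rw [hdiff] at hvI ⊢
  have hA : volume (I ∩ J) ≠ ⊤ := ((measure_mono inter_subset_left).trans_lt hIfin.lt_top).ne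
  have hC : volume (I ∩ Jᶜ) ≠ ⊤ := ((measure_mono inter_subset_left).trans_lt hIfin.lt_top).ne
  have hreal : (volume (I ∩ J)).toReal + (volume (I ∩ Jᶜ)).toReal = 2 * b := by
    rw [← ENNReal.toReal_add hA hC, hvI, ENNReal.toReal_ofReal (by linarith)]
  have hN : ((N - 1 : ℕ) : ℝ) = N - 1 := by
    rw [Nat.cast_sub h.pos, Nat.cast_one]
  have hmain : ∀ ε : ℝ, 0 < ε → t + b + ε < s → (volume (I ∩ Jᶜ)).toReal ≤ N * ε := by
    intro ε hε hεs
    have h1 : ENNReal.ofReal (2 * b) + (((N - 1 : ℕ) : ℝ≥0∞) * volume (I ∩ J) +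
        (N : ℝ≥0∞) * volume (I ∩ Jᶜ)) ≤ ENNReal.ofReal (N * (2 * b + ε)) := by
      refine (add_le_add hlow ?_).trans (hring ε hε hεs)
      rw [← e3]
      exact add_le_add (e1.trans e4) (e2.trans e5)
    have h2 := ENNReal.toReal_mono ENNReal.ofReal_ne_top h1
    rw [ENNReal.toReal_add ENNReal.ofReal_ne_top (by finiteness), ENNReal.toReal_add
      (by finiteness) (by finiteness), ENNReal.toReal_mul, ENNReal.toReal_mul,
      ENNReal.toReal_ofReal (by linarith only [hb]), ENNReal.toReal_ofReal (by (clear * - hb hε; positivity)),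
      ENNReal.toReal_natCast, ENNReal.toReal_natCast, hN] at h2
    nlinarith
  have hNpos : (0 : ℝ) < N := by exact_mod_cast h.pos
  have h0 : (volume (I ∩ Jᶜ)).toReal ≤ 0 := by
    refine le_of_forall_pos_le_add fun δ hδ => ?_
    rw [zero_add]
    have hm : 0 < min (δ / N) ((s - (t + b)) / 2) := lt_min (by (clear * - hδ hNpos; positivity)) (by linarith only [hbs])
    refine (hmain _ hm (by linarith only [min_le_right (δ / N) ((s - (t + b)) / 2), hm])).trans ?_
    calc (N : ℝ) * min (δ / N) ((s - (t + b)) / 2) ≤ N * (δ / N) :=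
          mul_le_mul_of_nonneg_left (min_le_left _ _) hNpos.le
      _ = δ := by field_simp
  have h00 := le_antisymm h0 ENNReal.toReal_nonneg
  exact ((ENNReal.toReal_eq_zero_iff _).1 h00).resolve_right hC

theorem Ring.step {x : ℂ} {s : ℝ} {N : ℕ} (h : Ring K x s N) {y : ℂ} (hy : y ∈ K) {b : ℝ}
    (hb : 0 < b) (hb4 : 4 * b ≤ dist y x) (hbs : dist y x + b < s) :
    y + b * ((y - x) / dist y x) ∈ K ∧ y - b * ((y - x) / dist y x) ∈ K := by
  have h0 := NetRing_null h hy hb hb4 hbs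
  have ht0 : 0 < dist y x := by linarith only [hb4, hb]
  set J := (fun z => dist z x) '' (K ∩ closedBall y b) with hJ
  have hJc : IsClosed J :=
    (((isCompact_closedBall y b).inter_left h.closed).image (by fun_prop)).isClosed
  have h1 : Ioo (dist y x - b) (dist y x + b) ⊆ J := by
    have h2 : IsOpen (Ioo (dist y x - b) (dist y x + b) \ J) := isOpen_Ioo.sdiff hJc
    have h3 := (h2.measure_eq_zero_iff (volume : Measure ℝ)).1 h0
    exact Set.sdiff_eq_empty.1 h3
  have h2 : Icc (dist y x - b) (dist y x + b) ⊆ J := by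
    rw [← closure_Ioo (by linarith only [hb])]
    exact closure_minimal h1 hJc
  constructor
  · obtain ⟨z, ⟨hz, hzD⟩, hz1⟩ := h2 (show dist y x + b ∈ _ from ⟨by linarith, le_rfl⟩)
    rw [← NetRing_far rfl ht0 hz1 hzD]
    exact hz
  · obtain ⟨z, ⟨hz, hzD⟩, hz1⟩ := h2 (show dist y x - b ∈ _ from ⟨le_rfl, by linarith⟩)
    rw [← NetRing_near rfl ht0 hz1 hzD]
    exact hz

theorem Ring.ray {x : ℂ} {s : ℝ} {N : ℕ} (h : Ring K x s N) {y : ℂ} (hy : y ∈ K) (hyx : y ≠ x)
    (hys : dist y x < s) {r : ℝ} (hr : 0 ≤ r) (hrs : r < s) :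
    x + r * ((y - x) / dist y x) ∈ K := by
  have ht0 : 0 < dist y x := dist_pos.2 hyx
  set t := dist y x with ht
  set e : ℂ := (y - x) / t with he
  have ht' : (t : ℂ) ≠ 0 := by exact_mod_cast ht0.ne'
  have hen : ‖e‖ = 1 := by
    rw [he, norm_div, Complex.norm_real, Real.norm_of_nonneg ht0.le, ht, dist_eq_norm,
      div_self]
    rw [← dist_eq_norm]
    exact ht0.ne'
  have hcl : IsClosed {r : ℝ | x + r * e ∈ K} := h.closed.preimage (by fun_prop)
  have hopen : IsOpen {r : ℝ | r ∈ Ioo 0 s ∧ x + r * e ∈ K} := by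
    rw [Metric.isOpen_iff]
    rintro ρ ⟨hρ, hρK⟩
    have hd : dist (x + ρ * e) x = ρ := by
      rw [dist_eq_norm, add_sub_cancel_left, norm_mul, hen, Complex.norm_real,
        Real.norm_of_nonneg hρ.1.le, mul_one]
    have hρ' : (ρ : ℂ) ≠ 0 := by exact_mod_cast hρ.1.ne'
    have hdir : (x + ρ * e - x) / (dist (x + ρ * e) x : ℝ) = e := by
      rw [hd, add_sub_cancel_left, mul_div_cancel_left₀ _ hρ']
    refine ⟨min (ρ / 4) (s - ρ), lt_min (by linarith only [hρ.1]) (by linarith [hρ.2]), ?_⟩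
    intro ρ' hρ'm
    rw [mem_ball, Real.dist_eq, lt_min_iff] at hρ'm
    obtain ⟨hm1, hm2⟩ := hρ'm
    have hab := abs_lt.1 hm1
    have hab2 := abs_lt.1 hm2
    refine ⟨⟨by linarith [hρ.1], by linarith⟩, ?_⟩
    rcases lt_trichotomy ρ' ρ with hlt | heq | hgt
    · have := (h.step hρK (b := ρ - ρ') (by linarith only [hlt]) (by rw [hd]; linarith)
        (by rw [hd]; linarith)).2
      rw [hdir] at this
      convert this using 1
      push_cast
      ring
    · rw [heq]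
      exact hρK
    · have := (h.step hρK (b := ρ' - ρ) (by linarith only [hgt]) (by rw [hd]; linarith)
        (by rw [hd]; linarith)).1
      rw [hdir] at this
      convert this using 1
      push_cast
      ring
  have hsub : Ioo 0 s ⊆ {r : ℝ | r ∈ Ioo 0 s ∧ x + r * e ∈ K} := by
    refine isPreconnected_Ioo.subset_of_closure_inter_subset hopen ⟨t, ⟨ht0, hys⟩,
      ⟨ht0, hys⟩, ?_⟩ ?_
    · show x + (t : ℂ) * e ∈ K
      have : x + (t : ℂ) * e = y := by
        rw [he]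
        field_simp
        ring
      rw [this]
      exact hy
    · rintro ρ ⟨hρ1, hρ2⟩
      refine ⟨hρ2, ?_⟩
      exact (closure_minimal (fun z hz => hz.2) hcl) hρ1
  have hsub2 : Icc 0 s ⊆ {r : ℝ | x + r * e ∈ K} := by
    rw [← closure_Ioo (by linarith)]
    exact closure_minimal (fun z hz => (hsub hz).2) hcl
  exact hsub2 ⟨hr, hrs.le⟩

end Vale.Agent.P128.GM
end

section

/-! two crossings -/

open MeasureTheory Set Metric Filter
open scoped ENNReal NNReal Topology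

namespace Vale.Agent.P128.GM

open Vale.Agent.P128

variable {K : Set ℂ}

theorem netDiam_zero (x : ℂ) : lh K x 0 = 0 := by
  simp [lh]

theorem netDiam_low (hK : NetMin K) {y : ℂ} (hy : y ∈ K) {b : ℝ} (hb : 0 < b) :
    2 * b ≤ lh K y b := by
  have h := lh_sub_ge (K := K) hK.closed hK.fin (x := y) (a := 0) (b := b) le_rfl hb.le (m := 2)
    (Eventually.of_forall fun r hr _ => by
      have := hK.two_le hy hr
      exact_mod_cast this)
  rw [netDiam_zero] at h
  push_cast at h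
  linarith

theorem netDiam_up (hK : NetMin K) {x : ℂ} {s : ℝ} (hs : 0 < s)
    (h2 : (K ∩ sphere x s).encard = 2) {r : ℝ} (hr : 0 < r) (hrs : r ≤ s) :
    lh K x r ≤ 2 * r := by
  classical
  obtain ⟨p, q, hpq, h⟩ := Set.encard_eq_two.1 h2
  have h1 : lh K x s ≤ 2 * s := by
    have h3 : K ∩ sphere x s = (({p, q} : Finset ℂ) : Set ℂ) := by
      rw [h]; simp
    have h4 := hK.lh_le_card hs h3
    rw [Finset.card_pair hpq] at h4
    exact_mod_cast h4
  have h5 := hK.div_mono x hr hrs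
  have h6 : lh K x s / s ≤ 2 := by
    rw [div_le_iff₀ hs]; exact h1
  have h7 : lh K x r / r ≤ 2 := h5.trans h6
  rwa [div_le_iff₀ hr] at h7

theorem netDiam_lin (hK : NetMin K) {x : ℂ} (hx : x ∈ K) {s : ℝ} (hs : 0 < s)
    (h2 : (K ∩ sphere x s).encard = 2) {r : ℝ} (hr : 0 < r) (hrs : r ≤ s) :
    lh K x r = 2 * r :=
  le_antisymm (netDiam_up hK hs h2 hr hrs) (netDiam_low hK hx hr)

theorem netDiam_cross (hK : NetMin K) {x : ℂ} (hx : x ∈ K) {s : ℝ} (hs : 0 < s)
    (h2 : (K ∩ sphere x s).encard = 2) :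
    ∀ᵐ r : ℝ, 0 < r → r < s → ∃ p q : ℂ, p ≠ q ∧ K ∩ sphere x r = {p, q} ∧
      2 * r ≤ dist p q := by
  filter_upwards [ae_card_le_deriv (K := K) hK.closed hK.fin x] with r hr h0 hrs
  obtain ⟨n, hn, hd⟩ := hr h0
  have hev : lh K x =ᶠ[𝓝 r] fun t => 2 * t := by
    filter_upwards [Ioo_mem_nhds h0 hrs] with t ht
    exact netDiam_lin hK hx hs h2 ht.1 ht.2.le
  have hderiv : deriv (lh K x) r = 2 := by
    rw [hev.deriv_eq]
    simp
  rw [hderiv] at hd
  have hn2 : n ≤ 2 := by exact_mod_cast hd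
  have hn3 := hK.two_le hx h0
  rw [hn] at hn3
  have hn4 : 2 ≤ n := by exact_mod_cast hn3
  have hn5 : n = 2 := le_antisymm hn2 hn4
  rw [hn5] at hn
  obtain ⟨p, q, hpq, h⟩ := Set.encard_eq_two.1 (by exact_mod_cast hn)
  refine ⟨p, q, hpq, h, ?_⟩
  have h3 := hK.lh_le_dist h0 h
  rwa [netDiam_lin hK hx hs h2 h0 hrs.le] at h3

theorem netDiam_ring (hK : NetMin K) {x : ℂ} (hx : x ∈ K) {s : ℝ} (hs : 0 < s)
    (h2 : (K ∩ sphere x s).encard = 2) : Ring K x s 2 where
  closed := hK.closed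
  fin := hK.fin
  low := fun y hy b hb => netDiam_low hK hy hb
  pos := by norm_num
  lin := fun r hr hrs => by
    rw [netDiam_lin hK hx hs h2 hr hrs.le]
    norm_num
  cross := by
    filter_upwards [netDiam_cross hK hx hs h2] with r hr h0 hrs
    obtain ⟨p, q, hpq, h, hd⟩ := hr h0 hrs
    refine ⟨by rw [h, Set.encard_pair hpq]; norm_num, ?_⟩
    intro p' hp' q' hq' hne
    rw [h] at hp' hq'
    rcases hp' with rfl | hp'
    · rcases hq' with rfl | hq'
      · exact absurd rfl hne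
      · rw [mem_singleton_iff] at hq'
        subst hq'
        linarith
    · rw [mem_singleton_iff] at hp'
      subst hp'
      rcases hq' with rfl | hq'
      · rw [dist_comm]
        linarith only [hd, h0]
      · rw [mem_singleton_iff] at hq'
        exact absurd hq'.symm hne

theorem netDiam_exists {s : ℝ} (hs : 0 < s) {P : ℝ → Prop}
    (h : ∀ᵐ r : ℝ, 0 < r → r < s → P r) : ∃ r : ℝ, 0 < r ∧ r < s ∧ P r := by
  by_contra hcon
  push Not at hcon
  have h1 : Ioo (0 : ℝ) s ⊆ {r | ¬ (0 < r → r < s → P r)} := by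
    intro r hr hP
    exact hcon r hr.1 hr.2 (hP hr.1 hr.2)
  have h2 : volume (Ioo (0 : ℝ) s) = 0 := measure_mono_null h1 h
  rw [Real.volume_Ioo, sub_zero, ENNReal.ofReal_eq_zero] at h2
  linarith

theorem NetMin.diam (hK : NetMin K) {x : ℂ} (hx : x ∈ K) {s : ℝ} (hs : 0 < s)
    (h2 : (K ∩ sphere x s).encard = 2) : IsDiam K x s := by
  have hring := netDiam_ring hK hx hs h2
  obtain ⟨r, hr, hrs, p, q, hpq, hset, hd⟩ := netDiam_exists hs (netDiam_cross hK hx hs h2)
  have hp : p ∈ K ∩ sphere x r := by rw [hset]; simp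
  have hq : q ∈ K ∩ sphere x r := by rw [hset]; simp
  have hpr : ‖p - x‖ = r := by rw [← dist_eq_norm]; exact hp.2
  have hqr : ‖q - x‖ = r := by rw [← dist_eq_norm]; exact hq.2
  have hqx : q - x = -(p - x) := by
    have h1 := parallelogram_law_with_norm ℝ (p - x) (q - x)
    have h3 : 2 * r ≤ ‖(p - x) - (q - x)‖ := by
      rw [sub_sub_sub_cancel_right, ← dist_eq_norm]; exact hd
    rw [hpr, hqr] at h1
    have h4 : ‖(p - x) + (q - x)‖ * ‖(p - x) + (q - x)‖ ≤ 0 := by linarith only [mul_nonneg (sub_nonneg.2 h3) (sub_nonneg.2 h3), mul_nonneg (le_of_lt (sub_pos.2 hr)) (sub_nonneg.2 h3), h1]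
    have h5 : ‖(p - x) + (q - x)‖ = 0 := by
      nlinarith [norm_nonneg ((p - x) + (q - x))]
    have h6 := norm_eq_zero.1 h5
    linear_combination h6
  have hr0 : (r : ℂ) ≠ 0 := by exact_mod_cast hr.ne'
  set e : ℂ := (p - x) / r with he
  have hen : ‖e‖ = 1 := by
    rw [he, norm_div, hpr, Complex.norm_real, Real.norm_eq_abs, abs_of_pos hr,
      div_self hr.ne']
  have hpe : (p - x) / (dist p x : ℝ) = e := by rw [dist_eq_norm, hpr]
  have hqe : (q - x) / (dist q x : ℝ) = -e := by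
    rw [dist_eq_norm, hqr, hqx, he, neg_div]
  have hpx : p ≠ x := by
    intro h
    rw [h, sub_self, norm_zero] at hpr
    exact hr.ne hpr
  have hqx' : q ≠ x := by
    intro h
    rw [h, sub_self, norm_zero] at hqr
    exact hr.ne hqr
  refine ⟨e, hen, ?_⟩
  ext z
  constructor
  · rintro ⟨hzK, hzs⟩
    rw [mem_ball] at hzs
    by_cases hzx : z = x
    · exact ⟨0, by simpa using hs, by simp [hzx]⟩
    have hz0 : 0 < dist z x := dist_pos.2 hzx
    have hz0' : ((dist z x : ℝ) : ℂ) ≠ 0 := by exact_mod_cast hz0.ne'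
    have h1 := hring.ray hzK hzx hzs hr.le hrs
    have h3 : x + r * ((z - x) / (dist z x : ℝ)) ∈ K ∩ sphere x r := by
      refine ⟨h1, ?_⟩
      rw [mem_sphere, dist_eq_norm, add_sub_cancel_left, norm_mul, norm_div, Complex.norm_real,
        Complex.norm_real, Real.norm_eq_abs, Real.norm_eq_abs, abs_of_pos hr, abs_of_pos hz0,
        ← dist_eq_norm, div_self hz0.ne', mul_one]
    rw [hset] at h3
    rcases h3 with h3 | h3
    · refine ⟨dist z x, by rwa [abs_of_pos hz0], ?_⟩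
      rw [he, ← h3]
      field_simp
      ring
    · rw [mem_singleton_iff] at h3
      refine ⟨-dist z x, by rwa [abs_neg, abs_of_pos hz0], ?_⟩
      have h4 : p - x = -(q - x) := by rw [hqx, neg_neg]
      rw [he, h4, ← h3]
      push_cast
      field_simp
      ring
  · rintro ⟨t, ht, rfl⟩
    refine ⟨?_, ?_⟩
    · rcases le_total 0 t with h0 | h0
      · have h1 := hring.ray hp.1 hpx (by rw [dist_eq_norm, hpr]; exact hrs) h0
          (by rwa [abs_of_nonneg h0] at ht)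
        rwa [hpe] at h1
      · have h1 := hring.ray hq.1 hqx' (by rw [dist_eq_norm, hqr]; exact hrs)
          (show 0 ≤ -t by linarith only [h0]) (by rwa [abs_of_nonpos h0] at ht)
        rw [hqe] at h1
        push_cast at h1
        rwa [neg_mul_neg] at h1
    · rw [mem_ball, dist_eq_norm, add_sub_cancel_left, norm_mul, hen, mul_one,
        Complex.norm_real, Real.norm_eq_abs]
      exact ht

end Vale.Agent.P128.GM
end

section

/-! three crossings everywhere -/

open MeasureTheory Set Metric Filter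
open scoped ENNReal NNReal Topology

namespace Vale.Agent.P128.GM

open Vale.Agent.P128

variable {K : Set ℂ}

theorem netProp_lh_eq (hK : NetMin K) {x : ℂ}
    (h : ∀ᵐ s : ℝ, 0 < s → 3 ≤ (K ∩ sphere x s).encard) {s : ℝ} (hs : 0 < s) :
    lh K x s = 3 * s := by
  refine le_antisymm (hK.le_three x hs) ?_
  have h1 := lh_sub_ge hK.closed hK.fin (x := x) (a := 0) (b := s) le_rfl hs.le (m := 3)
    (by
      filter_upwards [h] with r hr h0 _
      exact_mod_cast hr h0)
  have h0 : 0 ≤ lh K x 0 := ENNReal.toReal_nonneg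
  push_cast at h1
  linarith

theorem netProp_low (hK : NetMin K) {y : ℂ} (hy : y ∈ K) {b : ℝ} (hb : 0 < b) :
    2 * b ≤ lh K y b := by
  have h1 := lh_sub_ge hK.closed hK.fin (x := y) (a := 0) (b := b) le_rfl hb.le (m := 2)
    (Filter.Eventually.of_forall fun r h0 _ => by exact_mod_cast hK.two_le hy h0)
  have h0 : 0 ≤ lh K y 0 := ENNReal.toReal_nonneg
  push_cast at h1
  linarith

theorem netProp_card (hK : NetMin K) {x : ℂ}
    (h : ∀ᵐ s : ℝ, 0 < s → 3 ≤ (K ∩ sphere x s).encard) :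
    ∀ᵐ s : ℝ, 0 < s → (K ∩ sphere x s).encard = 3 := by
  filter_upwards [h, ae_card_le_deriv hK.closed hK.fin x] with s h3 hd hs
  obtain ⟨n, hn, hle⟩ := hd hs
  have hder : deriv (lh K x) s = 3 := by
    have : lh K x =ᶠ[𝓝 s] fun r => 3 * r := by
      filter_upwards [lt_mem_nhds hs] with r hr
      exact netProp_lh_eq hK h hr
    rw [this.deriv_eq]
    simp
  rw [hder] at hle
  have h1 : n ≤ 3 := by exact_mod_cast hle
  have h2 := h3 hs
  rw [hn] at h2 ⊢
  have h4 : 3 ≤ n := by exact_mod_cast h2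
  have : n = 3 := le_antisymm h1 h4
  rw [this]
  norm_num

theorem netProp_dist {a b c : ℂ} (ha : ‖a‖ = 1) (hb : ‖b‖ = 1) (hc : ‖c‖ = 1)
    (hs : a + b + c = 0) : 1 ≤ ‖a - b‖ := by
  have h1 : ‖a + b‖ = 1 := by
    have : a + b = -c := by linear_combination hs
    rw [this, norm_neg, hc]
  have h2 := parallelogram_law_with_norm ℝ a b
  rw [ha, hb, h1] at h2
  (by_contra nlg; linarith only [nlg, mul_eq_zero_of_left (sub_eq_zero.2 h2) (‖a - b‖ - (0)), mul_nonneg (le_of_lt (sub_pos.2 (not_le.1 nlg))) (sub_nonneg.2 (norm_nonneg (a - b))), mul_eq_zero_of_left (sub_eq_zero.2 h2) (1 - (‖a - b‖)), mul_pos (sub_pos.2 (not_le.1 nlg)) (sub_pos.2 (not_le.1 nlg))])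

theorem netProp_ring (hK : NetMin K) {x : ℂ}
    (h : ∀ᵐ s : ℝ, 0 < s → 3 ≤ (K ∩ sphere x s).encard) (s : ℝ) : Ring K x s 3 := by
  refine ⟨hK.closed, hK.fin, fun y hy b hb => netProp_low hK hy hb, by norm_num,
    fun r hr _ => by rw [netProp_lh_eq hK h hr]; norm_num, ?_⟩
  filter_upwards [netProp_card hK h] with r hr h0 _
  refine ⟨by rw [hr h0]; norm_num, ?_⟩
  obtain ⟨a, b, c, ha, hb, hc, habc, hE⟩ := hK.three h0 (hr h0) (netProp_lh_eq hK h h0).ge
  have key : ∀ u v w : ℂ, ‖u‖ = 1 → ‖v‖ = 1 → ‖w‖ = 1 → u + v + w = 0 →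
      r ≤ dist (x + r * u) (x + r * v) := by
    intro u v w hu hv hw huvw
    have h1 := netProp_dist hu hv hw huvw
    rw [dist_add_left, dist_eq_norm, ← mul_sub, norm_mul, Complex.norm_real, Real.norm_eq_abs,
      abs_of_pos h0]
    linarith only [mul_nonneg (le_of_lt (sub_pos.2 h0)) (sub_nonneg.2 h1)]
  have hab := key a b c ha hb hc habc
  have hac := key a c b ha hc hb (by linear_combination habc)
  have hbc := key b c a hb hc ha (by linear_combination habc)
  rw [hE]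
  intro p hp q hq hpq
  rcases hp with rfl | rfl | rfl <;> rcases hq with rfl | rfl | rfl
  · exact absurd rfl hpq
  · exact hab
  · exact hac
  · rw [dist_comm]; exact hab
  · exact absurd rfl hpq
  · exact hbc
  · rw [dist_comm]; exact hac
  · rw [dist_comm]; exact hbc
  · exact absurd rfl hpq

theorem NetMin.propeller (hK : NetMin K) {x : ℂ} (hx : x ∈ K)
    (h : ∀ᵐ s : ℝ, 0 < s → 3 ≤ (K ∩ sphere x s).encard) : IsPropeller K := by
  have hR := netProp_ring hK h
  obtain ⟨r₀, hr₀, hcard⟩ : ∃ r : ℝ, 0 < r ∧ (K ∩ sphere x r).encard = 3 := by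
    have h1 := netProp_card hK h
    have h2 : ∃ᵐ s : ℝ, s ∈ Ioi (0 : ℝ) := by
      rw [frequently_ae_mem_iff]
      simp
    obtain ⟨r, hr1, hr2⟩ := (h2.and_eventually h1).exists
    exact ⟨r, hr1, hr2 hr1⟩
  obtain ⟨a, b, c, ha, hb, hc, habc, hE⟩ :=
    hK.three hr₀ hcard (netProp_lh_eq hK h hr₀).ge
  have hr₀' : (r₀ : ℂ) ≠ 0 := by exact_mod_cast hr₀.ne'
  refine ⟨x, a, b, c, ha, hb, hc, habc, ?_⟩
  have hsub : ∀ u : ℂ, ‖u‖ = 1 → x + r₀ * u ∈ K → ∀ t : ℝ, 0 ≤ t → x + t * u ∈ K := by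
    intro u hu hy t ht
    have hd : dist (x + r₀ * u) x = r₀ := by
      rw [dist_eq_norm, add_sub_cancel_left, norm_mul, hu, Complex.norm_real, Real.norm_eq_abs,
        abs_of_pos hr₀, mul_one]
    have := (hR (max r₀ t + 1)).ray hy (by
      intro he
      rw [he, dist_self] at hd
      exact hr₀.ne hd) (by rw [hd]; linarith [le_max_left r₀ t]) ht
      (by linarith [le_max_right r₀ t])
    rw [hd] at this
    have e : (x + r₀ * u - x) / (r₀ : ℂ) = u := by field_simp; ring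
    rwa [e] at this
  have hmem : ∀ u : ℂ, u ∈ ({x + r₀ * a, x + r₀ * b, x + r₀ * c} : Set ℂ) → u ∈ K := by
    intro u hu
    rw [← hE] at hu
    exact hu.1
  ext z
  constructor
  · intro hz
    by_cases hzx : z = x
    · exact ⟨0, le_rfl, Or.inl (by rw [hzx]; simp)⟩
    have hd : 0 < dist z x := dist_pos.2 hzx
    have hd' : ((dist z x : ℝ) : ℂ) ≠ 0 := by exact_mod_cast hd.ne'
    have h1 := (hR (max r₀ (dist z x) + 1)).ray hz hzx (by linarith [le_max_right r₀ (dist z x)])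
      hr₀.le (by linarith [le_max_left r₀ (dist z x)])
    have h2 : x + r₀ * ((z - x) / dist z x) ∈ K ∩ sphere x r₀ := by
      refine ⟨h1, ?_⟩
      rw [mem_sphere, dist_eq_norm, add_sub_cancel_left, norm_mul, norm_div, Complex.norm_real,
        Complex.norm_real, Real.norm_eq_abs, abs_of_pos hr₀, Real.norm_eq_abs, abs_of_pos hd,
        ← dist_eq_norm, div_self hd.ne', mul_one]
    rw [hE] at h2
    have h3 : ∀ u : ℂ, x + r₀ * ((z - x) / dist z x) = x + r₀ * u → z = x + dist z x * u := by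
      intro u hu
      have h4 : (z - x) / dist z x = u := mul_left_cancel₀ hr₀' (add_left_cancel hu)
      rw [← h4]
      field_simp
      ring
    refine ⟨dist z x, dist_nonneg, ?_⟩
    rcases h2 with h2 | h2 | h2
    · exact Or.inl (h3 a h2)
    · exact Or.inr (Or.inl (h3 b h2))
    · exact Or.inr (Or.inr (h3 c h2))
  · rintro ⟨t, ht, rfl | rfl | rfl⟩
    · exact hsub a ha (hmem _ (by simp)) t ht
    · exact hsub b hb (hmem _ (by simp)) t ht
    · exact hsub c hc (hmem _ (by simp)) t ht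

end Vale.Agent.P128.GM
end

section

/-! NetFinal -/

open MeasureTheory Set Metric Filter
open scoped ENNReal NNReal Topology

namespace Vale.Agent.P128.GM

open Vale.Agent.P128

variable {K : Set ℂ}

theorem NetMin.classify (hK : NetMin K) : K = ∅ ∨ IsLine K ∨ IsPropeller K := by
  rcases K.eq_empty_or_nonempty with h0 | hne
  · exact Or.inl h0
  right
  by_cases h3 : ∃ x ∈ K, ∀ᵐ s : ℝ, 0 < s → 3 ≤ (K ∩ sphere x s).encard
  · obtain ⟨x, hx, h⟩ := h3
    exact Or.inr (hK.propeller hx h)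
  · left
    refine line_of_diam hK.closed hne hK.fin (fun x hx => ?_) fun x _ s hs => hK.le_three x hs
    have h4 : ¬ ∀ᵐ s : ℝ, 0 < s → 3 ≤ (K ∩ sphere x s).encard := fun h => h3 ⟨x, hx, h⟩
    rw [not_eventually] at h4
    obtain ⟨s, hs⟩ := h4.exists
    rw [Classical.not_imp] at hs
    obtain ⟨hs0, hs3⟩ := hs
    refine ⟨s, hs0, hK.diam hx hs0 (le_antisymm ?_ (hK.two_le hx hs0))⟩
    rw [not_le] at hs3
    obtain ⟨n, hn⟩ := ENat.ne_top_iff_exists.1 (ne_top_of_lt hs3)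
    rw [← hn] at hs3 ⊢
    have h5 : n < 3 := by exact_mod_cast hs3
    have h6 : n ≤ 2 := by omega
    exact_mod_cast h6

end Vale.Agent.P128.GM
end

section

/-! NetConst -/

open MeasureTheory Set Metric Filter
open scoped ENNReal NNReal Topology

namespace Vale.Agent.P128.GM

open Vale.Agent.P128

variable {K : Set ℂ}

theorem IsGlobalMin.classify_const {u : ℂ → ℝ} {G : ℂ → ℂ} (h : IsGlobalMin u G K)
    (hred : IsReduced univ K) (hG : ∀ᵐ z, z ∉ K → G z = 0) :
    K = ∅ ∨ IsLine K ∨ IsPropeller K := (h.netMin hred hG).classify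

end Vale.Agent.P128.GM
end

section

/-! P128, Q1, Part II, conclusion: the energy density of the crack-tip function. -/

open MeasureTheory Set Metric Filter
open scoped ENNReal NNReal Topology Real ContDiff

namespace Vale.Agent.P128.Q1

open Vale.Agent.P128

/-- the crack-tip function -/
noncomputable def tipFn (x a : ℂ) (σ c : ℝ) (z : ℂ) : ℝ :=
  c + σ * Real.sqrt (2 * ‖z - x‖ / π) * Real.sin (Complex.arg ((z - x) / a) / 2)

theorem cpow_half_im {w : ℂ} (hw : w ≠ 0) :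
    (w ^ (1 / 2 : ℂ)).im = √‖w‖ * Real.sin (Complex.arg w / 2) := by
  rw [Complex.cpow_def_of_ne_zero hw, Complex.exp_im]
  have h1 : (Complex.log w * (1 / 2)).re = Real.log ‖w‖ / 2 := by
    have : Complex.log w * (1 / 2) = ((1 / 2 : ℝ) : ℂ) * Complex.log w := by push_cast; ring
    rw [this, Complex.re_ofReal_mul, Complex.log_re]; ring
  have h2 : (Complex.log w * (1 / 2)).im = Complex.arg w / 2 := by
    have : Complex.log w * (1 / 2) = ((1 / 2 : ℝ) : ℂ) * Complex.log w := by push_cast; ring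
    rw [this, Complex.im_ofReal_mul, Complex.log_im]; ring
  rw [h1, h2, Real.exp_half, Real.exp_log (norm_pos_iff.2 hw)]

theorem tipFn_eq {x a : ℂ} (ha : ‖a‖ = 1) (σ c : ℝ) {z : ℂ} (hz : z ≠ x) :
    tipFn x a σ c z = c + σ * √(2 / π) * (((z - x) / a) ^ (1 / 2 : ℂ)).im := by
  have ha0 : a ≠ 0 := by rintro rfl; simp at ha
  have hw : (z - x) / a ≠ 0 := div_ne_zero (sub_ne_zero.2 hz) ha0
  have hn : ‖(z - x) / a‖ = ‖z - x‖ := by rw [norm_div, ha, div_one]
  rw [cpow_half_im hw, hn]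
  unfold tipFn
  have h1 : 2 * ‖z - x‖ / π = 2 / π * ‖z - x‖ := by ring
  rw [h1, Real.sqrt_mul (by positivity)]
  ring

/-- half-line -/
theorem notMem_halfLine {x a z : ℂ} (ha : ‖a‖ = 1) (hz : z ∉ {z | ∃ t : ℝ, 0 ≤ t ∧ z = x - t * a}) :
    (z - x) / a ∈ Complex.slitPlane := by
  have ha0 : a ≠ 0 := by rintro rfl; simp at ha
  rw [Complex.mem_slitPlane_iff_not_le_zero]
  intro h
  obtain ⟨h1, h2⟩ := Complex.le_def.1 h
  apply hz
  refine ⟨-((z - x) / a).re, by simpa using h1, ?_⟩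
  have h3 : (z - x) / a = ((((z - x) / a).re : ℝ) : ℂ) := by
    apply Complex.ext
    · simp
    · simpa using h2
  have h4 : z - x = ((((z - x) / a).re : ℝ) : ℂ) * a := by
    rw [← h3]; field_simp
  push_cast
  linear_combination h4

theorem norm_grad_tipFn {x a : ℂ} (ha : ‖a‖ = 1) {σ : ℝ} (hσ : σ = 1 ∨ σ = -1) (c : ℝ) {z : ℂ}
    (hz : z ∉ {z | ∃ t : ℝ, 0 ≤ t ∧ z = x - t * a}) :
    ‖grad (tipFn x a σ c) z‖ ^ 2 = 1 / (2 * π * ‖z - x‖) := by
  have hπ := Real.pi_pos
  have ha0 : a ≠ 0 := by rintro rfl; simp at ha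
  have hzx : z ≠ x := by
    rintro rfl
    exact hz ⟨0, le_rfl, by simp⟩
  have hs := notMem_halfLine ha hz
  have hn : ‖(z - x) / a‖ = ‖z - x‖ := by rw [norm_div, ha, div_one]
  have hpos : 0 < ‖z - x‖ := norm_pos_iff.2 (sub_ne_zero.2 hzx)
  set w : ℂ := (z - x) / a with hw
  -- derivative of the holomorphic function
  have hd1 : HasDerivAt (fun z : ℂ => (z - x) / a) (1 / a) z :=
    ((hasDerivAt_id z).sub_const x).div_const a
  have hd2 : HasDerivAt (fun z : ℂ => ((z - x) / a) ^ (1 / 2 : ℂ))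
      ((1 / 2 : ℂ) * w ^ ((1 / 2 : ℂ) - 1) * (1 / a)) z :=
    hd1.cpow_const hs
  set k : ℂ := (1 / 2 : ℂ) * w ^ ((1 / 2 : ℂ) - 1) * (1 / a) with hk
  have hkn : ‖k‖ ^ 2 = 1 / (4 * ‖z - x‖) := by
    have h1 : ‖w ^ ((1 / 2 : ℂ) - 1)‖ = ‖z - x‖ ^ (-(1 / 2) : ℝ) := by
      have h2 : ((1 / 2 : ℂ) - 1) = ((-(1 / 2) : ℝ) : ℂ) := by push_cast; ring
      rw [h2, Complex.norm_cpow_real, hn]
    have h6 : ‖(1 / a : ℂ)‖ = 1 := by rw [norm_div, norm_one, ha, div_one]
    have h7 : ‖(1 / 2 : ℂ)‖ = 1 / 2 := by rw [norm_div, norm_one, Complex.norm_two]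
    rw [hk, norm_mul, norm_mul, h1, h6, h7]
    rw [mul_pow, mul_pow, ← Real.rpow_natCast (‖z - x‖ ^ (-(1 / 2) : ℝ)) 2,
      ← Real.rpow_mul hpos.le]
    have h3 : (-(1 / 2) : ℝ) * ((2 : ℕ) : ℝ) = -1 := by norm_num
    rw [h3, Real.rpow_neg_one]
    field_simp
    norm_num
  set m : ℝ := σ * √(2 / π) with hm
  have hfd : HasFDerivAt (tipFn x a σ c) (m • (Complex.imCLM.comp
      ((ContinuousLinearMap.toSpanSingleton ℂ k).restrictScalars ℝ))) z := by
    have h1 : HasFDerivAt (fun z : ℂ => ((z - x) / a) ^ (1 / 2 : ℂ))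
        ((ContinuousLinearMap.toSpanSingleton ℂ k).restrictScalars ℝ) z :=
      hd2.hasFDerivAt.restrictScalars ℝ
    have h2 := ((Complex.imCLM.hasFDerivAt (x := ((z - x) / a) ^ (1 / 2 : ℂ))).comp z h1).const_mul m
    have h3 := h2.const_add c
    refine h3.congr_of_eventuallyEq ?_
    have h4 : ∀ᶠ y in 𝓝 z, y ≠ x := isOpen_ne.mem_nhds hzx
    filter_upwards [h4] with y hy
    rw [tipFn_eq ha σ c hy, hm]
    rfl
  have hgr : grad (tipFn x a σ c) z = ⟨m * k.im, m * k.re⟩ := by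
    unfold grad
    rw [hfd.fderiv]
    apply Complex.ext
    · simp [ContinuousLinearMap.toSpanSingleton_apply]
    · simp [ContinuousLinearMap.toSpanSingleton_apply]
  have hσ2 : σ ^ 2 = 1 := by rcases hσ with h | h <;> rw [h] <;> norm_num
  have hm2 : m ^ 2 = 2 / π := by
    rw [hm, mul_pow, hσ2, Real.sq_sqrt (by positivity), one_mul]
  have h5 : ‖grad (tipFn x a σ c) z‖ ^ 2 = m ^ 2 * ‖k‖ ^ 2 := by
    rw [hgr, Complex.sq_norm, Complex.sq_norm, Complex.normSq_apply, Complex.normSq_apply]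
    simp only
    ring
  rw [h5, hm2, hkn]
  field_simp
  ring

/-- the energy density of the model is locally integrable -/
theorem integrableOn_tip (x : ℂ) (s : ℝ) :
    IntegrableOn (fun z : ℂ => 1 / (2 * π * ‖z - x‖)) (ball 0 s) := by
  have h1 : IntegrableOn (fun z : ℂ => (‖z‖)⁻¹) (ball 0 (s + ‖x‖)) := by
    refine (integrableOn_fun_norm_addHaar (volume : Measure ℂ) (f := fun r : ℝ => r⁻¹)).2 ?_
    rw [Complex.finrank_real_complex]
    have h1 : IntegrableOn (fun _ : ℝ => (1 : ℝ)) (Ioo 0 (s + ‖x‖)) := by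
      exact integrableOn_const (by simp)
    refine h1.congr_fun (fun y hy => ?_) measurableSet_Ioo
    have : y ≠ 0 := hy.1.ne'
    simp [this]
  have h2 : IntegrableOn (fun z : ℂ => (‖z - x‖)⁻¹) (ball x (s + ‖x‖)) := by
    have h3 := (measurePreserving_sub_right (volume : Measure ℂ) x).integrableOn_comp_preimage
      (MeasurableEquiv.subRight x).measurableEmbedding (f := fun z : ℂ => (‖z‖)⁻¹)
      (s := ball 0 (s + ‖x‖))
    have h4 : (fun z : ℂ => z - x) ⁻¹' ball 0 (s + ‖x‖) = ball x (s + ‖x‖) := by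
      ext z
      simp [dist_eq_norm]
    rw [h4] at h3
    exact h3.2 h1
  have h3 : ball (0 : ℂ) s ⊆ ball x (s + ‖x‖) := by
    intro z hz
    rw [mem_ball, dist_zero_right] at hz
    rw [mem_ball, dist_eq_norm]
    exact (norm_sub_le z x).trans_lt (by linarith)
  have h4 : IntegrableOn (fun z : ℂ => 1 / (2 * π) * (‖z - x‖)⁻¹) (ball 0 s) :=
    (h2.mono_set h3).const_mul (1 / (2 * π))
  refine h4.congr_fun (fun z _ => ?_) measurableSet_ball
  simp only
  ring

theorem tip_cont (x : ℂ) :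
    ContinuousOn (fun s => ∫ z in ball (0 : ℂ) s, 1 / (2 * π * ‖z - x‖)) (Ioi 0) := by
  intro s hs
  exact (continuousAt_int_ball (integrableOn_tip x _)
    (Measure.addHaar_sphere_of_ne_zero volume 0 (ne_of_gt hs))).continuousWithinAt

end Vale.Agent.P128.Q1
end

section

/-! P128, Q1, Part II (A1): lower density of the length alone. -/

open MeasureTheory Set Metric Filter
open scoped ENNReal NNReal Topology Real ContDiff

namespace Vale.Agent.P128.Q1

open Vale.Agent.P128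

variable {Ω : Set ℂ} {g u : ℂ → ℝ} {G : ℂ → ℂ} {K : Set ℂ} {M : ℝ} {x₀ : ℂ} {R₀ : ℝ}

theorem MS.En_mono (h : MS Ω g u G K M x₀ R₀) (y : ℂ) {s t : ℝ} (hst : s ≤ t) :
    En G y s ≤ En G y t :=
  setIntegral_mono_set h.N.G_memLp.norm.integrable_sq.integrableOn
    (Eventually.of_forall fun _ => by positivity) (ball_subset_ball hst).eventuallyLE

theorem MS.Hn_mono (h : MS Ω g u G K M x₀ R₀) (y : ℂ) {s t : ℝ} (hst : s ≤ t) :
    Hn K y s ≤ Hn K y t :=
  ENNReal.toReal_mono ((measure_mono inter_subset_left).trans_lt h.N.min.1.finite).ne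
    (measure_mono (inter_subset_inter_right _ (closedBall_subset_closedBall hst)))

end Vale.Agent.P128.Q1
end

section

/-! P128, Q1, Part II: from the blow-up theorem to the closeness to the models. -/

open MeasureTheory Set Metric Filter
open scoped ENNReal NNReal Topology Real ContDiff

namespace Vale.Agent.P128.Q1

open Vale.Agent.P128
open Vale.Agent.P128.GM (IsGlobalMin)

variable {Ω : Set ℂ} {g u : ℂ → ℝ} {G : ℂ → ℂ} {K : Set ℂ} {M : ℝ} {x₀ : ℂ} {R₀ : ℝ}

/-! ### The two versions of the standing assumptions -/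

theorem MS.G_eq (h : MS Ω g u G K M x₀ R₀) : G = (Ω \ K).indicator (grad u) := by
  funext z
  by_cases hz : z ∈ Ω \ K
  · rw [indicator_of_mem hz, h.Gu z hz]
  · rw [indicator_of_notMem hz, h.N.G0 z hz]

theorem MS.toQ (h : MS Ω g u G K M x₀ R₀) : Q.MS Ω g u K M x₀ (2 * R₀) := by
  have hN := h.N
  rw [h.G_eq] at hN
  exact { nice := hN
          red := h.red
          smooth := h.c1
          one_le := h.M1
          pos := by have := h.R0; linarith
          sub := by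
            have e : 2 * (2 * R₀) = 4 * R₀ := by ring
            rw [e]; exact h.sub
          bdd := fun z hz => h.bd z (by
            rw [mem_ball] at hz
            rw [mem_closedBall]
            linarith) }

theorem MS.vol_zero (h : MS Ω g u G K M x₀ R₀) : volume K = 0 :=
  GM.volume_eq_zero_of_hausdorff h.N.min.1.finite.ne

theorem MS.En_dir (h : MS Ω g u G K M x₀ R₀) {y : ℂ} {s : ℝ} (hs : ball y s ⊆ Ω) :
    En G y s = Q.dir u y s := by
  unfold En Q.dir
  have h0 : ∀ᵐ z : ℂ, z ∉ K := measure_eq_zero_iff_ae_notMem.1 h.vol_zero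
  refine setIntegral_congr_ae measurableSet_ball ?_
  filter_upwards [h0] with z hz hzs
  rw [h.Gu z ⟨hs hzs, hz⟩]

/-! ### The blow-up limits are models -/

/-- The blow-up statement (Part II of the proof). -/
def BlowUp (u : ℂ → ℝ) (K : Set ℂ) (x₀ : ℂ) (R₀ : ℝ) : Prop :=
  ∀ (x : ℕ → ℂ) (r : ℕ → ℝ), (∀ j, x j ∈ K ∩ closedBall x₀ R₀) → (∀ j, 0 < r j) →
    Tendsto r atTop (𝓝 0) →
    ∃ φ : ℕ → ℕ, StrictMono φ ∧ ∃ (u₀ : ℂ → ℝ) (K₀ : Set ℂ),
      IsGlobalMin u₀ (grad u₀) K₀ ∧ ContDiffOn ℝ 1 u₀ K₀ᶜ ∧ IsReduced univ K₀ ∧ (0 : ℂ) ∈ K₀ ∧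
      (∀ z ∈ K₀, ∀ ε > 0, ∀ᶠ j in atTop, ∃ y ∈ K,
        dist y (x (φ j) + r (φ j) * z) < ε * r (φ j)) ∧
      (∀ C : Set ℂ, IsCompact C → C ⊆ K₀ᶜ →
        ∀ᶠ j in atTop, ∀ z ∈ C, x (φ j) + r (φ j) * z ∉ K) ∧
      (∀ (z : ℂ) (s ε : ℝ), 0 < s → 0 < ε → ∀ᶠ j in atTop,
        (Q.dir u₀ z s - ε) * r (φ j) ≤ Q.dir u (x (φ j) + r (φ j) * z) (r (φ j) * s)) ∧
      (∀ (z : ℂ) (s ε : ℝ), 0 < s → 0 < ε → ∀ᶠ j in atTop,
        (Q.len K₀ z s - ε) * r (φ j) ≤ Q.len K (x (φ j) + r (φ j) * z) (r (φ j) * s)) ∧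
      ∀ (z : ℂ) (s ε : ℝ), 0 < s → 0 < ε → ∀ᶠ j in atTop,
        Q.dir u (x (φ j) + r (φ j) * z) (r (φ j) * s) +
            Q.len K (x (φ j) + r (φ j) * z) (r (φ j) * s) ≤
          (Q.dir u₀ z s + (μH[1] (K₀ ∩ closedBall z s)).toReal + ε) * r (φ j)

theorem exists_model (hc : Classified) {u₀ : ℂ → ℝ} {K₀ : Set ℂ}
    (hg : IsGlobalMin u₀ (grad u₀) K₀) (hs : ContDiffOn ℝ 1 u₀ K₀ᶜ) (hr : IsReduced univ K₀)
    (h0 : (0 : ℂ) ∈ K₀) :
    ∃ F : ℝ → ℝ, IsModel K₀ F ∧ ContinuousOn F (Ioi 0) ∧ (∀ s, Q.dir u₀ 0 s = F s) ∧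
      (GM.IsLine K₀ ∨ GM.IsPropeller K₀ ∨ IsHalfLine K₀) := by
  have hv : ∀ᵐ z : ℂ, z ∉ K₀ := measure_eq_zero_iff_ae_notMem.1 hg.volume_zero
  have hz : (∀ᵐ z, z ∉ K₀ → grad u₀ z = 0) → ∀ s, Q.dir u₀ 0 s = 0 := by
    intro h s
    unfold Q.dir
    have : ∫ z in ball (0 : ℂ) s, ‖grad u₀ z‖ ^ 2 = ∫ z in ball (0 : ℂ) s, (0 : ℝ) := by
      refine setIntegral_congr_ae measurableSet_ball ?_
      filter_upwards [h, hv] with z h1 h2 _
      rw [h1 h2]; simp
    rw [this]; simp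
  rcases hc u₀ (grad u₀) K₀ hg hr ⟨0, h0⟩ with ⟨hL, h⟩ | ⟨hL, h⟩ | ⟨u', hu', x, a, σ, c, ha, hσ, hK, hf⟩
  · exact ⟨fun _ => 0, ⟨h0, Or.inl ⟨hL, fun _ => rfl⟩⟩, continuousOn_const, hz h, Or.inl hL⟩
  · exact ⟨fun _ => 0, ⟨h0, Or.inr (Or.inl ⟨hL, fun _ => rfl⟩)⟩, continuousOn_const, hz h,
      Or.inr (Or.inl hL)⟩
  · refine ⟨fun s => ∫ z in ball (0 : ℂ) s, 1 / (2 * π * ‖z - x‖),
      ⟨h0, Or.inr (Or.inr ⟨x, a, ha, hK, fun s => rfl⟩)⟩, tip_cont x, ?_,
      Or.inr (Or.inr ⟨x, a, ha, hK⟩)⟩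
    have hopen : IsOpen K₀ᶜ := hg.closed.isOpen_compl
    have hnot : ∀ z ∈ K₀ᶜ, z ∉ {z | ∃ t : ℝ, 0 ≤ t ∧ z = x - t * a} := by
      intro z hz'; rw [← hK]; exact hz'
    have heq : EqOn u₀ (tipFn x a σ c) K₀ᶜ := by
      refine Measure.eqOn_open_of_ae_eq (μ := volume) ?_ hopen hs.continuousOn ?_
      · rw [EventuallyEq, ae_restrict_iff' hopen.measurableSet]
        filter_upwards [hu'] with z h1 h2
        rw [← h1 h2, hf z h2]
        rfl
      · intro z hz'
        refine ContinuousAt.continuousWithinAt ?_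
        by_contra hcon
        have hne : grad (tipFn x a σ c) z = 0 := by
          have h1 : ¬ DifferentiableAt ℝ (tipFn x a σ c) z := fun h => hcon h.continuousAt
          unfold grad
          rw [fderiv_zero_of_not_differentiableAt h1]
          apply Complex.ext <;> simp
        have h2 := norm_grad_tipFn ha hσ c (hnot z hz')
        rw [hne] at h2
        have hzx : z ≠ x := by
          rintro rfl
          exact hnot z hz' ⟨0, le_rfl, by simp⟩
        have h3 : 0 < ‖z - x‖ := norm_pos_iff.2 (sub_ne_zero.2 hzx)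
        have h4 : 0 < 1 / (2 * π * ‖z - x‖) := by
          have := Real.pi_pos
          positivity
        rw [← h2] at h4
        simp at h4
    intro s
    unfold Q.dir
    refine setIntegral_congr_ae measurableSet_ball ?_
    filter_upwards [hv] with z h2 _
    have h3 : grad u₀ z = grad (tipFn x a σ c) z := by
      have h4 : u₀ =ᶠ[𝓝 z] tipFn x a σ c := heq.eventuallyEq_of_mem (hopen.mem_nhds h2)
      unfold grad
      rw [h4.fderiv_eq]
    rw [h3, norm_grad_tipFn ha hσ c (hnot z h2)]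

/-- **Part II** from the blow-up statement. -/
theorem close_of_blowup (hc : Classified) (h : MS Ω g u G K M x₀ R₀) (hb : BlowUp u K x₀ R₀)
    {R ε : ℝ} (hR : 1 ≤ R) (hε : 0 < ε) : ∃ r₀ > 0, ∀ y ∈ K ∩ closedBall x₀ R₀, ∀ r, 0 < r →
      r ≤ r₀ → ∃ L F, IsModel L F ∧ Close G K y r L F R ε := by
  by_contra hcon
  push Not at hcon
  have hR0 := h.R0
  have hRpos : 0 < R := by linarith
  choose y hy r hr0 hr1 hbad using fun j : ℕ => hcon (1 / ((j : ℝ) + 1)) (by positivity)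
  have hrt : Tendsto r atTop (𝓝 0) :=
    squeeze_zero (fun j => (hr0 j).le) hr1 tendsto_one_div_add_atTop_nhds_zero_nat
  obtain ⟨φ, hφ, u₀, K₀, hg, hs, hred, h0, hnear, hfar, hdir, hlen, hup⟩ := hb y r hy hr0 hrt
  obtain ⟨F, hF, hFc, hFd, hmod⟩ := exists_model hc hg hs hred h0
  have hfinK₀ : ∀ s, μH[1] (K₀ ∩ ball 0 s) < ⊤ := fun s => (hg.len_fin 0 s).lt_top
  have hHc := model_Hn_cont hmod hfinK₀
  have hlenH : ∀ s, Q.len K₀ 0 s = Hn K₀ 0 s := fun s => (model_Hn hmod s).symm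
  have hφt : Tendsto φ atTop atTop := hφ.tendsto_atTop
  have hrt' : Tendsto (fun j => r (φ j)) atTop (𝓝 0) := hrt.comp hφt
  have hzero : ∀ j, y (φ j) + r (φ j) * (0 : ℂ) = y (φ j) := fun j => by ring
  -- the disks are contained in `Ω`
  have hsub : ∀ s : ℝ, 0 < s → ∀ᶠ j in atTop, ball (y (φ j)) (r (φ j) * s) ⊆ Ω := by
    intro s hs0
    have h1 : ∀ᶠ j in atTop, r (φ j) < R₀ / s :=
      hrt'.eventually (gt_mem_nhds (by positivity))
    filter_upwards [h1] with j hj
    rw [lt_div_iff₀ hs0] at hj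
    refine (ball_subset_closedBall.trans (closedBall_subset_closedBall' ?_)).trans h.sub
    have := mem_closedBall.mp (hy (φ j)).2
    linarith
  have hfinK : ∀ (z : ℂ) (s : ℝ), μH[1] (K ∩ closedBall z s) ≠ ⊤ := fun z s =>
    ((measure_mono inter_subset_left).trans_lt h.N.min.1.finite).ne
  have hlenle : ∀ (z : ℂ) (s t : ℝ), s ≤ t → Q.len K z s ≤ Hn K z t := fun z s t hst =>
    ENNReal.toReal_mono (hfinK z t)
      (measure_mono (inter_subset_inter_right _ (ball_subset_closedBall.trans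
        (closedBall_subset_closedBall hst))))
  have hHlt : ∀ (z : ℂ) (s t : ℝ), s < t → Hn K z s ≤ Q.len K z t := fun z s t hst =>
    ENNReal.toReal_mono (((measure_mono inter_subset_left).trans_lt h.N.min.1.finite).ne)
      (measure_mono (inter_subset_inter_right _ (closedBall_subset_ball hst)))
  -- energies
  have hE : ∀ᶠ j in atTop, ∀ s ∈ Icc (1 / R) R,
      |En G (y (φ j)) (s * r (φ j)) / r (φ j) - F s| ≤ ε := by
    refine unif_of_mono (F := F) (f := fun j s => En G (y (φ j)) (s * r (φ j)) / r (φ j))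
      (by positivity) hFc ?_ ?_ ?_ hε
    · intro j s t hst
      have := hr0 (φ j)
      exact div_le_div_of_nonneg_right (h.En_mono _ (by gcongr)) this.le
    · intro s hs0 e he
      filter_upwards [hdir 0 s e hs0 he, hsub s hs0] with j h1 h2
      rw [hzero, hFd s] at h1
      have h3 : s * r (φ j) = r (φ j) * s := mul_comm _ _
      rw [h3, h.En_dir h2, le_div_iff₀ (hr0 _)]
      exact h1
    · intro s hs0 e he
      filter_upwards [hup 0 s (e / 2) hs0 (by positivity), hlen 0 s (e / 2) hs0 (by positivity),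
        hsub s hs0] with j h1 h2 h3
      rw [hzero, hFd s] at h1
      rw [hzero, hlenH s] at h2
      have h4 : s * r (φ j) = r (φ j) * s := mul_comm _ _
      rw [h4, h.En_dir h3, div_le_iff₀ (hr0 _)]
      have h5 : (μH[1] (K₀ ∩ closedBall 0 s)).toReal = Hn K₀ 0 s := rfl
      rw [h5] at h1
      linarith only [h2, h1]
  -- lengths
  have hH : ∀ᶠ j in atTop, ∀ s ∈ Icc (1 / R) R,
      |Hn K (y (φ j)) (s * r (φ j)) / r (φ j) - Hn K₀ 0 s| ≤ ε := by
    refine unif_of_mono (F := Hn K₀ 0) (f := fun j s => Hn K (y (φ j)) (s * r (φ j)) / r (φ j))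
      (by positivity) hHc.continuousOn ?_ ?_ ?_ hε
    · intro j s t hst
      have := hr0 (φ j)
      exact div_le_div_of_nonneg_right (h.Hn_mono _ (by gcongr)) this.le
    · intro s hs0 e he
      filter_upwards [hlen 0 s e hs0 he] with j h1
      rw [hzero, hlenH s] at h1
      have h3 : s * r (φ j) = r (φ j) * s := mul_comm _ _
      rw [h3, le_div_iff₀ (hr0 _)]
      exact h1.trans (hlenle _ _ _ le_rfl)
    · intro s hs0 e he
      obtain ⟨t, hst, ht⟩ : ∃ t, s < t ∧ Hn K₀ 0 t ≤ Hn K₀ 0 s + e / 4 := by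
        have h1 : ∀ᶠ t in 𝓝 s, Hn K₀ 0 t < Hn K₀ 0 s + e / 4 :=
          hHc.continuousAt.eventually (gt_mem_nhds (by linarith))
        have h2 : ∀ᶠ t in 𝓝[>] s, Hn K₀ 0 t < Hn K₀ 0 s + e / 4 :=
          h1.filter_mono nhdsWithin_le_nhds
        obtain ⟨t, h3, h4⟩ := (h2.and self_mem_nhdsWithin).exists
        exact ⟨t, h4, h3.le⟩
      have ht0 : 0 < t := hs0.trans hst
      filter_upwards [hup 0 t (e / 4) ht0 (by positivity), hdir 0 t (e / 4) ht0 (by positivity)]
        with j h1 h2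
      rw [hzero] at h1 h2
      have h3 : s * r (φ j) = r (φ j) * s := mul_comm _ _
      have h4 : r (φ j) * s < r (φ j) * t := by
        have := hr0 (φ j)
        gcongr
      have h5 := hHlt (y (φ j)) _ _ h4
      rw [h3, div_le_iff₀ (hr0 _)]
      have h6 : (μH[1] (K₀ ∩ closedBall 0 t)).toReal = Hn K₀ 0 t := rfl
      rw [h6] at h1
      have h7 : Hn K₀ 0 t * r (φ j) ≤ (Hn K₀ 0 s + e / 4) * r (φ j) := by
        have := hr0 (φ j)
        gcongr
      have h8 := hr0 (φ j)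
      (by_contra nlg; linarith only [nlg, mul_nonneg (sub_nonneg.2 ht) (le_of_lt (sub_pos.2 h4)), mul_nonneg (le_of_lt (sub_pos.2 hst)) (sub_nonneg.2 h5), mul_nonneg (le_of_lt (sub_pos.2 hst)) (sub_nonneg.2 h2), mul_nonneg (le_of_lt (sub_pos.2 hst)) (sub_nonneg.2 h1), mul_pos (sub_pos.2 he) (sub_pos.2 h4), mul_pos (sub_pos.2 (not_le.1 nlg)) (sub_pos.2 hst)])
  -- points of `K` are close to the limit set
  have hA : ∀ᶠ j in atTop, ∀ z ∈ K ∩ closedBall (y (φ j)) (R * r (φ j)),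
      ∃ p ∈ K₀, dist z (y (φ j) + r (φ j) * p) ≤ ε * r (φ j) := by
    have hCc : IsCompact (closedBall (0 : ℂ) R ∩ {p | ε ≤ infDist p K₀}) :=
      (isCompact_closedBall 0 R).inter_right
        (isClosed_le continuous_const (continuous_infDist_pt K₀))
    have hCs : closedBall (0 : ℂ) R ∩ {p | ε ≤ infDist p K₀} ⊆ K₀ᶜ := by
      rintro p ⟨-, hp⟩ hpK
      have h1 : infDist p K₀ = 0 := infDist_zero_of_mem hpK
      have h2 : ε ≤ infDist p K₀ := hp
      linarith
    filter_upwards [hfar _ hCc hCs] with j hj z hz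
    have hrj := hr0 (φ j)
    have hrc : (r (φ j) : ℂ) ≠ 0 := by exact_mod_cast hrj.ne'
    set p : ℂ := (z - y (φ j)) / r (φ j) with hp
    have hzp : y (φ j) + r (φ j) * p = z := by rw [hp]; field_simp; ring
    have hpn : p ∈ closedBall (0 : ℂ) R := by
      rw [mem_closedBall, dist_zero_right, hp, norm_div, Complex.norm_real, Real.norm_eq_abs,
        abs_of_pos hrj, div_le_iff₀ hrj, ← dist_eq_norm]
      exact mem_closedBall.mp hz.2
    have hpC : ¬ ε ≤ infDist p K₀ := by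
      intro hcon'
      exact hj p ⟨hpn, hcon'⟩ (by rw [hzp]; exact hz.1)
    push Not at hpC
    obtain ⟨q, hq, hqd⟩ := (infDist_lt_iff ⟨0, h0⟩).1 hpC
    refine ⟨q, hq, ?_⟩
    have h1 : z - (y (φ j) + r (φ j) * q) = r (φ j) * (p - q) := by
      rw [← hzp]; ring
    rw [dist_eq_norm, h1, norm_mul, Complex.norm_real, Real.norm_eq_abs, abs_of_pos hrj,
      mul_comm, ← dist_eq_norm]
    gcongr
  -- points of the limit set are close to `K`
  have hB : ∀ᶠ j in atTop, ∀ p ∈ K₀ ∩ closedBall 0 R,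
      ∃ z ∈ K, dist z (y (φ j) + r (φ j) * p) ≤ ε * r (φ j) := by
    have hcomp : IsCompact (K₀ ∩ closedBall 0 R) := (isCompact_closedBall 0 R).inter_left hg.closed
    refine hcomp.induction_on (p := fun S => ∀ᶠ j in atTop, ∀ p ∈ S,
      ∃ z ∈ K, dist z (y (φ j) + r (φ j) * p) ≤ ε * r (φ j)) ?_ ?_ ?_ ?_
    · exact Eventually.of_forall fun j s hs => absurd hs (notMem_empty s)
    · intro S T hST h1
      filter_upwards [h1] with j hj s hs using hj s (hST hs)
    · intro S T hS hT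
      filter_upwards [hS, hT] with j h1 h2 s hs
      rcases hs with hs | hs
      · exact h1 s hs
      · exact h2 s hs
    · intro q hq
      refine ⟨ball q (ε / 2), mem_nhdsWithin_of_mem_nhds (ball_mem_nhds q (by positivity)), ?_⟩
      filter_upwards [hnear q hq.1 (ε / 2) (by positivity)] with j hj p hp
      obtain ⟨z, hz, hzd⟩ := hj
      have hrj := hr0 (φ j)
      refine ⟨z, hz, ?_⟩
      have h1 : dist (y (φ j) + r (φ j) * q) (y (φ j) + r (φ j) * p) ≤ ε / 2 * r (φ j) := by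
        rw [dist_eq_norm]
        have e1 : y (φ j) + r (φ j) * q - (y (φ j) + r (φ j) * p) = r (φ j) * (q - p) := by ring
        rw [e1, norm_mul, Complex.norm_real, Real.norm_eq_abs, abs_of_pos hrj, mul_comm,
          ← dist_eq_norm, dist_comm]
        have := (mem_ball.mp hp).le
        gcongr
      have h2 := dist_triangle z (y (φ j) + r (φ j) * q) (y (φ j) + r (φ j) * p)
      linarith only [h2, h1, hzd]
  obtain ⟨j, h1, h2, h3, h4⟩ := (hE.and (hH.and (hA.and hB))).exists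
  refine hbad (φ j) K₀ F hF ⟨h3, fun p hp hpR => h4 p ⟨hp, by simpa using hpR⟩, ?_⟩
  intro s hs1 hs2
  exact ⟨h1 s ⟨hs1, hs2⟩, h2 s ⟨hs1, hs2⟩⟩

end Vale.Agent.P128.Q1
end

section

open MeasureTheory Set Metric Filter
open scoped ENNReal NNReal Topology Real ContDiff

namespace Vale.Agent.P128

/-- A star with at least three rays, modified near the centre with a stem of length `κ a`. -/
theorem exists_star_K {T : Finset ℂ} (h1 : ∀ w ∈ T, ‖w‖ = 1) (hcard : 3 ≤ T.card)
    (hgap : ∀ p ∈ T, gap (T : Set ℂ) p < π) {p : ℂ} (hp : p ∈ T)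
    (hpmin : ∀ w ∈ T, gap (T : Set ℂ) p ≤ gap (T : Set ℂ) w) {β κ : ℝ}
    (hβdef : β = gap (T : Set ℂ) p / 2) (hκ : 0 < κ) (hκβ : κ < Real.cos β)
    (x : ℂ) {a s : ℝ} (ha : 0 < a) (has : a < s) :
    ∃ (L : Set ℂ) (U : ℂ → Set ℂ), IsClosed L ∧ L ⊆ closedBall x s ∧
      μH[1] L ≤ ENNReal.ofReal (T.card * s - (κ * (2 * Real.cos β - 1) - κ ^ 2) * a) ∧
      (∀ r ∈ Icc a s, ∀ w ∈ T, x + r • w ∈ L) ∧
      ∀ p ∈ T, IsOpen (U p) ∧ closure (U p) ∩ ball x s ⊆ U p ∪ L ∧
        (∀ e, ‖e‖ = 1 → (x + a • e ∈ U p ↔ e ∈ arcAfter (T : Set ℂ) p)) ∧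
        ∀ r : ℝ, 0 < r → volume (ang ∩ {θ | x + r • uc θ ∈ U p}) ≤
          ENNReal.ofReal (2 * gap (T : Set ℂ) p) := by
  classical
  have hπ := Real.pi_pos
  have hne : T.Nonempty := Finset.card_pos.mp (by omega)
  have hsum := sum_gap hne h1
  obtain ⟨g1, g2, g3, g4⟩ := gap_spec T.finite_toSet hp (h1 p hp)
  have hgp : gap (T : Set ℂ) p < π := hgap p hp
  have hβ : 0 < β := by linarith only [g1, hβdef]
  have hβ' : β < π / 2 := by linarith only [hgp, hβdef]
  have hκ1 : κ ≤ 1 := hκβ.le.trans (Real.cos_le_one β)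
  have hκa : 0 < κ * a := mul_pos hκ ha
  have hκa' : κ * a ≤ a := by (by_contra nlg; linarith only [nlg, mul_nonneg (sub_nonneg.2 hκ1) (le_of_lt (sub_pos.2 hκa)), mul_pos (sub_pos.2 (not_le.1 nlg)) (sub_pos.2 hκ)])
  have hg2 : gap (T : Set ℂ) p = 2 * β := by linarith
  set q : ℂ := p * uc β with hqdef
  have hq : ‖q‖ = 1 := by rw [hqdef, norm_mul, h1 p hp, norm_uc, mul_one]
  have hq0 : q ≠ 0 := by rw [← norm_ne_zero_iff, hq]; exact one_ne_zero
  have hp0 : p ≠ 0 := by rw [← norm_ne_zero_iff, h1 p hp]; exact one_ne_zero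
  set w₂ : ℂ := p * uc (gap (T : Set ℂ) p) with hw₂
  have hw₂T : w₂ ∈ T := g3
  have hw₂q : w₂ = q * uc β := by
    rw [hw₂, hqdef, mul_assoc, ← uc_add, hg2]; congr 2; ring
  have hpq : p = q * uc (-β) := by
    rw [hqdef, mul_assoc, ← uc_add, add_neg_cancel, uc_zero, mul_one]
  obtain ⟨k1, k2, k3, k4⟩ := gap_spec T.finite_toSet hw₂T (h1 w₂ hw₂T)
  have hgw := hgap w₂ hw₂T
  have hw₂p : w₂ ≠ p := by
    intro h
    have h2 : uc (gap (T : Set ℂ) p) = 1 := by
      have : p * uc (gap (T : Set ℂ) p) = p * 1 := by rw [mul_one]; exact h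
      exact mul_left_cancel₀ hp0 this
    exact uc_eq_one h2 g1 (by linarith only [hg2, hβ', hβ])
  set n₂ : ℂ := w₂ * uc (gap (T : Set ℂ) w₂) with hn₂
  have hn₂p : n₂ ≠ p := by
    intro h
    have h2 : uc (gap (T : Set ℂ) p + gap (T : Set ℂ) w₂) = 1 := by
      have : p * uc (gap (T : Set ℂ) p + gap (T : Set ℂ) w₂) = p * 1 := by
        rw [mul_one, uc_add, ← mul_assoc]; exact h
      exact mul_left_cancel₀ hp0 this
    exact uc_eq_one h2 (by linarith) (by linarith)
  have hw₂0 : w₂ ≠ 0 := by rw [← norm_ne_zero_iff, h1 w₂ hw₂T]; exact one_ne_zero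
  have hn₂w : n₂ ≠ w₂ := by
    intro h
    have h2 : uc (gap (T : Set ℂ) w₂) = 1 := by
      have : w₂ * uc (gap (T : Set ℂ) w₂) = w₂ * 1 := by rw [mul_one]; exact h
      exact mul_left_cancel₀ hw₂0 this
    exact uc_eq_one h2 k1 (by linarith only [hgw, hβ', hβ])
  -- the predecessor of `p`
  obtain ⟨pL, hpL, t, ht0, htg, hpt⟩ := exists_prev T.finite_toSet (by exact hne)
    h1 (h1 p hp)
  obtain ⟨l1, l2, l3, l4⟩ := gap_spec T.finite_toSet hpL (h1 pL hpL)
  have htL : t = gap (T : Set ℂ) pL := by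
    rcases eq_or_lt_of_le htg with h | h
    · exact h
    · exact absurd (hpt ▸ hp) (l4 t ht0 h)
  rw [htL] at hpt
  have hgL := hgap pL hpL
  have hpL0 : pL ≠ 0 := by rw [← norm_ne_zero_iff, h1 pL hpL]; exact one_ne_zero
  have hpLp : pL ≠ p := by
    intro h
    rw [h] at hpt
    have h2 : uc (gap (T : Set ℂ) p) = 1 := by
      have : p * uc (gap (T : Set ℂ) p) = p * 1 := by rw [mul_one]; exact hpt.symm
      exact mul_left_cancel₀ hp0 this
    exact uc_eq_one h2 g1 (by linarith only [hg2, hβ', hβ])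
  have hpLw : pL ≠ w₂ := by
    intro h
    rw [h] at hpt
    exact hn₂p hpt.symm
  have hpLq : pL = q * uc ((-1) * (β + gap (T : Set ℂ) pL)) := by
    have h2 : pL = p * uc (-gap (T : Set ℂ) pL) := by
      have h3 : p * uc (-gap (T : Set ℂ) pL) = pL * (uc (gap (T : Set ℂ) pL) *
          uc (-gap (T : Set ℂ) pL)) := by rw [← mul_assoc, ← hpt]
      rw [h3, mul_comm (uc (gap (T : Set ℂ) pL)), uc_neg_mul, mul_one]
    rw [h2, hqdef, mul_assoc, ← uc_add]
    congr 2
    ring_nf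
    rw [← h2]
  -- the set
  set T' : Finset ℂ := (T.erase p).erase w₂ with hT'
  have hT'card : T'.card = T.card - 2 := by
    rw [hT', Finset.card_erase_of_mem (Finset.mem_erase.mpr ⟨hw₂p, hw₂T⟩),
      Finset.card_erase_of_mem hp]
    omega
  have hT'mem : ∀ w, w ∈ T' ↔ w ≠ w₂ ∧ w ≠ p ∧ w ∈ T := by
    intro w; rw [hT', Finset.mem_erase, Finset.mem_erase]
  set Z : ℂ := x + (κ * a) • q with hZ
  set L : Set ℂ := ((⋃ w ∈ T', segment ℝ (x + (0 : ℝ) • w) (x + s • w)) ∪
    (segment ℝ (x + a • p) (x + s • p) ∪ segment ℝ (x + a • w₂) (x + s • w₂))) ∪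
    (segment ℝ (x + (0 : ℝ) • q) Z ∪ (segment ℝ Z (x + a • (q * uc (1 * β))) ∪
      segment ℝ Z (x + a • (q * uc ((-1) * β))))) with hL
  have hu1 : q * uc (1 * β) = w₂ := by rw [one_mul, hw₂q]
  have hu2 : q * uc ((-1) * β) = p := by rw [neg_one_mul, ← hpq]
  have hLc : IsCompact L := by
    refine IsCompact.union (IsCompact.union ?_ ?_) ?_
    · exact T'.finite_toSet.isCompact_biUnion fun w _ => isCompact_seg _ _
    · exact (isCompact_seg _ _).union (isCompact_seg _ _)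
    · exact (isCompact_seg _ _).union ((isCompact_seg _ _).union (isCompact_seg _ _))
  have hs0 : 0 < s := ha.trans has
  -- membership criteria
  have M1 : ∀ w ∈ T, w ≠ p → w ≠ w₂ → ∀ ρ : ℝ, 0 ≤ ρ → ρ ≤ s → x + ρ • w ∈ L := by
    intro w hw hwp hww ρ h2 h3
    left; left
    exact mem_iUnion₂.mpr ⟨w, (hT'mem w).mpr ⟨hww, hwp, hw⟩, mem_seg_ray x w h2 h3⟩
  have M2 : ∀ ρ : ℝ, a ≤ ρ → ρ ≤ s → x + ρ • p ∈ L := fun ρ h2 h3 =>
    Or.inl (Or.inr (Or.inl (mem_seg_ray x p h2 h3)))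
  have M3 : ∀ ρ : ℝ, a ≤ ρ → ρ ≤ s → x + ρ • w₂ ∈ L := fun ρ h2 h3 =>
    Or.inl (Or.inr (Or.inr (mem_seg_ray x w₂ h2 h3)))
  have M4 : ∀ ρ : ℝ, 0 ≤ ρ → ρ ≤ κ * a → x + ρ • q ∈ L := fun ρ h2 h3 =>
    Or.inr (Or.inl (mem_seg_ray x q h2 h3))
  have hLs : L ⊆ closedBall x s := by
    have hcb : ∀ (w : ℂ), ‖w‖ = 1 → ∀ ρ : ℝ, 0 ≤ ρ → ρ ≤ s → x + ρ • w ∈ closedBall x s := by
      intro w hw ρ h2 h3
      rw [mem_closedBall, dist_eq_norm, norm_add_smul_sub x hw h2]; exact h3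
    have hcv := convex_closedBall x s
    have hseg : ∀ y z, y ∈ closedBall x s → z ∈ closedBall x s →
        segment ℝ y z ⊆ closedBall x s := fun y z hy hz => hcv.segment_subset hy hz
    refine union_subset (union_subset (iUnion₂_subset fun w hw => ?_) (union_subset ?_ ?_))
      (union_subset ?_ (union_subset ?_ ?_))
    · have hw1 := h1 w ((hT'mem w).mp hw).2.2
      exact hseg _ _ (hcb w hw1 0 le_rfl hs0.le) (hcb w hw1 s hs0.le le_rfl)
    · exact hseg _ _ (hcb p (h1 p hp) a ha.le has.le) (hcb p (h1 p hp) s hs0.le le_rfl)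
    · exact hseg _ _ (hcb w₂ (h1 w₂ hw₂T) a ha.le has.le) (hcb w₂ (h1 w₂ hw₂T) s hs0.le le_rfl)
    · exact hseg _ _ (hcb q hq 0 le_rfl hs0.le) (hcb q hq _ (by positivity) (by linarith only [hκa', has]))
    · rw [hu1]
      exact hseg _ _ (hcb q hq _ (by positivity) (by linarith only [hκa', has]))
        (hcb w₂ (h1 w₂ hw₂T) a ha.le has.le)
    · rw [hu2]
      exact hseg _ _ (hcb q hq _ (by positivity) (by linarith only [hκa', has]))
        (hcb p (h1 p hp) a ha.le has.le)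
  obtain ⟨c, hc⟩ : ∃ c, c = (1 - κ * Real.cos β + κ ^ 2 / 2) * a := ⟨_, rfl⟩
  have hc0 : 0 ≤ c := by
    rw [hc]
    refine mul_nonneg ?_ ha.le
    have := mul_le_mul_of_nonneg_left (Real.cos_le_one β) hκ.le
    linarith only [sq_nonneg κ, this, hκ1]
  have hLm : μH[1] L ≤ ENNReal.ofReal (T.card * s - (κ * (2 * Real.cos β - 1) - κ ^ 2) * a) := by
    have e1 : μH[1] (⋃ w ∈ T', segment ℝ (x + (0 : ℝ) • w) (x + s • w)) ≤
        ENNReal.ofReal ((T.card - 2) * s) := by
      refine (measure_biUnion_finset_le T' _).trans ?_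
      have e2 : ∀ w ∈ T', μH[1] (segment ℝ (x + (0 : ℝ) • w) (x + s • w)) =
          ENNReal.ofReal s := by
        intro w hw
        rw [hausdorff_ray x w (h1 w ((hT'mem w).mp hw).2.2) hs0.le, sub_zero]
      rw [Finset.sum_congr rfl e2, Finset.sum_const, nsmul_eq_mul, hT'card,
        ← ENNReal.ofReal_natCast, ← ENNReal.ofReal_mul (by (clear * -; positivity))]
      refine ENNReal.ofReal_le_ofReal (le_of_eq ?_)
      rw [Nat.cast_sub (by omega)]
      norm_num
    have e3 := hausdorff_ray x p (h1 p hp) has.le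
    have e4 := hausdorff_ray x w₂ (h1 w₂ hw₂T) has.le
    have e5 := hausdorff_ray x q hq (show (0 : ℝ) ≤ κ * a by positivity)
    have e6 := hausdorff_shortK x q hq (β := β) (σ := 1) (by norm_num) ha hκ hκ1
    have e7 := hausdorff_shortK x q hq (β := β) (σ := -1) (by norm_num) ha hκ hκ1
    rw [← hc] at e6 e7
    have h4 : (3 : ℝ) ≤ T.card := by exact_mod_cast hcard
    have hnn : 0 ≤ ((T.card : ℝ) - 2) * s := mul_nonneg (by linarith only [h4]) hs0.le
    calc μH[1] L ≤ (ENNReal.ofReal ((T.card - 2) * s) +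
          (ENNReal.ofReal (s - a) + ENNReal.ofReal (s - a))) +
          (ENNReal.ofReal (κ * a - 0) + (ENNReal.ofReal c +
            ENNReal.ofReal c)) := by
          refine (measure_union_le _ _).trans (add_le_add ((measure_union_le _ _).trans
            (add_le_add e1 ((measure_union_le _ _).trans (add_le_add e3.le e4.le))))
            ((measure_union_le _ _).trans (add_le_add e5.le ((measure_union_le _ _).trans
            (add_le_add e6 e7)))))
      _ = ENNReal.ofReal (((T.card - 2) * s + ((s - a) + (s - a))) +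
          ((κ * a - 0) + (c + c))) := by
          have hsa : 0 ≤ s - a := by linarith only [has]
          rw [ENNReal.ofReal_add (by (clear * - hnn has; positivity)) (by rw [sub_zero]; (clear * - hκ ha hc0; positivity)),
            ENNReal.ofReal_add hnn (by positivity), ENNReal.ofReal_add hsa hsa,
            ENNReal.ofReal_add (by rw [sub_zero]; positivity) (by (clear * - hc0; positivity)),
            ENNReal.ofReal_add (by (clear * - hc0; positivity)) (by (clear * - hc0; positivity))]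
      _ ≤ ENNReal.ofReal (T.card * s - (κ * (2 * Real.cos β - 1) - κ ^ 2) * a) := by
          refine ENNReal.ofReal_le_ofReal ?_
          rw [hc]
          linarith only []
  -- the regions
  let U : ℂ → Set ℂ := fun w => if w = p then pm x q 1 '' midK κ a β else
    if w = w₂ then pm x q 1 '' sideK κ a β (gap (T : Set ℂ) w₂) else
    if w = pL then pm x q (-1) '' sideK κ a β (gap (T : Set ℂ) pL) else
    pm x w 1 '' secS (gap (T : Set ℂ) w)
  have hUp : U p = pm x q 1 '' midK κ a β := if_pos rfl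
  have hUw : U w₂ = pm x q 1 '' sideK κ a β (gap (T : Set ℂ) w₂) := by
    simp only [U, if_neg hw₂p, if_true]
  have hUL : U pL = pm x q (-1) '' sideK κ a β (gap (T : Set ℂ) pL) := by
    simp only [U, if_neg hpLp, if_neg hpLw, if_true]
  have hUo : ∀ w, w ≠ p → w ≠ w₂ → w ≠ pL → U w = pm x w 1 '' secS (gap (T : Set ℂ) w) := by
    intro w a1 a2 a3
    simp only [U, if_neg a1, if_neg a2, if_neg a3]
  -- radii in the ball
  have hrad : ∀ (e : ℂ), ‖e‖ = 1 → ∀ ρ : ℝ, 0 ≤ ρ → x + ρ • e ∈ ball x s → ρ ≤ s := by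
    intro e he ρ hρ hb
    rw [mem_ball, dist_eq_norm, norm_add_smul_sub x he hρ] at hb
    exact hb.le
  refine ⟨L, U, hLc.isClosed, hLs, hLm, ?_, ?_⟩
  · intro r hr w hw
    by_cases hwp : w = p
    · rw [hwp]; exact M2 r hr.1 hr.2
    · by_cases hww : w = w₂
      · rw [hww]; exact M3 r hr.1 hr.2
      · exact M1 w hw hwp hww r (ha.le.trans hr.1) hr.2
  · intro w hw
    by_cases hwp : w = p
    · -- the middle region
      rw [hwp, hUp]
      refine ⟨isOpen_pm_image hq0 (by norm_num) (isOpen_midK κ a β) midK_pos, ?_, ?_, ?_⟩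
      · rintro z ⟨hz, hzb⟩
        rcases closure_midK hq ha hβ hβ' hκ hκβ hz with h | ⟨ρ, h2, rfl⟩ | ⟨ρ, h2, rfl⟩ | h | h
        · exact Or.inl h
        · right
          rw [hu1] at hzb ⊢
          exact M3 ρ h2 (hrad w₂ (h1 w₂ hw₂T) ρ (ha.le.trans h2) hzb)
        · right
          rw [hu2] at hzb ⊢
          exact M2 ρ h2 (hrad p (h1 p hp) ρ (ha.le.trans h2) hzb)
        · exact Or.inr (Or.inr (Or.inr (Or.inl h)))
        · exact Or.inr (Or.inr (Or.inr (Or.inr h)))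
      · intro e he
        rw [sphere_midK hq he ha hβ' hκ hκβ]
        constructor
        · rintro ⟨t, ht, rfl⟩
          refine ⟨β + t, ⟨by linarith only [ht.1], by rw [hg2]; linarith only [ht.2]⟩, ?_⟩
          rw [hqdef, mul_assoc, ← uc_add]
        · rintro ⟨t, ht, rfl⟩
          rw [hg2] at ht
          refine ⟨t - β, ⟨by linarith only [ht.1], by linarith only [ht.2]⟩, ?_⟩
          rw [hqdef, mul_assoc, ← uc_add]
          congr 2; ring
      · intro r hr
        have h2 := volume_dir hq (α₁ := -β) (α₂ := β) (by linarith only [hβ]) (by linarith only [hβ', hβ])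
        refine (measure_mono ?_).trans (h2.le.trans (ENNReal.ofReal_le_ofReal (by linarith only [hg2, hβ])))
        rintro θ ⟨hθ, hθ'⟩
        rw [mem_ofPred_eq] at hθ'
        obtain ⟨t, ⟨a1, a2, a3, a4⟩, a5⟩ := dir_of_mem hq (norm_uc θ) hr midK_pos hθ'
        rw [one_mul] at a5
        exact ⟨hθ, t, ⟨a2, a3⟩, a5⟩
    by_cases hww : w = w₂
    · -- the region after `w₂`
      rw [hww, hUw]
      refine ⟨isOpen_pm_image hq0 (by norm_num) (isOpen_sideK κ a β _) sideK_pos, ?_, ?_, ?_⟩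
      · rintro z ⟨hz, hzb⟩
        have hn₂q : q * uc (1 * (β + gap (T : Set ℂ) w₂)) = n₂ := by
          rw [one_mul, uc_add, ← mul_assoc, ← hw₂q]
        rcases closure_sideK hq (by norm_num) ha hβ hβ' hκ hz with
          h | ⟨ρ, h2, h3, rfl⟩ | ⟨ρ, h2, rfl⟩ | ⟨ρ, h2, rfl⟩ | h
        · exact Or.inl h
        · exact Or.inr (M4 ρ h2 h3)
        · right
          rw [hu1] at hzb ⊢
          exact M3 ρ h2 (hrad w₂ (h1 w₂ hw₂T) ρ (ha.le.trans h2) hzb)
        · right
          rw [hn₂q] at hzb ⊢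
          exact M1 n₂ k3 hn₂p hn₂w ρ h2 (hrad n₂ (h1 n₂ k3) ρ h2 hzb)
        · exact Or.inr (Or.inr (Or.inr (Or.inl h)))
      · intro e he
        rw [sphere_sideK hq he ha hβ hβ' hκ hκβ]
        constructor
        · rintro ⟨t, ht, rfl⟩
          exact ⟨t, ht, by rw [one_mul, uc_add, ← mul_assoc, ← hw₂q]⟩
        · rintro ⟨t, ht, rfl⟩
          exact ⟨t, ht, by rw [one_mul, uc_add, ← mul_assoc, ← hw₂q]⟩
      · intro r hr
        have hmin := hpmin w₂ hw₂T
        have h2 := volume_dir hq (α₁ := 0) (α₂ := β + gap (T : Set ℂ) w₂) (by linarith only [hmin, hg2, hβ])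
          (by linarith only [hmin, hgw, hg2, hβ])
        refine (measure_mono ?_).trans (h2.le.trans (ENNReal.ofReal_le_ofReal (by linarith only [hmin, hg2, hβ])))
        rintro θ ⟨hθ, hθ'⟩
        rw [mem_ofPred_eq] at hθ'
        obtain ⟨t, ⟨a1, a2, a3, a4⟩, a5⟩ := dir_of_mem hq (norm_uc θ) hr sideK_pos hθ'
        rw [one_mul] at a5
        exact ⟨hθ, t, ⟨a2, a3⟩, a5⟩
    by_cases hwL : w = pL
    · -- the region before `p`
      rw [hwL, hUL]
      refine ⟨isOpen_pm_image hq0 (by norm_num) (isOpen_sideK κ a β _) sideK_pos, ?_, ?_, ?_⟩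
      · rintro z ⟨hz, hzb⟩
        rcases closure_sideK hq (by norm_num) ha hβ hβ' hκ hz with
          h | ⟨ρ, h2, h3, rfl⟩ | ⟨ρ, h2, rfl⟩ | ⟨ρ, h2, rfl⟩ | h
        · exact Or.inl h
        · exact Or.inr (M4 ρ h2 h3)
        · right
          rw [hu2] at hzb ⊢
          exact M2 ρ h2 (hrad p (h1 p hp) ρ (ha.le.trans h2) hzb)
        · right
          rw [← hpLq] at hzb ⊢
          exact M1 pL hpL hpLp hpLw ρ h2 (hrad pL (h1 pL hpL) ρ h2 hzb)
        · exact Or.inr (Or.inr (Or.inr (Or.inr h)))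
      · intro e he
        rw [sphere_sideK hq he ha hβ hβ' hκ hκβ]
        constructor
        · rintro ⟨t, ht, rfl⟩
          refine ⟨gap (T : Set ℂ) pL - t, ⟨by linarith only [ht.2], by linarith only [ht.1]⟩, ?_⟩
          have h2 : gap (T : Set ℂ) pL - t = gap (T : Set ℂ) pL + -t := by ring
          rw [h2, uc_add, ← mul_assoc, ← hpt]
          have h3 : (-1) * (β + t) = (-1) * β + -t := by ring
          rw [h3, uc_add, ← mul_assoc, hu2]
        · rintro ⟨t, ht, rfl⟩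
          refine ⟨gap (T : Set ℂ) pL - t, ⟨by linarith only [ht.2], by linarith only [ht.1]⟩, ?_⟩
          have h3 : (-1) * (β + (gap (T : Set ℂ) pL - t)) =
              (-1) * (β + gap (T : Set ℂ) pL) + t := by ring
          rw [h3, uc_add, ← mul_assoc, ← hpLq]
      · intro r hr
        have hmin := hpmin pL hpL
        have h2 := volume_dir hq (α₁ := -(β + gap (T : Set ℂ) pL)) (α₂ := 0) (by linarith only [hmin, hg2, hβ])
          (by linarith only [hmin, hgL, hg2, hβ])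
        refine (measure_mono ?_).trans (h2.le.trans (ENNReal.ofReal_le_ofReal (by linarith only [hmin, hg2, hβ])))
        rintro θ ⟨hθ, hθ'⟩
        rw [mem_ofPred_eq] at hθ'
        obtain ⟨t, ⟨a1, a2, a3, a4⟩, a5⟩ := dir_of_mem hq (norm_uc θ) hr sideK_pos hθ'
        simp only at a2 a3
        exact ⟨hθ, -t, ⟨by linarith, by linarith⟩, by rw [a5, neg_one_mul]⟩
    · -- plain sectors
      obtain ⟨m1, m2, m3, m4⟩ := gap_spec T.finite_toSet hw (h1 w hw)
      have hw1 := h1 w hw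
      have hw0 : w ≠ 0 := by rw [← norm_ne_zero_iff, hw1]; exact one_ne_zero
      rw [hUo w hwp hww hwL]
      refine ⟨isOpen_pm_image hw0 (by norm_num) (isOpen_secS _) secS_pos, ?_, ?_, ?_⟩
      · rintro z ⟨hz, hzb⟩
        rcases closure_sec hw1 hz with h | ⟨ρ, h2, rfl⟩ | ⟨ρ, h2, rfl⟩
        · exact Or.inl h
        · exact Or.inr (M1 w hw hwp hww ρ h2 (hrad w hw1 ρ h2 hzb))
        · right
          refine M1 _ m3 (fun h => hwL ?_) (fun h => hwp ?_) ρ h2 (hrad _ (h1 _ m3) ρ h2 hzb)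
          · exact next_inj h1 hw hpL (h.trans hpt)
          · exact next_inj h1 hw hp h
      · intro e he
        exact sphere_sec hw1 he ha
      · intro r hr
        have h2 := volume_dir hw1 (α₁ := 0) (α₂ := gap (T : Set ℂ) w) m1.le (by linarith only [m2])
        refine (measure_mono ?_).trans (h2.le.trans (ENNReal.ofReal_le_ofReal (by linarith)))
        rintro θ ⟨hθ, hθ'⟩
        rw [mem_ofPred_eq] at hθ'
        obtain ⟨t, ⟨a1, a2, a3⟩, a5⟩ := dir_of_mem hw1 (norm_uc θ) hr secS_pos hθ'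
        rw [one_mul] at a5
        exact ⟨hθ, t, ⟨a2, a3⟩, a5⟩

end Vale.Agent.P128
end

section

open MeasureTheory Set Metric Filter
open scoped ENNReal NNReal Topology Real ContDiff

namespace Vale.Agent.P128

theorem starData_K {T : Finset ℂ} (h1 : ∀ w ∈ T, ‖w‖ = 1) (hcard : 3 ≤ T.card)
    (hgap : ∀ p ∈ T, gap (T : Set ℂ) p < π) {p : ℂ} (hp : p ∈ T)
    (hpmin : ∀ w ∈ T, gap (T : Set ℂ) p ≤ gap (T : Set ℂ) w) {β κ : ℝ}
    (hβdef : β = gap (T : Set ℂ) p / 2) (hκ : 0 < κ) (hκβ : κ < Real.cos β)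
    (x : ℂ) {a s : ℝ} (ha : 0 < a) (has : a < s) :
    StarData T x a s (T.card * s - (κ * (2 * Real.cos β - 1) - κ ^ 2) * a) :=
  exists_star_K h1 hcard hgap hp hpmin hβdef hκ hκβ x ha has

theorem norm_sub_uc {w : ℂ} (hw : ‖w‖ = 1) (t : ℝ) : ‖w - w * uc t‖ = 2 * |Real.sin (t / 2)| := by
  have e : w - w * uc t = w * (1 - uc t) := by ring
  rw [e, norm_mul, hw, one_mul]
  have h2 : ‖1 - uc t‖ ^ 2 = (2 * |Real.sin (t / 2)|) ^ 2 := by
    rw [uc_cos_sin, ← Complex.normSq_eq_norm_sq, mul_pow, sq_abs]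
    have e2 : (1 : ℂ) - (Real.cos t + Real.sin t * Complex.I) =
        ⟨1 - Real.cos t, -Real.sin t⟩ := by
      apply Complex.ext <;> simp [Complex.cos_ofReal_re, Complex.sin_ofReal_re]
    rw [e2, Complex.normSq_mk]
    have h3 := Real.sin_sq_add_cos_sq t
    have h4 : Real.cos t = 1 - 2 * Real.sin (t / 2) ^ 2 := by
      have := Real.cos_two_mul' (t / 2)
      have h5 := Real.sin_sq_add_cos_sq (t / 2)
      rw [show 2 * (t / 2) = t by ring] at this
      linarith
    nlinarith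
  exact (pow_left_inj₀ (norm_nonneg _) (by positivity) two_ne_zero).mp h2

/-- Two points at small distance give a small gap. -/
theorem small_gap {T : Finset ℂ} (h1 : ∀ w ∈ T, ‖w‖ = 1) {w w' : ℂ} (hw : w ∈ T) (hw' : w' ∈ T)
    (hne : w ≠ w') : ∃ v ∈ T, gap (T : Set ℂ) v ≤ π ∧
      2 * Real.sin (gap (T : Set ℂ) v / 2) ≤ ‖w - w'‖ := by
  have hπ := Real.pi_pos
  -- the angle between the two points
  have key : ∀ {w w' : ℂ}, w ∈ T → w' ∈ T → ∀ t : ℝ, 0 < t → t ≤ π → w' = w * uc t →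
      ∃ v ∈ T, gap (T : Set ℂ) v ≤ π ∧ 2 * Real.sin (gap (T : Set ℂ) v / 2) ≤ ‖w - w'‖ := by
    intro w w' hw hw' t ht0 htπ he
    obtain ⟨g1, g2, g3, g4⟩ := gap_spec T.finite_toSet hw (h1 w hw)
    have hgt : gap (T : Set ℂ) w ≤ t := by
      by_contra hlt
      exact g4 t ht0 (not_le.mp hlt) (by rw [← he]; exact hw')
    refine ⟨w, hw, hgt.trans htπ, ?_⟩
    rw [he, norm_sub_uc (h1 w hw)]
    have h2 : Real.sin (gap (T : Set ℂ) w / 2) ≤ Real.sin (t / 2) :=
      Real.sin_le_sin_of_le_of_le_pi_div_two (by linarith) (by linarith) (by linarith)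
    linarith [le_abs_self (Real.sin (t / 2))]
  have hw0 := ne_zero_of_norm_one (h1 w hw)
  have hw0' := ne_zero_of_norm_one (h1 w' hw')
  have hq : ‖w' / w‖ = 1 := by rw [norm_div, h1 w hw, h1 w' hw', div_one]
  have harg := uc_arg hq
  have he : w' = w * uc (w' / w).arg := by rw [harg]; field_simp
  rcases lt_trichotomy (w' / w).arg 0 with h | h | h
  · have h2 := Complex.neg_pi_lt_arg (w' / w)
    obtain ⟨v, hv, h3, h4⟩ := key hw' hw (-(w' / w).arg) (by linarith) (by linarith) (by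
      have e3 : w' * uc (-(w' / w).arg) = w * uc (w' / w).arg * uc (-(w' / w).arg) := by
        rw [← he]
      rw [e3, mul_assoc, ← uc_add, add_neg_cancel, uc_zero, mul_one])
    refine ⟨v, hv, h3, ?_⟩
    rw [norm_sub_rev]; exact h4
  · exfalso
    rw [h, uc_zero, mul_one] at he
    exact hne he.symm
  · exact key hw hw' _ h (Complex.arg_le_pi _) he

end Vale.Agent.P128
end

section

/-! TR4: the length estimate for circles meeting the set in three spread points. -/

set_option linter.all false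

open MeasureTheory Set Metric Filter ComplexConjugate
open scoped ENNReal NNReal Topology Real ContDiff

namespace Vale.Agent.P128.Q1

open Vale.Agent.P128

/-- Cosine of half the smallest gap of three directions. -/
theorem tri_cos_lower {T : Finset ℂ} (hu : ∀ w ∈ T, ‖w‖ = 1) {w w' : ℂ} (hw : w ∈ T)
    (hw' : w' ∈ T) (hne : w ≠ w') {p : ℂ}
    (hpmin : ∀ v ∈ T, gap (T : Set ℂ) p ≤ gap (T : Set ℂ) v) {β : ℝ}
    (hβdef : β = gap (T : Set ℂ) p / 2) (hβ0 : 0 < β) (hβ2 : β < π / 2) :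
    √(1 - ‖w - w'‖ ^ 2 / 4) ≤ Real.cos β := by
  have hπ := Real.pi_pos
  obtain ⟨v, hv, hv1, hv2⟩ := small_gap hu hw hw' hne
  have h5 : Real.sin β ≤ Real.sin (gap (T : Set ℂ) v / 2) :=
    Real.sin_le_sin_of_le_of_le_pi_div_two (by linarith only [hβ2, hβ0]) (by linarith only [hv1])
      (by linarith [hpmin v hv])
  have h6 : Real.sin β ≤ ‖w - w'‖ / 2 := by linarith only [h5, hv2]
  have h7 : 0 ≤ Real.sin β := Real.sin_nonneg_of_nonneg_of_le_pi hβ0.le (by linarith only [hβ2, hβ0])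
  have h8 : 0 ≤ Real.cos β := Real.cos_nonneg_of_neg_pi_div_two_le_of_le (by linarith) hβ2.le
  have h9 := Real.sin_sq_add_cos_sq β
  have h10 : Real.sin β ^ 2 ≤ (‖w - w'‖ / 2) ^ 2 := by gcongr
  have h11 : (‖w - w'‖ / 2) ^ 2 = ‖w - w'‖ ^ 2 / 4 := by ring
  rw [h11] at h10
  rw [← Real.sqrt_sq h8]
  exact Real.sqrt_le_sqrt (by linarith only [h10, h9])

theorem tri_gain {c cb : ℝ} (h1 : 1 / 2 < c) (h2 : c ≤ cb) (h3 : cb ≤ 1) :
    max 0 (c - 1 / 2) ^ 2 ≤ (c - 1 / 2) * (2 * cb - 1) - (c - 1 / 2) ^ 2 ∧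
      (c - 1 / 2) * (2 * cb - 1) - (c - 1 / 2) ^ 2 ≤ 1 := by
  have h0 : 0 ≤ c - 1 / 2 := by linarith
  rw [max_eq_right h0]
  have k1 : (c - 1 / 2) * (2 * (c - 1 / 2)) ≤ (c - 1 / 2) * (2 * cb - 1) :=
    mul_le_mul_of_nonneg_left (by linarith only [h2]) h0
  have k2 : (c - 1 / 2) * (2 * cb - 1) ≤ (c - 1 / 2) * 1 :=
    mul_le_mul_of_nonneg_left (by linarith only [h3]) h0
  have k3 := sq_nonneg (c - 1 / 2)
  have k4 : (c - 1 / 2) * (2 * (c - 1 / 2)) = 2 * (c - 1 / 2) ^ 2 := by ring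
  constructor
  · linarith only [k1]
  · linarith only [k3, k2, h3, h2]

/-- Competing sets for three spread directions, with a gain when two of them are close. -/
theorem tri_starData {T : Finset ℂ} (hu : ∀ w ∈ T, ‖w‖ = 1) (hcard : T.card = 3)
    (hgap : ∀ p ∈ T, gap (T : Set ℂ) p ≤ 4 / 5 * π) {w w' : ℂ} (hw : w ∈ T) (hw' : w' ∈ T)
    (hne : w ≠ w') (x : ℂ) {s : ℝ} (hs : 0 < s) :
    ∃ q : ℝ, max 0 (√(1 - ‖w - w'‖ ^ 2 / 4) - 1 / 2) ^ 2 ≤ q ∧ q ≤ 1 ∧
      StarData T x (s / 20) s (3 * s - q * (s / 20)) := by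
  have hπ := Real.pi_pos
  have ha : 0 < s / 20 := by positivity
  have has : s / 20 < s := by linarith only [ha]
  have hc3 : (T.card : ℝ) = 3 := by rw [hcard]; norm_num
  rcases le_or_gt (√(1 - ‖w - w'‖ ^ 2 / 4)) (1 / 2) with h | h
  · refine ⟨0, ?_, zero_le_one, ?_⟩
    · rw [max_eq_left (by linarith only [h])]; norm_num
    · have h1 := starData_plain hu x ha has
      rw [hc3] at h1
      rw [zero_mul, sub_zero]
      exact h1
  · obtain ⟨p, hp, hpmin⟩ := T.exists_min_image (gap (T : Set ℂ)) ⟨w, hw⟩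
    obtain ⟨β, hβdef⟩ : ∃ β, β = gap (T : Set ℂ) p / 2 := ⟨_, rfl⟩
    have hgp := gap_pos hu hp
    have hgpa := hgap p hp
    have hβ0 : 0 < β := by linarith only [hgp, hβdef]
    have hβ2 : β < π / 2 := by linarith only [hβ0, hgpa, hβdef]
    have hcos := tri_cos_lower hu hw hw' hne hpmin hβdef hβ0 hβ2
    obtain ⟨k1, k2⟩ := tri_gain h hcos (Real.cos_le_one β)
    have hlt : ∀ q ∈ T, gap (T : Set ℂ) q < π := fun q hq => by linarith only [hgap q hq, hβ2, hβ0]
    have h1 := starData_K hu (by omega) hlt hp hpmin hβdef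
      (κ := √(1 - ‖w - w'‖ ^ 2 / 4) - 1 / 2) (by linarith only [h]) (by linarith only [hcos]) x ha has
    rw [hc3] at h1
    exact ⟨_, k1, k2, h1⟩

theorem tri_star_final {E H U s m q t v P : ℝ} (hs0 : 0 < s) (hE : 0 ≤ E) (hU : 0 ≤ U)
    (ht : 0 ≤ t) (hP : 0 ≤ P) (hq : m ≤ q) (hv : v ≤ 8 * P)
    (h : E + H + U ≤ (3 * s - q * (s / 20)) + (21 / 38 * (4 / 5) ^ 2 + 1 / 2) * t +
      2 / 3 * v + 18 * P) :
    H ≤ 3 * s - s / 20 * m + 2 * t + 24 * P := by
  have e1 : (21 / 38 * (4 / 5) ^ 2 + 1 / 2) * t ≤ 2 * t :=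
    mul_le_mul_of_nonneg_right (by norm_num) ht
  have e2 : s / 20 * m ≤ s / 20 * q := mul_le_mul_of_nonneg_left hq (by positivity)
  have e3 : q * (s / 20) = s / 20 * q := by ring
  rw [e3] at h
  linarith

theorem tri_star {Ω K : Set ℂ} {g u : ℂ → ℝ} {G : ℂ → ℂ} {M : ℝ}
    (N : Nice Ω g u G K M) {x : ℂ} {R : ℝ} (hR : closedBall x R ⊆ Ω)
    (hub : ∀ z ∈ ball x R, |u z| ≤ M) :
    ∀ᵐ s : ℝ, s ∈ Ioo 0 R → ∀ T : Finset ℂ, T.card = 3 →
      (∀ w, w ∈ T ↔ ‖w‖ = 1 ∧ x + s • w ∈ K) → (∀ p ∈ T, gap (T : Set ℂ) p ≤ 4 / 5 * π) →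
      ∀ w ∈ T, ∀ w' ∈ T, w ≠ w' →
        Hn K x s ≤ 3 * s - s / 20 * max 0 (√(1 - ‖w - w'‖ ^ 2 / 4) - 1 / 2) ^ 2 +
          2 * (s * eT G x s) + 24 * π * M ^ 2 * s ^ 2 := by
  have hb : ∀ᵐ z ∂(volume.restrict (ball x R)), |u z| ≤ M :=
    ae_restrict_of_forall_mem measurableSet_ball hub
  filter_upwards [N.comp_star hR, N.ae_convert hR, N.ae_finite_sphere x, N.ae_eU_le hb le_rfl]
    with s h1 h2 hfin heU hs T hcard hT hgap w hw w' hw' hne
  obtain ⟨hs0, hsR⟩ := hs
  have hπ := Real.pi_pos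
  have hu : ∀ w ∈ T, ‖w‖ = 1 := fun w hw => ((hT w).mp hw).1
  have ha : 0 < s / 20 := by positivity
  have has : s / 20 < s := by linarith only [ha]
  obtain ⟨q, hq1, hq2, hstar⟩ := tri_starData hu hcard hgap hw hw' hne x hs0
  have hc : (T.card : ℝ) * (s / 20) ^ 2 ≤ s ^ 2 / 100 := by
    rw [hcard]; push_cast; linarith only [sq_nonneg s]
  have h5 := h1 hs0 hsR T ⟨w, hw⟩ hT (4 / 5 * π) (s / 20) _ hgap ha has hc hstar
  have hκ : (s + s / 20) / (2 * (s - s / 20)) * (4 / 5 * π / π) ^ 2 + 1 / 2 =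
      21 / 38 * (4 / 5) ^ 2 + 1 / 2 := by
    have e1 : (s + s / 20) / (2 * (s - s / 20)) = 21 / 38 := by field_simp; ring
    have e2 : 4 / 5 * π / π = 4 / 5 := by field_simp
    rw [e1, e2]
  rw [hκ] at h5
  have hA0 : 0 ≤ 3 * s - q * (s / 20) := by
    have := mul_le_mul_of_nonneg_right hq2 ha.le
    linarith only [this, ha]
  have h6 := h2 hs0 hsR hfin _ (21 / 38 * (4 / 5) ^ 2 + 1 / 2) (2 / 3) (18 * π * M ^ 2 * s ^ 2)
    hA0 (by norm_num) (by norm_num) (by (clear * - hs0; positivity)) h5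
  have p1 : 0 ≤ En G x s := integral_nonneg fun _ => by (clear * -; positivity)
  have p2 : 0 ≤ Un g u x s := integral_nonneg fun _ => by (clear * -; positivity)
  have hT0 : 0 ≤ s * eT G x s := mul_nonneg hs0.le (eT_nonneg G x hs0.le)
  have hU := mul_le_mul_of_nonneg_left (heU ⟨hs0, hsR⟩) hs0.le
  have hp : 0 ≤ π * M ^ 2 * s ^ 2 := by (clear * - hs0; positivity)
  have e3 : s * (8 * π * M ^ 2 * s) = 8 * (π * M ^ 2 * s ^ 2) := by ring
  have e4 : 18 * π * M ^ 2 * s ^ 2 = 18 * (π * M ^ 2 * s ^ 2) := by ring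
  have e5 : 24 * π * M ^ 2 * s ^ 2 = 24 * (π * M ^ 2 * s ^ 2) := by ring
  rw [e3] at hU
  rw [e4] at h6
  rw [e5]
  exact tri_star_final hs0 p1 p2 hT0 hp hq1 hU h6

end Vale.Agent.P128.Q1
end
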