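import Vale.Agent.P128.MathlibUsed
import Vale.Agent.P128.Bdl.B13
import Vale.Agent.P128.Bdl.K_GM_C_Defs
import Vale.Agent.P128.Bdl.B15
import Vale.Agent.P128.Bdl.B11
import Vale.Agent.P128.Bdl.B12
import Vale.Agent.P128.Bdl.B14
import Vale.Agent.P128.Bdl.B10
import Vale.Agent.P128.Bdl.B4
import Vale.Agent.P128.Bdl.B5
import Vale.Agent.P128.Bdl.B17
import Vale.Agent.P128.Bdl.B6

set_option linter.all false

section

open MeasureTheory Set Metric Filter InnerProductSpace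
open scoped ENNReal NNReal ContDiff Topology Real

namespace Vale.Agent.P128.GM

open Vale.Agent.P128

variable {u : ℂ → ℝ} {K A : Set ℂ} {η w : ℂ → ℝ} {δ : ℝ}

theorem src_int (h : GMin u K) (P : Piece K A η δ) : ∫ z, src u η z = 0 := by
  obtain ⟨R, hR⟩ := P.supp.isCompact.isBounded.subset_ball (0 : ℂ)
  obtain ⟨χ, h1, h2, h3, -, -⟩ := exists_logcutoff R (ε := 1) one_pos
  have e := test_b h P h1 h2
  have e1 : ∫ z, inner ℝ (grad (fun z => η z * u z) z) (grad χ z) = 0 := by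
    rw [← integral_zero ℂ ℝ]
    refine integral_congr_ae (Eventually.of_forall fun z => ?_)
    by_cases hz : z ∈ tsupport η
    · have : grad χ z = 0 := by
        have he : χ =ᶠ[𝓝 z] fun _ => 1 := by
          filter_upwards [isOpen_ball.mem_nhds (hR hz)] with w hw
          exact h3 w hw
        rw [grad_congr he, grad_const]
      simp [this]
    · have he : (fun z => η z * u z) =ᶠ[𝓝 z] fun _ => 0 := by
        filter_upwards [notMem_tsupport_iff_eventuallyEq.1 hz] with w hw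
        rw [hw]; simp
      simp [grad_congr he, grad_const]
  have e2 : ∫ z, src u η z * χ z = ∫ z, src u η z := by
    refine integral_congr_ae (Eventually.of_forall fun z => ?_)
    simp only []
    by_cases hz : z ∈ tsupport η
    · rw [h3 z (hR hz), mul_one]
    · have he : η =ᶠ[𝓝 z] fun _ => 0 := notMem_tsupport_iff_eventuallyEq.1 hz
      have : src u η z = 0 := by simp [src, grad_congr he, lap_congr he, grad_const, lap_const]
      rw [this, zero_mul]
  rw [e1, e2] at e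
  linarith only [e]

end Vale.Agent.P128.GM
end

section

/-! The energy of a pair with a tip at the origin. -/

open MeasureTheory Set Metric Filter InnerProductSpace
open scoped ENNReal NNReal ContDiff Topology Real

namespace Vale.Agent.P128.GM

open Vale.Agent.P128

variable {u : ℂ → ℝ} {K : Set ℂ}

/-- in every interval `(a, Λ a)` there is a radius at which `E/s` is almost `1` -/
theorem energyEq_radius
    (hgood : ∀ e₀ η : ℝ, 0 < e₀ → 0 < η → ∃ Λ : ℝ, 1 < Λ ∧ ∀ (u : ℂ → ℝ) (K : Set ℂ), GMin u K →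
      (0 : ℂ) ∈ K → ∀ a : ℝ, 0 < a → e₀ ≤ En u a / a →
        0 < volume {s : ℝ | a < s ∧ s < Λ * a ∧ OnePt K s ∧ om u s ≤ η})
    (htip : ∀ e₀ ε : ℝ, 0 < e₀ → 0 < ε → ∃ η : ℝ, 0 < η ∧ ∀ (u : ℂ → ℝ) (K : Set ℂ), GMin u K →
      (0 : ℂ) ∈ K → ∀ᵐ s : ℝ, 0 < s → OnePt K s → e₀ ≤ En u s / s → om u s ≤ η →
        |En u s / s - 1| ≤ ε)
    (h : GMin u K) (h0 : (0 : ℂ) ∈ K) {c : ℝ} (hc : 0 < c)
    (hE : ∀ ρ : ℝ, 0 < ρ → c * ρ ≤ En u ρ) {ε : ℝ} (hε : 0 < ε) :
    ∃ Λ : ℝ, 1 < Λ ∧ ∀ a : ℝ, 0 < a → ∃ s, a < s ∧ s < Λ * a ∧ |En u s / s - 1| ≤ ε := by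
  obtain ⟨η, hη, htip'⟩ := htip c ε hc hε
  obtain ⟨Λ, hΛ, hgood'⟩ := hgood c η hc hη
  have hE' : ∀ ρ : ℝ, 0 < ρ → c ≤ En u ρ / ρ := fun ρ hρ => by
    rw [le_div_iff₀ hρ]
    exact hE ρ hρ
  refine ⟨Λ, hΛ, fun a ha => ?_⟩
  have h1 := hgood' u K h h0 a ha (hE' a ha)
  have h2 := htip' u K h h0
  have h3 : ∃ s ∈ {s : ℝ | a < s ∧ s < Λ * a ∧ OnePt K s ∧ om u s ≤ η},
      (0 < s → OnePt K s → c ≤ En u s / s → om u s ≤ η → |En u s / s - 1| ≤ ε) := by
    by_contra hcon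
    push Not at hcon
    have h4 : {s : ℝ | a < s ∧ s < Λ * a ∧ OnePt K s ∧ om u s ≤ η} ⊆
        {s | (0 < s → OnePt K s → c ≤ En u s / s → om u s ≤ η → |En u s / s - 1| ≤ ε)}ᶜ := by
      intro s hs hs'
      obtain ⟨h5, h6, h7, h8, h9⟩ := hcon s hs
      exact absurd (hs' h5 h6 h7 h8) (not_le.2 h9)
    exact h1.ne' (measure_mono_null h4 h2)
  obtain ⟨s, hs, hs'⟩ := h3
  have hs0 : 0 < s := ha.trans hs.1
  exact ⟨s, hs.1, hs.2.1, hs' hs0 hs.2.2.1 (hE' s hs0) hs.2.2.2⟩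

theorem GMin.energy_eq_of
    (hgood : ∀ e₀ η : ℝ, 0 < e₀ → 0 < η → ∃ Λ : ℝ, 1 < Λ ∧ ∀ (u : ℂ → ℝ) (K : Set ℂ), GMin u K →
      (0 : ℂ) ∈ K → ∀ a : ℝ, 0 < a → e₀ ≤ En u a / a →
        0 < volume {s : ℝ | a < s ∧ s < Λ * a ∧ OnePt K s ∧ om u s ≤ η})
    (htip : ∀ e₀ ε : ℝ, 0 < e₀ → 0 < ε → ∃ η : ℝ, 0 < η ∧ ∀ (u : ℂ → ℝ) (K : Set ℂ), GMin u K →
      (0 : ℂ) ∈ K → ∀ᵐ s : ℝ, 0 < s → OnePt K s → e₀ ≤ En u s / s → om u s ≤ η →
        |En u s / s - 1| ≤ ε)
    (hmono : ∀ s t : ℝ, 0 < s → s ≤ t → En u s / s ≤ En u t / t)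
    (h : GMin u K) (h0 : (0 : ℂ) ∈ K) {c : ℝ} (hc : 0 < c)
    (hE : ∀ ρ : ℝ, 0 < ρ → c * ρ ≤ En u ρ) {s : ℝ} (hs : 0 < s) : En u s = s := by
  have key : En u s / s = 1 := by
    apply le_antisymm
    · refine le_of_forall_pos_le_add fun ε hε => ?_
      obtain ⟨Λ, -, hΛ⟩ := energyEq_radius hgood htip h h0 hc hE hε
      obtain ⟨t, ht, -, ht'⟩ := hΛ s hs
      have h1 := hmono s t hs ht.le
      have h2 := (abs_le.1 ht').2
      linarith only [h2, h1]
    · refine le_of_forall_pos_le_add fun ε hε => ?_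
      obtain ⟨Λ, hΛ1, hΛ⟩ := energyEq_radius hgood htip h h0 hc hE hε
      have hΛ0 : 0 < Λ := by linarith
      obtain ⟨t, ht, ht2, ht'⟩ := hΛ (s / Λ) (by positivity)
      have ht0 : 0 < t := lt_trans (by positivity) ht
      rw [mul_div_cancel₀ _ hΛ0.ne'] at ht2
      have h1 := hmono t s ht0 ht2.le
      have h2 := (abs_le.1 ht').1
      linarith only [h2, h1]
  rwa [div_eq_one_iff_eq hs.ne'] at key

end Vale.Agent.P128.GM
end

section

/-! D-15 (GM/D/CCluster.lean) -/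

open MeasureTheory Set Metric Filter InnerProductSpace
open scoped ENNReal NNReal ContDiff Topology Real

namespace Vale.Agent.P128.GM

open Vale.Agent.P128

variable {u : ℂ → ℝ} {G : ℂ → ℂ} {K L A W : Set ℂ} {η w : ℂ → ℝ} {δ : ℝ}

theorem CMin.cluster_aux (h : CMin u K) {s : ℝ} (hs : 0 < s)
    (hint : IntegrableOn (fun θ => ‖grad u (circleMap 0 s θ)‖ ^ 2) ang) {a b : ℝ} (hab : a < b)
    (hb : b ≤ a + 2 * π) (hK : ∀ θ ∈ Icc a b, circleMap 0 s θ ∉ K) :
    En u s + Len K s ≤ 2 * s * TT u s + s + s * (a + 2 * π - b) := by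
  have hπ := Real.pi_pos
  have hud : ∀ z ∈ Kᶜ, DifferentiableAt ℝ u z := fun z hz =>
    ((InnerProductSpace.HarmonicOnNhd.contDiffOn h.harm).contDiffAt
      (h.isOpen_compl.mem_nhds hz)).differentiableAt (by norm_num)
  obtain ⟨F, M, B, hF, hB, hFu, hFd⟩ := exists_trace h.isOpen_compl h.locLip hud hs hint hab hb hK
  obtain ⟨c, hc⟩ : ∃ c, c = (2 * π)⁻¹ * ∫ t in Ioo a (a + 2 * π), F t := ⟨_, rfl⟩
  obtain ⟨hi, he⟩ := energy_hext (a := a) hs hF hB hc
  obtain ⟨φ, hφ⟩ : ∃ φ, φ = hext a s c F := ⟨_, rfl⟩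
  have hφl : LocLip (rayA a)ᶜ φ := by rw [hφ]; exact locLip_hext hs hF
  rw [← hφ] at hi he
  obtain ⟨Arc, hArc⟩ : ∃ Arc : Set ℂ, Arc = circleMap 0 s '' Icc b (a + 2 * π) := ⟨_, rfl⟩
  obtain ⟨Rad, hRad⟩ : ∃ Rad : Set ℂ, Rad = rayA a ∩ closedBall 0 s := ⟨_, rfl⟩
  obtain ⟨L, hL⟩ : ∃ L : Set ℂ, L = (K \ ball 0 s) ∪ Arc ∪ Rad := ⟨_, rfl⟩
  obtain ⟨v, hv⟩ : ∃ v : ℂ → ℝ, v = fun z => u z + (ball (0 : ℂ) s).indicator
    (fun z => φ z - u z) z := ⟨_, rfl⟩
  have hArcC : IsClosed Arc := by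
    rw [hArc]; exact (isCompact_Icc.image (continuous_circleMap 0 s)).isClosed
  have hArcS : Arc ⊆ closedBall 0 s := by
    rw [hArc]
    rintro _ ⟨t, -, rfl⟩
    rw [mem_closedBall_zero_iff, norm_circleMap_zero, abs_of_pos hs]
  have hRadC : IsClosed Rad := by
    rw [hRad]; exact (isClosed_rayA a).inter isClosed_closedBall
  have hRadS : Rad ⊆ closedBall 0 s := by rw [hRad]; exact inter_subset_right
  have hLc : IsClosed L := by
    rw [hL]
    exact ((h.closed.sdiff isOpen_ball).union hArcC).union hRadC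
  have hvin : ∀ z, ‖z‖ < s → v z = φ z := by
    intro z hz
    rw [hv]
    simp only
    rw [indicator_of_mem (mem_ball_zero_iff.2 hz)]
    ring
  have hvout : ∀ z, s ≤ ‖z‖ → v z = u z := by
    intro z hz
    rw [hv]
    simp only
    rw [indicator_of_notMem (fun h => absurd (mem_ball_zero_iff.1 h) (not_lt.2 hz)), add_zero]
  have hvL : LocLip Lᶜ v := by
    refine LocLip.of_local' fun z hz => ?_
    rw [hL, mem_compl_iff, mem_union, mem_union, not_or, not_or] at hz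
    obtain ⟨⟨hz1, hz2⟩, hz3⟩ := hz
    rcases lt_trichotomy ‖z‖ s with hzs | hzs | hzs
    · refine ⟨ball 0 s ∩ (rayA a)ᶜ, isOpen_ball.inter (isClosed_rayA a).isOpen_compl,
        ⟨mem_ball_zero_iff.2 hzs, fun h' => hz3 ?_⟩, ?_, ?_⟩
      · rw [hRad]; exact ⟨h', mem_closedBall_zero_iff.2 hzs.le⟩
      · rintro y ⟨hy1, hy2⟩
        rw [hL, mem_compl_iff, mem_union, mem_union, not_or, not_or]
        refine ⟨⟨fun h' => h'.2 hy1, fun h' => ?_⟩, fun h' => ?_⟩
        · rw [hArc] at h'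
          obtain ⟨t, -, rfl⟩ := h'
          rw [mem_ball_zero_iff, norm_circleMap_zero, abs_of_pos hs] at hy1
          exact lt_irrefl _ hy1
        · rw [hRad] at h'
          exact hy2 h'.1
      · refine (hφl.mono (isOpen_ball.inter (isClosed_rayA a).isOpen_compl)
          inter_subset_right).congr fun y hy => ?_
        exact (hvin y (mem_ball_zero_iff.1 hy.1)).symm
    · have hzK : z ∉ K := fun h' => hz1 ⟨h', fun h'' => by
        rw [mem_ball_zero_iff, hzs] at h''; exact lt_irrefl _ h''⟩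
      have hzR : z ∉ rayA a := fun h' => hz3 (by
        rw [hRad]; exact ⟨h', mem_closedBall_zero_iff.2 hzs.le⟩)
      have hVo : IsOpen (Kᶜ ∩ (rayA a)ᶜ ∩ Arcᶜ) :=
        (h.isOpen_compl.inter (isClosed_rayA a).isOpen_compl).inter hArcC.isOpen_compl
      refine ⟨Kᶜ ∩ (rayA a)ᶜ ∩ Arcᶜ, hVo, ⟨⟨hzK, hzR⟩, hz2⟩, ?_, ?_⟩
      · rintro y ⟨⟨hy1, hy2⟩, hy3⟩
        rw [hL, mem_compl_iff, mem_union, mem_union, not_or, not_or]
        exact ⟨⟨fun h' => hy1 h'.1, hy3⟩, fun h' => hy2 (by rw [hRad] at h'; exact h'.1)⟩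
      · have h1 : LocLip (Kᶜ ∩ (rayA a)ᶜ ∩ Arcᶜ) u :=
          h.locLip.mono hVo (inter_subset_left.trans inter_subset_left)
        have h2 : LocLip (Kᶜ ∩ (rayA a)ᶜ ∩ Arcᶜ) φ :=
          hφl.mono hVo (inter_subset_left.trans inter_subset_right)
        have h3 := (h2.sub h1).ind_ball (s := s) fun y hy hys => by
          obtain ⟨⟨-, hy2⟩, hy3⟩ := hy
          have h4 := brA_mem hy2
          have h5 := circleMap_brA a y
          rw [hys] at h5
          have h6 : brA a y < b := by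
            by_contra hcon
            apply hy3
            rw [hArc]
            exact ⟨brA a y, ⟨not_lt.1 hcon, h4.2.le⟩, h5⟩
          have h7 : φ y = u y := by
            rw [hφ]
            unfold hext
            rw [hys, div_self hs.ne', Real.sqrt_one, one_mul, hFu _ ⟨h4.1.le, h6.le⟩, h5]
            ring
          rw [h7, sub_self]
        have h4 := h1.add h3
        rw [hv]
        exact h4
    · refine ⟨Kᶜ ∩ (closedBall 0 s)ᶜ, h.isOpen_compl.inter isClosed_closedBall.isOpen_compl,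
        ⟨fun h' => hz1 ⟨h', fun h'' => ?_⟩, fun h' => ?_⟩, ?_, ?_⟩
      · exact absurd (mem_ball_zero_iff.1 h'') (not_lt.2 hzs.le)
      · exact absurd (mem_closedBall_zero_iff.1 h') (not_le.2 hzs)
      · rintro y ⟨hy1, hy2⟩
        rw [hL, mem_compl_iff, mem_union, mem_union, not_or, not_or]
        exact ⟨⟨fun h' => hy1 h'.1, fun h' => hy2 (hArcS h')⟩, fun h' => hy2 (hRadS h')⟩
      · refine (h.locLip.mono (h.isOpen_compl.inter isClosed_closedBall.isOpen_compl)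
          inter_subset_left).congr fun y hy => ?_
        refine (hvout y ?_).symm
        have := hy.2
        rw [mem_compl_iff, mem_closedBall_zero_iff, not_le] at this
        exact this.le
  have hsymm : symmDiff L K ⊆ closedBall 0 s := by
    intro z hz
    rcases hz with ⟨h1, h2⟩ | ⟨h1, h2⟩
    · rw [hL] at h1
      rcases h1 with (h1 | h1) | h1
      · exact absurd h1.1 h2
      · exact hArcS h1
      · exact hRadS h1
    · by_contra hcon
      apply h2
      rw [hL]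
      refine Or.inl (Or.inl ⟨h1, fun h' => hcon (ball_subset_closedBall h')⟩)
  have hsepo : SepOut K L (ball (0 : ℂ) (s + 1)) := by
    refine SepOut.of_arc h.closed (y := 0) (s := s) (I := circleMap 0 s '' Ioo a b) ?_ ?_ ?_ ?_ ?_
      (closedBall_subset_ball (by linarith))
    · exact isPreconnected_Ioo.image _ (continuous_circleMap 0 s).continuousOn
    · rw [Set.disjoint_left]
      rintro _ ⟨t, ht, rfl⟩
      exact hK t ⟨ht.1.le, ht.2.le⟩
    · rintro _ ⟨t, -, rfl⟩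
      rw [mem_sphere_zero_iff_norm, norm_circleMap_zero, abs_of_pos hs]
    · rw [hL]
      exact fun z hz => Or.inl (Or.inl hz)
    · rintro z ⟨hz1, hz2⟩
      rw [mem_sphere_zero_iff_norm] at hz1
      have h4 := brA_mem' a z
      have h5 := circleMap_brA a z
      rw [hz1] at h5
      rw [hL]
      refine Or.inl (Or.inr ?_)
      rw [hArc]
      rcases eq_or_lt_of_le h4.1 with h6 | h6
      · refine ⟨a + 2 * π, ⟨hb, le_rfl⟩, ?_⟩
        rw [(periodic_circleMap 0 s) a, h6, h5]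
      · refine ⟨brA a z, ⟨?_, h4.2⟩, h5⟩
        by_contra hcon
        exact hz2 ⟨brA a z, ⟨h6, not_le.1 hcon⟩, h5⟩
  -- gradients
  have hgin : ∀ z ∈ ball (0 : ℂ) s, grad v z = grad φ z := by
    intro z hz
    refine grad_congr ?_
    filter_upwards [isOpen_ball.mem_nhds hz] with y hy
    exact hvin y (mem_ball_zero_iff.1 hy)
  have hgout : ∀ z ∈ ball (0 : ℂ) (s + 1) \ closedBall 0 s, grad v z = grad u z := by
    intro z hz
    refine grad_congr ?_
    filter_upwards [isClosed_closedBall.isOpen_compl.mem_nhds hz.2] with y hy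
    rw [mem_compl_iff, mem_closedBall_zero_iff, not_le] at hy
    exact hvout y hy.le
  have hsplit : ball (0 : ℂ) (s + 1) =ᵐ[volume] (ball 0 s ∪ (ball 0 (s + 1) \ closedBall 0 s) : Set ℂ) := by
    have h1 : ball (0 : ℂ) (s + 1) = ball 0 s ∪ (ball 0 (s + 1) \ closedBall 0 s) ∪ sphere 0 s := by
      ext z
      simp only [mem_union, Set.mem_sdiff, mem_ball_zero_iff, mem_closedBall_zero_iff, mem_sphere_zero_iff_norm]
      constructor
      · intro h'
        rcases lt_trichotomy ‖z‖ s with h2 | h2 | h2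
        · exact Or.inl (Or.inl h2)
        · exact Or.inr h2
        · exact Or.inl (Or.inr ⟨h', not_le.2 h2⟩)
      · rintro ((h' | h') | h')
        · linarith
        · exact h'.1
        · linarith
    conv_lhs => rw [h1]
    exact union_ae_eq_left_of_ae_eq_empty
      (ae_eq_empty.2 (by rw [Measure.addHaar_sphere_of_ne_zero _ _ hs.ne']))
  have hAm : MeasurableSet (ball (0 : ℂ) (s + 1) \ closedBall 0 s) :=
    measurableSet_ball.diff measurableSet_closedBall
  have hdisj : Disjoint (ball (0 : ℂ) s) (ball (0 : ℂ) (s + 1) \ closedBall 0 s) := by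
    rw [Set.disjoint_left]
    intro z hz hz'
    exact hz'.2 (ball_subset_closedBall hz)
  have hiu := h.integrableOn (s + 1)
  have hius : IntegrableOn (fun z => ‖grad u z‖ ^ 2) (ball 0 s) := h.integrableOn s
  have hiuA : IntegrableOn (fun z => ‖grad u z‖ ^ 2) (ball (0 : ℂ) (s + 1) \ closedBall 0 s) :=
    hiu.mono_set sdiff_subset
  have hivs : IntegrableOn (fun z => ‖grad v z‖ ^ 2) (ball 0 s) :=
    hi.congr_fun (fun z hz => by rw [hgin z hz]) measurableSet_ball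
  have hivA : IntegrableOn (fun z => ‖grad v z‖ ^ 2) (ball (0 : ℂ) (s + 1) \ closedBall 0 s) :=
    hiuA.congr_fun (fun z hz => by rw [hgout z hz]) hAm
  have hiv : IntegrableOn (fun z => ‖grad v z‖ ^ 2) (ball 0 (s + 1)) :=
    (hivs.union hivA).congr_set_ae hsplit
  have e1 : ∫ z in ball (0 : ℂ) (s + 1), ‖grad u z‖ ^ 2 = (∫ z in ball (0 : ℂ) s, ‖grad u z‖ ^ 2) +
      ∫ z in ball (0 : ℂ) (s + 1) \ closedBall 0 s, ‖grad u z‖ ^ 2 := by
    rw [setIntegral_congr_set hsplit, setIntegral_union hdisj hAm hius hiuA]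
  have e2 : ∫ z in ball (0 : ℂ) (s + 1), ‖grad v z‖ ^ 2 = (∫ z in ball (0 : ℂ) s, ‖grad φ z‖ ^ 2) +
      ∫ z in ball (0 : ℂ) (s + 1) \ closedBall 0 s, ‖grad u z‖ ^ 2 := by
    rw [setIntegral_congr_set hsplit, setIntegral_union hdisj hAm hivs hivA]
    congr 1
    · exact setIntegral_congr_fun measurableSet_ball fun z hz => by
        show ‖grad v z‖ ^ 2 = ‖grad φ z‖ ^ 2
        rw [hgin z hz]
    · exact setIntegral_congr_fun hAm fun z hz => by
        show ‖grad v z‖ ^ 2 = ‖grad u z‖ ^ 2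
        rw [hgout z hz]
  -- lengths
  obtain ⟨R1, hR1⟩ : ∃ R1 : Set ℂ, R1 = K ∩ (ball 0 (s + 1) \ ball 0 s) := ⟨_, rfl⟩
  have hR1f : μH[1] R1 ≠ ⊤ := by
    refine ((measure_mono ?_).trans_lt (h.len_lt (s + 1))).ne
    rw [hR1]
    exact inter_subset_inter_right _ sdiff_subset
  have l1 : μH[1] (K ∩ ball 0 (s + 1)) = μH[1] (K ∩ ball 0 s) + μH[1] R1 := by
    have hu : K ∩ ball 0 (s + 1) = (K ∩ ball 0 s) ∪ R1 := by
      rw [hR1, ← inter_union_distrib_left, union_sdiff_cancel (ball_subset_ball (by linarith only []))]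
    rw [hu]
    refine measure_union ?_ ?_
    · rw [Set.disjoint_left]
      intro z hz hz'
      rw [hR1] at hz'
      exact hz'.2.2 hz.2
    · rw [hR1]
      exact h.closed.measurableSet.inter (measurableSet_ball.diff measurableSet_ball)
  have l2 : μH[1] (L ∩ ball 0 (s + 1)) ≤
      μH[1] R1 + ENNReal.ofReal (s * (a + 2 * π - b)) + ENNReal.ofReal s := by
    have hsub : L ∩ ball 0 (s + 1) ⊆ R1 ∪ Arc ∪ Rad := by
      rintro z ⟨hz1, hz2⟩
      rw [hL] at hz1
      rcases hz1 with (hz1 | hz1) | hz1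
      · refine Or.inl (Or.inl ?_)
        rw [hR1]
        exact ⟨hz1.1, hz2, hz1.2⟩
      · exact Or.inl (Or.inr hz1)
      · exact Or.inr hz1
    refine (measure_mono hsub).trans ((measure_union_le _ _).trans (add_le_add
      ((measure_union_le _ _).trans (add_le_add le_rfl ?_)) ?_))
    · rw [hArc]; exact hausdorff_arc hs.le (by linarith)
    · rw [hRad]; exact hausdorff_rayA hs.le
  have l2f : μH[1] R1 + ENNReal.ofReal (s * (a + 2 * π - b)) + ENNReal.ofReal s ≠ ⊤ :=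
    ENNReal.add_ne_top.2 ⟨ENNReal.add_ne_top.2 ⟨hR1f, ENNReal.ofReal_ne_top⟩,
      ENNReal.ofReal_ne_top⟩
  have l3 : (μH[1] (L ∩ ball 0 (s + 1))).toReal ≤
      (μH[1] R1).toReal + s * (a + 2 * π - b) + s := by
    have h1 := ENNReal.toReal_mono l2f l2
    rw [ENNReal.toReal_add (ENNReal.add_ne_top.2 ⟨hR1f, ENNReal.ofReal_ne_top⟩)
      ENNReal.ofReal_ne_top, ENNReal.toReal_add hR1f ENNReal.ofReal_ne_top,
      ENNReal.toReal_ofReal (mul_nonneg hs.le (by linarith)), ENNReal.toReal_ofReal hs.le] at h1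
    exact h1
  have l4 : (μH[1] (K ∩ ball 0 (s + 1))).toReal =
      (μH[1] (K ∩ ball 0 s)).toReal + (μH[1] R1).toReal := by
    rw [l1, ENNReal.toReal_add (h.len_lt s).ne hR1f]
  have key := h.compare_real (x := 0) (r := s + 1) hLc hvL (isCompact_closedBall 0 s)
    (closedBall_subset_ball (by linarith)) hsymm (fun z hz _ => hvout z (by
      rw [mem_closedBall_zero_iff, not_le] at hz; exact hz.le)) hiv
    (l2.trans_lt (lt_top_iff_ne_top.2 l2f)).ne hsepo
  rw [e1, e2, l4] at key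
  unfold En Len
  linarith only [l3, key, he, hFd]

theorem CMin.cluster (h : CMin u K) :
    ∀ᵐ s : ℝ, 0 < s → ∀ α β : ℝ, α < β → β ≤ α + 2 * π → (∀ θ ∈ Ioo α β, circleMap 0 s θ ∉ K) →
      En u s + Len K s ≤ 2 * s * TT u s + s + s * (2 * π - (β - α)) := by
  filter_upwards [polar_ae (fun R => h.integrableOn R)] with s hs hs0 α β hαβ hβ hK
  refine le_of_forall_pos_le_add fun ε hε => ?_
  obtain ⟨d, hd⟩ : ∃ d, d = min ((β - α) / 4) (ε / (2 * s)) := ⟨_, rfl⟩
  have hd0 : 0 < d := by rw [hd]; exact lt_min (by linarith only [hαβ]) (by positivity)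
  have hd1 : d ≤ (β - α) / 4 := by rw [hd]; exact min_le_left _ _
  have hd2 : d ≤ ε / (2 * s) := by rw [hd]; exact min_le_right _ _
  have h1 := h.cluster_aux hs0 (hs hs0) (a := α + d) (b := β - d) (by linarith only [hd1, hd0]) (by linarith only [hd0, hβ])
    (fun θ hθ => hK θ ⟨by linarith [hθ.1], by linarith [hθ.2]⟩)
  have h2 : 2 * s * d ≤ ε := by
    rw [le_div_iff₀ (by positivity)] at hd2
    linarith
  linarith only [h2, h1]

end Vale.Agent.P128.GM
end

section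

open MeasureTheory Set Metric Filter
open scoped ENNReal NNReal Topology Real ContDiff

namespace Vale.Agent.P128

/-- Estimate for circles with at most one point. -/
def OnePatch : Prop := ∃ C₁ C₀ : ℝ, 0 ≤ C₁ ∧ 0 ≤ C₀ ∧
    ∀ {Ω K : Set ℂ} {g u : ℂ → ℝ} {G : ℂ → ℂ} {M : ℝ}
      (_ : Nice Ω g u G K M) {x : ℂ} {R : ℝ} (_ : closedBall x R ⊆ Ω)
      (_ : ∀ z ∈ ball x R, |u z| ≤ M),
      ∀ᵐ s : ℝ, s ∈ Ioo 0 R → (K ∩ sphere x s).Finite → (K ∩ sphere x s).ncard ≤ 1 →
        En G x s + Hn K x s + Un g u x s ≤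
          1 / 2 * s + C₁ * (s * eT G x s) + 2 / 3 * (s * eU g u x s) + C₀ * M ^ 2 * s ^ 2

end Vale.Agent.P128
end

section

/-! P128, Q1, Part III: TyTip -/

open MeasureTheory Set Metric Filter InnerProductSpace
open scoped ENNReal NNReal ContDiff Topology Real

namespace Vale.Agent.P128.Q1

open Vale.Agent.P128

variable {Ω : Set ℂ} {g u : ℂ → ℝ} {G : ℂ → ℂ} {K : Set ℂ} {M : ℝ} {x₀ : ℂ} {R₀ : ℝ}

/-- closeness to a ray through the origin with tip at distance `d` gives closeness to a ray with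
tip at the centre -/
lemma tyTip_nearRay {x a : ℂ} (ha : ‖a‖ = 1) {r d R ε δ : ℝ} (hr : 0 < r) (hd : 0 ≤ d)
    (hR : 1 ≤ R) (hε : 0 < ε) (hδ : 2 * ε + d ≤ δ)
    (h1 : ∀ z ∈ K ∩ closedBall x (R * r), ∃ p ∈ rayM a d, dist z (x + r * p) ≤ ε * r)
    (h2 : ∀ p ∈ rayM a d, ‖p‖ ≤ R → ∃ z ∈ K, dist z (x + r * p) ≤ ε * r) :
    NearRay K x r δ := by
  refine ⟨-a, by rw [norm_neg, ha], ?_, ?_⟩
  · intro z hz
    have hz' : z ∈ K ∩ closedBall x (R * r) := by
      refine ⟨hz.1, ?_⟩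
      have := mem_closedBall.mp hz.2
      rw [mem_closedBall]
      linarith only [mul_nonneg (le_of_lt (sub_pos.2 hr)) (sub_nonneg.2 hR), this]
    obtain ⟨p, ⟨t, ht, rfl⟩, hp⟩ := h1 z hz'
    -- the position on the ray
    have hpn : dist (x + (r : ℂ) * (d * a - t * a)) x = r * |d - t| := by
      rw [dist_eq_norm]
      have : x + (r : ℂ) * (d * a - t * a) - x = ((r * (d - t) : ℝ) : ℂ) * a := by
        push_cast; ring
      rw [this, norm_mul, ha, mul_one, Complex.norm_real, Real.norm_eq_abs, abs_mul,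
        abs_of_pos hr]
    have hb : r * |d - t| ≤ (1 + ε) * r := by
      rw [← hpn]
      calc dist (x + (r : ℂ) * (d * a - t * a)) x
          ≤ dist (x + (r : ℂ) * (d * a - t * a)) z + dist z x := dist_triangle _ _ _
        _ ≤ ε * r + r := by
          rw [dist_comm _ z]
          exact add_le_add hp (mem_closedBall.mp hz.2)
        _ = (1 + ε) * r := by ring
    have hb2 : |d - t| ≤ 1 + ε := by
      by_contra hcon
      push Not at hcon
      have := mul_lt_mul_of_pos_left hcon hr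
      linarith
    rw [abs_le] at hb2
    refine ⟨max 0 (min r (r * (t - d))), ⟨le_max_left _ _, max_le hr.le (min_le_left _ _)⟩, ?_⟩
    set ρ := max 0 (min r (r * (t - d))) with hρ
    have hρ2 : |r * (t - d) - ρ| ≤ (d + ε) * r := by
      rcases le_total (t - d) 0 with h0 | h0
      · have e1 : r * (t - d) ≤ 0 := mul_nonpos_of_nonneg_of_nonpos hr.le h0
        have e2 : ρ = 0 := by
          rw [hρ]
          exact max_eq_left (le_trans (min_le_right _ _) e1)
        rw [e2, sub_zero, abs_of_nonpos e1]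
        linarith only [mul_nonneg (le_of_lt (sub_pos.2 hr)) (sub_nonneg.2 ht), mul_pos (sub_pos.2 hr) (sub_pos.2 hε)]
      · rcases le_total (t - d) 1 with h3 | h3
        · have e1 : 0 ≤ r * (t - d) := mul_nonneg hr.le h0
          have e3 : r * (t - d) ≤ r := by linarith only [mul_nonneg (le_of_lt (sub_pos.2 hr)) (sub_nonneg.2 h3)]
          have e2 : ρ = r * (t - d) := by
            rw [hρ, min_eq_right e3, max_eq_right e1]
          rw [e2, sub_self, abs_zero]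
          positivity
        · have e3 : r ≤ r * (t - d) := by linarith only [mul_nonneg (le_of_lt (sub_pos.2 hr)) (sub_nonneg.2 h3)]
          have e2 : ρ = r := by
            rw [hρ, min_eq_left e3, max_eq_right hr.le]
          rw [e2, abs_of_nonneg (by linarith)]
          nlinarith
    have e : dist (x + (r : ℂ) * (d * a - t * a)) (x + ρ • (-a)) ≤ (d + ε) * r := by
      rw [dist_eq_norm]
      have : x + (r : ℂ) * (d * a - t * a) - (x + ρ • (-a)) =
          ((-(r * (t - d) - ρ) : ℝ) : ℂ) * a := by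
        rw [Complex.real_smul]; push_cast; ring
      rw [this, norm_mul, ha, mul_one, Complex.norm_real, Real.norm_eq_abs, abs_neg]
      exact hρ2
    calc dist z (x + ρ • (-a)) ≤ dist z (x + (r : ℂ) * (d * a - t * a)) +
          dist (x + (r : ℂ) * (d * a - t * a)) (x + ρ • (-a)) := dist_triangle _ _ _
      _ ≤ ε * r + (d + ε) * r := add_le_add hp e
      _ = (2 * ε + d) * r := by ring
      _ ≤ δ * r := mul_le_mul_of_nonneg_right hδ hr.le
  · intro ρ hρ
    have hmem : -((ρ / r : ℝ) : ℂ) * a ∈ rayM a d := by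
      refine ⟨d + ρ / r, by have := div_nonneg hρ.1 hr.le; linarith, ?_⟩
      push_cast; ring
    have hn : ‖-((ρ / r : ℝ) : ℂ) * a‖ ≤ R := by
      rw [norm_mul, ha, mul_one, norm_neg, Complex.norm_real, Real.norm_eq_abs,
        abs_of_nonneg (div_nonneg hρ.1 hr.le)]
      exact le_trans ((div_le_one hr).mpr hρ.2) hR
    obtain ⟨z, hz, hz2⟩ := h2 _ hmem hn
    refine ⟨z, hz, ?_⟩
    have e : x + (r : ℂ) * (-((ρ / r : ℝ) : ℂ) * a) = x + ρ • (-a) := by
      rw [Complex.real_smul]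
      have hrc : (r : ℂ) ≠ 0 := by exact_mod_cast hr.ne'
      push_cast
      field_simp
    rw [e] at hz2
    refine le_trans hz2 (mul_le_mul_of_nonneg_right ?_ hr.le)
    linarith only [hδ, hε, hd]

theorem AllClose.tip_lim (h : AllClose G K x₀ R₀) {x : ℂ} (hx : x ∈ K ∩ ball x₀ R₀) {r₁ : ℝ}
    (hr₁ : 0 < r₁) (ht : ∀ r, 0 < r → r ≤ r₁ → Hn K x r ≤ 3 / 2 * r) {δ : ℝ} (hδ : 0 < δ) :
    ∃ r₂ > 0, ∀ r, 0 < r → r ≤ r₂ →
      NearRay K x r δ ∧ |En G x r - r| ≤ δ * r ∧ |Hn K x r - r| ≤ δ * r := by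
  set R : ℝ := max 1 (4 / δ) with hR
  have hR1 : 1 ≤ R := le_max_left _ _
  have hR0 : 0 < R := lt_of_lt_of_le one_pos hR1
  have hRδ : 1 / R ≤ δ / 4 := by
    rw [div_le_iff₀ hR0]
    have h1 : 4 / δ ≤ R := le_max_right _ _
    rw [div_le_iff₀ hδ] at h1
    linarith only [h1]
  set ε : ℝ := min (δ / 4) (1 / (100 * R)) with hε
  have hε0 : 0 < ε := lt_min (by positivity) (by positivity)
  have hε1 : ε ≤ δ / 4 := min_le_left _ _
  have hε2 : ε ≤ 1 / (100 * R) := min_le_right _ _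
  obtain ⟨r₀, hr₀, hcl⟩ := h R ε hR1 hε0
  refine ⟨min r₁ r₀, lt_min hr₁ hr₀, ?_⟩
  intro r hr hrr
  have hrr1 : r ≤ r₁ := le_trans hrr (min_le_left _ _)
  have hrr0 : r ≤ r₀ := le_trans hrr (min_le_right _ _)
  obtain ⟨L, F, hmod, hc1, hc2, hc3⟩ := hcl x ⟨hx.1, ball_subset_closedBall hx.2⟩ r hr hrr0
  have hRinv : 0 < 1 / R := by positivity
  have hRinv1 : 1 / R ≤ 1 := by rw [div_le_one hR0]; exact hR1
  -- length at the small scale
  have hlen : Hn L 0 (1 / R) ≤ 8 / 5 * (1 / R) := by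
    have h1 := (hc3 (1 / R) le_rfl (le_trans hRinv1 hR1)).2
    have h2 := ht (1 / R * r) (by positivity) (by (by_contra nlg; linarith only [nlg, mul_nonneg (sub_nonneg.2 hrr1) (sub_nonneg.2 hRinv1), mul_nonneg (sub_nonneg.2 hrr1) (le_of_lt (sub_pos.2 hRinv)), mul_nonneg (le_of_lt (sub_pos.2 hr)) (sub_nonneg.2 hRinv1), mul_nonneg (le_of_lt (sub_pos.2 (not_le.1 nlg))) (sub_nonneg.2 hRinv1), mul_pos (sub_pos.2 (not_le.1 nlg)) (sub_pos.2 hRinv)]))
    have h3 : Hn K x (1 / R * r) / r ≤ 3 / 2 * (1 / R) := by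
      rw [div_le_iff₀ hr]; linarith only [h2]
    have h4 := (abs_le.mp h1).1
    have h5 : 1 / (100 * R) = 1 / 100 * (1 / R) := by field_simp
    rw [h5] at hε2
    linarith only [h4, h3, hε2, hε0]
  obtain ⟨a, d, ha, hd0, hd, hL, hF⟩ := hmod.tip_of hRinv hlen
  have hdR : d ≤ 3 / 5 * (1 / R) := by linarith only [hd, hlen]
  have hdδ : d ≤ δ / 4 := by linarith only [hdR, hε1, hε0, hRδ]
  have hd1 : d ≤ 1 := by linarith only [hdR, hRinv1]
  subst hL
  have h1 := hc3 1 hRinv1 hR1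
  rw [one_mul, Hn_rayM ha hd0 zero_le_one, min_eq_right hd1, hF 1] at h1
  have h2 := tipEn_near ha hd0 hd1
  refine ⟨tyTip_nearRay ha hr hd0 hR1 hε0 (by linarith only [hd, hlen, hε1, hε0, hRδ]) hc1 hc2, ?_, ?_⟩
  · have h3 : |En G x r / r - 1| ≤ δ := by
      have := abs_add_le (En G x r / r - tipEn a d 1) (tipEn a d 1 - 1)
      rw [sub_add_sub_cancel] at this
      linarith only [h1.1, this, h2, hd, hlen, hε1, hε0, hRδ]
    have h4 : En G x r - r = (En G x r / r - 1) * r := by field_simp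
    rw [h4, abs_mul, abs_of_pos hr]
    exact mul_le_mul_of_nonneg_right h3 hr.le
  · have h3 : |Hn K x r / r - 1| ≤ δ := by
      have := abs_add_le (Hn K x r / r - (1 + d)) d
      have e : Hn K x r / r - (1 + d) + d = Hn K x r / r - 1 := by ring
      rw [e, abs_of_nonneg hd0] at this
      linarith only [h1.2, this, hd, hlen, hε1, hε0, hRδ]
    have h4 : Hn K x r - r = (Hn K x r / r - 1) * r := by field_simp
    rw [h4, abs_mul, abs_of_pos hr]
    exact mul_le_mul_of_nonneg_right h3 hr.le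

end Vale.Agent.P128.Q1
end

section

/-! P128, Q1, Part III: TyTri -/

open MeasureTheory Set Metric Filter InnerProductSpace
open scoped ENNReal NNReal ContDiff Topology Real

namespace Vale.Agent.P128.Q1

open Vale.Agent.P128

variable {Ω : Set ℂ} {g u : ℂ → ℝ} {G : ℂ → ℂ} {K : Set ℂ} {M : ℝ} {x₀ : ℂ} {R₀ : ℝ}

/-- the third root of unity of `NearTripod` -/
noncomputable def tyTri_om : ℂ := Complex.exp (2 * Real.pi / 3 * Complex.I)

theorem tyTri_om_cube : tyTri_om ^ 3 = 1 := by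
  unfold tyTri_om
  rw [← Complex.exp_nat_mul]
  have : ((3 : ℕ) : ℂ) * (2 * Real.pi / 3 * Complex.I) = 2 * Real.pi * Complex.I := by
    push_cast; ring
  rw [this, Complex.exp_two_pi_mul_I]

theorem tyTri_om_quad : tyTri_om ^ 2 + tyTri_om + 1 = 0 := by
  have h1 : tyTri_om ≠ 1 := by
    intro h
    unfold tyTri_om at h
    rw [Complex.exp_eq_one_iff] at h
    obtain ⟨n, hn⟩ := h
    have h2 : (2 * (Real.pi : ℂ) * Complex.I) ≠ 0 := Complex.two_pi_I_ne_zero
    have h3 : (2 * (Real.pi : ℂ) * Complex.I) * (1 - 3 * n) = 0 := by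
      linear_combination 3 * hn
    rcases mul_eq_zero.mp h3 with h4 | h4
    · exact h2 h4
    · have h5 : ((1 - 3 * n : ℤ) : ℂ) = 0 := by push_cast; exact h4
      have h6 : (1 - 3 * n : ℤ) = 0 := by exact_mod_cast h5
      omega
  have h2 : (tyTri_om - 1) * (tyTri_om ^ 2 + tyTri_om + 1) = 0 := by
    linear_combination tyTri_om_cube
  rcases mul_eq_zero.mp h2 with h3 | h3
  · exact absurd (sub_eq_zero.mp h3) h1
  · exact h3

theorem tyTri_norm_om : ‖tyTri_om‖ = 1 := by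
  unfold tyTri_om
  have : (2 * Real.pi / 3 * Complex.I : ℂ) = ((2 * Real.pi / 3 : ℝ) : ℂ) * Complex.I := by
    push_cast; ring
  rw [this, Complex.norm_exp_ofReal_mul_I]

theorem tyTri_mul_conj {a : ℂ} (ha : ‖a‖ = 1) : a * (starRingEnd ℂ) a = 1 := by
  rw [Complex.mul_conj, Complex.normSq_eq_norm_sq, ha]; norm_num

theorem tyTri_quad {a b c : ℂ} (h : Tri3 a b c) : a ^ 2 + a * b + b ^ 2 = 0 := by
  obtain ⟨ha, hb, hc, hs⟩ := h
  have h1 := tyTri_mul_conj ha
  have h2 := tyTri_mul_conj hb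
  have h3 := tyTri_mul_conj hc
  have h4 : (starRingEnd ℂ) a + (starRingEnd ℂ) b + (starRingEnd ℂ) c = 0 := by
    rw [← map_add, ← map_add, hs, map_zero]
  have h5 : a * b + b * c + c * a = 0 := by
    linear_combination a * b * c * h4 - a * b * h3 - b * c * h1 - c * a * h2
  have h6 : c = -(a + b) := by linear_combination hs
  rw [h6] at h5
  linear_combination -h5

theorem tyTri_cases {a b c : ℂ} (h : Tri3 a b c) :
    (b = a * tyTri_om ∧ c = a * tyTri_om ^ 2) ∨ (b = a * tyTri_om ^ 2 ∧ c = a * tyTri_om) := by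
  have h1 := tyTri_quad h
  have h2 := tyTri_om_quad
  have h6 : c = -(a + b) := by linear_combination h.2.2.2
  have h3 : (b - a * tyTri_om) * (b + a * tyTri_om + a) = 0 := by
    linear_combination h1 - a ^ 2 * h2
  rcases mul_eq_zero.mp h3 with h4 | h4
  · left
    have h5 : b = a * tyTri_om := by linear_combination h4
    refine ⟨h5, ?_⟩
    rw [h6, h5]
    linear_combination -a * h2
  · right
    have h5 : b = a * tyTri_om ^ 2 := by linear_combination h4 - a * h2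
    refine ⟨h5, ?_⟩
    rw [h6, h5]
    linear_combination -a * h2

/-- the branches of the propeller have the directions of `NearTripod` -/
theorem tyTri_branch {a b c : ℂ} (h : Tri3 a b c) {d : ℝ} {p : ℂ} (hp : p ∈ propM a b c d) :
    ∃ k : ℕ, ∃ t : ℝ, 0 ≤ t ∧ p = -(d * a) + t * (a * tyTri_om ^ k) := by
  obtain ⟨t, ht, h1⟩ := hp
  have h2 := tyTri_cases h
  rcases h1 with h1 | h1 | h1
  · exact ⟨0, t, ht, by rw [h1]; ring⟩
  · rcases h2 with h2 | h2
    · exact ⟨1, t, ht, by rw [h1, h2.1]; ring⟩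
    · exact ⟨2, t, ht, by rw [h1, h2.1]⟩
  · rcases h2 with h2 | h2
    · exact ⟨2, t, ht, by rw [h1, h2.2]⟩
    · exact ⟨1, t, ht, by rw [h1, h2.2]; ring⟩

theorem tyTri_branch' {a b c : ℂ} (h : Tri3 a b c) {d t : ℝ} (ht : 0 ≤ t) (k : ℕ) :
    -(d * a) + t * (a * tyTri_om ^ k) ∈ propM a b c d := by
  have h2 := tyTri_cases h
  refine ⟨t, ht, ?_⟩
  have h3 : tyTri_om ^ k = tyTri_om ^ (k % 3) := by
    conv_lhs => rw [← Nat.div_add_mod k 3, pow_add, pow_mul, tyTri_om_cube, one_pow, one_mul]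
  rw [h3]
  have h4 : k % 3 < 3 := Nat.mod_lt _ (by norm_num)
  interval_cases hk : k % 3
  · left; ring
  · rcases h2 with h2 | h2
    · right; left; rw [h2.1]; ring
    · right; right; rw [h2.2]; ring
  · rcases h2 with h2 | h2
    · right; right; rw [h2.2]
    · right; left; rw [h2.1]

theorem tyTri_norm_dir {a : ℂ} (ha : ‖a‖ = 1) (k : ℕ) : ‖a * tyTri_om ^ k‖ = 1 := by
  rw [norm_mul, norm_pow, ha, tyTri_norm_om, one_pow, one_mul]

theorem tyTri_near {a b c : ℂ} (h : Tri3 a b c) {d ε δ R r : ℝ} (hd : 0 ≤ d) (hR : 1 ≤ R)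
    (hdR : 1 + d ≤ R)
    (hε : 0 < ε) (hδ : 2 * ε + 2 * d ≤ δ) {x : ℂ} (hr : 0 < r)
    (h1 : ∀ z ∈ K ∩ closedBall x (R * r), ∃ p ∈ propM a b c d, dist z (x + r * p) ≤ ε * r)
    (h2 : ∀ p ∈ propM a b c d, ‖p‖ ≤ R → ∃ z ∈ K, dist z (x + r * p) ≤ ε * r) :
    NearTripod K x r δ := by
  have ha := h.1
  refine ⟨a, ha, ?_, ?_⟩
  · rintro y ⟨hyK, hyB⟩
    obtain ⟨p, hp, hpy⟩ := h1 y ⟨hyK, closedBall_subset_closedBall (by linarith only [mul_nonneg (sub_nonneg.2 hR) (le_of_lt (sub_pos.2 hr))]) hyB⟩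
    obtain ⟨k, t, ht, rfl⟩ := tyTri_branch h hp
    refine ⟨k, min (r * t) r, ⟨le_min (by positivity) hr.le, min_le_right _ _⟩, ?_⟩
    have hdir := tyTri_norm_dir ha k
    set v : ℂ := a * tyTri_om ^ k with hv
    rw [mem_closedBall] at hyB
    have e1 : ‖(r : ℂ) * (-(d * a) + t * v)‖ ≤ r + ε * r := by
      have : dist x (x + r * (-(d * a) + t * v)) ≤ r + ε * r :=
        (dist_triangle_left _ _ y).trans (add_le_add hyB hpy)
      rw [dist_eq_norm] at this
      rw [← norm_neg]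
      have e : x - (x + r * (-(d * a) + t * v)) = -(r * (-(d * a) + t * v)) := by ring
      rwa [e] at this
    have e2 : r * t ≤ r + ε * r + r * d := by
      have : ‖((r * t : ℝ) : ℂ) * v‖ ≤ ‖(r : ℂ) * (-(d * a) + t * v)‖ + ‖((r * d : ℝ) : ℂ) * a‖ := by
        have e : ((r * t : ℝ) : ℂ) * v = (r : ℂ) * (-(d * a) + t * v) + ((r * d : ℝ) : ℂ) * a := by
          push_cast; ring
        rw [e]
        exact norm_add_le _ _
      rw [norm_mul, norm_mul ((r * d : ℝ) : ℂ), hdir, ha, Complex.norm_real, Complex.norm_real,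
        Real.norm_of_nonneg (by positivity), Real.norm_of_nonneg (by positivity), mul_one,
        mul_one] at this
      linarith
    have e3 : |r * t - min (r * t) r| ≤ ε * r + r * d := by
      rw [abs_of_nonneg (sub_nonneg.mpr (min_le_left _ _))]
      rcases le_total (r * t) r with h3 | h3
      · rw [min_eq_left h3]
        simp only [sub_self]
        positivity
      · rw [min_eq_right h3]
        linarith
    have e4 : dist (x + r * (-(d * a) + t * v)) (x + (min (r * t) r : ℝ) • v) ≤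
        r * d + (ε * r + r * d) := by
      rw [dist_eq_norm]
      have e : x + r * (-(d * a) + t * v) - (x + (min (r * t) r : ℝ) • v) =
          -(((r * d : ℝ) : ℂ) * a) + ((r * t - min (r * t) r : ℝ) : ℂ) * v := by
        rw [Complex.real_smul]
        push_cast
        ring
      rw [e]
      refine (norm_add_le _ _).trans ?_
      rw [norm_neg, norm_mul, norm_mul, ha, hdir, Complex.norm_real, Complex.norm_real,
        Real.norm_of_nonneg (by positivity), mul_one, mul_one, Real.norm_eq_abs]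
      linarith
    calc dist y (x + (min (r * t) r : ℝ) • v) ≤ _ := dist_triangle _ (x + r * (-(d * a) + t * v)) _
      _ ≤ ε * r + (r * d + (ε * r + r * d)) := add_le_add hpy e4
      _ = (2 * ε + 2 * d) * r := by ring
      _ ≤ δ * r := by gcongr
  · intro k ρ hρ
    have hdir := tyTri_norm_dir ha k
    have ht : 0 ≤ ρ / r := div_nonneg hρ.1 hr.le
    have ht1 : ρ / r ≤ 1 := (div_le_one hr).mpr hρ.2
    have hp := tyTri_branch' h (d := d) ht k
    have hpn : ‖-(d * a) + ((ρ / r : ℝ) : ℂ) * (a * tyTri_om ^ k)‖ ≤ R := by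
      refine (norm_add_le _ _).trans ?_
      rw [norm_neg, norm_mul, norm_mul ((ρ / r : ℝ) : ℂ), ha, hdir, Complex.norm_real,
        Complex.norm_real, Real.norm_of_nonneg hd, Real.norm_of_nonneg ht]
      linarith only [ht1, hdR]
    obtain ⟨z, hz, hzp⟩ := h2 _ hp hpn
    refine ⟨z, hz, ?_⟩
    change dist z (x + ρ • (a * tyTri_om ^ k)) ≤ δ * r
    have e4 : dist (x + r * (-(d * a) + ((ρ / r : ℝ) : ℂ) * (a * tyTri_om ^ k)))
        (x + ρ • (a * tyTri_om ^ k)) ≤ r * d := by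
      rw [dist_eq_norm]
      have e : x + r * (-(d * a) + ((ρ / r : ℝ) : ℂ) * (a * tyTri_om ^ k)) -
          (x + ρ • (a * tyTri_om ^ k)) = -(((r * d : ℝ) : ℂ) * a) := by
        have hrc : (r : ℂ) ≠ 0 := by exact_mod_cast hr.ne'
        have hq : (r : ℂ) * (ρ / r) = ρ := mul_div_cancel₀ _ hrc
        rw [Complex.real_smul]
        push_cast
        linear_combination (a * tyTri_om ^ k) * hq
      rw [e, norm_neg, norm_mul, ha, Complex.norm_real, Real.norm_of_nonneg (by positivity),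
        mul_one]
    calc dist z (x + ρ • (a * tyTri_om ^ k)) ≤ _ :=
          dist_triangle _ (x + r * (-(d * a) + ((ρ / r : ℝ) : ℂ) * (a * tyTri_om ^ k))) _
      _ ≤ ε * r + r * d := add_le_add hzp e4
      _ ≤ (2 * ε + 2 * d) * r := by (by_contra nlg; linarith only [nlg, mul_pos (sub_pos.2 hε) (sub_pos.2 hr), mul_nonneg (sub_nonneg.2 hd) (le_of_lt (sub_pos.2 hr)), mul_nonneg (le_of_lt (sub_pos.2 (not_le.1 nlg))) (sub_nonneg.2 ht1), mul_nonneg (le_of_lt (sub_pos.2 (not_le.1 nlg))) (sub_nonneg.2 ht)])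
      _ ≤ δ * r := by gcongr

theorem AllClose.tri_lim (h : AllClose G K x₀ R₀) {x : ℂ} (hx : x ∈ K ∩ ball x₀ R₀) {r₁ : ℝ}
    (hr₁ : 0 < r₁) (ht : ∀ r, 0 < r → r ≤ r₁ → 5 / 2 * r ≤ Hn K x r) {δ : ℝ} (hδ : 0 < δ) :
    ∃ r₂ > 0, ∀ r, 0 < r → r ≤ r₂ →
      NearTripod K x r δ ∧ En G x r ≤ δ * r ∧ |Hn K x r - 3 * r| ≤ δ * r := by
  obtain ⟨R, hR2, hRδ⟩ : ∃ R : ℝ, 2 ≤ R ∧ 1 / R ≤ δ / 4 := by
    have h4 : 0 < 4 / δ := by positivity
    refine ⟨2 + 4 / δ, by linarith, ?_⟩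
    rw [div_le_div_iff₀ (by linarith only [h4]) (by norm_num)]
    have : δ * (4 / δ) = 4 := by field_simp
    linarith only [this, hδ]
  have hR0 : 0 < R := by linarith
  obtain ⟨ε, hε0, hε1, hε2⟩ : ∃ ε : ℝ, 0 < ε ∧ ε ≤ δ / 4 ∧ ε ≤ 1 / R / 10 :=
    ⟨min (δ / 4) (1 / R / 10), lt_min (by positivity) (by positivity), min_le_left _ _,
      min_le_right _ _⟩
  obtain ⟨r₀, hr₀, hc⟩ := h R ε (by linarith) hε0
  refine ⟨min r₀ r₁, lt_min hr₀ hr₁, fun r hr hrr => ?_⟩
  obtain ⟨L, F, hL, hC1, hC2, hC3⟩ := hc x ⟨hx.1, ball_subset_closedBall hx.2⟩ r hr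
    (hrr.trans (min_le_left _ _))
  have hs0 : 0 < 1 / R := by positivity
  have hs1 : 1 / R ≤ 1 / 2 := one_div_le_one_div_of_le (by norm_num) hR2
  have hh := (hC3 (1 / R) le_rfl (by linarith only [hs1, hε2, hε0, hR2])).2
  have hsr : 1 / R * r ≤ r₁ := by
    have h1 : 1 / R * r ≤ 1 * r := by gcongr; linarith only [hs1, hε2, hε0]
    have h2 := hrr.trans (min_le_right _ _)
    linarith only [h2, h1]
  have ht1 := ht (1 / R * r) (by positivity) hsr
  have h5 : 5 / 2 * (1 / R) ≤ Hn K x (1 / R * r) / r := by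
    rw [le_div_iff₀ hr]; linarith only [ht1]
  have h6 : 12 / 5 * (1 / R) ≤ Hn L 0 (1 / R) := by
    have := (abs_le.mp hh).2
    linarith only [this, h5, hε2]
  obtain ⟨a, b, c, d, hT, hd0, hd1, -, rfl, hF⟩ := hL.tri_of hs0 h6
  have hdR : d ≤ 1 / R := by linarith only [hd1, hε2, hε0]
  have hdδ : d ≤ δ / 4 := hdR.trans hRδ
  have hd2 : d ≤ 1 / 2 := hdR.trans hs1
  obtain ⟨hE, hH⟩ := hC3 1 (by linarith only [hs1, hε2, hε0]) (by linarith only [hs1, hε2, hε0, hR2])
  rw [one_mul, hF, sub_zero] at hE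
  rw [one_mul, Hn_propM_large hT hd0 (by linarith only [hd1, hs1, hε2, hε0])] at hH
  have q1 : 2 - 3 / 2 * d ≤ Real.sqrt (4 * 1 ^ 2 - 3 * d ^ 2) := by
    refine Real.le_sqrt_of_sq_le ?_
    (by_contra nlg; linarith only [nlg, mul_nonneg (sub_nonneg.2 hd0) (sub_nonneg.2 hd2), mul_nonneg (sub_nonneg.2 hd0) (sub_nonneg.2 hd0), mul_nonneg (le_of_lt (sub_pos.2 (not_le.1 nlg))) (sub_nonneg.2 hs1), mul_pos (sub_pos.2 (not_le.1 nlg)) (sub_pos.2 hs0)])
  have q2 : Real.sqrt (4 * 1 ^ 2 - 3 * d ^ 2) ≤ 2 := by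
    rw [Real.sqrt_le_left (by norm_num)]
    linarith only [sq_nonneg d]
  generalize Real.sqrt (4 * 1 ^ 2 - 3 * d ^ 2) = q at hH q1 q2
  refine ⟨tyTri_near hT hd0 (by linarith only [hs1, hε2, hε0, hR2]) (by linarith only [hd1, hs1, hε2, hε0, hR2]) hε0 (by linarith only [hd1, hε2, hε0, hRδ]) hr hC1 hC2, ?_, ?_⟩
  · have h7 : En G x r / r ≤ δ := (abs_le.mp hE).2.trans (by linarith only [hε2, hε0, hRδ])
    rwa [div_le_iff₀ hr] at h7
  · obtain ⟨h8, h8'⟩ := abs_le.mp hH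
    have h9 : |Hn K x r / r - 3| ≤ δ :=
      abs_le.mpr ⟨by linarith only [h8, q1, hdδ, hε1, hδ, hd0], by linarith only [h8', q2, hε1, hδ]⟩
    have e : Hn K x r - 3 * r = (Hn K x r / r - 3) * r := by field_simp
    rw [e, abs_mul, abs_of_pos hr]
    gcongr

end Vale.Agent.P128.Q1
end

section

/-! P128, Q1, Part III: TyPod -/

set_option linter.all false

open MeasureTheory Set Metric Filter InnerProductSpace
open scoped ENNReal NNReal ContDiff Topology Real

namespace Vale.Agent.P128.Q1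

open Vale.Agent.P128

variable {Ω : Set ℂ} {g u : ℂ → ℝ} {G : ℂ → ℂ} {K : Set ℂ} {M : ℝ} {x₀ : ℂ} {R₀ : ℝ}

theorem tyPod_om : Complex.exp (2 * Real.pi / 3 * Complex.I) =
    ⟨-1 / 2, √3 / 2⟩ := by
  have h1 : (2 * Real.pi / 3 * Complex.I : ℂ) = ((2 * Real.pi / 3 : ℝ) : ℂ) * Complex.I := by
    push_cast; ring
  have h2 : 2 * Real.pi / 3 = Real.pi - Real.pi / 3 := by ring
  rw [h1, Complex.exp_mul_I, ← Complex.ofReal_cos, ← Complex.ofReal_sin, h2, Real.cos_pi_sub,
    Real.sin_pi_sub, Real.cos_pi_div_three, Real.sin_pi_div_three]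
  apply Complex.ext
  · simp; ring
  · simp

theorem tyPod_om_sq : Complex.exp (2 * Real.pi / 3 * Complex.I) ^ 2 =
    ⟨-1 / 2, -(√3 / 2)⟩ := by
  rw [tyPod_om]
  have h3 : √3 * √3 = 3 := Real.mul_self_sqrt (by norm_num)
  apply Complex.ext
  · simp [pow_two, Complex.mul_re]; nlinarith
  · simp [pow_two, Complex.mul_im]; ring

theorem tyPod_om_cube : Complex.exp (2 * Real.pi / 3 * Complex.I) ^ 3 = 1 := by
  rw [pow_succ, tyPod_om_sq, tyPod_om]
  have h3 : √3 * √3 = 3 := Real.mul_self_sqrt (by norm_num)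
  apply Complex.ext
  · simp [Complex.mul_re]; nlinarith
  · simp [Complex.mul_im]; ring

theorem tyPod_om_pow (j : ℕ) : Complex.exp (2 * Real.pi / 3 * Complex.I) ^ j = 1 ∨
    Complex.exp (2 * Real.pi / 3 * Complex.I) ^ j = ⟨-1 / 2, √3 / 2⟩ ∨
    Complex.exp (2 * Real.pi / 3 * Complex.I) ^ j = ⟨-1 / 2, -(√3 / 2)⟩ := by
  have hj : Complex.exp (2 * Real.pi / 3 * Complex.I) ^ j =
      Complex.exp (2 * Real.pi / 3 * Complex.I) ^ (j % 3) := by
    conv_lhs => rw [← Nat.div_add_mod j 3, pow_add, pow_mul, tyPod_om_cube, one_pow, one_mul]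
  have h3 : j % 3 < 3 := Nat.mod_lt _ (by norm_num)
  rw [hj]
  interval_cases j % 3
  · left; simp
  · right; left; rw [pow_one]; exact tyPod_om
  · right; right; exact tyPod_om_sq

theorem tyPod_om_norm (j : ℕ) : ‖Complex.exp (2 * Real.pi / 3 * Complex.I) ^ j‖ = 1 := by
  have h1 : (2 * Real.pi / 3 * Complex.I : ℂ) = ((2 * Real.pi / 3 : ℝ) : ℂ) * Complex.I := by
    push_cast; ring
  rw [norm_pow, h1, Complex.norm_exp_ofReal_mul_I, one_pow]

theorem tyPod_sep (w : ℂ) (hw : ‖w‖ = 1) (j k : ℕ) {σ ρ : ℝ} (hσ : 0 ≤ σ) (hρ : 0 ≤ ρ) :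
    Complex.exp (2 * Real.pi / 3 * Complex.I) ^ j = Complex.exp (2 * Real.pi / 3 * Complex.I) ^ k ∨
    ρ ≤ ‖σ • (w * Complex.exp (2 * Real.pi / 3 * Complex.I) ^ j) -
      ρ • (w * Complex.exp (2 * Real.pi / 3 * Complex.I) ^ k)‖ := by
  have h3 : √3 * √3 = 3 := Real.mul_self_sqrt (by norm_num)
  have h0 : 0 ≤ √3 := Real.sqrt_nonneg _
  have e : σ • (w * Complex.exp (2 * Real.pi / 3 * Complex.I) ^ j) -
      ρ • (w * Complex.exp (2 * Real.pi / 3 * Complex.I) ^ k) =
      w * ((σ : ℂ) * Complex.exp (2 * Real.pi / 3 * Complex.I) ^ j -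
        (ρ : ℂ) * Complex.exp (2 * Real.pi / 3 * Complex.I) ^ k) := by
    simp only [Complex.real_smul]; ring
  rw [e, norm_mul, hw, one_mul]
  have key : ∀ a b c d : ℝ, (σ * a - ρ * c) * (σ * a - ρ * c) + (σ * b - ρ * d) * (σ * b - ρ * d) =
      σ ^ 2 + ρ ^ 2 + σ * ρ → ρ ≤ ‖(σ : ℂ) * (⟨a, b⟩ : ℂ) - (ρ : ℂ) * (⟨c, d⟩ : ℂ)‖ := by
    intro a b c d h
    rw [Complex.norm_def]
    apply Real.le_sqrt_of_sq_le
    rw [Complex.normSq_apply]
    simp only [Complex.sub_re, Complex.sub_im, Complex.mul_re, Complex.mul_im, Complex.ofReal_re,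
      Complex.ofReal_im, zero_mul, sub_zero, add_zero]
    rw [h]
    linarith only [sq_nonneg σ, mul_nonneg hσ hρ]
  have one_eq : (1 : ℂ) = ⟨1, 0⟩ := rfl
  rcases tyPod_om_pow j with hj | hj | hj <;> rcases tyPod_om_pow k with hk | hk | hk <;>
    rw [hj, hk] <;> first
    | (left; rfl)
    | (right; simp only [one_eq]; apply key; nlinarith [h3])
    | (right; apply key; nlinarith [h3])

theorem away_of_tripod {x : ℂ} {r₁ : ℝ} (hr₁ : 0 < r₁)
    (h : ∀ r, 0 < r → r ≤ r₁ → NearTripod K x r (1 / 10000)) :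
    ∃ r₂ > 0, ∀ y ∈ K ∩ closedBall x r₂, y ≠ x → ∃ e : ℂ, ‖e‖ = 1 ∧
      (∀ z ∈ K ∩ closedBall y (dist y x / 2), ∃ t : ℝ, dist z (y + t * e) ≤ dist y x / 1000) ∧
      ∀ t : ℝ, |t| ≤ dist y x / 2 → ∃ z ∈ K, dist z (y + t * e) ≤ dist y x / 1000 := by
  refine ⟨r₁ / 2, by positivity, ?_⟩
  rintro y ⟨hyK, hyb⟩ hyx
  have hρ : 0 < dist y x := dist_pos.2 hyx
  have hρ2 : dist y x ≤ r₁ / 2 := mem_closedBall.1 hyb
  obtain ⟨w, hw, hA, hB⟩ := h (2 * dist y x) (by positivity) (by linarith only [hρ2])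
  set ρ := dist y x with hρdef
  obtain ⟨k, ρ', ⟨hρ'0, hρ'2⟩, hyk⟩ := hA y ⟨hyK, mem_closedBall.2 (by linarith only [hρ])⟩
  set v : ℕ → ℂ := fun j => w * Complex.exp (2 * Real.pi / 3 * Complex.I) ^ j with hv
  have hvn : ∀ j, ‖v j‖ = 1 := fun j => by simp only [hv]; rw [norm_mul, hw, tyPod_om_norm, one_mul]
  have hyk' : dist y (x + ρ' • v k) ≤ ρ / 5000 := by
    refine hyk.trans (le_of_eq ?_); ring
  have hd : dist x (x + ρ' • v k) = ρ' := by
    rw [dist_eq_norm]; simp [hvn, abs_of_nonneg hρ'0]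
  have h1 : ρ ≤ ρ' + ρ / 5000 := by
    calc ρ = dist y x := rfl
      _ ≤ dist y (x + ρ' • v k) + dist (x + ρ' • v k) x := dist_triangle _ _ _
      _ ≤ ρ / 5000 + ρ' := by rw [dist_comm (x + ρ' • v k) x, hd]; linarith only [hyk']
      _ = ρ' + ρ / 5000 := by ring
  have h2 : ρ' ≤ ρ + ρ / 5000 := by
    calc ρ' = dist x (x + ρ' • v k) := hd.symm
      _ ≤ dist x y + dist y (x + ρ' • v k) := dist_triangle _ _ _
      _ ≤ ρ + ρ / 5000 := by rw [dist_comm x y]; linarith only [hyk']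
  refine ⟨v k, hvn k, ?_, ?_⟩
  · rintro z ⟨hzK, hzb⟩
    have hzy : dist z y ≤ ρ / 2 := mem_closedBall.1 hzb
    obtain ⟨j, σ, ⟨hσ0, hσ2⟩, hzj⟩ := hA z ⟨hzK, mem_closedBall.2 (by
      have := dist_triangle z y x
      linarith only [this, hzy, hρ])⟩
    have hzj' : dist z (x + σ • v j) ≤ ρ / 5000 := by
      refine hzj.trans (le_of_eq ?_); ring
    have hvv : ‖σ • v j - ρ' • v k‖ ≤ ρ / 2 + ρ / 5000 + ρ / 5000 := by
      have e1 : ‖σ • v j - ρ' • v k‖ = dist (x + σ • v j) (x + ρ' • v k) := by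
        rw [dist_eq_norm]; congr 1; ring
      rw [e1]
      have t1 := dist_triangle (x + σ • v j) z (x + ρ' • v k)
      have t2 := dist_triangle z y (x + ρ' • v k)
      rw [dist_comm (x + σ • v j) z] at t1
      linarith only [t2, t1, hzj', hzy, hyk']
    have hjk : Complex.exp (2 * Real.pi / 3 * Complex.I) ^ j =
        Complex.exp (2 * Real.pi / 3 * Complex.I) ^ k := by
      rcases tyPod_sep w hw j k hσ0 hρ'0 with hh | hh
      · exact hh
      · exfalso
        have : ρ' ≤ ρ / 2 + ρ / 5000 + ρ / 5000 := hh.trans hvv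
        linarith only [this, h1, hρ]
    have hvjk : v j = v k := by simp only [hv, hjk]
    refine ⟨σ - ρ', ?_⟩
    have e2 : dist (x + σ • v j) (y + ((σ - ρ' : ℝ) : ℂ) * v k) = dist y (x + ρ' • v k) := by
      rw [dist_comm, dist_eq_norm, dist_eq_norm, hvjk]
      congr 1
      simp only [Complex.real_smul]; push_cast; ring
    calc dist z (y + ((σ - ρ' : ℝ) : ℂ) * v k)
        ≤ dist z (x + σ • v j) + dist (x + σ • v j) (y + ((σ - ρ' : ℝ) : ℂ) * v k) :=
          dist_triangle _ _ _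
      _ ≤ ρ / 5000 + ρ / 5000 := by rw [e2]; linarith only [hzj', hyk']
      _ ≤ ρ / 1000 := by linarith only [hρ]
  · intro t ht
    have ht' := abs_le.1 ht
    obtain ⟨z, hzK, hz⟩ := hB k (ρ' + t) ⟨by linarith only [ht'.1, h1, hρ], by linarith only [ht'.2, h2, hρ]⟩
    refine ⟨z, hzK, ?_⟩
    have hz' : dist z (x + (ρ' + t) • v k) ≤ ρ / 5000 := by
      refine hz.trans (le_of_eq ?_); ring
    have e2 : dist (x + (ρ' + t) • v k) (y + (t : ℂ) * v k) = dist y (x + ρ' • v k) := by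
      rw [dist_comm, dist_eq_norm, dist_eq_norm]
      congr 1
      simp only [Complex.real_smul]; push_cast; ring
    calc dist z (y + (t : ℂ) * v k)
        ≤ dist z (x + (ρ' + t) • v k) + dist (x + (ρ' + t) • v k) (y + (t : ℂ) * v k) :=
          dist_triangle _ _ _
      _ ≤ ρ / 5000 + ρ / 5000 := by rw [e2]; linarith only [hz', hyk']
      _ ≤ ρ / 1000 := by linarith only [hρ]

end Vale.Agent.P128.Q1
end

section

/-! Part VI.2: the energy of the displaced function. -/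

open MeasureTheory Set Metric Filter
open scoped ENNReal NNReal ContDiff Topology Real

namespace Vale.Agent.P128.Q1

open Vale.Agent.P128

variable {Ω : Set ℂ} {g u : ℂ → ℝ} {G : ℂ → ℂ} {K : Set ℂ} {M : ℝ} {x₀ : ℂ} {R₀ : ℝ}
variable {x e : ℂ} {s η t : ℝ} {Ψ : ℂ ≃ₜ ℂ}

theorem te_det (ν e : ℂ) (a : ℝ) :
    (ContinuousLinearMap.id ℝ ℂ - a • (innerSL ℝ ν).smulRight e : ℂ →L[ℝ] ℂ).det =
      1 - a * inner ℝ ν e := by
  rw [ContinuousLinearMap.det, ← LinearMap.det_toMatrix Complex.basisOneI, Matrix.det_fin_two]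
  simp only [LinearMap.toMatrix_apply, Complex.coe_basisOneI, Complex.coe_basisOneI_repr]
  simp
  ring

theorem te_norm_dirn {z : ℂ} (h : 0 < dist z x) : ‖dirn x z‖ = 1 := by
  unfold dirn
  rw [dist_eq_norm] at h
  rw [norm_smul, norm_inv, Real.norm_eq_abs, abs_of_pos h]
  exact inv_mul_cancel₀ h.ne'

/-- the derivative of the displaced function -/
theorem te_fderiv {D : ℂ →L[ℝ] ℂ} {z : ℂ} (hΨ : HasFDerivAt Ψ D z) (hd : D.det ≠ 0)
    (hu : DifferentiableAt ℝ u z) (v : ℂ) :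
    inner ℝ (grad (tpU u Ψ) (Ψ z)) (D v) = (inner ℝ (grad u z) v : ℝ) := by
  set D' : ℂ ≃L[ℝ] ℂ := D.toContinuousLinearEquivOfDetNeZero hd with hD'
  have hDD : (D' : ℂ →L[ℝ] ℂ) = D := ContinuousLinearMap.coe_toContinuousLinearEquivOfDetNeZero D hd
  have h1 : HasFDerivAt Ψ.symm (D'.symm : ℂ →L[ℝ] ℂ) (Ψ z) := by
    refine HasFDerivAt.of_local_left_inverse (f := Ψ) Ψ.symm.continuous.continuousAt ?_
      (Eventually.of_forall fun y => Ψ.apply_symm_apply y)
    rw [hDD, Ψ.symm_apply_apply]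
    exact hΨ
  have h2 : HasFDerivAt u (fderiv ℝ u z) (Ψ.symm (Ψ z)) := by
    rw [Ψ.symm_apply_apply]; exact hu.hasFDerivAt
  have h3 : HasFDerivAt (tpU u Ψ) ((fderiv ℝ u z).comp (D'.symm : ℂ →L[ℝ] ℂ)) (Ψ z) :=
    h2.comp (Ψ z) h1
  rw [inner_grad, inner_grad, h3.fderiv, ContinuousLinearMap.comp_apply, ← hDD]
  simp

theorem te_alg {p q n e : ℂ} {a : ℝ} (ha : 0 ≤ a) (ha2 : 2 * a ≤ 1) (hn : ‖n‖ = 1) (he : ‖e‖ = 1)
    (h : ∀ v : ℂ, inner ℝ q (v - (a * inner ℝ n v) • e) = (inner ℝ p v : ℝ)) :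
    |1 - a * inner ℝ n e| * ‖q‖ ^ 2 ≤
      ‖p‖ ^ 2 + a * (2 * inner ℝ p n * inner ℝ p e - ‖p‖ ^ 2 * inner ℝ n e) +
        2 * a ^ 2 * ‖p‖ ^ 2 := by
  have hne : |(inner ℝ n e : ℝ)| ≤ 1 := by
    have := abs_real_inner_le_norm n e
    rwa [hn, he, one_mul] at this
  have hne' := abs_le.1 hne
  set d : ℝ := 1 - a * inner ℝ n e with hd
  have hd2 : 1 / 2 ≤ d := by rw [hd]; nlinarith
  set σ : ℝ := inner ℝ q e with hσ
  have hpe : (inner ℝ p e : ℝ) = σ * d := by
    rw [← h e, inner_sub_right, inner_smul_right, hd]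
    ring
  have hq : q = p + (a * σ) • n := by
    refine ext_inner_right ℝ fun v => ?_
    rw [inner_add_left, ← h v, inner_sub_right, inner_smul_right, real_inner_smul_left]
    ring
  have hqq : ‖q‖ ^ 2 = ‖p‖ ^ 2 + 2 * (a * σ) * inner ℝ p n + (a * σ) ^ 2 := by
    rw [hq, norm_add_sq_real, inner_smul_right, norm_smul, hn, Real.norm_eq_abs, mul_one, sq_abs]
    ring
  have hps : (inner ℝ p e : ℝ) ^ 2 ≤ ‖p‖ ^ 2 := by
    have := abs_real_inner_le_norm p e
    rw [he, mul_one] at this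
    exact sq_le_sq' (by linarith only [(abs_le.1 this).1]) (abs_le.1 this).2
  rw [abs_of_pos (by linarith only [hd2]), hqq]
  have h1 : σ ^ 2 * d ≤ 2 * ‖p‖ ^ 2 := by
    have e1 : σ ^ 2 * d ≤ 2 * (σ * d) ^ 2 := by
      have : 0 ≤ σ ^ 2 * d * (2 * d - 1) := by
        have := sq_nonneg σ
        have h3 : 0 ≤ 2 * d - 1 := by linarith only [hd2]
        have h4 : 0 ≤ d := by linarith only [h3]
        (clear * - hd2 h3; positivity)
      linarith only [this]
    rw [← hpe] at e1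
    linarith only [e1, hps]
  have h2 : a ^ 2 * (σ ^ 2 * d) ≤ a ^ 2 * (2 * ‖p‖ ^ 2) :=
    mul_le_mul_of_nonneg_left h1 (sq_nonneg a)
  rw [hpe]
  have e2 : d * (‖p‖ ^ 2 + 2 * (a * σ) * inner ℝ p n + (a * σ) ^ 2) =
      ‖p‖ ^ 2 + a * (2 * inner ℝ p n * (σ * d) - ‖p‖ ^ 2 * inner ℝ n e) + a ^ 2 * (σ ^ 2 * d) := by
    rw [hd]; ring
  rw [e2]
  linarith only [h2]

theorem te_map (h : Disp x e s η t Ψ) : 0 ≤ t / η ∧ 2 * (t / η) ≤ 1 := by
  have h1 := h.η0
  have h2 := h.t0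
  have h3 := h.tη
  refine ⟨by positivity, ?_⟩
  rw [← mul_div_assoc, div_le_one h1]
  exact h3

theorem te_det_pos (h : Disp x e s η t Ψ) {z : ℂ} (h1 : s < dist z x) :
    (ContinuousLinearMap.id ℝ ℂ - (t / η) • (innerSL ℝ (dirn x z)).smulRight e :
        ℂ →L[ℝ] ℂ).det ≠ 0 := by
  have hz : 0 < dist z x := h.s0.trans h1
  rw [te_det]
  have hn := te_norm_dirn hz
  have hne : |(inner ℝ (dirn x z) e : ℝ)| ≤ 1 := by
    have := abs_real_inner_le_norm (dirn x z) e
    rwa [hn, h.e1, one_mul] at this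
  have hne' := abs_le.1 hne
  obtain ⟨ha, ha2⟩ := te_map h
  have : 1 / 2 ≤ 1 - t / η * inner ℝ (dirn x z) e := by nlinarith
  linarith only [this]

/-- pointwise expansion: change of variables factor times the squared norm of the new gradient -/
theorem tp_pt (h : Disp x e s η t Ψ) (h' : GM.LocLip (Ω \ Ψ '' K) (tpU u Ψ)) {z : ℂ}
    (h1 : s < dist z x) (h2 : dist z x < s + η) (hz : z ∈ Ω \ K) (hzΩ : Ψ z ∈ Ω)
    (hu : DifferentiableAt ℝ u z) :
    |(ContinuousLinearMap.id ℝ ℂ - (t / η) • (innerSL ℝ (dirn x z)).smulRight e :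
        ℂ →L[ℝ] ℂ).det| * ‖grad (tpU u Ψ) (Ψ z)‖ ^ 2 ≤
      ‖grad u z‖ ^ 2 + t / η * tq (grad u) x e z + 2 * (t / η) ^ 2 * ‖grad u z‖ ^ 2 := by
  have hz0 : 0 < dist z x := h.s0.trans h1
  obtain ⟨ha, ha2⟩ := te_map h
  have key := te_alg (p := grad u z) (q := grad (tpU u Ψ) (Ψ z)) (n := dirn x z) (e := e) ha ha2
    (te_norm_dirn hz0) h.e1 (fun v => by
      have := te_fderiv (u := u) (h.hasFDerivAt h1 h2) (te_det_pos h h1) hu v
      rw [← this]
      congr 1
      simp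
      ring)
  rw [te_det]
  unfold tq
  exact key

/-- the gradient of the displaced function in the inner disk -/
theorem te_inner (h : Disp x e s η t Ψ) {z : ℂ} (hz : z ∈ ball x s) :
    grad (tpU u Ψ) (Ψ z) = grad u z := by
  have hz' : dist z x < s := hz
  have h1 : Ψ z = z + t * e := h.inner_eq hz'.le
  have h2 : tpU u Ψ =ᶠ[𝓝 (Ψ z)] fun y => u (y - t * e) := by
    have hc : ContinuousAt (fun y : ℂ => y - t * e) (Ψ z) := by fun_prop
    have hm : (fun y : ℂ => y - t * e) (Ψ z) ∈ ball x s := by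
      simp only [h1, add_sub_cancel_right]; exact hz
    filter_upwards [hc.preimage_mem_nhds (isOpen_ball.mem_nhds hm)] with y hy
    have hy' : dist (y - t * e) x < s := hy
    have h3 : Ψ (y - t * e) = y := by
      rw [h.inner_eq hy'.le, sub_add_cancel]
    unfold tpU
    congr 1
    rw [← h3, Ψ.symm_apply_apply, h3]
  rw [GM.grad_congr h2, GM.grad_translate, h1, add_sub_cancel_right]

theorem te_abs_tq {G : ℂ → ℂ} {z : ℂ} (he : ‖e‖ = 1) (hz : 0 < dist z x) :
    |tq G x e z| ≤ 3 * ‖G z‖ ^ 2 := by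
  have hn := te_norm_dirn hz
  unfold tq
  have h1 : |(inner ℝ (G z) (dirn x z) : ℝ)| ≤ ‖G z‖ := by
    have := abs_real_inner_le_norm (G z) (dirn x z)
    rwa [hn, mul_one] at this
  have h2 : |(inner ℝ (G z) e : ℝ)| ≤ ‖G z‖ := by
    have := abs_real_inner_le_norm (G z) e
    rwa [he, mul_one] at this
  have h3 : |(inner ℝ (dirn x z) e : ℝ)| ≤ 1 := by
    have := abs_real_inner_le_norm (dirn x z) e
    rwa [hn, he, mul_one] at this
  have h4 : |(inner ℝ (G z) (dirn x z) : ℝ)| * |(inner ℝ (G z) e : ℝ)| ≤ ‖G z‖ * ‖G z‖ :=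
    mul_le_mul h1 h2 (abs_nonneg _) (norm_nonneg _)
  have h5 : ‖G z‖ ^ 2 * |(inner ℝ (dirn x z) e : ℝ)| ≤ ‖G z‖ ^ 2 * 1 :=
    mul_le_mul_of_nonneg_left h3 (sq_nonneg _)
  refine (abs_sub _ _).trans ?_
  rw [abs_mul, abs_mul, abs_mul, abs_of_nonneg (show (0 : ℝ) ≤ 2 by norm_num),
    abs_of_nonneg (sq_nonneg ‖G z‖)]
  linarith only [h5, h4]

theorem te_measurable_tq {G : ℂ → ℂ} (hG : Measurable G) (x e : ℂ) : Measurable (tq G x e) := by
  unfold tq
  have h1 := measurable_dirn x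
  exact ((measurable_const.mul (hG.inner h1)).mul (hG.inner measurable_const)).sub
    ((hG.norm.pow_const 2).mul (h1.inner measurable_const))

theorem tp_energy (h : MS Ω g u G K M x₀ R₀) (hD : Disp x e s η t Ψ)
    (hsub : closedBall x (s + η) ⊆ closedBall x₀ (4 * R₀)) :
    En (tpG Ω u K Ψ) x (s + η) ≤ En G x (s + η) +
      t / η * (∫ z in ball x (s + η) \ closedBall x s, tq G x e z) +
      2 * (t / η) ^ 2 * En G x (s + η) := by
  have hs := hD.s0
  have hη := hD.η0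
  have hN := h.N
  have hKm : MeasurableSet K := hN.min.1.measurableSet hN.isOpen
  have hΩK : IsOpen (Ω \ K) := hN.min.1.isOpen_diff hN.isOpen
  have hBΩ : ball x (s + η) ⊆ Ω := (ball_subset_closedBall.trans hsub).trans h.sub
  obtain ⟨hO, hL⟩ := tp_locLip h hD hsub
  have hAdm := tp_adm h hD hsub
  set W : ℂ → ℂ := tpG Ω u K Ψ with hW
  set B : Set ℂ := ball x (s + η) with hB
  set S₁ : Set ℂ := ball x s \ K with hS₁
  set S₂ : Set ℂ := (B \ closedBall x s) \ K with hS₂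
  have mS₁ : MeasurableSet S₁ := measurableSet_ball.diff hKm
  have mA : MeasurableSet (B \ closedBall x s) :=
    measurableSet_ball.diff isClosed_closedBall.measurableSet
  have mS₂ : MeasurableSet S₂ := mA.diff hKm
  have hS₁B : S₁ ⊆ B := sdiff_subset.trans (ball_subset_ball (by linarith))
  have hS₂B : S₂ ⊆ B := sdiff_subset.trans sdiff_subset
  have hΨB : ∀ z ∈ B, Ψ z ∈ B := fun z hz => hD.mem_ball.2 hz
  -- integrability of the new gradient
  have hWi : Integrable (fun y => ‖W y‖ ^ 2) := by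
    have h1 := hAdm.grad_memLp
    rw [← memLp_indicator_iff_restrict hO.measurableSet] at h1
    have h2 : (Ω \ Ψ '' K).indicator W = W := by
      rw [hW]; unfold tpG; rw [indicator_indicator, inter_self]
    rw [h2] at h1
    exact h1.norm.integrable_sq
  have hGi : Integrable (fun y => ‖G y‖ ^ 2) := hN.G_memLp.norm.integrable_sq
  have hWΨ : ∀ z ∈ B \ K, W (Ψ z) = grad (tpU u Ψ) (Ψ z) := by
    intro z hz
    rw [hW]
    unfold tpG
    refine indicator_of_mem (show Ψ z ∈ Ω \ Ψ '' K from ⟨hBΩ (hΨB z hz.1), ?_⟩) _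
    rintro ⟨y, hy, hyz⟩
    exact hz.2 (Ψ.injective hyz ▸ hy)
  -- the two pieces
  have mi : ∀ {S : Set ℂ}, MeasurableSet S → MeasurableSet (Ψ '' S) := fun hS =>
    (Ψ.measurableEmbedding.measurableSet_image).2 hS
  have hsph : volume (Ψ '' sphere x s) = 0 := by
    refine measure_mono_null ?_ (volume_sphere_zero (x + t * e) hs)
    rintro _ ⟨z, hz, rfl⟩
    have hz' : dist z x = s := hz
    rw [hD.inner_eq hz'.le, mem_sphere, dist_add_right]
    exact hz'
  have e0 : En W x (s + η) = ∫ y in Ψ '' S₁ ∪ Ψ '' S₂, ‖W y‖ ^ 2 := by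
    unfold En
    refine setIntegral_eq_of_subset_of_ae_sdiff_eq_zero measurableSet_ball.nullMeasurableSet ?_ ?_
    · rintro _ (⟨z, hz, rfl⟩ | ⟨z, hz, rfl⟩)
      · exact hΨB z (hS₁B hz)
      · exact hΨB z (hS₂B hz)
    · have h1 : ∀ᵐ y, y ∉ Ψ '' sphere x s := measure_eq_zero_iff_ae_notMem.1 hsph
      filter_upwards [h1] with y hy hyB
      obtain ⟨z, rfl⟩ := Ψ.surjective y
      have hzB : z ∈ B := hD.mem_ball.1 hyB.1
      have hzK : z ∈ K := by
        by_contra hzK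
        rcases lt_trichotomy (dist z x) s with hlt | heq | hgt
        · exact hyB.2 (Or.inl ⟨z, ⟨hlt, hzK⟩, rfl⟩)
        · exact hy ⟨z, heq, rfl⟩
        · exact hyB.2 (Or.inr ⟨z, ⟨⟨hzB, fun hc => absurd hgt (not_lt.2 hc)⟩, hzK⟩, rfl⟩)
      have : W (Ψ z) = 0 := by
        rw [hW]; unfold tpG
        exact indicator_of_notMem (fun hc => hc.2 ⟨z, hzK, rfl⟩) _
      rw [this]; simp
  have hdisj : Disjoint (Ψ '' S₁) (Ψ '' S₂) := by
    rw [disjoint_image_iff Ψ.injective]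
    rw [Set.disjoint_left]
    intro z h1 h2
    exact h2.1.2 (ball_subset_closedBall h1.1)
  rw [e0, setIntegral_union hdisj (mi mS₂) hWi.integrableOn hWi.integrableOn]
  -- the inner disk
  have e1 : ∫ y in Ψ '' S₁, ‖W y‖ ^ 2 = ∫ z in S₁, ‖G z‖ ^ 2 := by
    rw [integral_image_eq_integral_abs_det_fderiv_smul volume mS₁
      (f' := fun _ => ContinuousLinearMap.id ℝ ℂ) ?_ Ψ.injective.injOn]
    · refine setIntegral_congr_fun mS₁ fun z hz => ?_
      have hzB : z ∈ B \ K := ⟨hS₁B hz, hz.2⟩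
      rw [hWΨ z hzB, te_inner hD hz.1, h.Gu z ⟨hBΩ hzB.1, hz.2⟩]
      simp [ContinuousLinearMap.det]
    · intro z hz
      refine HasFDerivAt.hasFDerivWithinAt ?_
      have h1 : Ψ =ᶠ[𝓝 z] fun y => y + t * e := by
        filter_upwards [isOpen_ball.mem_nhds hz.1] with y hy
        exact hD.inner_eq (le_of_lt hy)
      exact ((hasFDerivAt_id z).add_const _).congr_of_eventuallyEq h1
  -- the annulus
  have hder : ∀ z ∈ S₂, HasFDerivWithinAt Ψ (ContinuousLinearMap.id ℝ ℂ -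
      (t / η) • (innerSL ℝ (dirn x z)).smulRight e) S₂ z := fun z hz =>
    (hD.hasFDerivAt (not_le.1 hz.1.2) hz.1.1).hasFDerivWithinAt
  have hpos : ∀ z ∈ S₂, 0 < dist z x := fun z hz => hs.trans (not_le.1 hz.1.2)
  have itq : IntegrableOn (tq G x e) (B \ closedBall x s) := by
    refine Integrable.mono' (hGi.integrableOn.const_mul 3)
      (te_measurable_tq hN.Gm x e).aestronglyMeasurable ?_
    rw [ae_restrict_iff' mA]
    refine Eventually.of_forall fun z hz => ?_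
    rw [Real.norm_eq_abs]
    exact te_abs_tq hD.e1 (hs.trans (not_le.1 hz.2))
  have e2 : ∫ y in Ψ '' S₂, ‖W y‖ ^ 2 ≤
      ∫ z in S₂, (‖G z‖ ^ 2 + t / η * tq G x e z + 2 * (t / η) ^ 2 * ‖G z‖ ^ 2) := by
    rw [integral_image_eq_integral_abs_det_fderiv_smul volume mS₂ hder Ψ.injective.injOn]
    refine setIntegral_mono_on ?_ ?_ mS₂ fun z hz => ?_
    · exact (integrableOn_image_iff_integrableOn_abs_det_fderiv_smul volume mS₂ hder
        Ψ.injective.injOn (fun y => ‖W y‖ ^ 2)).1 hWi.integrableOn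
    · exact ((hGi.integrableOn.add ((itq.mono_set sdiff_subset).const_mul _))).add
        (hGi.integrableOn.const_mul _)
    · have hzB : z ∈ B \ K := ⟨hS₂B hz, hz.2⟩
      have hzΩ : z ∈ Ω \ K := ⟨hBΩ hzB.1, hz.2⟩
      have hud : DifferentiableAt ℝ u z :=
        (h.c1.contDiffAt (hΩK.mem_nhds hzΩ)).differentiableAt (by simp)
      have key := tp_pt hD hL (not_le.1 hz.1.2) hz.1.1 hzΩ (hBΩ (hΨB z hzB.1)) hud
      rw [smul_eq_mul, hWΨ z hzB]
      have e3 : tq G x e z = tq (grad u) x e z := by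
        unfold tq; rw [h.Gu z hzΩ]
      rw [e3, h.Gu z hzΩ]
      exact key
  have e4 : ∫ z in S₂, (‖G z‖ ^ 2 + t / η * tq G x e z + 2 * (t / η) ^ 2 * ‖G z‖ ^ 2) =
      (∫ z in S₂, ‖G z‖ ^ 2) + t / η * (∫ z in S₂, tq G x e z) +
        2 * (t / η) ^ 2 * ∫ z in S₂, ‖G z‖ ^ 2 := by
    rw [← integral_const_mul, ← integral_const_mul, ← integral_add, ← integral_add]
    · exact hGi.integrableOn.add ((itq.mono_set sdiff_subset).const_mul _)
    · exact hGi.integrableOn.const_mul _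
    · exact hGi.integrableOn
    · exact (itq.mono_set sdiff_subset).const_mul _
  have e5 : ∫ z in S₂, tq G x e z = ∫ z in B \ closedBall x s, tq G x e z := by
    refine (setIntegral_eq_of_subset_of_forall_sdiff_eq_zero mA sdiff_subset ?_).symm
    intro z hz
    have hzK : z ∈ K := by
      by_contra hc
      exact hz.2 ⟨hz.1, hc⟩
    have : G z = 0 := hN.G0 z fun hh => hh.2 hzK
    unfold tq
    rw [this]; simp
  have e6 : (∫ z in S₁, ‖G z‖ ^ 2) + ∫ z in S₂, ‖G z‖ ^ 2 ≤ En G x (s + η) := by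
    rw [← setIntegral_union ?_ mS₂ hGi.integrableOn hGi.integrableOn]
    · exact setIntegral_mono_set hGi.integrableOn (Eventually.of_forall fun _ => by (clear * -; positivity))
        (union_subset hS₁B hS₂B).eventuallyLE
    · rw [Set.disjoint_left]
      intro z h1 h2
      exact h2.1.2 (ball_subset_closedBall h1.1)
  have e7 : ∫ z in S₂, ‖G z‖ ^ 2 ≤ En G x (s + η) :=
    setIntegral_mono_set hGi.integrableOn (Eventually.of_forall fun _ => by (clear * -; positivity))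
      hS₂B.eventuallyLE
  have e8 : 2 * (t / η) ^ 2 * (∫ z in S₂, ‖G z‖ ^ 2) ≤ 2 * (t / η) ^ 2 * En G x (s + η) :=
    mul_le_mul_of_nonneg_left e7 (by (clear * -; positivity))
  rw [e1]
  rw [e4, e5] at e2
  linarith only [e8, e6, e2]

end Vale.Agent.P128.Q1
end

section

/-! Part VI.2: thin annuli. -/

open MeasureTheory Set Metric Filter
open scoped ENNReal NNReal ContDiff Topology Real

namespace Vale.Agent.P128.Q1

open Vale.Agent.P128

variable {Ω : Set ℂ} {g u : ℂ → ℝ} {G : ℂ → ℂ} {K : Set ℂ} {M : ℝ} {x₀ : ℂ} {R₀ : ℝ}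
variable {x e : ℂ} {s η t : ℝ} {Ψ : ℂ ≃ₜ ℂ}

lemma TpLeb_dist (x : ℂ) {s : ℝ} (hs : 0 ≤ s) (θ : ℝ) : dist (circleMap x s θ) x = s := by
  rw [dist_eq_norm, circleMap_sub_center, norm_circleMap_zero, abs_of_nonneg hs]

theorem ae_shell {F : ℂ → ℝ} (hF : Measurable F) {R : ℝ} (hi : IntegrableOn F (ball x R)) :
    ∀ᵐ s : ℝ, s ∈ Ioo 0 R → Tendsto (fun η : ℝ => 1 / η * ∫ z in ball x (s + η) \ closedBall x s,
      F z) (𝓝[>] 0) (𝓝 (s * ∫ θ in ang, F (circleMap x s θ))) := by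
  set F' : ℂ → ℝ := (ball x R).indicator F with hF'
  have hF'm : Measurable F' := hF.indicator measurableSet_ball
  have hF'i : Integrable F' := (integrable_indicator_iff measurableSet_ball).2 hi
  set f : ℝ → ℝ := fun r => r * ∫ θ in ang, F' (circleMap x r θ) with hf
  set h : ℝ → ℝ := (Ioi 0).indicator f with hh
  have hfi : IntegrableOn f (Ioi 0) := by
    have h1 := (integrable_polar x hF'm hF'i).integral_prod_left
    simp only [integral_const_mul] at h1
    exact h1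
  have hhi : Integrable h := (integrable_indicator_iff measurableSet_Ioi).2 hfi
  have hae := LocallyIntegrable.ae_hasDerivAt_integral hhi.locallyIntegrable
  filter_upwards [hae] with s hs hsR
  have hd := (hs s).tendsto_slope_zero_right
  have hhs : h s = s * ∫ θ in ang, F (circleMap x s θ) := by
    rw [hh, indicator_of_mem (show s ∈ Ioi (0 : ℝ) from hsR.1), hf]
    simp only
    congr 1
    refine integral_congr_ae (Eventually.of_forall fun θ => ?_)
    simp only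
    rw [hF', indicator_of_mem]
    rw [mem_ball, TpLeb_dist x hsR.1.le]
    exact hsR.2
  rw [← hhs]
  refine hd.congr' ?_
  have hev : ∀ᶠ η : ℝ in 𝓝[>] 0, η < R - s :=
    mem_nhdsWithin_of_mem_nhds (Iio_mem_nhds (by linarith [hsR.2]))
  filter_upwards [hev, self_mem_nhdsWithin] with η hη hη0
  have hη0' : (0 : ℝ) < η := hη0
  simp only [intervalIntegral.integral_same, sub_zero, smul_eq_mul, one_div]
  congr 1
  rw [intervalIntegral.integral_of_le (by linarith), integral_Ioc_eq_integral_Ioo]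
  -- the shell
  have hS : MeasurableSet (ball x (s + η) \ closedBall x s) :=
    measurableSet_ball.diff measurableSet_closedBall
  have hsub : ball x (s + η) \ closedBall x s ⊆ ball x R :=
    sdiff_subset.trans (ball_subset_ball (by linarith))
  have hi2 : Integrable ((ball x (s + η) \ closedBall x s).indicator F) :=
    (integrable_indicator_iff hS).2 (hi.mono_set hsub)
  rw [← integral_indicator hS, integral_polar x (hF.indicator hS) hi2,
    ← integral_indicator measurableSet_Ioo, ← integral_indicator measurableSet_Ioi]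
  refine integral_congr_ae (Eventually.of_forall fun r => ?_)
  by_cases hr0 : (0 : ℝ) < r
  · rw [indicator_of_mem (show r ∈ Ioi (0 : ℝ) from hr0)]
    by_cases hr : r ∈ Ioo s (s + η)
    · rw [indicator_of_mem hr, hh, indicator_of_mem (show r ∈ Ioi (0 : ℝ) from hr0), hf]
      simp only
      congr 1
      refine integral_congr_ae (Eventually.of_forall fun θ => ?_)
      simp only
      have hdr := TpLeb_dist x hr0.le θ
      rw [hF', indicator_of_mem, indicator_of_mem]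
      · refine ⟨?_, ?_⟩
        · rw [mem_ball, hdr]; exact hr.2
        · rw [mem_closedBall, hdr, not_le]; exact hr.1
      · rw [mem_ball, hdr]; linarith [hr.2]
    · rw [indicator_of_notMem hr]
      have : ∀ θ, (ball x (s + η) \ closedBall x s).indicator F (circleMap x r θ) = 0 := by
        intro θ
        refine indicator_of_notMem (fun hz => hr ?_) _
        have hdr := TpLeb_dist x hr0.le θ
        obtain ⟨h1, h2⟩ := hz
        rw [mem_ball, hdr] at h1
        rw [mem_closedBall, hdr, not_le] at h2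
        exact ⟨h2, h1⟩
      simp only [this, integral_zero, mul_zero]
  · rw [indicator_of_notMem (show r ∉ Ioi (0 : ℝ) from hr0), indicator_of_notMem]
    intro hr
    exact hr0 (by linarith [hr.1, hsR.1])


lemma TpLeb_inner (w e : ℂ) : inner ℝ w e = w.re * e.re + w.im * e.im := by
  rw [Complex.inner]
  simp [Complex.mul_re]
  ring

lemma TpLeb_lin (G : ℂ → ℂ) (x e z : ℂ) :
    tq G x e z = e.re * tq G x 1 z + e.im * tq G x Complex.I z := by
  unfold tq
  simp only [TpLeb_inner, Complex.one_re, Complex.one_im, Complex.I_re, Complex.I_im]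
  ring

lemma TpLeb_norm_dirn (x z : ℂ) : ‖dirn x z‖ ≤ 1 := by
  unfold dirn
  rw [norm_smul, norm_inv, norm_norm]
  by_cases h : ‖z - x‖ = 0
  · rw [h]; simp
  · rw [inv_mul_cancel₀ h]

lemma TpLeb_bound (G : ℂ → ℂ) (x e z : ℂ) : ‖tq G x e z‖ ≤ 3 * ‖e‖ * ‖G z‖ ^ 2 := by
  unfold tq
  have h1 : |inner ℝ (G z) (dirn x z)| ≤ ‖G z‖ * 1 :=
    (abs_real_inner_le_norm _ _).trans (by gcongr; exact TpLeb_norm_dirn x z)
  have h2 : |inner ℝ (G z) e| ≤ ‖G z‖ * ‖e‖ := abs_real_inner_le_norm _ _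
  have h3 : |inner ℝ (dirn x z) e| ≤ 1 * ‖e‖ :=
    (abs_real_inner_le_norm _ _).trans (by gcongr; exact TpLeb_norm_dirn x z)
  rw [Real.norm_eq_abs]
  calc |2 * inner ℝ (G z) (dirn x z) * inner ℝ (G z) e - ‖G z‖ ^ 2 * inner ℝ (dirn x z) e|
      ≤ |2 * inner ℝ (G z) (dirn x z) * inner ℝ (G z) e| +
        |‖G z‖ ^ 2 * inner ℝ (dirn x z) e| := abs_sub _ _
    _ = 2 * |inner ℝ (G z) (dirn x z)| * |inner ℝ (G z) e| +
        ‖G z‖ ^ 2 * |inner ℝ (dirn x z) e| := by
        rw [abs_mul, abs_mul, abs_mul, abs_two, abs_of_nonneg (sq_nonneg ‖G z‖)]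
    _ ≤ 2 * (‖G z‖ * 1) * (‖G z‖ * ‖e‖) + ‖G z‖ ^ 2 * (1 * ‖e‖) := by gcongr
    _ = 3 * ‖e‖ * ‖G z‖ ^ 2 := by ring

lemma TpLeb_meas (hG : Measurable G) (x e : ℂ) : Measurable (tq G x e) := by
  have hd : Measurable (dirn x) := by
    unfold dirn
    fun_prop
  unfold tq
  exact (((hG.inner hd).const_mul 2).mul (hG.inner measurable_const)).sub
    ((hG.norm.pow_const 2).mul (hd.inner measurable_const))

lemma TpLeb_int (hG : Measurable G) (x e : ℂ) {S : Set ℂ}
    (hi : IntegrableOn (fun z => ‖G z‖ ^ 2) S) : IntegrableOn (tq G x e) S :=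
  (hi.const_mul (3 * ‖e‖)).mono' (TpLeb_meas hG x e).aestronglyMeasurable
    (Eventually.of_forall fun z => TpLeb_bound G x e z)

/-- integrability on almost every circle -/
lemma TpLeb_circle {F : ℂ → ℝ} (hF : Measurable F) {R : ℝ} (hi : IntegrableOn F (ball x R)) :
    ∀ᵐ s : ℝ, s ∈ Ioo 0 R → IntegrableOn (fun θ => F (circleMap x s θ)) ang := by
  have h1 := (integrable_polar x (hF.indicator measurableSet_ball)
    ((integrable_indicator_iff measurableSet_ball).2 hi)).prod_right_ae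
  rw [ae_restrict_iff' measurableSet_Ioi] at h1
  filter_upwards [h1] with s hs hsR
  have h2 := hs hsR.1
  have h3 : (fun θ => F (circleMap x s θ)) = fun θ =>
      s⁻¹ * (s * (ball x R).indicator F (circleMap x s θ)) := by
    funext θ
    rw [indicator_of_mem, ← mul_assoc, inv_mul_cancel₀ hsR.1.ne', one_mul]
    rw [mem_ball, TpLeb_dist x hsR.1.le]
    exact hsR.2
  unfold IntegrableOn
  rw [h3]
  exact h2.const_mul _

theorem ae_shell_tq (hG : Measurable G) {R : ℝ} (hi : IntegrableOn (fun z => ‖G z‖ ^ 2) (ball x R)) :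
    ∀ᵐ s : ℝ, s ∈ Ioo 0 R → ∀ e : ℂ, Tendsto (fun η : ℝ => 1 / η *
      ∫ z in ball x (s + η) \ closedBall x s, tq G x e z) (𝓝[>] 0)
        (𝓝 (s * ∫ θ in ang, tq G x e (circleMap x s θ))) := by
  filter_upwards [ae_shell (TpLeb_meas hG x 1) (TpLeb_int hG x 1 hi),
    ae_shell (TpLeb_meas hG x Complex.I) (TpLeb_int hG x Complex.I hi),
    TpLeb_circle (TpLeb_meas hG x 1) (TpLeb_int hG x 1 hi),
    TpLeb_circle (TpLeb_meas hG x Complex.I) (TpLeb_int hG x Complex.I hi)] with s h1 h2 h3 h4 hs e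
  have hlim := ((h1 hs).const_mul e.re).add ((h2 hs).const_mul e.im)
  have hR : s * ∫ θ in ang, tq G x e (circleMap x s θ) =
      e.re * (s * ∫ θ in ang, tq G x 1 (circleMap x s θ)) +
        e.im * (s * ∫ θ in ang, tq G x Complex.I (circleMap x s θ)) := by
    simp_rw [TpLeb_lin G x e]
    rw [integral_add ((h3 hs).const_mul _) ((h4 hs).const_mul _), integral_const_mul,
      integral_const_mul]
    ring
  rw [hR]
  refine hlim.congr' ?_
  have hev : ∀ᶠ η : ℝ in 𝓝[>] 0, η < R - s :=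
    mem_nhdsWithin_of_mem_nhds (Iio_mem_nhds (by linarith [hs.2]))
  filter_upwards [hev, self_mem_nhdsWithin] with η hη hη0
  have hsub : ball x (s + η) \ closedBall x s ⊆ ball x R :=
    sdiff_subset.trans (ball_subset_ball (by linarith))
  simp_rw [TpLeb_lin G x e]
  rw [integral_add (((TpLeb_int hG x 1 hi).mono_set hsub).const_mul _)
    (((TpLeb_int hG x Complex.I hi).mono_set hsub).const_mul _), integral_const_mul,
      integral_const_mul]
  ring

lemma TpLeb_dirn_circle (x : ℂ) (hs : 0 < s) (θ : ℝ) :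
    dirn x (circleMap x s θ) = Complex.exp (θ * Complex.I) := by
  unfold dirn
  rw [circleMap_sub_center, norm_circleMap_zero, abs_of_pos hs, circleMap_zero,
    Complex.real_smul]
  have : (s : ℂ) ≠ 0 := by exact_mod_cast hs.ne'
  push_cast
  field_simp

lemma TpLeb_point (G : ℂ → ℂ) (x : ℂ) (hs : 0 < s) (φ t : ℝ) :
    s * (s * tq G x (-Complex.exp (φ * Complex.I)) (circleMap x s (φ + t))) =
      -((nsl G x s (φ + t) ^ 2 - tsl G x s (φ + t) ^ 2) * Real.cos t -
        2 * (nsl G x s (φ + t) * tsl G x s (φ + t)) * Real.sin t) := by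
  unfold tq nsl tsl
  rw [TpLeb_dirn_circle x hs, circleMap_zero]
  set w := G (circleMap x s (φ + t)) with hw
  have hφ : φ = (φ + t) - t := by ring
  set θ := φ + t with hθ
  have h1 : Complex.exp (φ * Complex.I) =
      ⟨Real.cos θ * Real.cos t + Real.sin θ * Real.sin t,
        Real.sin θ * Real.cos t - Real.cos θ * Real.sin t⟩ := by
    rw [hφ, ← Real.cos_sub, ← Real.sin_sub]
    apply Complex.ext
    · rw [Complex.exp_ofReal_mul_I_re]
    · rw [Complex.exp_ofReal_mul_I_im]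
  have h2 : Complex.exp (θ * Complex.I) = ⟨Real.cos θ, Real.sin θ⟩ := by
    apply Complex.ext
    · rw [Complex.exp_ofReal_mul_I_re]
    · rw [Complex.exp_ofReal_mul_I_im]
  have h3 : ‖w‖ ^ 2 = w.re ^ 2 + w.im ^ 2 := by
    rw [← Complex.normSq_eq_norm_sq, Complex.normSq_apply]
    ring
  simp only [TpLeb_inner, h1, h2, h3, Complex.neg_re, Complex.neg_im, Complex.mul_re,
    Complex.mul_im, Complex.I_re, Complex.I_im, Complex.ofReal_one, Complex.one_re, Complex.one_im]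
  ring

/-- the circle integral in the form of Part VI.1 -/
theorem tq_circle (hG : Measurable G) (hs : 0 < s) (φ : ℝ) :
    s * (s * ∫ θ in ang, tq G x (-Complex.exp (φ * Complex.I)) (circleMap x s θ)) =
      -∫ t in Ioo 0 (2 * π), ((nsl G x s (φ + t) ^ 2 - tsl G x s (φ + t) ^ 2) * Real.cos t -
        2 * (nsl G x s (φ + t) * tsl G x s (φ + t)) * Real.sin t) := by
  rw [← integral_const_mul, ← integral_const_mul, ← integral_neg]
  simp_rw [← TpLeb_point G x hs φ]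
  set g : ℝ → ℝ := fun θ => s * (s * tq G x (-Complex.exp (φ * Complex.I)) (circleMap x s θ))
    with hg
  have hper : Function.Periodic g (2 * π) := by
    intro θ
    simp only [hg]
    rw [periodic_circleMap x s θ]
  rw [show ang = Ioo (-π) π from rfl, ← integral_Ioc_eq_integral_Ioo,
    ← integral_Ioc_eq_integral_Ioo, ← intervalIntegral.integral_of_le (by linarith [Real.pi_pos]),
    ← intervalIntegral.integral_of_le (by linarith [Real.pi_pos])]
  have h1 := hper.intervalIntegral_add_eq (-π) φ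
  have h2 : -π + 2 * π = π := by ring
  rw [h2] at h1
  rw [h1]
  have h3 := intervalIntegral.integral_comp_add_left (a := 0) (b := 2 * π) g φ
  rw [add_zero] at h3
  exact h3.symm

end Vale.Agent.P128.Q1
end

section

/-! Part VI.2: chords of the branch. -/

open MeasureTheory Set Metric Filter
open scoped ENNReal NNReal ContDiff Topology Real

namespace Vale.Agent.P128.Q1

open Vale.Agent.P128

variable {Ω : Set ℂ} {g u : ℂ → ℝ} {G : ℂ → ℂ} {K : Set ℂ} {M : ℝ} {x₀ : ℂ} {R₀ : ℝ}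
variable {x e : ℂ} {s η t : ℝ} {Ψ : ℂ ≃ₜ ℂ}

/-- velocity of the branch -/
noncomputable def tpChord_v (ψ : ℝ → ℝ) (r : ℝ) : ℂ :=
  (1 + (r * deriv ψ r : ℝ) * Complex.I) * Complex.exp (ψ r * Complex.I)

theorem tpChord_hasDerivAt {ψ : ℝ → ℝ} {r : ℝ} (h : DifferentiableAt ℝ ψ r) (x : ℂ) :
    HasDerivAt (fun r : ℝ => x + r * Complex.exp (ψ r * Complex.I)) (tpChord_v ψ r) r := by
  have h1 : HasDerivAt (fun r : ℝ => ((ψ r : ℝ) : ℂ)) ((deriv ψ r : ℝ) : ℂ) r :=
    h.hasDerivAt.ofReal_comp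
  have h2 : HasDerivAt (fun r : ℝ => Complex.exp (ψ r * Complex.I))
      (Complex.exp (ψ r * Complex.I) * ((deriv ψ r : ℝ) * Complex.I)) r :=
    (h1.mul_const Complex.I).cexp
  have h3 : HasDerivAt (fun r : ℝ => (r : ℂ)) 1 r := by
    simpa using (hasDerivAt_id r).ofReal_comp
  refine ((h3.mul h2).const_add x).congr_deriv ?_
  rw [tpChord_v]
  push_cast
  ring

theorem tpChord_cont {s₀ : ℝ} {φ : Fin 1 → ℝ → ℝ} (hφ : Branches K x s₀ 1 φ) {s : ℝ}
    (hs : s ∈ Ioo 0 s₀) : ContinuousWithinAt (tpChord_v (φ 0)) (Ici s) s := by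
  have hs0 : 0 < s := hs.1
  obtain ⟨C, β, hβ, -, hH⟩ := hφ.holder
  have h1 : ContinuousWithinAt (fun r => r * deriv (φ 0) r) (Ici s) s := by
    rw [ContinuousWithinAt, tendsto_iff_norm_sub_tendsto_zero]
    have h2 : Tendsto (fun r : ℝ => C * ((r - s) / r) ^ β) (𝓝[Ici s] s) (𝓝 0) := by
      have hc : ContinuousAt (fun r : ℝ => C * ((r - s) / r) ^ β) s := by
        refine continuousAt_const.mul (ContinuousAt.rpow_const ?_ (Or.inr hβ.le))
        exact (continuousAt_id.sub continuousAt_const).div continuousAt_id hs0.ne'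
      have h0 : C * ((s - s) / s) ^ β = 0 := by
        rw [sub_self, zero_div, Real.zero_rpow hβ.ne', mul_zero]
      have := hc.tendsto
      rw [h0] at this
      exact this.mono_left nhdsWithin_le_nhds
    refine squeeze_zero' (Eventually.of_forall fun r => norm_nonneg _) ?_ h2
    have hn : ∀ᶠ r in 𝓝[Ici s] s, r ∈ Iio (min s₀ (2 * s)) :=
      nhdsWithin_le_nhds (Iio_mem_nhds (lt_min hs.2 (by linarith)))
    filter_upwards [hn, self_mem_nhdsWithin] with r hr hr'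
    rw [Real.norm_eq_abs]
    have hr1 : r < s₀ := lt_of_lt_of_le hr (min_le_left _ _)
    have hr2 : r < 2 * s := lt_of_lt_of_le hr (min_le_right _ _)
    have hr3 : s ≤ r := hr'
    exact hH 0 r s (by linarith) (by linarith) hr3 hr1
  have h3 : ContinuousWithinAt (φ 0) (Ici s) s :=
    (hφ.diff 0 s hs).continuousAt.continuousWithinAt
  unfold tpChord_v
  refine ContinuousWithinAt.mul ?_ ?_
  · exact continuousWithinAt_const.add
      ((Complex.continuous_ofReal.continuousAt.comp_continuousWithinAt h1).mul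
        continuousWithinAt_const)
  · exact ((Complex.continuous_ofReal.continuousAt.comp_continuousWithinAt h3).mul
        continuousWithinAt_const).cexp

/-- the branch is strictly differentiable -/
theorem Branches.chords {s₀ : ℝ} {φ : Fin 1 → ℝ → ℝ} (hφ : Branches K x s₀ 1 φ) {s : ℝ}
    (hs : s ∈ Ioo 0 s₀) {ε : ℝ} (hε : 0 < ε) : ∃ η₀ > 0, s + η₀ < s₀ ∧
      ∀ r ∈ Icc s (s + η₀), ∀ r' ∈ Icc s (s + η₀),
        ‖(x + r' * Complex.exp (φ 0 r' * Complex.I)) - (x + r * Complex.exp (φ 0 r * Complex.I)) -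
          ((r' - r : ℝ) : ℂ) * ((1 + (s * deriv (φ 0) s : ℝ) * Complex.I) *
            Complex.exp (φ 0 s * Complex.I))‖ ≤ ε * |r' - r| := by
  obtain ⟨δ, hδ, hc⟩ := Metric.continuousWithinAt_iff.1 (tpChord_cont hφ hs) ε hε
  refine ⟨min (δ / 2) ((s₀ - s) / 2), lt_min (by linarith) (by linarith [hs.2]), ?_, ?_⟩
  · have := min_le_right (δ / 2) ((s₀ - s) / 2)
    linarith [hs.2]
  · intro r hr r' hr'
    set η₀ := min (δ / 2) ((s₀ - s) / 2) with hη₀
    have hη1 : η₀ ≤ δ / 2 := min_le_left _ _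
    have hη2 : η₀ ≤ (s₀ - s) / 2 := min_le_right _ _
    set w : ℂ := tpChord_v (φ 0) s with hw
    set F : ℝ → ℂ := fun r => (x + r * Complex.exp (φ 0 r * Complex.I)) - (r : ℂ) * w with hF
    have hder : ∀ y ∈ Icc s (s + η₀),
        HasDerivWithinAt F (tpChord_v (φ 0) y - w) (Icc s (s + η₀)) y := by
      intro y hy
      have hy' : y ∈ Ioo 0 s₀ := ⟨by linarith [hs.1, hy.1], by linarith [hy.2, hs.2]⟩
      have h3 : HasDerivAt (fun r : ℝ => (r : ℂ)) 1 y := by
        simpa using (hasDerivAt_id y).ofReal_comp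
      have h4 := (tpChord_hasDerivAt (hφ.diff 0 y hy') x).sub (h3.mul_const w)
      rw [one_mul] at h4
      exact h4.hasDerivWithinAt
    have hb : ∀ y ∈ Icc s (s + η₀), ‖tpChord_v (φ 0) y - w‖ ≤ ε := by
      intro y hy
      rw [← dist_eq_norm]
      refine (hc hy.1 ?_).le
      rw [Real.dist_eq, abs_lt]
      constructor <;> linarith [hy.1, hy.2]
    have h5 := Convex.norm_image_sub_le_of_norm_hasDerivWithin_le hder hb (convex_Icc _ _) hr hr'
    rw [Real.norm_eq_abs] at h5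
    refine le_trans (le_of_eq ?_) h5
    congr 1
    simp only [hF, hw, tpChord_v]
    push_cast
    ring

end Vale.Agent.P128.Q1
end

section

/-! Part VI.2: the translation inequality. -/

open MeasureTheory Set Metric Filter
open scoped ENNReal NNReal ContDiff Topology Real

namespace Vale.Agent.P128.Q1

open Vale.Agent.P128

variable {Ω : Set ℂ} {g u : ℂ → ℝ} {G : ℂ → ℂ} {K : Set ℂ} {M : ℝ} {x₀ : ℂ} {R₀ : ℝ}
variable {x e : ℂ} {s η t : ℝ} {Ψ : ℂ ≃ₜ ℂ}

theorem tpTrans_sub (hx : x ∈ ball x₀ R₀) {r : ℝ} (hr : r ≤ 3 * R₀) :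
    closedBall x r ⊆ closedBall x₀ (4 * R₀) := by
  intro z hz
  rw [mem_closedBall] at hz ⊢
  rw [mem_ball] at hx
  linarith [dist_triangle z x x₀]

/-- growth of the error terms -/
theorem tpTrans_growth (h : MS Ω g u G K M x₀ R₀) (hx : x ∈ ball x₀ R₀) :
    ∃ C : ℝ, 0 ≤ C ∧ ∀ r : ℝ, 0 < r → r ≤ 2 * R₀ →
      4 * M * ((∫ z in ball x r, ‖G z‖) + 2 * M * Hn K x r) ≤ C * r := by
  have hR0 := h.R0
  have hR1 := h.R1
  have hM := h.M1
  have hπ := Real.pi_pos
  obtain ⟨B, hB⟩ : ∃ B : ℝ, B = 2 * π + 2 * π * M ^ 2 := ⟨_, rfl⟩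
  have hB0 : 0 ≤ B := by rw [hB]; positivity
  refine ⟨4 * M * ((B + 2 * π) / 2 + 2 * M * B), by positivity, fun r hr hr2 => ?_⟩
  have hsub : closedBall x (3 * R₀) ⊆ Ω := (tpTrans_sub hx le_rfl).trans h.sub
  have h1 := h.N.circle_bound (x := x) hr (by linarith : r < 3 * R₀) hsub
  have hE0 : 0 ≤ En G x r := integral_nonneg fun _ => by positivity
  have hH0 : 0 ≤ Hn K x r := ENNReal.toReal_nonneg
  have hU0 : 0 ≤ Un g u x r := integral_nonneg fun _ => by positivity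
  have h2 : 2 * π * r + π * M ^ 2 * r ^ 2 ≤ B * r := by
    rw [hB]
    have : r ^ 2 ≤ 2 * r := by nlinarith only [hr, hr2, hR1]
    nlinarith only [this, hπ, sq_nonneg M, mul_le_mul_of_nonneg_left this
      (by positivity : 0 ≤ π * M ^ 2)]
  have hG2 : Integrable (fun z => ‖G z‖ ^ 2) (volume.restrict (ball x r)) :=
    (h.N.G_memLp.restrict _).norm.integrable_sq
  have h3 : ∫ z in ball x r, ‖G z‖ ≤ (En G x r + π * r ^ 2) / 2 := by
    have hc : Integrable (fun _ : ℂ => (1 : ℝ)) (volume.restrict (ball x r)) :=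
      integrable_const_iff.2 (Or.inr (by
        rw [isFiniteMeasure_restrict]; exact measure_ball_lt_top.ne))
    have h4 : ∫ z in ball x r, ‖G z‖ ≤ ∫ z in ball x r, (‖G z‖ ^ 2 + 1) / 2 := by
      refine integral_mono_of_nonneg (Eventually.of_forall fun z => norm_nonneg _)
        ((hG2.add hc).div_const 2) (Eventually.of_forall fun z => ?_)
      simp only
      linarith only [sq_nonneg (‖G z‖ - 1)]
    refine h4.trans (le_of_eq ?_)
    rw [integral_div, integral_add hG2 hc]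
    congr 1
    have h5 : ∫ _ in ball x r, (1 : ℝ) = π * r ^ 2 := by
      rw [setIntegral_const, smul_eq_mul, mul_one, Measure.real, Complex.volume_ball]
      rw [ENNReal.toReal_mul, ENNReal.toReal_pow, ENNReal.toReal_ofReal hr.le]
      simp
      ring
    rw [h5]
    rfl
  have h6 : En G x r ≤ B * r := by linarith only [h2, hU0, hH0, h1]
  have h7 : Hn K x r ≤ B * r := by linarith only [h2, hU0, hE0, h1]
  have h8 : π * r ^ 2 ≤ 2 * π * r := by nlinarith only [hr, hr2, hR1, hπ, mul_pos hπ hr]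
  have h9 : (∫ z in ball x r, ‖G z‖) + 2 * M * Hn K x r ≤ ((B + 2 * π) / 2 + 2 * M * B) * r := by
    have h10 : 2 * M * Hn K x r ≤ 2 * M * (B * r) := mul_le_mul_of_nonneg_left h7 (by positivity)
    linarith
  calc 4 * M * ((∫ z in ball x r, ‖G z‖) + 2 * M * Hn K x r)
      ≤ 4 * M * (((B + 2 * π) / 2 + 2 * M * B) * r) :=
        mul_le_mul_of_nonneg_left h9 (by positivity)
    _ = _ := by ring

/-- the inequality before the limit in `t` -/
theorem tpTrans_step (h : MS Ω g u G K M x₀ R₀) (hx : x ∈ ball x₀ R₀) {s₀ : ℝ}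
    {φ : Fin 1 → ℝ → ℝ} (hφ : Branches K x s₀ 1 φ) {s : ℝ} (hs : s ∈ Ioo 0 s₀) {ε c : ℝ}
    (hε : 0 < ε) (hc : c = √(1 + (s * deriv (φ 0) s) ^ 2)) (hεc : ε < c) {η : ℝ} (hη : 0 < η)
    (hηs : s + η < s₀) (hη2 : s + 2 * η ≤ 2 * R₀)
    (hch : ∀ r ∈ Icc s (s + η), ∀ r' ∈ Icc s (s + η),
        ‖(x + r' * Complex.exp (φ 0 r' * Complex.I)) - (x + r * Complex.exp (φ 0 r * Complex.I)) -
          ((r' - r : ℝ) : ℂ) * ((1 + (s * deriv (φ 0) s : ℝ) * Complex.I) *
            Complex.exp (φ 0 s * Complex.I))‖ ≤ ε * |r' - r|) {t : ℝ} (ht : 0 < t)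
    (htη : 2 * t ≤ η) :
    0 ≤ 1 / η * (∫ z in ball x (s + η) \ closedBall x s,
        tq G x (-Complex.exp (φ 0 s * Complex.I)) z) +
      (1 + ε) * (c + ε) / (c - ε) ^ 2 +
      4 * M * ((∫ z in ball x (s + 2 * η), ‖G z‖) + 2 * M * Hn K x (s + 2 * η)) +
      t * (2 / η ^ 2 * En G x (s + η) + (c + ε) / (2 * η)) := by
  have hR0 := h.R0
  obtain ⟨e, he⟩ : ∃ e : ℂ, e = -Complex.exp (φ 0 s * Complex.I) := ⟨_, rfl⟩
  have he1 : ‖e‖ = 1 := by rw [he, norm_neg, Complex.norm_exp_ofReal_mul_I]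
  obtain ⟨Ψ, hD⟩ := exists_disp (x := x) he1 hs.1 hη ht htη
  have hK : MeasurableSet K := h.N.min.1.measurableSet h.N.isOpen
  have hfin : μH[1] K ≠ ⊤ := h.N.min.1.finite.ne
  -- the chords
  set γ : ℝ → ℂ := fun r => x + r * Complex.exp (φ 0 r * Complex.I) with hγdef
  set p : ℝ := s * deriv (φ 0) s with hp
  set v : ℂ := (1 + (p : ℝ) * Complex.I) * Complex.exp (φ 0 s * Complex.I) with hv
  have hvn : ‖v‖ = c := by
    rw [hv, norm_mul, Complex.norm_exp_ofReal_mul_I, mul_one, hc]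
    rw [Complex.norm_def, Complex.normSq_apply]
    congr 1
    simp
    ring
  have hve : inner ℝ v e = -1 := by
    rw [he, inner_neg_right, hv]
    have h1 : inner ℝ ((1 + (p : ℝ) * Complex.I) * Complex.exp (φ 0 s * Complex.I))
        (Complex.exp (φ 0 s * Complex.I)) = 1 := by
      rw [inner_eq]
      have h2 : (Complex.exp (φ 0 s * Complex.I)).re = Real.cos (φ 0 s) :=
        Complex.exp_ofReal_mul_I_re _
      have h3 : (Complex.exp (φ 0 s * Complex.I)).im = Real.sin (φ 0 s) :=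
        Complex.exp_ofReal_mul_I_im _
      simp only [Complex.mul_re, Complex.mul_im, Complex.add_re, Complex.add_im, Complex.one_re,
        Complex.one_im, Complex.ofReal_re, Complex.ofReal_im, Complex.I_re, Complex.I_im, h2, h3]
      linear_combination Real.cos_sq_add_sin_sq (φ 0 s)
    rw [h1]
  have hchord : ∀ r ∈ Icc s (s + η), ∀ r' ∈ Icc s (s + η),
      ‖γ r' - γ r - ((r' - r : ℝ) : ℂ) * v‖ ≤ ε * |r' - r| := hch
  have hnv : ∀ a : ℝ, ‖(a : ℂ) * v‖ = c * |a| := fun a => by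
    rw [norm_mul, hvn, Complex.norm_real, Real.norm_eq_abs, mul_comm]
  have hs0 : 0 < s := hs.1
  have hlen := tp_length (K := K) hK hfin hD (γ := γ) (c := c) (ε := ε) hε.le hεc ?_ ?_ ?_ ?_ ?_
  rotate_left
  · intro z hz h1 h2
    have h3 : z ∈ K ∩ sphere x (dist z x) := ⟨hz, rfl⟩
    rw [hφ.eq (dist z x) ⟨by linarith, by linarith⟩] at h3
    obtain ⟨i, hi⟩ := h3
    have hi0 : i = 0 := Subsingleton.elim _ _
    subst hi0
    exact hi.symm
  · intro r hr
    have hr0 : 0 ≤ r := hs0.le.trans hr.1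
    rw [hγdef, dist_eq_norm]
    simp only [add_sub_cancel_left]
    rw [norm_mul, Complex.norm_exp_ofReal_mul_I, mul_one, Complex.norm_real, Real.norm_eq_abs,
      abs_of_nonneg hr0]
  · intro r hr r' hr'
    have h1 := hchord r hr r' hr'
    have h2 := hnv (r' - r)
    rw [dist_comm, dist_eq_norm]
    have h3 : ‖((r' - r : ℝ) : ℂ) * v‖ ≤ ‖γ r' - γ r‖ + ‖γ r' - γ r - ((r' - r : ℝ) : ℂ) * v‖ := by
      rw [← norm_neg (γ r' - γ r - _)]
      refine le_trans (le_of_eq ?_) (norm_add_le _ _)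
      congr 1
      ring
    rw [h2] at h3
    linarith
  · intro r hr r' hr'
    have h1 := hchord r hr r' hr'
    have h2 := hnv (r' - r)
    rw [dist_comm, dist_eq_norm]
    have h3 : ‖γ r' - γ r‖ ≤ ‖((r' - r : ℝ) : ℂ) * v‖ + ‖γ r' - γ r - ((r' - r : ℝ) : ℂ) * v‖ := by
      refine le_trans (le_of_eq ?_) (norm_add_le _ _)
      congr 1
      ring
    rw [h2] at h3
    linarith
  · intro r hr r' hr' hrr
    have h1 := hchord r hr r' hr'
    have h2 : γ r' - γ r = (r' - r) • v + (γ r' - γ r - ((r' - r : ℝ) : ℂ) * v) := by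
      rw [Complex.real_smul]
      ring
    rw [h2, inner_add_left, real_inner_smul_left, hve]
    have h3 := abs_real_inner_le_norm (γ r' - γ r - ((r' - r : ℝ) : ℂ) * v) e
    rw [he1, mul_one] at h3
    have h4 := (abs_le.1 h3).1
    rw [abs_of_nonneg (by linarith : 0 ≤ r' - r)] at h1
    linarith
  have hcmp := tp_compare h hD (R := s + 2 * η) (by linarith only [htη, ht])
    (tpTrans_sub hx (by linarith only [hs0, htη, ht, hη2]))
  have hen := tp_energy h hD (tpTrans_sub hx (by linarith only [hs0, htη, ht, hη2]))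
  have hfid := tp_fid h hD (tpTrans_sub hx (by linarith only [hs0, htη, ht, hη2]))
  rw [← he]
  set I := ∫ z in ball x (s + η) \ closedBall x s, tq G x e z with hI
  set B := (∫ z in ball x (s + 2 * η), ‖G z‖) + 2 * M * Hn K x (s + 2 * η) with hB
  have key : 0 ≤ t * (1 / η * I + (1 + ε) * (c + ε) / (c - ε) ^ 2 + 4 * M * B +
      t * (2 / η ^ 2 * En G x (s + η) + (c + ε) / (2 * η))) := by
    have e1 : t * (1 / η * I + (1 + ε) * (c + ε) / (c - ε) ^ 2 + 4 * M * B +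
        t * (2 / η ^ 2 * En G x (s + η) + (c + ε) / (2 * η))) =
        t / η * I + 2 * (t / η) ^ 2 * En G x (s + η) +
        (t * ((1 + ε) * (c + ε) / (c - ε) ^ 2) + t ^ 2 / (2 * η) * (c + ε)) + 4 * M * t * B := by
      field_simp
      ring
    rw [e1]
    linarith only [hfid, hen, hcmp, hlen]
  exact nonneg_of_mul_nonneg_right key ht

theorem translation (h : MS Ω g u G K M x₀ R₀) (hx : x ∈ K ∩ ball x₀ R₀) {s₀ : ℝ}
    {φ : Fin 1 → ℝ → ℝ} (hφ : Branches K x s₀ 1 φ) :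
    ∃ C s₁ : ℝ, 0 < s₁ ∧ ∀ᵐ s : ℝ, s ∈ Ioo 0 s₁ →
      ∫ t in Ioo 0 (2 * π), ((nsl G x s (φ 0 s + t) ^ 2 - tsl G x s (φ 0 s + t) ^ 2) * Real.cos t -
        2 * (nsl G x s (φ 0 s + t) * tsl G x s (φ 0 s + t)) * Real.sin t) ≤
      s / √(1 + (s * deriv (φ 0) s) ^ 2) + C * s ^ 2 := by
  have hR0 := h.R0
  obtain ⟨C, hC0, hC⟩ := tpTrans_growth h hx.2
  have hG2 : IntegrableOn (fun z => ‖G z‖ ^ 2) (ball x R₀) :=
    (h.N.G_memLp.restrict _).norm.integrable_sq
  refine ⟨3 * C, min s₀ R₀, lt_min hφ.pos hR0, ?_⟩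
  filter_upwards [ae_shell_tq (x := x) h.N.Gm hG2] with s hs hs1
  have hs0 : 0 < s := hs1.1
  have hss0 : s < s₀ := hs1.2.trans_le (min_le_left _ _)
  have hsR0 : s < R₀ := hs1.2.trans_le (min_le_right _ _)
  have hlim := hs ⟨hs0, hsR0⟩ (-Complex.exp (φ 0 s * Complex.I))
  obtain ⟨c, hc⟩ : ∃ c, c = √(1 + (s * deriv (φ 0) s) ^ 2) := ⟨_, rfl⟩
  have hc1 : 1 ≤ c := by
    rw [hc]
    exact Real.one_le_sqrt.2 (by linarith only [sq_nonneg (s * deriv (φ 0) s)])
  obtain ⟨J, hJ⟩ : ∃ J, J = s * ∫ θ in ang, tq G x (-Complex.exp (φ 0 s * Complex.I))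
    (circleMap x s θ) := ⟨_, rfl⟩
  rw [← hJ] at hlim
  -- the inequality for every ε
  have hstep : ∀ ε : ℝ, 0 < ε → ε < 1 → 0 ≤ J + (1 + ε) * (c + ε) / (c - ε) ^ 2 + 3 * C * s := by
    intro ε hε hε1
    obtain ⟨η₀, hη₀, hη₀s, hch⟩ := hφ.chords ⟨hs0, hss0⟩ hε
    obtain ⟨m, hm⟩ : ∃ m, m = min η₀ (min s ((R₀ - s) / 2)) := ⟨_, rfl⟩
    have hm0 : 0 < m := by
      rw [hm]; exact lt_min hη₀ (lt_min hs0 (by linarith only [hsR0]))
    have h1 : ∀ᶠ η in 𝓝[>] (0 : ℝ), 0 ≤ 1 / η * (∫ z in ball x (s + η) \ closedBall x s,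
        tq G x (-Complex.exp (φ 0 s * Complex.I)) z) + (1 + ε) * (c + ε) / (c - ε) ^ 2 +
          3 * C * s := by
      filter_upwards [Ioo_mem_nhdsGT hm0] with η hη
      have hη0 : 0 < η := hη.1
      have hηη : η < η₀ := hη.2.trans_le (by rw [hm]; exact min_le_left _ _)
      have hηs : η < s := hη.2.trans_le
        (by rw [hm]; exact (min_le_right _ _).trans (min_le_left _ _))
      have hηR : η < (R₀ - s) / 2 := hη.2.trans_le
        (by rw [hm]; exact (min_le_right _ _).trans (min_le_right _ _))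
      have h2 : ∀ t : ℝ, 0 < t → 2 * t ≤ η → _ := fun t ht htη =>
        tpTrans_step h hx.2 hφ ⟨hs0, hss0⟩ hε hc (by linarith only [hε1, hc1] : ε < c) hη0 (by linarith)
          (by linarith) (fun r hr r' hr' => hch r ⟨hr.1, hr.2.trans (by linarith)⟩ r'
            ⟨hr'.1, hr'.2.trans (by linarith)⟩) ht htη
      have h3 := hC (s + 2 * η) (by linarith) (by linarith)
      set A := 1 / η * (∫ z in ball x (s + η) \ closedBall x s,
        tq G x (-Complex.exp (φ 0 s * Complex.I)) z) + (1 + ε) * (c + ε) / (c - ε) ^ 2 with hA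
      set B := 4 * M * ((∫ z in ball x (s + 2 * η), ‖G z‖) + 2 * M * Hn K x (s + 2 * η)) with hB
      set D := 2 / η ^ 2 * En G x (s + η) + (c + ε) / (2 * η) with hD
      have h4 : Tendsto (fun t : ℝ => A + B + t * D) (𝓝[>] 0) (𝓝 (A + B + 0 * D)) := by
        refine Tendsto.mono_left ?_ nhdsWithin_le_nhds
        exact (continuous_const.add (continuous_id.mul continuous_const)).tendsto 0
      have h5 : 0 ≤ A + B + 0 * D := by
        refine ge_of_tendsto h4 ?_
        filter_upwards [Ioo_mem_nhdsGT (by positivity : (0 : ℝ) < η / 2)] with t ht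
        exact h2 t ht.1 (by linarith only [ht.2])
      have h6 : C * (s + 2 * η) ≤ 3 * C * s := by linarith only [mul_nonneg (sub_nonneg.2 hC0) (le_of_lt (sub_pos.2 hηs))]
      linarith only [h6, h5, h3]
    have h7 : Tendsto (fun η : ℝ => 1 / η * (∫ z in ball x (s + η) \ closedBall x s,
        tq G x (-Complex.exp (φ 0 s * Complex.I)) z) + (1 + ε) * (c + ε) / (c - ε) ^ 2 +
          3 * C * s) (𝓝[>] 0) (𝓝 (J + (1 + ε) * (c + ε) / (c - ε) ^ 2 + 3 * C * s)) :=
      (hlim.add_const _).add_const _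
    exact ge_of_tendsto h7 h1
  have hfin : 0 ≤ J + (1 + 0) * (c + 0) / (c - 0) ^ 2 + 3 * C * s := by
    have hcont : ContinuousAt (fun ε : ℝ => J + (1 + ε) * (c + ε) / (c - ε) ^ 2 + 3 * C * s) 0 := by
      have hne : (c - 0) ^ 2 ≠ 0 := by
        rw [sub_zero]
        positivity
      refine ContinuousAt.add (ContinuousAt.add continuousAt_const ?_) continuousAt_const
      exact ContinuousAt.div (by fun_prop) (by fun_prop) hne
    have h8 : Tendsto (fun ε : ℝ => J + (1 + ε) * (c + ε) / (c - ε) ^ 2 + 3 * C * s) (𝓝[>] 0)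
        (𝓝 (J + (1 + 0) * (c + 0) / (c - 0) ^ 2 + 3 * C * s)) :=
      hcont.tendsto.mono_left nhdsWithin_le_nhds
    refine ge_of_tendsto h8 ?_
    filter_upwards [Ioo_mem_nhdsGT one_pos] with ε hε
    exact hstep ε hε.1 hε.2
  have h9 := tq_circle (x := x) h.N.Gm hs0 (φ 0 s)
  rw [← hJ] at h9
  have h10 : (1 + 0) * (c + 0) / (c - 0) ^ 2 = 1 / c := by
    have : c ≠ 0 := by linarith
    field_simp
    ring
  rw [h10] at hfin
  rw [← hc]
  have h11 : s * (J + 1 / c + 3 * C * s) = s * J + s / c + 3 * C * s ^ 2 := by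
    field_simp
  have h12 := mul_nonneg hs0.le hfin
  rw [h11] at h12
  linarith only [h12, h9]

end Vale.Agent.P128.Q1
end

section

/-! P128, Q1, Part E: radial branches with rates are `C^{1,α}` arcs. -/

open MeasureTheory Set Metric Filter InnerProductSpace
open scoped ENNReal NNReal ContDiff Topology Real

namespace Vale.Agent.P128.Q1

open Vale.Agent.P128

variable {K : Set ℂ} {x : ℂ} {s₀ s₁ : ℝ} {m : ℕ} {φ : Fin m → ℝ → ℝ} {a : Fin m → ℝ}

theorem Branches.exists_edBr (hφ : Branches K x s₀ m φ) (hs₁ : 0 < s₁) (h10 : s₁ ≤ s₀)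
    (hr : Rates s₁ m φ a) :
    ∃ α > 0, ∃ γ γ' : Fin m → ℝ → ℂ, ∀ i, EdBr α s₁ x (a i) (φ i) (γ i) (γ' i) := by
  obtain ⟨B, β, hβ, hβ1, hB⟩ := hφ.holder
  obtain ⟨A, c, hc, hA⟩ := hr
  have hc' : 0 < min c 1 := lt_min hc one_pos
  have hX1 : (1 : ℝ) ≤ max s₁ 1 := le_max_right _ _
  have hX0 : (0 : ℝ) < max s₁ 1 := by linarith
  have key : ∀ i, EdH (max s₁ 1) s₁ (a i) (|A| * (max s₁ 1) ^ c) |B| (min c 1) β (φ i) := by
    intro i
    refine ⟨hs₁, le_max_left _ _, hX1, by positivity, abs_nonneg _, hc', min_le_right _ _, hβ, hβ1,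
      fun s hs => hφ.diff i s ⟨hs.1, hs.2.trans_le h10⟩, fun s hs => ?_, fun s t hs hst hts hs1 => ?_⟩
    · have e1 : s ^ c = s ^ (c - min c 1) * s ^ (min c 1) := by
        rw [← Real.rpow_add hs.1]; congr 1; ring
      have e2 : s ^ (c - min c 1) ≤ (max s₁ 1) ^ c := by
        calc s ^ (c - min c 1) ≤ (max s₁ 1) ^ (c - min c 1) :=
              Real.rpow_le_rpow hs.1.le (hs.2.le.trans (le_max_left _ _))
                (by linarith [min_le_left c 1])
          _ ≤ (max s₁ 1) ^ c := Real.rpow_le_rpow_of_exponent_le hX1 (by linarith)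
      have e3 : 0 ≤ s ^ (min c 1) := Real.rpow_nonneg hs.1.le _
      have e4 : 0 ≤ s ^ c := Real.rpow_nonneg hs.1.le _
      calc |φ i s - a i| ≤ A * s ^ c := hA i s hs
        _ ≤ |A| * s ^ c := mul_le_mul_of_nonneg_right (le_abs_self A) e4
        _ = |A| * s ^ (c - min c 1) * s ^ (min c 1) := by rw [e1]; ring
        _ ≤ |A| * (max s₁ 1) ^ c * s ^ (min c 1) := by gcongr
    · exact (hB i s t hs hst hts (hs1.trans_le h10)).trans (mul_le_mul_of_nonneg_right
        (le_abs_self B) (Real.rpow_nonneg (div_nonneg (by linarith) hs.le) _))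
  choose γ γ' h using fun i => (key i).br x
  exact ⟨min c 1 * β / 4, by positivity, γ, γ', h⟩

/-- the set is the union of the branches -/
theorem Branches.ed_iUnion (hφ : Branches K x s₀ m φ) (hm : Nonempty (Fin m)) (h10 : s₁ ≤ s₀)
    {α : ℝ} {γ γ' : Fin m → ℝ → ℂ} (hB : ∀ i, EdBr α s₁ x (a i) (φ i) (γ i) (γ' i)) {r : ℝ}
    (hr : 0 < r) (hr1 : r < s₁) : K ∩ closedBall x r = ⋃ i, γ i '' Icc 0 r := by
  ext z
  simp only [mem_inter_iff, mem_closedBall, mem_iUnion, mem_image]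
  constructor
  · rintro ⟨hzK, hz⟩
    rcases eq_or_ne z x with h0 | h0
    · obtain ⟨i⟩ := hm
      exact ⟨i, 0, ⟨le_rfl, hr.le⟩, by rw [(hB i).zero, h0]⟩
    · have hd : 0 < dist z x := dist_pos.mpr h0
      have hmem : z ∈ K ∩ sphere x (dist z x) := ⟨hzK, mem_sphere.mpr rfl⟩
      rw [hφ.eq (dist z x) ⟨hd, by linarith⟩] at hmem
      obtain ⟨i, hi⟩ := hmem
      refine ⟨i, dist z x, ⟨hd.le, hz⟩, ?_⟩
      rw [(hB i).eq _ ⟨hd, by linarith⟩]
      exact hi
  · rintro ⟨i, s, ⟨hs0, hsr⟩, rfl⟩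
    have hd : dist (γ i s) x = s := by
      rw [dist_eq_norm]; exact (hB i).dist s ⟨hs0, by linarith⟩
    refine ⟨?_, by rw [hd]; exact hsr⟩
    rcases hs0.eq_or_lt with h0 | h0
    · rw [← h0, (hB i).zero]; exact hφ.mem
    · have : γ i s ∈ range fun i => x + s * Complex.exp (φ i s * Complex.I) :=
        ⟨i, by rw [(hB i).eq s ⟨h0, by linarith⟩]⟩
      rw [← hφ.eq s ⟨h0, by linarith⟩] at this
      exact this.1

/-- the branches meet only at the centre -/
theorem Branches.ed_inj (hφ : Branches K x s₀ m φ) (h10 : s₁ ≤ s₀)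
    {α : ℝ} {γ γ' : Fin m → ℝ → ℂ} (hB : ∀ i, EdBr α s₁ x (a i) (φ i) (γ i) (γ' i)) {i j : Fin m}
    {s t : ℝ} (hs : s ∈ Ico 0 s₁) (ht : t ∈ Ico 0 s₁) (h : γ i s = γ j t) :
    s = t ∧ (s = 0 ∨ i = j) := by
  have e1 : s = t := by
    rw [← (hB i).dist s hs, ← (hB j).dist t ht, h]
  refine ⟨e1, ?_⟩
  subst e1
  rcases hs.1.eq_or_lt with h0 | h0
  · exact Or.inl h0.symm
  · right
    rw [(hB i).eq s ⟨h0, hs.2⟩, (hB j).eq s ⟨h0, hs.2⟩] at h
    have h1 := mul_left_cancel₀ (by exact_mod_cast h0.ne') (add_left_cancel h)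
    exact hφ.inj s ⟨h0, hs.2.trans_le h10⟩ h1

section one

variable {α S b : ℝ} {ψ : ℝ → ℝ} {γ γ' : ℝ → ℂ}

theorem EdBr.derW (h : EdBr α S x b ψ γ γ') {s : ℝ} (hs : s ∈ Ico 0 S) :
    HasDerivWithinAt γ (γ' s) (Ici 0) s := by
  rcases hs.1.eq_or_lt with h0 | h0
  · rw [← h0]; exact h.der0
  · exact (h.der s ⟨h0, hs.2⟩).hasDerivWithinAt

theorem EdBr.derR (h : EdBr α S x b ψ γ γ') {r : ℝ} (hr : 0 < r) {t : ℝ} (ht : 0 ≤ t)
    (hrt : r * t < S) :
    HasDerivWithinAt (fun t => γ (r * t)) (r * γ' (r * t)) (Ici 0) t := by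
  have h1 := h.derW (s := r * t) ⟨by positivity, hrt⟩
  have h2 : HasDerivWithinAt (fun t : ℝ => r * t) r (Ici 0) t := by
    simpa using ((hasDerivAt_id t).const_mul r).hasDerivWithinAt
  have h3 := HasDerivWithinAt.scomp t h1 h2 (fun y hy => mul_nonneg hr.le hy)
  rw [Complex.real_smul] at h3
  exact h3

theorem EdBr.isArc (h : EdBr α S x b ψ γ γ') {r : ℝ} (hr : 0 < r) (hrS : r < S) :
    IsArc α 0 1 (fun t => γ (r * t)) (fun t => r * γ' (r * t)) := by
  have hmem : ∀ t ∈ Icc (0 : ℝ) 1, r * t ∈ Ico 0 S := fun t ht =>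
    ⟨mul_nonneg hr.le ht.1, by nlinarith [ht.2]⟩
  refine ⟨fun s hs t ht hst => ?_, fun t ht => ?_, fun t ht h0 => ?_, ?_⟩
  · have e1 := h.dist _ (hmem s hs)
    have e2 := h.dist _ (hmem t ht)
    have e3 : γ (r * s) = γ (r * t) := hst
    rw [e3, e2] at e1
    exact (mul_left_cancel₀ hr.ne' e1).symm
  · exact (h.derR hr ht.1 (hmem t ht).2).mono fun y hy => hy.1
  · rcases mul_eq_zero.mp h0 with h1 | h1
    · exact hr.ne' (by exact_mod_cast h1)
    · exact h.ne _ (hmem t ht) h1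
  · obtain ⟨C, hC, H⟩ := h.hol
    refine ⟨r * C * r ^ α, fun s hs t ht => ?_⟩
    rw [← mul_sub, norm_mul, Complex.norm_real, Real.norm_eq_abs, abs_of_pos hr]
    have e1 := H _ (hmem s hs) _ (hmem t ht)
    rw [← mul_sub, abs_mul, abs_of_pos hr, Real.mul_rpow hr.le (abs_nonneg _)] at e1
    calc r * ‖γ' (r * s) - γ' (r * t)‖ ≤ r * (C * (r ^ α * |s - t| ^ α)) := by gcongr
      _ = _ := by ring

theorem EdBr.image (γ : ℝ → ℂ) {r : ℝ} (hr : 0 < r) :
    (fun t => γ (r * t)) '' Icc 0 1 = γ '' Icc 0 r := by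
  ext z
  constructor
  · rintro ⟨t, ht, rfl⟩
    exact ⟨r * t, ⟨mul_nonneg hr.le ht.1, by linarith only [mul_nonneg (le_of_lt (sub_pos.2 hr)) (sub_nonneg.2 ht.2)]⟩, rfl⟩
  · rintro ⟨t, ht, rfl⟩
    refine ⟨t / r, ⟨div_nonneg ht.1 hr.le, by rw [div_le_one hr]; exact ht.2⟩, ?_⟩
    simp only
    congr 1
    field_simp

end one

/-- **Part E** (conclusion), one branch. -/
theorem arcEnding {x : ℂ} {s₀ : ℝ} {φ : Fin 1 → ℝ → ℝ} {a : Fin 1 → ℝ}
    (hφ : Branches K x s₀ 1 φ) {s₁ : ℝ} (hs₁ : 0 < s₁) (h10 : s₁ ≤ s₀) (hr : Rates s₁ 1 φ a) :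
    ∃ α > 0, ∀ r, 0 < r → r < s₁ → ArcEnding α (K ∩ closedBall x r) x := by
  obtain ⟨α, hα, γ, γ', hB⟩ := hφ.exists_edBr hs₁ h10 hr
  refine ⟨α, hα, fun r hr0 hr1 => ⟨fun t => γ 0 (r * t), fun t => r * γ' 0 (r * t),
    (hB 0).isArc hr0 hr1, by simp [(hB 0).zero], ?_⟩⟩
  rw [hφ.ed_iUnion ⟨0⟩ h10 hB hr0 hr1, EdBr.image _ hr0]
  ext z
  simp only [mem_iUnion]
  constructor
  · rintro ⟨i, hi⟩
    rwa [Subsingleton.elim i 0] at hi
  · exact fun h => ⟨0, h⟩

/-- **Part E** (conclusion), three branches. -/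
theorem tripleJunction {x : ℂ} {s₀ : ℝ} {φ : Fin 3 → ℝ → ℝ} {a : Fin 3 → ℝ}
    (hφ : Branches K x s₀ 3 φ) {s₁ : ℝ} (hs₁ : 0 < s₁) (h10 : s₁ ≤ s₀) (hr : Rates s₁ 3 φ a)
    (ha : ∀ i j, i ≠ j → Real.cos (a i - a j) = -(1 / 2)) :
    ∃ α > 0, ∀ r, 0 < r → r < s₁ → TripleJunction α (K ∩ closedBall x r) x := by
  obtain ⟨α, hα, γ, γ', hB⟩ := hφ.exists_edBr hs₁ h10 hr
  refine ⟨α, hα, fun r hr0 hr1 => ⟨fun i t => γ i (r * t), fun i t => r * γ' i (r * t),
    fun i => ⟨(hB i).isArc hr0 hr1, by simp [(hB i).zero]⟩, ?_, ?_, ?_⟩⟩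
  · rw [hφ.ed_iUnion ⟨0⟩ h10 hB hr0 hr1]
    exact iUnion_congr fun i => (EdBr.image _ hr0).symm
  · intro i j hij
    rw [EdBr.image _ hr0, EdBr.image _ hr0]
    ext z
    simp only [mem_inter_iff, mem_image, mem_singleton_iff]
    constructor
    · rintro ⟨⟨s, hs, rfl⟩, ⟨t, ht, hst⟩⟩
      obtain ⟨e1, e2⟩ := hφ.ed_inj h10 hB (i := j) (j := i) (s := t) (t := s)
        ⟨ht.1, ht.2.trans_lt hr1⟩ ⟨hs.1, hs.2.trans_lt hr1⟩ hst
      rcases e2 with e2 | e2
      · rw [← e1, e2, (hB i).zero]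
      · exact absurd e2.symm hij
    · rintro rfl
      exact ⟨⟨0, ⟨le_rfl, hr0.le⟩, (hB i).zero⟩, ⟨0, ⟨le_rfl, hr0.le⟩, (hB j).zero⟩⟩
  · intro i j hij
    simp only [mul_zero, (hB i).v0, (hB j).v0, norm_mul, Complex.norm_exp_ofReal_mul_I,
      Complex.norm_real, Real.norm_eq_abs, mul_one, abs_of_pos hr0, Complex.inner]
    have e1 := ha i j hij
    rw [Real.cos_sub] at e1
    simp only [map_mul, Complex.conj_ofReal, Complex.mul_re, Complex.mul_im, Complex.ofReal_re,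
      Complex.ofReal_im, Complex.conj_re, Complex.conj_im, Complex.exp_ofReal_mul_I_re,
      Complex.exp_ofReal_mul_I_im]
    linear_combination r * r * e1

/-- **Part E** (conclusion), two branches. -/
theorem arcThrough {x : ℂ} {s₀ : ℝ} {φ : Fin 2 → ℝ → ℝ} {a : Fin 2 → ℝ}
    (hφ : Branches K x s₀ 2 φ) {s₁ : ℝ} (hs₁ : 0 < s₁) (h10 : s₁ ≤ s₀) (hr : Rates s₁ 2 φ a)
    (ha : a 1 = a 0 + π) :
    ∃ α > 0, ∀ r, 0 < r → r < s₁ → ArcThrough α (K ∩ closedBall x r) x := by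
  classical
  obtain ⟨α, hα, γ, γ', hB⟩ := hφ.exists_edBr hs₁ h10 hr
  refine ⟨α, hα, fun r hr0 hr1 => ?_⟩
  set g : ℝ → ℂ := fun t => if 0 ≤ t then γ 0 (r * t) else γ 1 (r * (-t)) with hg
  set g' : ℝ → ℂ := fun t => if 0 ≤ t then r * γ' 0 (r * t) else -(r * γ' 1 (r * (-t))) with hg'
  have hv : -((r : ℂ) * γ' 1 0) = r * γ' 0 0 := by
    rw [(hB 0).v0, (hB 1).v0, ha]
    push_cast
    rw [add_mul, Complex.exp_add, Complex.exp_pi_mul_I]
    ring
  have gpos : ∀ t, 0 ≤ t → g t = γ 0 (r * t) := fun t ht => by simp [hg, ht]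
  have gneg : ∀ t, t ≤ 0 → g t = γ 1 (r * (-t)) := by
    intro t ht
    rcases ht.eq_or_lt with h0 | h0
    · simp [hg, h0, (hB 0).zero, (hB 1).zero]
    · simp [hg, not_le.mpr h0]
  have g'pos : ∀ t, 0 ≤ t → g' t = r * γ' 0 (r * t) := fun t ht => by simp [hg', ht]
  have g'neg : ∀ t, t ≤ 0 → g' t = -(r * γ' 1 (r * (-t))) := by
    intro t ht
    rcases ht.eq_or_lt with h0 | h0
    · rw [h0, g'pos 0 le_rfl]; simp [hv]
    · simp [hg', not_le.mpr h0]
  have mpos : ∀ t, 0 ≤ t → t ≤ 1 → r * t ∈ Ico 0 s₁ := fun t h0 h1 =>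
    ⟨mul_nonneg hr0.le h0, by (by_contra nlg; linarith only [nlg, mul_nonneg (le_of_lt (sub_pos.2 hr0)) (sub_nonneg.2 h1), mul_nonneg (sub_nonneg.2 (not_lt.1 nlg)) (sub_nonneg.2 h1), mul_nonneg (sub_nonneg.2 (not_lt.1 nlg)) (sub_nonneg.2 h0), hr1])⟩
  -- derivatives
  have dpos : ∀ t, 0 ≤ t → t ≤ 1 → HasDerivWithinAt g (g' t) (Ici 0) t := by
    intro t h0 h1
    rw [g'pos t h0]
    exact ((hB 0).derR hr0 h0 (mpos t h0 h1).2).congr (fun y hy => gpos y hy) (gpos t h0)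
  have dneg : ∀ t, t ≤ 0 → -1 ≤ t → HasDerivWithinAt g (g' t) (Iic 0) t := by
    intro t h0 h1
    rw [g'neg t h0]
    have e1 := (hB 1).derR hr0 (t := -t) (by linarith) (mpos (-t) (by linarith) (by linarith)).2
    have e2 : HasDerivWithinAt (fun t : ℝ => -t) (-1) (Iic 0) t :=
      (hasDerivAt_neg t).hasDerivWithinAt
    have e3 := HasDerivWithinAt.scomp t e1 e2 (fun y hy => by
      have : y ≤ 0 := hy
      exact neg_nonneg.mpr this)
    rw [neg_one_smul] at e3
    exact e3.congr (fun y hy => gneg y hy) (gneg t h0)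
  have hunion : (Icc (-1 : ℝ) 1) ⊆ Ici 0 ∪ Iic 0 := fun y _ => le_total 0 y
  have arc : IsArc α (-1) 1 g g' := by
    refine ⟨?_, ?_, ?_, ?_⟩
    · intro s hs t ht hst
      rcases le_total 0 s with h0 | h0 <;> rcases le_total 0 t with h1 | h1
      · rw [gpos s h0, gpos t h1] at hst
        have := (hφ.ed_inj h10 hB (mpos s h0 hs.2) (mpos t h1 ht.2) hst).1
        exact mul_left_cancel₀ hr0.ne' this
      · rw [gpos s h0, gneg t h1] at hst
        obtain ⟨e1, e2⟩ := hφ.ed_inj h10 hB (mpos s h0 hs.2)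
          (mpos (-t) (by linarith) (by linarith [ht.1])) hst
        rcases e2 with e2 | e2
        · have e3 : s = 0 := by
            rcases mul_eq_zero.mp e2 with h | h
            · exact absurd h hr0.ne'
            · exact h
          rw [e2] at e1
          rcases mul_eq_zero.mp e1.symm with h | h
          · exact absurd h hr0.ne'
          · linarith
        · exact absurd e2 (by decide)
      · rw [gneg s h0, gpos t h1] at hst
        obtain ⟨e1, e2⟩ := hφ.ed_inj h10 hB (mpos (-s) (by linarith) (by linarith [hs.1]))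
          (mpos t h1 ht.2) hst
        rcases e2 with e2 | e2
        · have e3 : -s = 0 := by
            rcases mul_eq_zero.mp e2 with h | h
            · exact absurd h hr0.ne'
            · exact h
          rw [e2] at e1
          rcases mul_eq_zero.mp e1.symm with h | h
          · exact absurd h hr0.ne'
          · linarith
        · exact absurd e2 (by decide)
      · rw [gneg s h0, gneg t h1] at hst
        have := (hφ.ed_inj h10 hB (mpos (-s) (by linarith) (by linarith [hs.1]))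
          (mpos (-t) (by linarith) (by linarith [ht.1])) hst).1
        have := mul_left_cancel₀ hr0.ne' this
        linarith
    · intro t ht
      rcases lt_trichotomy t 0 with h0 | h0 | h0
      · have := (dneg t h0.le ht.1).hasDerivAt (Iic_mem_nhds h0)
        exact this.hasDerivWithinAt
      · have e1 := dpos t h0.ge ht.2
        have e2 := dneg t h0.le ht.1
        exact (e1.union e2).mono hunion
      · have := (dpos t h0.le ht.2).hasDerivAt (Ici_mem_nhds h0)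
        exact this.hasDerivWithinAt
    · intro t ht h0
      rcases le_total 0 t with h1 | h1
      · rw [g'pos t h1] at h0
        rcases mul_eq_zero.mp h0 with h2 | h2
        · exact hr0.ne' (by exact_mod_cast h2)
        · exact (hB 0).ne _ (mpos t h1 ht.2) h2
      · rw [g'neg t h1, neg_eq_zero] at h0
        rcases mul_eq_zero.mp h0 with h2 | h2
        · exact hr0.ne' (by exact_mod_cast h2)
        · exact (hB 1).ne _ (mpos (-t) (by linarith) (by linarith [ht.1])) h2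
    · obtain ⟨C₀, H0⟩ := ((hB 0).isArc hr0 hr1).holder
      obtain ⟨C₁, H1⟩ := ((hB 1).isArc hr0 hr1).holder
      have P0 : ∀ s ∈ Icc (0 : ℝ) 1, ∀ t ∈ Icc (0 : ℝ) 1,
          ‖g' s - g' t‖ ≤ |C₀| * |s - t| ^ α := by
        intro s hs t ht
        rw [g'pos s hs.1, g'pos t ht.1]
        exact (H0 s hs t ht).trans (mul_le_mul_of_nonneg_right (le_abs_self _)
          (Real.rpow_nonneg (abs_nonneg _) _))
      have P1 : ∀ s ∈ Icc (-1 : ℝ) 0, ∀ t ∈ Icc (-1 : ℝ) 0,
          ‖g' s - g' t‖ ≤ |C₁| * |s - t| ^ α := by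
        intro s hs t ht
        rw [g'neg s hs.2, g'neg t ht.2]
        have := (H1 (-s) ⟨by linarith [hs.2], by linarith [hs.1]⟩ (-t)
          ⟨by linarith [ht.2], by linarith [ht.1]⟩).trans (mul_le_mul_of_nonneg_right
            (le_abs_self C₁) (Real.rpow_nonneg (abs_nonneg _) _))
        have e1 : -((r : ℂ) * γ' 1 (r * -s)) - -(r * γ' 1 (r * -t)) =
            -(r * γ' 1 (r * -s) - r * γ' 1 (r * -t)) := by ring
        have e2 : |-s - -t| = |s - t| := by
          rw [← abs_neg]; congr 1; ring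
        rw [e1, norm_neg, ← e2]
        exact this
      have Pm : ∀ s ∈ Icc (0 : ℝ) 1, ∀ t ∈ Icc (-1 : ℝ) 0,
          ‖g' s - g' t‖ ≤ (|C₀| + |C₁|) * |s - t| ^ α := by
        intro s hs t ht
        have e1 := P0 s hs 0 ⟨le_rfl, zero_le_one⟩
        have e2 := P1 0 ⟨by norm_num, le_rfl⟩ t ht
        have e3 : |s - 0| ^ α ≤ |s - t| ^ α := by
          refine Real.rpow_le_rpow (abs_nonneg _) ?_ hα.le
          rw [abs_of_nonneg (by linarith [hs.1]), abs_of_nonneg (by linarith [hs.1, ht.2])]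
          linarith [ht.2]
        have e4 : |0 - t| ^ α ≤ |s - t| ^ α := by
          refine Real.rpow_le_rpow (abs_nonneg _) ?_ hα.le
          rw [abs_of_nonneg (by linarith [ht.2]), abs_of_nonneg (by linarith [hs.1, ht.2])]
          linarith [hs.1]
        have e5 := mul_le_mul_of_nonneg_left e3 (abs_nonneg C₀)
        have e6 := mul_le_mul_of_nonneg_left e4 (abs_nonneg C₁)
        calc ‖g' s - g' t‖ = ‖(g' s - g' 0) + (g' 0 - g' t)‖ := by congr 1; ring
          _ ≤ ‖g' s - g' 0‖ + ‖g' 0 - g' t‖ := norm_add_le _ _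
          _ ≤ _ := by linarith
      refine ⟨|C₀| + |C₁|, fun s hs t ht => ?_⟩
      have hp : 0 ≤ |s - t| ^ α := Real.rpow_nonneg (abs_nonneg _) _
      have q0 : 0 ≤ |C₀| * |s - t| ^ α := by (clear * -; positivity)
      have q1 : 0 ≤ |C₁| * |s - t| ^ α := by (clear * -; positivity)
      rcases le_total 0 s with h0 | h0 <;> rcases le_total 0 t with h1 | h1
      · have := P0 s ⟨h0, hs.2⟩ t ⟨h1, ht.2⟩
        linarith
      · exact Pm s ⟨h0, hs.2⟩ t ⟨ht.1, h1⟩
      · have := Pm t ⟨h1, ht.2⟩ s ⟨hs.1, h0⟩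
        rwa [norm_sub_rev, abs_sub_comm] at this
      · have := P1 s ⟨hs.1, h0⟩ t ⟨ht.1, h1⟩
        linarith
  refine ⟨g, g', arc, by rw [gpos 0 le_rfl, mul_zero, (hB 0).zero], ?_⟩
  rw [hφ.ed_iUnion ⟨0⟩ h10 hB hr0 hr1]
  ext z
  simp only [mem_iUnion]
  constructor
  · rintro ⟨i, hi⟩
    rw [← EdBr.image _ hr0] at hi
    obtain ⟨t, ht, rfl⟩ := hi
    fin_cases i
    · exact ⟨t, ⟨by linarith [ht.1], ht.2⟩, gpos t ht.1⟩
    · refine ⟨-t, ⟨by linarith [ht.2], by linarith [ht.1]⟩, ?_⟩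
      rw [gneg (-t) (by linarith [ht.1]), neg_neg]
      rfl
  · rintro ⟨t, ht, rfl⟩
    rcases le_total 0 t with h0 | h0
    · exact ⟨0, r * t, ⟨mul_nonneg hr0.le h0, by linarith only [mul_nonneg (le_of_lt (sub_pos.2 hr0)) (sub_nonneg.2 ht.2)]⟩, (gpos t h0).symm⟩
    · exact ⟨1, r * (-t), ⟨mul_nonneg hr0.le (by linarith), by linarith only [mul_nonneg (le_of_lt (sub_pos.2 hr0)) (sub_nonneg.2 ht.1)]⟩, (gneg t h0).symm⟩

end Vale.Agent.P128.Q1
end
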