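import Vale.Agent.P128.MathlibUsed
import Vale.Agent.P128.Bdl.K_GM_C_Defs
import Vale.Agent.P128.Bdl.B5
import Vale.Agent.P128.Bdl.B20
import Vale.Agent.P128.Bdl.B11
import Vale.Agent.P128.Bdl.B7
import Vale.Agent.P128.Bdl.B19
import Vale.Agent.P128.Bdl.B21
import Vale.Agent.P128.Bdl.B25
import Vale.Agent.P128.Bdl.B9
import Vale.Agent.P128.Bdl.B15
import Vale.Agent.P128.Bdl.B18
import Vale.Agent.P128.Bdl.B12
import Vale.Agent.P128.Bdl.B23
import Vale.Agent.P128.Bdl.B24
import Vale.Agent.P128.Bdl.B10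
import Vale.Agent.P128.Bdl.B22
import Vale.Agent.P128.Bdl.B14
import Vale.Agent.P128.Bdl.B2
import Vale.Agent.P128.Bdl.B1
import Vale.Agent.P128.Bdl.B3
import Vale.Agent.P128.Bdl.B6
import Vale.Agent.P128.Bdl.B16

set_option linter.all false

section

/-! C4c, core: from short pieces with energy to a point where the energy is of order `ρ` at all
scales. -/

open MeasureTheory Set Metric Filter InnerProductSpace
open scoped ENNReal NNReal ContDiff Topology Real

namespace Vale.Agent.P128.GM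

open Vale.Agent.P128

variable {u : ℂ → ℝ} {K : Set ℂ}

theorem exTip_insert (x : ℂ) (U : Set ℂ) : μH[1] (insert x U) = μH[1] U := by
  have : NullSingletonClass (μH[1] : Measure ℂ) :=
    Measure.nullSingletonClass_hausdorff ℂ one_pos
  exact measure_congr (insert_ae_eq_self x U)

/-- the radius of a piece -/
theorem exTip_radius {x : ℂ} {U : Set ℂ} (hU : IsPiece K x U)
    (hdist : ∀ y ∈ U, ENNReal.ofReal (dist x y) ≤ μH[1] (insert x U)) :
    ∃ d : ℝ, 0 < d ∧ U ⊆ closedBall x d ∧ ENNReal.ofReal d ≤ μH[1] U := by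
  have hcpt : IsCompact (insert x U) :=
    isCompact_of_isClosed_isBounded hU.cl (hU.bdd.insert x)
  obtain ⟨y, hy, hmax⟩ := hcpt.exists_isMaxOn ⟨x, mem_insert x U⟩
    (f := fun y => dist x y) (by fun_prop)
  obtain ⟨z, hz⟩ := hU.ne
  have hzx : x ≠ z := by
    rintro rfl
    exact hU.base.2 hz
  have hz1 : dist x z ≤ dist x y := hmax (mem_insert_of_mem x hz)
  have hpos : 0 < dist x y := lt_of_lt_of_le (dist_pos.2 hzx) hz1
  refine ⟨dist x y, hpos, fun w hw => ?_, ?_⟩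
  · rw [mem_closedBall, dist_comm]
    exact hmax (mem_insert_of_mem x hw)
  · rcases hy with rfl | hy
    · simp at hpos
    · rw [← exTip_insert x U]
      exact hdist y hy

theorem exTip_ball_mono (h : GMin u K) {x y : ℂ} {r s : ℝ} (hrs : ball y r ⊆ ball x s) :
    Ec u y r ≤ Ec u x s :=
  setIntegral_mono_set (h.integrableOn' x s)
    (Filter.Eventually.of_forall fun z => by positivity) hrs.eventuallyLE

theorem exTip_core (h : GMin u K) {s₀ : ℝ}
    (hmono : ∀ x ∈ K, ∀ s t : ℝ, 0 < s → s ≤ t → Ec u x s / s ≤ Ec u x t / t)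
    (hdist : ∀ x U, IsPiece K x U → ∀ y ∈ U, ENNReal.ofReal (dist x y) ≤ μH[1] (insert x U))
    (hshort : ∀ ε : ℝ, 0 < ε →
      ∃ x U, IsPiece K x U ∧ U ⊆ ball 0 s₀ ∧ μH[1] U < ENNReal.ofReal ε)
    (hen : ∀ x U, IsPiece K x U → ∀ d : ℝ, 0 < d → U ⊆ closedBall x d →
      ENNReal.ofReal d ≤ μH[1] U → d / 100000 ≤ Ec u x (6 * d)) :
    ∃ x ∈ K, ∃ c : ℝ, 0 < c ∧ ∀ ρ : ℝ, 0 < ρ → c * ρ ≤ Ec u x ρ := by
  have key : ∀ k : ℕ, ∃ x : ℂ, ∃ d : ℝ, x ∈ K ∩ closedBall 0 (s₀ + 1) ∧ 0 < d ∧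
      d < 1 / ((k : ℝ) + 1) ∧ ∀ ρ : ℝ, 6 * d ≤ ρ → ρ / 600000 ≤ Ec u x ρ := by
    intro k
    have hk : (0 : ℝ) < 1 / ((k : ℝ) + 1) := by positivity
    have hk1 : 1 / ((k : ℝ) + 1) ≤ 1 := by
      rw [div_le_one (by positivity)]
      have : (0 : ℝ) ≤ (k : ℝ) := Nat.cast_nonneg k
      linarith
    obtain ⟨x, U, hU, hUs, hlt⟩ := hshort _ hk
    obtain ⟨d, hd, hUd, hlen⟩ := exTip_radius hU (hdist x U hU)
    have hdk : d < 1 / ((k : ℝ) + 1) := by
      have := lt_of_le_of_lt hlen hlt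
      exact (ENNReal.ofReal_lt_ofReal_iff hk).1 this
    have hxK : x ∈ K := hU.base.1
    obtain ⟨z, hz⟩ := hU.ne
    have hzx := hUd hz
    have hz0 := hUs hz
    rw [mem_closedBall] at hzx
    rw [mem_ball] at hz0
    refine ⟨x, d, ⟨hxK, ?_⟩, hd, hdk, fun ρ hρ => ?_⟩
    · rw [mem_closedBall]
      have := dist_triangle x z 0
      rw [dist_comm x z] at this
      linarith only [this, hz0, hzx, hdk, hk1]
    · have h1 := hen x U hU d hd hUd hlen
      have h6 : 0 < 6 * d := by positivity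
      have h2 := hmono x hxK (6 * d) ρ h6 hρ
      have hρ0 : 0 < ρ := lt_of_lt_of_le h6 hρ
      have h3 : (1 : ℝ) / 600000 ≤ Ec u x (6 * d) / (6 * d) := by
        rw [le_div_iff₀ h6]
        linarith only [h1]
      have h4 := le_trans h3 h2
      rw [le_div_iff₀ hρ0] at h4
      linarith only [h4]
  choose x d hx hd0 hd1 hE using key
  have hcpt : IsCompact (K ∩ closedBall (0 : ℂ) (s₀ + 1)) :=
    (isCompact_closedBall 0 (s₀ + 1)).inter_left h.closed
  obtain ⟨a, ha, φ, hφ, hlim⟩ := hcpt.tendsto_subseq hx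
  refine ⟨a, ha.1, 1 / 1200000, by norm_num, fun ρ hρ => ?_⟩
  have e1 : ∀ᶠ k in atTop, dist (x (φ k)) a < ρ / 2 :=
    (Metric.tendsto_nhds.1 hlim) (ρ / 2) (by positivity)
  have e2 : ∀ᶠ k in atTop, 1 / (((φ k : ℕ) : ℝ) + 1) < ρ / 12 := by
    have t1 : Tendsto (fun k : ℕ => 1 / ((k : ℝ) + 1)) atTop (𝓝 0) :=
      tendsto_one_div_add_atTop_nhds_zero_nat
    exact (t1.comp hφ.tendsto_atTop).eventually_lt_const (by positivity)
  obtain ⟨k, hk1, hk2⟩ := (e1.and e2).exists
  have h1 := hE (φ k) (ρ / 2) (by linarith only [hd1 (φ k), hk2])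
  have h2 : ball (x (φ k)) (ρ / 2) ⊆ ball a ρ := by
    apply ball_subset_ball'
    linarith only [hk1]
  have h3 := exTip_ball_mono h h2
  linarith only [h3, h1]

end Vale.Agent.P128.GM
end

section

set_option linter.all false

open MeasureTheory Set Metric Filter InnerProductSpace
open scoped ENNReal NNReal ContDiff Topology Real

namespace Vale.Agent.P128.GM

open Vale.Agent.P128

variable {u : ℂ → ℝ} {K A : Set ℂ} {η w : ℂ → ℝ} {δ : ℝ}

theorem GMin.caseOne (h : GMin u K) (P : Piece K A η δ) (hw : Pot (src u η) w) {x : ℂ}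
    (hx : x ∈ A) : deriv (ff w) x = 0 := by
  by_contra hne
  have hxK : x ∈ (K \ A)ᶜ := fun hh => hh.2 hx
  obtain ⟨r0, hr0, hr0s⟩ := Metric.isOpen_iff.1 P.out.isOpen_compl x hxK
  set r := min r0 δ with hrdef
  have hr : 0 < r := lt_min hr0 P.pos
  have hbK : ∀ z ∈ ball x r, z ∈ K → z ∈ A := by
    intro z hz hzK
    by_contra hzA
    exact hr0s (ball_subset_ball (min_le_left _ _) hz) ⟨hzK, hzA⟩
  have hbA : ball x r ⊆ cthickening δ A := fun z hz =>
    closedBall_subset_cthickening hx δ (ball_subset_closedBall (ball_subset_ball (min_le_right _ _) hz))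
  have hbA2 : ball x r ⊆ thickening (2 * δ) A := fun z hz =>
    ball_subset_thickening hx (2 * δ)
      (ball_subset_ball ((min_le_right _ _).trans (by have := P.pos; linarith)) hz)
  refine h.removable h.volume_zero (P.sub hx) hr (g := deriv (ff w)) ?_ hne ?_ ?_
  · intro z hz
    exact ((ff_diff P hw (hbA2 hz)).deriv.differentiableAt).differentiableWithinAt
  · obtain ⟨M, hM⟩ := h.bdd (‖x‖ + r)
    refine ⟨M, fun z hz hzK => hM z ?_ hzK⟩
    rw [mem_ball_zero_iff]
    have h1 : ‖z‖ ≤ ‖x‖ + ‖z - x‖ := by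
      calc ‖z‖ = ‖x + (z - x)‖ := by congr 1; ring
        _ ≤ ‖x‖ + ‖z - x‖ := norm_add_le _ _
    have h2 : ‖z - x‖ < r := by rwa [← mem_ball_iff_norm]
    linarith
  · rintro ψ h1 ⟨ρ, hρ, h2⟩ h3
    refine h.orth P hw (ψ := ψ) ?_ (fun z hz => h2 z fun hb => hz (hbA (ball_subset_ball hρ.le hb)))
      h3
    intro z hz
    by_cases hzK : z ∈ K
    · have hz1 : z ∉ closedBall x ρ := fun hb => hz (hbK z (closedBall_subset_ball hρ hb) hzK)
      obtain ⟨s, hs, hs2⟩ := Metric.isOpen_iff.1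
        (isClosed_closedBall.isOpen_compl.inter P.cpt.isClosed.isOpen_compl) z ⟨hz1, hz⟩
      refine ⟨0, s, hs, fun y hy => (hs2 hy).2, ?_⟩
      intro y hy y' hy'
      rw [h2 y fun hb => (hs2 hy).1 (ball_subset_closedBall hb),
        h2 y' fun hb => (hs2 hy').1 (ball_subset_closedBall hb)]
      simp
    · obtain ⟨M, s, hs, hs1, hs2⟩ := h1 z hzK
      exact ⟨M, s, hs, fun y hy hyA => hs1 hy (P.sub hyA), hs2⟩

end Vale.Agent.P128.GM
end

section

/-! Zero flux through the arcs of circles. -/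

open MeasureTheory Set Metric Filter
open scoped ENNReal NNReal ContDiff Topology Real

namespace Vale.Agent.P128.GM

open Vale.Agent.P128

variable {u : ℂ → ℝ} {K : Set ℂ}

/-- If all components are unbounded there is no compact relatively open piece. -/
theorem noPiece_of_unbounded
    (hunb : ∀ x ∈ K, ¬ Bornology.IsBounded (connectedComponentIn K x)) : NoPiece K := by
  intro A hA hAK hcl
  by_contra hne
  obtain ⟨x, hx⟩ := nonempty_iff_ne_empty.2 hne
  refine hunb x (hAK hx) (hA.isBounded.subset ?_)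
  have hsub : connectedComponentIn K x ⊆ A ∪ (K \ A) := by
    rw [union_sdiff_cancel hAK]
    exact connectedComponentIn_subset K x
  intro y hy
  by_contra hyA
  obtain ⟨z, -, hz1, hz2⟩ := isPreconnected_closed_iff.1
    (isPreconnected_connectedComponentIn (F := K) (x := x)) A (K \ A)
    hA.isClosed hcl hsub ⟨x, mem_connectedComponentIn (hAK hx), hx⟩
    ⟨y, hy, connectedComponentIn_subset K x hy, hyA⟩
  exact hz2.2 hz1

theorem nsl_grad (u : ℂ → ℝ) (s θ : ℝ) : nsl (grad u) 0 s θ = s * un u s θ := rfl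

/-- zero flux through every arc -/
theorem GMin.flux (h : GMin u K)
    (hunb : ∀ x ∈ K, ¬ Bornology.IsBounded (connectedComponentIn K x)) :
    ∀ᵐ s : ℝ, 0 < s → ∀ α β : ℝ, α < β → β ≤ α + 2 * π → circleMap 0 s α ∈ K →
      circleMap 0 s β ∈ K → (∀ θ ∈ Ioo α β, circleMap 0 s θ ∉ K) →
      ∫ θ in α..β, un u s θ = 0 := by
  filter_upwards [flux_arc h.closed (noPiece_of_unbounded hunb) 0 (measurable_grad u)
    (fun R => h.memLp 0 R) h.wallMin h.ae_finite] with s hs hs0 α β h1 h2 h3 h4 h5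
  have h6 := hs hs0 α β h1 h2 h3 h4 h5
  simp only [nsl_grad] at h6
  rw [intervalIntegral.integral_const_mul] at h6
  exact (mul_eq_zero.1 h6).resolve_left hs0.ne'

end Vale.Agent.P128.GM
end

section

/-! Bonnet's inequality, deduced from the energy identity on circles and the inequality on arcs. -/

open MeasureTheory Set Metric Filter
open scoped ENNReal NNReal ContDiff Topology Real

namespace Vale.Agent.P128.GM

open Vale.Agent.P128

variable {u : ℂ → ℝ} {K : Set ℂ}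

theorem integrable_un_sq {s : ℝ}
    (hi : IntegrableOn (fun θ => ‖grad u (circleMap 0 s θ)‖ ^ 2) ang) :
    IntegrableOn (fun θ => un u s θ ^ 2) ang := by
  refine hi.mono' ((measurable_un u s).pow_const 2).aestronglyMeasurable
    (Eventually.of_forall fun θ => ?_)
  rw [Real.norm_of_nonneg (by positivity), ← un_sq_add_ut_sq]
  linarith only [sq_nonneg (ut u s θ)]

theorem integrable_ut_sq {s : ℝ}
    (hi : IntegrableOn (fun θ => ‖grad u (circleMap 0 s θ)‖ ^ 2) ang) :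
    IntegrableOn (fun θ => ut u s θ ^ 2) ang := by
  refine hi.mono' ((measurable_ut u s).pow_const 2).aestronglyMeasurable
    (Eventually.of_forall fun θ => ?_)
  rw [Real.norm_of_nonneg (by positivity), ← un_sq_add_ut_sq]
  linarith only [sq_nonneg (un u s θ)]

/-- The deterministic part of Bonnet's inequality. -/
theorem bonnet_core {s : ℝ} (hs : 0 < s) (hfin : (K ∩ sphere 0 s).Finite)
    (hne : (K ∩ sphere 0 s).Nonempty)
    (hi : IntegrableOn (fun θ => ‖grad u (circleMap 0 s θ)‖ ^ 2) ang)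
    (hF : IntegrableOn (fun θ => u (circleMap 0 s θ) * un u s θ) ang)
    (hE : En u s = s * ∫ θ in (-π)..π, u (circleMap 0 s θ) * un u s θ)
    (harc : ∀ α β : ℝ, α < β → β ≤ α + 2 * π → circleMap 0 s α ∈ K → circleMap 0 s β ∈ K →
      (∀ θ ∈ Ioo α β, circleMap 0 s θ ∉ K) → ∫ θ in α..β, u (circleMap 0 s θ) * un u s θ ≤
        (β - α) * s / π * (Real.sqrt (∫ θ in α..β, ut u s θ ^ 2) *
          Real.sqrt (∫ θ in α..β, un u s θ ^ 2)))
    {ℓ : ℝ} (hℓ : GapLe K s ℓ) :
    En u s ≤ ℓ * s / π * Real.sqrt (TT u s * NN u s) := by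
  have hπ := Real.pi_pos
  have key := sum_arcs (F := fun θ => u (circleMap 0 s θ) * un u s θ)
    (A := fun θ => ut u s θ ^ 2) (B := fun θ => un u s θ ^ 2) hs hfin hne
    (fun θ => by simp only [periodic_un u s θ, periodic_circleMap 0 s θ])
    (fun θ => by simp only [periodic_ut u s θ]) (fun θ => by simp only [periodic_un u s θ])
    hF (integrable_ut_sq hi) (integrable_un_sq hi) (fun θ => by positivity)
    (fun θ => by positivity) (c := s / π) (by positivity) hℓ
    (fun α β h1 h2 h3 h4 h5 => (harc α β h1 h2 h3 h4 h5).trans (le_of_eq (by ring)))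
  have h1 : Real.sqrt (TT u s * NN u s) =
      s * (Real.sqrt (∫ θ in ang, ut u s θ ^ 2) * Real.sqrt (∫ θ in ang, un u s θ ^ 2)) := by
    have ha : 0 ≤ ∫ θ in ang, ut u s θ ^ 2 := integral_nonneg fun θ => by positivity
    unfold TT NN
    rw [interval_eq_ang, interval_eq_ang, ← Real.sqrt_mul ha,
      show s * (∫ θ in ang, ut u s θ ^ 2) * (s * ∫ θ in ang, un u s θ ^ 2) =
        s ^ 2 * ((∫ θ in ang, ut u s θ ^ 2) * ∫ θ in ang, un u s θ ^ 2) by ring,
      Real.sqrt_mul (by positivity), Real.sqrt_sq hs.le]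
  rw [hE, interval_eq_ang, h1]
  calc _ ≤ s * (ℓ * (s / π) * (Real.sqrt (∫ θ in ang, ut u s θ ^ 2) *
        Real.sqrt (∫ θ in ang, un u s θ ^ 2))) := mul_le_mul_of_nonneg_left key hs.le
    _ = _ := by ring

end Vale.Agent.P128.GM
end

section

/-! Bonnet's inequality from the energy identity on circles and local boundedness. -/

open MeasureTheory Set Metric Filter
open scoped ENNReal NNReal ContDiff Topology Real

namespace Vale.Agent.P128.GM

open Vale.Agent.P128

variable {u : ℂ → ℝ} {K : Set ℂ}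

theorem GMin.bonnet_of (h : GMin u K)
    (hunb : ∀ x ∈ K, ¬ Bornology.IsBounded (connectedComponentIn K x))
    (hb : ∀ R : ℝ, ∃ M : ℝ, ∀ z ∈ ball (0 : ℂ) R, z ∉ K → |u z| ≤ M)
    (hg : ∀ᵐ s : ℝ, 0 < s →
      IntervalIntegrable (fun θ => u (circleMap 0 s θ) * un u s θ) volume (-π) π ∧
      En u s = s * ∫ θ in (-π)..π, u (circleMap 0 s θ) * un u s θ) :
    ∀ᵐ s : ℝ, 0 < s → (K ∩ sphere 0 s).Nonempty → ∀ ℓ : ℝ, GapLe K s ℓ →
      En u s ≤ ℓ * s / π * Real.sqrt (TT u s * NN u s) := by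
  have hπ := Real.pi_pos
  filter_upwards [h.flux hunb, hg, h.ae_finite, polar_ae (fun R => h.integrableOn' 0 R)] with
    s h1 h2 h3 h4 hs hne ℓ hℓ
  obtain ⟨hi, hE⟩ := h2 hs
  obtain ⟨M, hM⟩ := hb (s + 1)
  have hF : IntegrableOn (fun θ => u (circleMap 0 s θ) * un u s θ) ang := by
    rwa [intervalIntegrable_iff_integrableOn_Ioo_of_le (by linarith)] at hi
  have hsub : ∀ {f : ℝ → ℝ}, Function.Periodic f (2 * π) → IntegrableOn f ang →
      ∀ α β : ℝ, α < β → IntegrableOn f (Ioo α β) := by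
    intro f hf hfi α β hαβ
    have h5 : IntervalIntegrable f volume (-π) (-π + 2 * π) := by
      rw [show -π + 2 * π = π by ring, intervalIntegrable_iff_integrableOn_Ioo_of_le (by linarith)]
      exact hfi
    have h6 := hf.intervalIntegrable (by positivity) h5 α β
    rwa [intervalIntegrable_iff_integrableOn_Ioo_of_le hαβ.le] at h6
  refine bonnet_core hs (h3 hs) hne (h4 hs) hF hE (fun α β a1 a2 a3 a4 a5 => ?_) hℓ
  refine arc_ineq h.closed ?_ hs a1 a5 (M := M) (fun θ hθ => hM _ ?_ (a5 θ hθ)) ?_ ?_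
    (h1 hs α β a1 a2 a3 a4 a5)
  · exact (InnerProductSpace.HarmonicOnNhd.contDiffOn h.harm).of_le (by norm_num)
  · rw [mem_ball_zero_iff, norm_circleMap_zero, abs_of_pos hs]
    linarith
  · exact hsub (fun θ => by simp only [periodic_ut u s θ]) (integrable_ut_sq (h4 hs)) α β a1
  · exact hsub (fun θ => by simp only [periodic_un u s θ]) (integrable_un_sq (h4 hs)) α β a1

end Vale.Agent.P128.GM
end

section

/-! Bonnet's inequality for locally bounded `u`. -/

open MeasureTheory Set Metric Filter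
open scoped ENNReal NNReal ContDiff Topology Real

namespace Vale.Agent.P128.GM

open Vale.Agent.P128

variable {u : ℂ → ℝ} {K : Set ℂ}

theorem GMin.bonnet_bdd (h : GMin u K)
    (hunb : ∀ x ∈ K, ¬ Bornology.IsBounded (connectedComponentIn K x))
    (hb : ∀ R : ℝ, ∃ M : ℝ, ∀ z ∈ ball (0 : ℂ) R, z ∉ K → |u z| ≤ M) :
    ∀ᵐ s : ℝ, 0 < s → (K ∩ sphere 0 s).Nonempty → ∀ ℓ : ℝ, GapLe K s ℓ →
      En u s ≤ ℓ * s / π * Real.sqrt (TT u s * NN u s) :=
  h.bonnet_of hunb hb (h.green_circle_of hb)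

end Vale.Agent.P128.GM
end

section

open MeasureTheory Set Metric Filter InnerProductSpace
open scoped ENNReal NNReal ContDiff Topology Real

namespace Vale.Agent.P128.GM

open Vale.Agent.P128

variable {u : ℂ → ℝ} {K : Set ℂ}

/-- THEOREM A: `K` has no nonempty compact relatively open subset. -/
theorem GMin.no_piece (h : GMin u K) {A : Set ℂ} (hA : IsCompact A) (hAK : A ⊆ K)
    (ho : IsClosed (K \ A)) : A = ∅ := by
  obtain ⟨η, δ, P⟩ := exists_piece hA hAK ho
  obtain ⟨w, hw⟩ := exists_pot (src_smooth h P) (src_supp P) (src_int h P)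
  exact h.caseTwo P hw fun x hx => h.caseOne P hw hx

theorem GMin.unbounded (h : GMin u K) {x : ℂ} (hx : x ∈ K) :
    ¬ Bornology.IsBounded (connectedComponentIn K x) :=
  unbounded_components h.gm.closed (fun _ hA hAK ho => h.no_piece hA hAK ho) hx

/-- THEOREM B: `K` is connected. -/
theorem GMin.preconnected (h : GMin u K) : IsPreconnected K :=
  preconnected_of (fun R => h.integrableOn R) (fun R hR => h.growth hR)
    (fun x hx s hs => meets_sphere hx (h.unbounded hx) hs)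
    (h.bonnet_bdd (fun x hx => h.unbounded hx) fun R => h.bdd R)
    h.cluster (fun R₀ hR₀ h2 s hs => h.len_ge hR₀ h2 hs) h.en_pos

end Vale.Agent.P128.GM
end

section

/-! Monotonicity of `E(s)/s` about a point of the singular set. -/

open MeasureTheory Set Metric Filter InnerProductSpace
open scoped ENNReal NNReal ContDiff Topology Real

namespace Vale.Agent.P128.GM

open Vale.Agent.P128

variable {u : ℂ → ℝ} {K : Set ℂ}

theorem GMin.meets (h : GMin u K) (h0 : (0 : ℂ) ∈ K) {s : ℝ} (hs : 0 ≤ s) :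
    (K ∩ sphere 0 s).Nonempty := by
  obtain ⟨z, hz, hzs⟩ := meets_sphere h0 (h.unbounded h0) (s := s) (by simpa using hs)
  exact ⟨z, connectedComponentIn_subset K 0 hz, hzs⟩

theorem GMin.om_nonneg (h : GMin u K) (h0 : (0 : ℂ) ∈ K) : ∀ᵐ s : ℝ, 0 < s → 0 ≤ om u s := by
  filter_upwards [h.bonnet_bdd (fun x hx => h.unbounded hx) fun R => h.bdd R] with s hs hs0
  have hpi := Real.pi_pos
  have h1 := hs hs0 (h.meets h0 hs0.le) (2 * π) (fun α β _ h2 _ => by linarith)
  have hT := TT_nonneg u hs0.le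
  have hN := NN_nonneg u hs0.le
  have hsq : Real.sqrt (TT u s * NN u s) ≤ (TT u s + NN u s) / 2 := by
    rw [Real.sqrt_le_left (by linarith only [hN, hT])]
    linarith only [sq_nonneg (TT u s - NN u s)]
  have h2 : 2 * π * s / π = 2 * s := by field_simp
  rw [h2] at h1
  have h3 : En u s ≤ s * (TT u s + NN u s) := by
    refine h1.trans ?_
    have : 2 * s * Real.sqrt (TT u s * NN u s) ≤ 2 * s * ((TT u s + NN u s) / 2) := by gcongr
    linarith only [this]
  have h4 : En u s / s ≤ TT u s + NN u s := by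
    rw [div_le_iff₀ hs0]
    linarith
  unfold om
  linarith only [h4]

/-- the energy on a segment of radii, as a primitive -/
theorem mono_primitive (h : GMin u K) {a : ℝ} (ha : 0 < a) {s : ℝ} (hs : a ≤ s) :
    En u s = En u a + ∫ r in a..s, (NN u r + TT u r) := by
  have := (polar_of_integrable (fun R => h.integrableOn R) ha hs).2
  linarith

theorem mono_cont (h : GMin u K) {a b : ℝ} (ha : 0 < a) (hab : a ≤ b) :
    ContinuousOn (fun s => En u s / s) (uIcc a b) := by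
  have h1 : ContinuousOn (fun s => En u a + ∫ r in a..s, (NN u r + TT u r)) (uIcc a b) :=
    continuousOn_const.add (intervalIntegral.continuousOn_primitive_interval'
      (polar_of_integrable (fun R => h.integrableOn R) ha hab).1 left_mem_uIcc)
  have h2 : ContinuousOn (En u) (uIcc a b) := by
    refine h1.congr fun s hs => ?_
    rw [uIcc_of_le hab] at hs
    exact mono_primitive h ha hs.1
  simp only [div_eq_mul_inv]
  exact h2.mul (inv_cont ha hab)

theorem GMin.om_int (h : GMin u K) (h0 : (0 : ℂ) ∈ K) {a b : ℝ} (ha : 0 < a) (hab : a ≤ b) :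
    IntervalIntegrable (fun s => om u s / s) volume a b ∧
      ∫ s in a..b, om u s / s = En u b / b - En u a / a := by
  have _ := h0
  have hp := (polar_of_integrable (fun R => h.integrableOn R) ha hab).1
  refine ⟨?_, ?_⟩
  · unfold om
    simp only [div_eq_mul_inv (_ - _)]
    exact (hp.sub (mono_cont h ha hab).intervalIntegrable).mul_continuousOn (inv_cont ha hab)
  · exact (ratio_identity (E := En u) (e := fun s => NN u s + TT u s) ha hab hp
      fun s hs _ => mono_primitive h ha hs).symm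

theorem GMin.mono (h : GMin u K) (h0 : (0 : ℂ) ∈ K) {s t : ℝ} (hs : 0 < s) (hst : s ≤ t) :
    En u s / s ≤ En u t / t := by
  have h1 := (h.om_int h0 hs hst).2
  have h2 : 0 ≤ ∫ r in s..t, om u r / r := by
    refine intervalIntegral.integral_nonneg_of_ae_restrict hst ?_
    rw [Filter.EventuallyLE, ae_restrict_iff' measurableSet_Icc]
    filter_upwards [h.om_nonneg h0] with r hr hrI
    have hr0 : 0 < r := lt_of_lt_of_le hs hrI.1
    exact div_nonneg (hr hr0) hr0.le
  linarith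

end Vale.Agent.P128.GM
end

section

/-! Good radii: circles meeting `K` in one point with a small defect. -/

open MeasureTheory Set Metric Filter InnerProductSpace
open scoped ENNReal NNReal ContDiff Topology Real

namespace Vale.Agent.P128.GM

open Vale.Agent.P128

variable {u : ℂ → ℝ} {K : Set ℂ}

/-- small defect implies short length (algebra) -/
theorem good_alg {e₀ e T N ℓ lam : ℝ} (he₀ : 0 < e₀) (he : e₀ ≤ e) (heg : e ≤ 2 * π) (hT : 0 ≤ T)
    (hN : 0 ≤ N) (hℓ0 : 0 ≤ ℓ) (hℓ : ℓ ≤ 2 * π) (h1 : e ≤ ℓ / π * Real.sqrt (T * N))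
    (h2 : e + lam ≤ 2 * T + 1 + (2 * π - ℓ)) (hom : N + T - e ≤ min (1 / 1000) (e₀ / 128)) :
    lam ≤ 5 / 4 := by
  have hpi := Real.pi_pos
  have hpi2 := Real.pi_lt_d2
  have hsq : Real.sqrt (T * N) ≤ (T + N) / 2 := by
    rw [Real.sqrt_le_left (by positivity)]
    linarith only [sq_nonneg (T - N)]
  have hsq0 := Real.sqrt_nonneg (T * N)
  obtain ⟨w, hw⟩ : ∃ w, w = N + T - e := ⟨_, rfl⟩
  have hw1 : w ≤ 1 / 1000 := by rw [hw]; exact hom.trans (min_le_left _ _)
  have hw2 : w ≤ e₀ / 128 := by rw [hw]; exact hom.trans (min_le_right _ _)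
  have h3 : π * e ≤ ℓ * Real.sqrt (T * N) := by
    have := mul_le_mul_of_nonneg_left h1 hpi.le
    refine this.trans (le_of_eq ?_)
    field_simp
  have h4 : 2 * π * e ≤ ℓ * (e + w) := by
    have : ℓ * Real.sqrt (T * N) ≤ ℓ * ((T + N) / 2) := mul_le_mul_of_nonneg_left hsq hℓ0
    rw [hw]
    linarith only [this, h3]
  have hew : 0 ≤ e + w := by rw [hw]; linarith only [hsq0, hsq]
  have hw0 : 0 ≤ w := by
    have : ℓ * (e + w) ≤ 2 * π * (e + w) := mul_le_mul_of_nonneg_right hℓ hew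
    have h5 : 2 * π * e ≤ 2 * π * (e + w) := h4.trans this
    by_contra hneg
    push Not at hneg
    have : 2 * π * w < 0 := by linarith only [mul_nonneg (le_of_lt (sub_pos.2 hpi2)) (sub_nonneg.2 h5), mul_pos (sub_pos.2 hpi) (sub_pos.2 hneg), mul_nonneg (le_of_lt (sub_pos.2 hpi)) (sub_nonneg.2 h5)]
    linarith only [this, h5]
  have h5 : (2 * π - ℓ) * e₀ ≤ 2 * π * (e₀ / 128) := by
    have a1 : (2 * π - ℓ) * e₀ ≤ (2 * π - ℓ) * e := mul_le_mul_of_nonneg_left he (by linarith only [hℓ])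
    have a2 : (2 * π - ℓ) * e ≤ ℓ * w := by linarith only [h4]
    have a3 : ℓ * w ≤ 2 * π * w := mul_le_mul_of_nonneg_right hℓ hw0
    have a4 : 2 * π * w ≤ 2 * π * (e₀ / 128) := mul_le_mul_of_nonneg_left hw2 (by positivity)
    linarith only [a4, a3, a2, a1]
  have h6 : 2 * π - ℓ ≤ 2 * π / 128 := by
    have : (2 * π - ℓ) * e₀ ≤ (2 * π / 128) * e₀ := by linarith only [h5]
    exact le_of_mul_le_mul_right this he₀
  have h7 : e ≤ 2 * Real.sqrt (T * N) := by
    have : ℓ * Real.sqrt (T * N) ≤ 2 * π * Real.sqrt (T * N) :=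
      mul_le_mul_of_nonneg_right hℓ hsq0
    have h8 : π * e ≤ π * (2 * Real.sqrt (T * N)) := by linarith only [this, h3]
    exact le_of_mul_le_mul_left h8 hpi
  have he0 : 0 ≤ e := he₀.le.trans he
  have h8 : e ^ 2 ≤ 4 * (T * N) := by
    have : e ^ 2 ≤ (2 * Real.sqrt (T * N)) ^ 2 := pow_le_pow_left₀ he0 h7 2
    rw [mul_pow, Real.sq_sqrt (by positivity)] at this
    linarith only [this]
  have h9 : (T - N) ^ 2 ≤ (1 / 8) ^ 2 := by
    have a1 : (T - N) ^ 2 = (e + w) ^ 2 - 4 * (T * N) := by rw [hw]; ring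
    have a2 : (T - N) ^ 2 ≤ 2 * e * w + w ^ 2 := by rw [a1]; linarith only [h8]
    have a3 : 2 * e * w ≤ 4 * π * (1 / 1000) := by
      have := mul_le_mul heg hw1 hw0 (by positivity : (0 : ℝ) ≤ 2 * π)
      linarith only [this]
    have a4 : w ^ 2 ≤ (1 / 1000) ^ 2 := pow_le_pow_left₀ hw0 hw1 2
    norm_num at a4 ⊢
    linarith only [a4, a3, a2, hpi2]
  have h10 : T - N ≤ 1 / 8 := (abs_le_of_sq_le_sq' h9 (by norm_num)).2
  have h11 : 2 * T - e = (T - N) + w := by rw [hw]; ring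
  linarith only [h11, h10, h6, hw1, hpi2, h2]

/-- small defect implies short length -/
theorem good_len (h : GMin u K) (h0 : (0 : ℂ) ∈ K) {e₀ : ℝ} (he₀ : 0 < e₀) :
    ∀ᵐ s : ℝ, 0 < s → e₀ ≤ En u s / s → om u s ≤ min (1 / 1000) (e₀ / 128) →
      Len K s ≤ 5 / 4 * s := by
  filter_upwards [h.bonnet_bdd (fun x hx => h.unbounded hx) fun R => h.bdd R, h.cluster]
    with s hb hc hs he hom
  have hE : 0 < En u s := by
    have : 0 < En u s / s := he₀.trans_le he
    exact (div_pos_iff_of_pos_right hs).1 this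
  obtain ⟨ℓ, hℓ0, hℓ, h1, h2⟩ := exists_gap hs hE (hb hs (h.meets h0 hs.le)) (hc hs)
  have hg := h.growth hs
  have hL0 : 0 ≤ Len K s := ENNReal.toReal_nonneg
  have key := good_alg (e := En u s / s) (T := TT u s) (N := NN u s) (ℓ := ℓ) (lam := Len K s / s)
    he₀ he (by rw [div_le_iff₀ hs]; linarith only [hL0, hg]) (TT_nonneg u hs.le) (NN_nonneg u hs.le) hℓ0 hℓ
    (by
      rw [div_le_iff₀ hs]
      refine h1.trans (le_of_eq ?_)
      ring)
    (by
      rw [← add_div, div_le_iff₀ hs]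
      refine h2.trans (le_of_eq ?_)
      ring)
    hom
  rw [div_le_iff₀ hs] at key
  exact key

theorem good_ratio_le (h : GMin u K) {s : ℝ} (hs : 0 < s) : En u s / s ≤ 2 * π := by
  have hg := h.growth hs
  have hL0 : 0 ≤ Len K s := ENNReal.toReal_nonneg
  rw [div_le_iff₀ hs]
  linarith

/-- a long window contains a radius with a small defect and short length -/
theorem good_window (h : GMin u K) (h0 : (0 : ℂ) ∈ K) {e₀ : ℝ} (he₀ : 0 < e₀) {c ρ : ℝ}
    (hc : 0 < c) (hec : e₀ ≤ En u c / c)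
    (hρ : ρ = Real.exp ((2 * π + 1) / min (1 / 1000) (e₀ / 128))) :
    ∃ s : ℝ, c < s ∧ s < ρ * c ∧ Len K s ≤ 5 / 4 * s := by
  have hpi := Real.pi_pos
  obtain ⟨η', hη'⟩ : ∃ η', η' = min (1 / 1000) (e₀ / 128) := ⟨_, rfl⟩
  have hη0 : 0 < η' := by rw [hη']; exact lt_min (by norm_num) (by positivity)
  rw [← hη'] at hρ
  have hρ1 : 1 < ρ := by rw [hρ]; exact Real.one_lt_exp_iff.2 (by positivity)
  have hlt : c < ρ * c := by linarith only [mul_pos (sub_pos.2 hc) (sub_pos.2 hρ1)]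
  by_contra hcon
  push Not at hcon
  have hae : ∀ᵐ s : ℝ, s ∈ Ioo c (ρ * c) → η' < om u s := by
    filter_upwards [good_len h h0 he₀] with s hs hsI
    by_contra hle
    push Not at hle
    have hs0 : 0 < s := hc.trans hsI.1
    have h1 := hs hs0 (hec.trans (h.mono h0 hc hsI.1.le)) (by rw [← hη']; exact hle)
    have h2 := hcon s hsI.1 hsI.2
    linarith only [h2, h1]
  obtain ⟨hi, hint⟩ := h.om_int h0 hc hlt.le
  have hmono : ∫ s in c..(ρ * c), η' * s⁻¹ ≤ ∫ s in c..(ρ * c), om u s / s := by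
    have hii : IntervalIntegrable (fun s : ℝ => η' * s⁻¹) volume c (ρ * c) := by
      apply ContinuousOn.intervalIntegrable
      rw [uIcc_of_le hlt.le]
      exact continuousOn_const.mul (continuousOn_id.inv₀ fun x hx => (hc.trans_le hx.1).ne')
    apply intervalIntegral.integral_mono_ae_restrict hlt.le hii hi
    rw [EventuallyLE, ae_restrict_iff' measurableSet_Icc]
    have hne : ∀ᵐ s : ℝ, s ≠ c ∧ s ≠ ρ * c := by
      have h1 : ∀ᵐ s : ℝ, s ≠ c := by
        rw [ae_iff]; simp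
      have h2 : ∀ᵐ s : ℝ, s ≠ ρ * c := by
        rw [ae_iff]; simp
      filter_upwards [h1, h2] with s a b using ⟨a, b⟩
    filter_upwards [hae, hne] with s hs hs2 hsI
    have hs0 : 0 < s := hc.trans_le hsI.1
    have := hs ⟨lt_of_le_of_ne hsI.1 (Ne.symm hs2.1), lt_of_le_of_ne hsI.2 hs2.2⟩
    rw [← div_eq_mul_inv]
    gcongr
  have hval : ∫ s in c..(ρ * c), η' * s⁻¹ = 2 * π + 1 := by
    rw [intervalIntegral.integral_const_mul, integral_inv_of_pos hc (hc.trans hlt),
      mul_div_cancel_right₀ _ hc.ne', hρ, Real.log_exp]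
    field_simp
  rw [hval, hint] at hmono
  have h1 := good_ratio_le h (hc.trans hlt)
  linarith only [h1, hmono, hec, he₀]

/-- One step. -/
theorem good_step (h : GMin u K) (h0 : (0 : ℂ) ∈ K) {e₀ η : ℝ} (he₀ : 0 < e₀) (hη : 0 < η)
    {ρ b : ℝ} (hρ : ρ = Real.exp ((2 * π + 1) / min (1 / 1000) (e₀ / 128))) (hb : 0 < b)
    (heb : e₀ ≤ En u b / b)
    (hnull : volume {s : ℝ | b < s ∧ s < 4 * ρ * b ∧ OnePt K s ∧ om u s ≤ η} = 0) :
    En u b / b + η / 2 ≤ En u (4 * ρ * b) / (4 * ρ * b) := by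
  obtain ⟨s, hs1, hs2, hsL⟩ := good_window h h0 he₀ (c := 4 * b) (by positivity)
    (heb.trans (h.mono h0 hb (by linarith only [hb]))) hρ
  have hs2' : s < 4 * ρ * b := by
    refine hs2.trans_eq ?_
    ring
  have hbs : b < s := by linarith only [hs1, hb]
  have hs0 : 0 < s := hb.trans hbs
  refine le_trans ?_ (h.mono h0 hs0 hs2'.le)
  obtain ⟨hi, hint⟩ := h.om_int h0 hb hbs.le
  obtain ⟨f, hf⟩ : ∃ f : ℝ → ℝ, f = fun s => om u s / s := ⟨_, rfl⟩
  rw [← hf] at hi
  have hint' : ∫ t in b..s, f t = En u s / s - En u b / b := by rw [hf]; exact hint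
  have hfi : IntegrableOn f (Ioc b s) := (intervalIntegrable_iff_integrableOn_Ioc_of_le hbs.le).1 hi
  obtain ⟨f', hf'm, hff'⟩ := hfi.aestronglyMeasurable
  rw [EventuallyEq, ae_restrict_iff' measurableSet_Ioc] at hff'
  -- exceptional set
  obtain ⟨Z, hZdef⟩ : ∃ Z, Z = toMeasurable volume ({t : ℝ | ¬ (t ∈ Ioc b s → f t = f' t)} ∪
    {s : ℝ | b < s ∧ s < 4 * ρ * b ∧ OnePt K s ∧ om u s ≤ η}) := ⟨_, rfl⟩
  have hZ0 : volume Z = 0 := by
    rw [hZdef, measure_toMeasurable]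
    exact measure_union_null (ae_iff.1 hff') hnull
  have hZm : MeasurableSet Z := by rw [hZdef]; exact measurableSet_toMeasurable _ _
  have hZ1 : ∀ t, t ∉ Z → t ∈ Ioc b s → f t = f' t := by
    intro t ht
    by_contra hne
    apply ht
    rw [hZdef]
    exact subset_toMeasurable _ _ (Or.inl hne)
  have hZ2 : ∀ t, t ∉ Z → ¬ (b < t ∧ t < 4 * ρ * b ∧ OnePt K t ∧ om u t ≤ η) := by
    intro t ht hne
    apply ht
    rw [hZdef]
    exact subset_toMeasurable _ _ (Or.inr hne)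
  obtain ⟨A, hAdef⟩ : ∃ A : Set ℝ, A = (Ioo b s ∩ {t | f' t * t ≤ η}) \ Z := ⟨_, rfl⟩
  have hAm : MeasurableSet A := by
    rw [hAdef]
    refine (measurableSet_Ioo.inter ?_).diff hZm
    exact measurableSet_le (hf'm.measurable.mul measurable_id) measurable_const
  have hAsub : A ⊆ Ioo b s := by
    rw [hAdef]
    exact fun t ht => ht.1.1
  have hfs : ∀ t, 0 < t → f t * t = om u t := by
    intro t ht
    rw [hf]
    exact div_mul_cancel₀ _ ht.ne'
  -- two crossings on `A`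
  have hA2 : ∀ t ∈ A, ((2 : ℕ) : ℕ∞) ≤ (K ∩ (fun z : ℂ => ‖z‖) ⁻¹' {t}).encard := by
    intro t ht
    rw [inter_norm_preimage]
    have ht1 := hAsub ht
    have ht0 : 0 < t := hb.trans ht1.1
    rw [hAdef] at ht
    have h1 : om u t ≤ η := by
      rw [← hfs t ht0, hZ1 t ht.2 ⟨ht1.1, ht1.2.le⟩]
      exact ht.1.2
    have h2 : ¬ OnePt K t := fun h3 => hZ2 t ht.2 ⟨ht1.1, ht1.2.trans hs2', h3, h1⟩
    obtain ⟨p, hp⟩ := h.meets h0 ht0.le
    have h3 : ∃ q ∈ K ∩ sphere 0 t, q ≠ p := by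
      by_contra hno
      push Not at hno
      exact h2 ⟨p, Subset.antisymm (fun q hq => hno q hq) (by
        rintro q rfl
        exact hp)⟩
    obtain ⟨q, hq, hqp⟩ := h3
    have e := encard_pair hqp
    calc ((2 : ℕ) : ℕ∞) = ({q, p} : Set ℂ).encard := by rw [e]; rfl
      _ ≤ _ := encard_le_encard (by
        rintro x hx
        rcases hx with rfl | hx
        · exact hq
        · rw [mem_singleton_iff] at hx
          rw [hx]
          exact hp)
  have hB1 : ∀ t ∈ Ioo 0 s \ A, ((1 : ℕ) : ℕ∞) ≤ (K ∩ (fun z : ℂ => ‖z‖) ⁻¹' {t}).encard := by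
    intro t ht
    rw [inter_norm_preimage]
    have := (h.meets h0 ht.1.1.le)
    rw [Nat.cast_one, one_le_encard_iff_nonempty]
    exact this
  have e1 := eilenberg (X := ℂ) lipschitzWith_one_norm hA2
  have e2 := eilenberg (X := ℂ) lipschitzWith_one_norm hB1
  have hnm : Measurable (fun z : ℂ => ‖z‖) := measurable_norm
  have hdis : Disjoint (K ∩ (fun z : ℂ => ‖z‖) ⁻¹' A)
      (K ∩ (fun z : ℂ => ‖z‖) ⁻¹' (Ioo 0 s \ A)) := by
    rw [Set.disjoint_left]
    rintro z ⟨-, hz⟩ ⟨-, hz'⟩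
    exact hz'.2 hz
  have e3 : μH[1] (K ∩ (fun z : ℂ => ‖z‖) ⁻¹' A) +
      μH[1] (K ∩ (fun z : ℂ => ‖z‖) ⁻¹' (Ioo 0 s \ A)) ≤ μH[1] (K ∩ ball 0 s) := by
    rw [← measure_union hdis (h.gm.closed.measurableSet.inter
      (hnm (measurableSet_Ioo.diff hAm)))]
    refine measure_mono ?_
    rintro z (⟨hz, hz'⟩ | ⟨hz, hz'⟩)
    · refine ⟨hz, ?_⟩
      rw [mem_ball_zero_iff]
      exact (hAsub hz').2
    · refine ⟨hz, ?_⟩
      rw [mem_ball_zero_iff]
      exact hz'.1.2
  have hAfin : volume A ≠ ⊤ := ne_top_of_le_ne_top (by simp) (measure_mono hAsub)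
  have hBfin : volume (Ioo 0 s \ A) ≠ ⊤ :=
    ne_top_of_le_ne_top (by simp) (measure_mono (sdiff_subset (s := Ioo 0 s) (t := A)))
  have e4 : 2 * (volume A).toReal + (volume (Ioo 0 s \ A)).toReal ≤ Len K s := by
    have h1 := ENNReal.toReal_mono (h.len_fin 0 s) ((add_le_add e1 e2).trans e3)
    rw [ENNReal.toReal_add (ENNReal.mul_ne_top (by simp) hAfin)
      (ENNReal.mul_ne_top (by simp) hBfin), ENNReal.toReal_mul, ENNReal.toReal_mul] at h1
    unfold Len
    simpa using h1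
  have e5 : (volume A).toReal + (volume (Ioo 0 s \ A)).toReal = s := by
    have h1 : volume (Ioo 0 s \ A) = volume (Ioo 0 s) - volume A :=
      measure_sdiff (hAsub.trans (Ioo_subset_Ioo_left hb.le)) hAm.nullMeasurableSet hAfin
    have h2 : volume A ≤ volume (Ioo 0 s) :=
      measure_mono (hAsub.trans (Ioo_subset_Ioo_left hb.le))
    rw [h1, ENNReal.toReal_sub_of_le h2 (by simp), Real.volume_Ioo]
    rw [ENNReal.toReal_ofReal (by linarith only [hs1, hb])]
    ring
  have e6 : (volume A).toReal ≤ s / 4 := by linarith only [e5, e4, hsL]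
  have e7 : s / 2 ≤ (volume (Ioo b s \ A)).toReal := by
    have h1 : volume (Ioo b s \ A) = volume (Ioo b s) - volume A :=
      measure_sdiff hAsub hAm.nullMeasurableSet hAfin
    rw [h1, ENNReal.toReal_sub_of_le (measure_mono hAsub) (by simp), Real.volume_Ioo]
    rw [ENNReal.toReal_ofReal (by linarith only [hs1, hb])]
    linarith only [e6, hs1]
  -- the integral over `Ioo b s \ A`
  have hD1 : Ioo b s \ A ⊆ Ioc b s := fun t ht => Ioo_subset_Ioc_self ht.1
  have hDm : MeasurableSet (Ioo b s \ A) := measurableSet_Ioo.diff hAm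
  have hDfin : volume (Ioo b s \ A) ≠ ⊤ :=
    ne_top_of_le_ne_top (by simp) (measure_mono (sdiff_subset (s := Ioo b s) (t := A)))
  have f1 : ∫ t in Ioo b s \ A, f t ≤ ∫ t in Ioc b s, f t := by
    refine setIntegral_mono_set hfi ?_ (LE.le.eventuallyLE hD1)
    rw [EventuallyLE, ae_restrict_iff' measurableSet_Ioc]
    filter_upwards [h.om_nonneg h0] with t ht htI
    have ht0 : 0 < t := hb.trans htI.1
    rw [hf]
    exact div_nonneg (ht ht0) ht0.le
  have f2 : ∫ t in Ioo b s \ A, η / s ≤ ∫ t in Ioo b s \ A, f t := by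
    refine setIntegral_mono_ae_restrict (integrableOn_const hDfin) (hfi.mono_set hD1) ?_
    rw [EventuallyLE, ae_restrict_iff' hDm]
    have hZae : ∀ᵐ t : ℝ, t ∉ Z := by
      rw [ae_iff]
      simpa using hZ0
    filter_upwards [hZae] with t htZ ht
    have ht0 : 0 < t := hb.trans ht.1.1
    have h1 : η < f' t * t := by
      by_contra hle
      push Not at hle
      apply ht.2
      rw [hAdef]
      exact ⟨⟨ht.1, hle⟩, htZ⟩
    rw [hZ1 t htZ (hD1 ht)]
    rw [div_le_iff₀ hs0]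
    have h2 : 0 < f' t := by
      by_contra hle
      push Not at hle
      linarith only [mul_nonneg (le_of_lt (sub_pos.2 ht0)) (sub_nonneg.2 hle), h1, hη]
    (by_contra nlg; linarith only [nlg, mul_pos (sub_pos.2 hs1) (sub_pos.2 h1), mul_pos (sub_pos.2 hb) (sub_pos.2 h1), mul_pos (sub_pos.2 hη) (sub_pos.2 ht.1.2), mul_pos (sub_pos.2 (not_le.1 nlg)) (sub_pos.2 ht0)])
  rw [setIntegral_const, smul_eq_mul] at f2
  have f3 : η / 2 ≤ (volume (Ioo b s \ A)).toReal * (η / s) := by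
    have h1 : s / 2 * (η / s) ≤ (volume (Ioo b s \ A)).toReal * (η / s) :=
      mul_le_mul_of_nonneg_right e7 (by positivity)
    refine le_trans (le_of_eq ?_) h1
    field_simp
  rw [intervalIntegral.integral_of_le hbs.le] at hint'
  have f4 : (volume (Ioo b s \ A)).toReal * (η / s) ≤ ∫ t in Ioo b s \ A, f t := f2
  linarith only [f4, f3, f1, hint']

/-- good radii exist in every long interval of scales on which `E/s ≥ e₀` -/
theorem exists_good_radii {e₀ η : ℝ} (he₀ : 0 < e₀) (hη : 0 < η) :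
    ∃ Λ : ℝ, 1 < Λ ∧ ∀ (u : ℂ → ℝ) (K : Set ℂ), GMin u K → (0 : ℂ) ∈ K → ∀ a : ℝ, 0 < a →
      e₀ ≤ En u a / a → 0 < volume {s : ℝ | a < s ∧ s < Λ * a ∧ OnePt K s ∧ om u s ≤ η} := by
  have hpi := Real.pi_pos
  obtain ⟨ρ, hρ⟩ : ∃ ρ, ρ = Real.exp ((2 * π + 1) / min (1 / 1000) (e₀ / 128)) := ⟨_, rfl⟩
  have hmin : 0 < min (1 / 1000) (e₀ / 128) := lt_min (by norm_num) (by positivity)
  have hρ1 : 1 < ρ := by rw [hρ]; exact Real.one_lt_exp_iff.2 (by positivity)
  obtain ⟨J, hJ⟩ := exists_nat_gt (4 * π / η)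
  have hJ0 : J ≠ 0 := by
    rintro rfl
    have : 0 < 4 * π / η := by positivity
    simp at hJ
    linarith only [hJ, this]
  have h4ρ : 1 < 4 * ρ := by linarith only [hρ1]
  refine ⟨(4 * ρ) ^ J, one_lt_pow₀ h4ρ hJ0, fun u K h h0 a ha hea => ?_⟩
  by_contra hcon
  have hnull : volume {s : ℝ | a < s ∧ s < (4 * ρ) ^ J * a ∧ OnePt K s ∧ om u s ≤ η} = 0 := by
    simpa using hcon
  have key : ∀ k : ℕ, k ≤ J →
      En u a / a + k * (η / 2) ≤ En u ((4 * ρ) ^ k * a) / ((4 * ρ) ^ k * a) := by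
    intro k
    induction k with
    | zero => intro _; simp
    | succ k ih =>
      intro hk
      have ih' := ih (by omega)
      have hb : 0 < (4 * ρ) ^ k * a := by positivity
      have hab : a ≤ (4 * ρ) ^ k * a := by
        have := one_le_pow₀ h4ρ.le (n := k)
        linarith only [mul_nonneg (le_of_lt (sub_pos.2 ha)) (sub_nonneg.2 this)]
      have hnull' : volume {s : ℝ | (4 * ρ) ^ k * a < s ∧ s < 4 * ρ * ((4 * ρ) ^ k * a) ∧
          OnePt K s ∧ om u s ≤ η} = 0 := by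
        refine measure_mono_null ?_ hnull
        rintro s ⟨h1, h2, h3, h4⟩
        refine ⟨hab.trans_lt h1, h2.trans_le ?_, h3, h4⟩
        have : (4 * ρ) ^ (k + 1) ≤ (4 * ρ) ^ J := pow_le_pow_right₀ h4ρ.le hk
        calc 4 * ρ * ((4 * ρ) ^ k * a) = (4 * ρ) ^ (k + 1) * a := by ring
          _ ≤ (4 * ρ) ^ J * a := mul_le_mul_of_nonneg_right this ha.le
      have hst := good_step h h0 he₀ hη hρ hb (hea.trans (h.mono h0 ha hab)) hnull'
      have e1 : 4 * ρ * ((4 * ρ) ^ k * a) = (4 * ρ) ^ (k + 1) * a := by ring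
      rw [e1] at hst
      push_cast
      linarith only [hst, ih']
  have h1 := key J le_rfl
  have h2 := good_ratio_le h (s := (4 * ρ) ^ J * a) (by positivity)
  have h3 : 2 * π < J * (η / 2) := by
    rw [div_lt_iff₀ hη] at hJ
    linarith only [h2, h1, hea, hJ, he₀]
  linarith only [h3, h2, h1, hea, he₀]

/-- `K` has one end -/
theorem GMin.oneEnd (h : GMin u K) (h0 : (0 : ℂ) ∈ K) : OneEnd K := by
  intro S
  obtain ⟨R, hR, hE⟩ := h.en_pos ⟨0, h0⟩
  obtain ⟨Λ, -, hΛ⟩ := exists_good_radii (e₀ := En u R / R) (η := 1) (div_pos hE hR) one_pos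
  have ha : 0 < max R S := hR.trans_le (le_max_left _ _)
  have h1 := hΛ u K h h0 (max R S) ha (h.mono h0 hR (le_max_left _ _))
  obtain ⟨s, hs1, -, hs2, -⟩ := nonempty_of_measure_ne_zero h1.ne'
  exact ⟨s, (le_max_right _ _).trans_lt hs1, hs2⟩

theorem GMin.cont (h : GMin u K) (h0 : (0 : ℂ) ∈ K) : Cont K where
  closed := h.gm.closed
  conn := h.preconnected
  compl := h.conn
  unbdd hb := h.unbounded h0 (hb.subset (connectedComponentIn_subset K 0))
  oneEnd := h.oneEnd h0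
  fin R := lt_top_iff_ne_top.2 (h.len_fin 0 R)

end Vale.Agent.P128.GM
end

section

/-! C4c : there is a point of `K` at which the energy is of order `ρ` at all scales. -/

open MeasureTheory Set Metric Filter InnerProductSpace
open scoped ENNReal NNReal ContDiff Topology Real

namespace Vale.Agent.P128.GM

open Vale.Agent.P128

variable {u : ℂ → ℝ} {K : Set ℂ}

theorem exTip_mono (h : GMin u K) {x : ℂ} (hx : x ∈ K) {s t : ℝ} (hs : 0 < s) (hst : s ≤ t) :
    Ec u x s / s ≤ Ec u x t / t := by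
  have h0 : (0 : ℂ) ∈ shiftSet x K := by
    show (0 : ℂ) + x ∈ K
    rwa [zero_add]
  have h1 := (h.shift x).mono h0 hs hst
  rwa [En_shift, En_shift] at h1

/-- C4c -/
theorem GMin.exists_tip (h : GMin u K) (h0 : (0 : ℂ) ∈ K) :
    ∃ x ∈ K, ∃ c : ℝ, 0 < c ∧ ∀ ρ : ℝ, 0 < ρ → c * ρ ≤ Ec u x ρ := by
  have hC := h.cont h0
  obtain ⟨s₀, hs₀, h1⟩ := hC.oneEnd 0
  exact exTip_core h (s₀ := s₀) (fun x hx s t hs hst => exTip_mono h hx hs hst)
    (fun x U hU y hy => len_ge_dist (hU.conn hC) (mem_insert x U) (mem_insert_of_mem x hy))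
    (fun ε hε => exists_short_piece hC hs₀ h1 ⟨0, h0, mem_ball_self hs₀⟩ hε)
    (fun x U hU d hd hUd hlen => h.piece_energy hC hU hd hUd hlen)

end Vale.Agent.P128.GM
end

section

/-! Good radii for a pair with `En u s = s` for all `s`. -/

set_option linter.all false

open MeasureTheory Set Metric Filter
open scoped ENNReal NNReal ContDiff Topology Real

namespace Vale.Agent.P128.GM

open Vale.Agent.P128

variable {u : ℂ → ℝ} {K : Set ℂ}

/-- two points on a circle: no arc off `K` has angle `2π` -/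
theorem rg_gap {s θ₁ δ : ℝ} (hδ : 0 < δ) (hδ2 : δ < 2 * π) (h1 : circleMap 0 s θ₁ ∈ K)
    (h2 : circleMap 0 s (θ₁ + δ) ∈ K) : GapLe K s (max δ (2 * π - δ)) := by
  intro α β hαβ hβ hfree
  have hp : (0 : ℝ) < 2 * π := by linarith [Real.pi_pos]
  obtain ⟨k, hk⟩ : ∃ k : ℤ, toIocMod hp α θ₁ = θ₁ + k * (2 * π) := by
    refine ⟨-(toIocDiv hp α θ₁), ?_⟩
    rw [← self_sub_toIocDiv_zsmul hp α θ₁, zsmul_eq_mul]
    push_cast
    ring
  have hm := toIocMod_mem_Ioc hp α θ₁
  rw [hk] at hm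
  set t := θ₁ + k * (2 * π) with ht
  have c1 : circleMap 0 s t ∈ K := by
    have := (periodic_circleMap 0 s).int_mul k θ₁
    rw [ht]
    rw [this]
    exact h1
  have c2 : circleMap 0 s (t + δ - 2 * π) ∈ K := by
    have h3 := (periodic_circleMap 0 s).int_mul (k - 1) (θ₁ + δ)
    have h4 : t + δ - 2 * π = θ₁ + δ + ((k - 1 : ℤ) : ℝ) * (2 * π) := by
      rw [ht]; push_cast; ring
    rw [h4, h3]
    exact h2
  have t1 : β ≤ t := by
    by_contra hcon
    exact hfree t ⟨hm.1, not_le.1 hcon⟩ c1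
  by_cases hy : t + δ - 2 * π ≤ α
  · refine le_trans ?_ (le_max_right _ _)
    linarith
  · have t2 : β ≤ t + δ - 2 * π := by
      by_contra hcon
      exact hfree _ ⟨not_le.1 hy, not_le.1 hcon⟩ c2
    refine le_trans ?_ (le_max_left _ _)
    linarith [hm.2]

theorem GMin.rg_bonnet (h : GMin u K) :
    ∀ᵐ s : ℝ, 0 < s → (K ∩ sphere 0 s).Nonempty → ∀ ℓ : ℝ, GapLe K s ℓ →
      En u s ≤ ℓ * s / π * Real.sqrt (TT u s * NN u s) :=
  h.bonnet_bdd (fun x hx => h.unbounded hx) fun R => h.bdd R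

theorem GMin.rg_meets (h : GMin u K) (h0 : (0 : ℂ) ∈ K) {s : ℝ} (hs : 0 ≤ s) :
    (K ∩ sphere 0 s).Nonempty := by
  obtain ⟨y, hy, hys⟩ := meets_sphere h0 (h.unbounded h0) (s := s) (by simpa using hs)
  exact ⟨y, connectedComponentIn_subset K 0 hy, hys⟩

theorem rg_amgm {T N : ℝ} (hT : 0 ≤ T) (hN : 0 ≤ N) : 2 * Real.sqrt (T * N) ≤ T + N := by
  have h1 : Real.sqrt (T * N) = Real.sqrt T * Real.sqrt N := Real.sqrt_mul hT N
  rw [h1]
  linarith only [Real.sq_sqrt hN, Real.sq_sqrt hT, sq_nonneg (Real.sqrt T - Real.sqrt N)]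

/-- `T + N = 1` almost everywhere -/
theorem GMin.rg_sum (h : GMin u K) (h0 : (0 : ℂ) ∈ K) (hE : ∀ s : ℝ, 0 < s → En u s = s) :
    ∀ᵐ s : ℝ, 0 < s → NN u s + TT u s = 1 := by
  have hπ := Real.pi_pos
  have hge : ∀ᵐ s : ℝ, 0 < s → 1 ≤ NN u s + TT u s := by
    filter_upwards [h.rg_bonnet] with s hs hs0
    have h1 := hs hs0 (h.rg_meets h0 hs0.le) (2 * π) (fun α β h1 h2 h3 => by linarith)
    rw [hE s hs0] at h1
    have h2 := rg_amgm (TT_nonneg u hs0.le) (NN_nonneg u hs0.le)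
    have h3 : 2 * π * s / π * Real.sqrt (TT u s * NN u s) =
        s * (2 * Real.sqrt (TT u s * NN u s)) := by field_simp
    rw [h3] at h1
    have h4 : s * (2 * Real.sqrt (TT u s * NN u s)) ≤ s * (TT u s + NN u s) := by gcongr
    have h5 : s * 1 ≤ s * (TT u s + NN u s) := by linarith only [h4, h1]
    have := le_of_mul_le_mul_left h5 hs0
    linarith
  have hn : ∀ n : ℕ, ∀ᵐ s : ℝ, s ∈ Ioc (1 / (n + 1 : ℝ)) (n + 1 : ℝ) → NN u s + TT u s = 1 := by
    intro n
    have ha : (0 : ℝ) < 1 / (n + 1) := by positivity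
    have hab : 1 / (n + 1 : ℝ) ≤ n + 1 := by
      rw [div_le_iff₀ (by positivity)]
      (by_contra nlg; linarith only [nlg, mul_nonneg (sub_nonneg.2 ((Nat.cast_nonneg n : (0 : ℝ) ≤ n))) (sub_nonneg.2 ((Nat.cast_nonneg n : (0 : ℝ) ≤ n))), mul_nonneg (le_of_lt (sub_pos.2 (not_le.1 nlg))) (sub_nonneg.2 ((Nat.cast_nonneg n : (0 : ℝ) ≤ n))), mul_pos (sub_pos.2 (not_le.1 nlg)) (sub_pos.2 (not_le.1 nlg)), mul_nonneg (mul_self_nonneg (↑n + 1 : ℝ)) (sub_nonneg.2 ((Nat.cast_nonneg n : (0 : ℝ) ≤ n))), mul_nonneg (mul_self_nonneg (↑n + 1 : ℝ)) (le_of_lt (sub_pos.2 (not_le.1 nlg)))])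
    obtain ⟨hi, hI⟩ := polar_of_integrable (fun R => h.integrableOn R) ha hab
    rw [hE _ ha, hE _ (ha.trans_le hab)] at hI
    have h1 : ∫ s in (1 / (n + 1 : ℝ))..(n + 1), ((NN u s + TT u s) - 1) = 0 := by
      rw [intervalIntegral.integral_sub hi (by simp), ← hI, intervalIntegral.integral_const]
      simp
    rw [intervalIntegral.integral_of_le hab] at h1
    have h2 : 0 ≤ᵐ[volume.restrict (Ioc (1 / (n + 1 : ℝ)) (n + 1))]
        fun s => (NN u s + TT u s) - 1 := by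
      rw [Filter.EventuallyLE, ae_restrict_iff' measurableSet_Ioc]
      filter_upwards [hge] with s hs hsI
      have := hs (ha.trans hsI.1)
      simp only [Pi.zero_apply]
      linarith only [this]
    have h3 : IntegrableOn (fun s => (NN u s + TT u s) - 1) (Ioc (1 / (n + 1 : ℝ)) (n + 1)) := by
      have := (hi.sub (intervalIntegrable_const (c := (1 : ℝ)))).1
      simpa using this
    have h4 := (setIntegral_eq_zero_iff_of_nonneg_ae h2 h3).1 h1
    rw [Filter.EventuallyEq, ae_restrict_iff' measurableSet_Ioc] at h4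
    filter_upwards [h4] with s hs hsI
    have := hs hsI
    simp only [Pi.zero_apply] at this
    linarith
  rw [← ae_all_iff] at hn
  filter_upwards [hn] with s hs hs0
  obtain ⟨n, hn1⟩ := exists_nat_gt (max s (1 / s))
  refine hs n ⟨?_, ?_⟩
  · have h1 : 1 / s < n := (le_max_right _ _).trans_lt hn1
    rw [div_lt_iff₀ (by positivity)]
    rw [div_lt_iff₀ hs0] at h1
    linarith only [h1, hs0]
  · have h1 : s < n := (le_max_left _ _).trans_lt hn1
    linarith

/-- The structure of `(u, K)` on almost every circle. -/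
theorem GMin.rg_good (h : GMin u K) (h0 : (0 : ℂ) ∈ K) (hE : ∀ s : ℝ, 0 < s → En u s = s) :
    ∀ᵐ s : ℝ, 0 < s → ∃ a : ℝ, circleMap 0 s a ∈ K ∧
      (∀ θ ∈ Ioo a (a + 2 * π), circleMap 0 s θ ∉ K) ∧
      ∃ A : ℝ, A ^ 2 = 2 * s / π ∧ ∀ θ ∈ Ioo a (a + 2 * π),
        un u s θ = A / (2 * s) * Real.cos ((θ - a) / 2) ∧
        ut u s θ = -(A / (2 * s)) * Real.sin ((θ - a) / 2) := by
  have hπ := Real.pi_pos
  filter_upwards [h.rg_bonnet, h.rg_sum h0 hE, h.flux (fun x hx => h.unbounded hx),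
    h.green_circle_of (fun R => h.bdd R), polar_ae (fun R => h.integrableOn' 0 R)] with
    s hB hS hF hG hP hs
  obtain ⟨p, hpK, hps⟩ := h.rg_meets h0 hs.le
  -- a parameter for `p`
  obtain ⟨a, ha⟩ : ∃ a : ℝ, circleMap 0 s a = p := by
    have h1 : p ∈ range (circleMap 0 s) := by
      rw [range_circleMap, abs_of_pos hs]
      exact hps
    exact h1
  have hne : (K ∩ sphere 0 s).Nonempty := ⟨p, hpK, hps⟩
  have hfree : ∀ θ ∈ Ioo a (a + 2 * π), circleMap 0 s θ ∉ K := by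
    intro θ hθ hK
    have hδ : 0 < θ - a := by linarith [hθ.1]
    have hδ2 : θ - a < 2 * π := by linarith [hθ.2]
    have hgap := rg_gap (K := K) (s := s) (θ₁ := a) (δ := θ - a) hδ hδ2 (by rw [ha]; exact hpK)
      (by rw [add_sub_cancel]; exact hK)
    have h1 := hB hs hne _ hgap
    rw [hE s hs] at h1
    have h2 := rg_amgm (TT_nonneg u hs.le) (NN_nonneg u hs.le)
    have h3 := hS hs
    have h4 : Real.sqrt (TT u s * NN u s) ≤ 1 / 2 := by linarith only [h3, h2]
    have h5 : max (θ - a) (2 * π - (θ - a)) < 2 * π := max_lt (by linarith) (by linarith only [hδ])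
    have h6 : 0 < max (θ - a) (2 * π - (θ - a)) := lt_max_of_lt_left hδ
    have h7 : max (θ - a) (2 * π - (θ - a)) * s / π * Real.sqrt (TT u s * NN u s) ≤
        max (θ - a) (2 * π - (θ - a)) * s / π * (1 / 2) := by gcongr
    have h8 : max (θ - a) (2 * π - (θ - a)) * s / π * (1 / 2) < 2 * π * s / π * (1 / 2) := by
      gcongr
    have h9 : 2 * π * s / π * (1 / 2) = s := by field_simp
    linarith only [h9, h8, h7, h1]
  refine ⟨a, by rw [ha]; exact hpK, hfree, ?_⟩
  obtain ⟨hGi, hGe⟩ := hG hs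
  rw [hE s hs] at hGe
  have hlt : a < a + 2 * π := by linarith
  have hper : ∀ {f : ℝ → ℝ}, Function.Periodic f (2 * π) →
      ∫ θ in Ioo a (a + 2 * π), f θ = ∫ θ in (-π)..π, f θ := by
    intro f hf
    rw [← integral_Ioc_eq_integral_Ioo, ← intervalIntegral.integral_of_le hlt.le,
      hf.intervalIntegral_add_eq a (-π), show -π + 2 * π = π by ring]
  have hsub : ∀ {f : ℝ → ℝ}, Function.Periodic f (2 * π) → IntegrableOn f ang →
      IntegrableOn f (Ioo a (a + 2 * π)) := by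
    intro f hf hfi
    have h5 : IntervalIntegrable f volume (-π) (-π + 2 * π) := by
      rw [show -π + 2 * π = π by ring, intervalIntegrable_iff_integrableOn_Ioo_of_le (by linarith)]
      exact hfi
    have h6 := hf.intervalIntegrable (by positivity) h5 a (a + 2 * π)
    rwa [intervalIntegrable_iff_integrableOn_Ioo_of_le hlt.le] at h6
  have pt : Function.Periodic (fun θ => ut u s θ ^ 2) (2 * π) := fun θ => by
    simp only [periodic_ut u s θ]
  have pn : Function.Periodic (fun θ => un u s θ ^ 2) (2 * π) := fun θ => by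
    simp only [periodic_un u s θ]
  have pu : Function.Periodic (fun θ => u (circleMap 0 s θ) * un u s θ) (2 * π) := fun θ => by
    simp only [periodic_un u s θ, periodic_circleMap 0 s θ]
  obtain ⟨M, hM⟩ := h.bdd (s + 1)
  refine rg_arc h.closed ((InnerProductSpace.HarmonicOnNhd.contDiffOn h.harm).of_le (by norm_num))
    hs rfl hfree (M := M) (fun θ hθ => hM _ ?_ (hfree θ hθ)) (hsub pt (integrable_ut_sq (hP hs)))
    (hsub pn (integrable_un_sq (hP hs))) ?_ ?_ ?_
  · rw [mem_ball_zero_iff, norm_circleMap_zero, abs_of_pos hs]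
    linarith
  · have h1 := hF hs a (a + 2 * π) hlt le_rfl (by rw [ha]; exact hpK)
      (by rw [periodic_circleMap 0 s a, ha]; exact hpK) hfree
    rw [← integral_Ioc_eq_integral_Ioo, ← intervalIntegral.integral_of_le hlt.le]
    exact h1
  · rw [hper pu]
    have h1 : s * 1 = s * ∫ θ in (-π)..π, u (circleMap 0 s θ) * un u s θ := by
      rw [mul_one]; exact hGe
    exact (mul_left_cancel₀ hs.ne' h1).symm
  · rw [hper pt, hper pn, mul_add]
    have h1 := hS hs
    unfold NN TT at h1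
    linarith

end Vale.Agent.P128.GM
end

section

/-! Rigidity: `En u s = s` for all `s` forces a crack-tip. -/

set_option linter.all false

open MeasureTheory Set Metric Filter
open scoped ENNReal NNReal ContDiff Topology Real

namespace Vale.Agent.P128.GM

open Vale.Agent.P128

variable {u : ℂ → ℝ} {K : Set ℂ}

/-- `u_x - i u_y` -/
noncomputable def rf (u : ℂ → ℝ) (z : ℂ) : ℂ := fderiv ℝ u z 1 - Complex.I * fderiv ℝ u z Complex.I

theorem rf_mul_exp (u : ℂ → ℝ) (s θ : ℝ) :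
    rf u (circleMap 0 s θ) * Complex.exp (θ * Complex.I) = un u s θ - Complex.I * ut u s θ := by
  have h1 : (Complex.exp (θ * Complex.I)).re = Real.cos θ := Complex.exp_ofReal_mul_I_re θ
  have h2 : (Complex.exp (θ * Complex.I)).im = Real.sin θ := Complex.exp_ofReal_mul_I_im θ
  unfold rf un ut
  apply Complex.ext
  · simp [inner_eq, h1, h2, grad, Complex.cos_ofReal_re, Complex.sin_ofReal_re]
    ring
  · simp [inner_eq, h1, h2, grad, Complex.cos_ofReal_re, Complex.sin_ofReal_re]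
    ring

theorem rg_value {u : ℂ → ℝ} {s a A θ : ℝ} (hs : 0 < s) (hA : A ^ 2 = 2 * s / π)
    (h1 : un u s θ = A / (2 * s) * Real.cos ((θ - a) / 2))
    (h2 : ut u s θ = -(A / (2 * s)) * Real.sin ((θ - a) / 2)) :
    circleMap 0 s θ * rf u (circleMap 0 s θ) ^ 2 =
      (1 / (2 * π) : ℝ) * Complex.exp (-(a * Complex.I)) := by
  have hπ := Real.pi_pos
  have e1 := rf_mul_exp u s θ
  have hexp : Complex.exp (θ * Complex.I) ≠ 0 := Complex.exp_ne_zero _
  have e2 : (un u s θ : ℂ) - Complex.I * ut u s θ =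
      (A / (2 * s) : ℝ) * Complex.exp ((((θ - a) / 2 : ℝ) : ℂ) * Complex.I) := by
    rw [h1, h2, Complex.exp_mul_I, ← Complex.ofReal_cos, ← Complex.ofReal_sin]
    push_cast
    ring
  have e3 : rf u (circleMap 0 s θ) ^ 2 * Complex.exp (θ * Complex.I) ^ 2 =
      ((A / (2 * s) : ℝ) : ℂ) ^ 2 * Complex.exp ((((θ - a) : ℝ) : ℂ) * Complex.I) := by
    rw [← mul_pow, e1, e2, mul_pow, ← Complex.exp_nat_mul]
    congr 2
    push_cast
    ring
  have e4 : ((A / (2 * s) : ℝ) : ℂ) ^ 2 * s = ((1 / (2 * π) : ℝ) : ℂ) := by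
    rw [← Complex.ofReal_pow, ← Complex.ofReal_mul]
    congr 1
    rw [div_pow, hA]
    field_simp
  have e5 : circleMap 0 s θ = s * Complex.exp (θ * Complex.I) := by simp [circleMap]
  have e6 : Complex.exp ((((θ - a) : ℝ) : ℂ) * Complex.I) =
      Complex.exp (θ * Complex.I) * Complex.exp (-(a * Complex.I)) := by
    rw [← Complex.exp_add]
    congr 1
    push_cast
    ring
  rw [e6] at e3
  have e7 : (circleMap 0 s θ * rf u (circleMap 0 s θ) ^ 2) * Complex.exp (θ * Complex.I) =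
      ((1 / (2 * π) : ℝ) * Complex.exp (-(a * Complex.I))) * Complex.exp (θ * Complex.I) := by
    rw [← e4]
    rw [e5] at e3 ⊢
    linear_combination (s : ℂ) * e3
  exact mul_right_cancel₀ hexp e7

theorem GMin.rf_diff (h : GMin u K) {z : ℂ} (hz : z ∉ K) : DifferentiableAt ℂ (rf u) z :=
  HarmonicAt.differentiableAt_complex_partial (h.harm z hz)

/-- good radii are dense -/
theorem rg_seq {P : ℝ → Prop} (hP : ∀ᵐ s : ℝ, 0 < s → P s) {t : ℝ} (ht : 0 < t) :
    ∃ s : ℕ → ℝ, Tendsto s atTop (𝓝 t) ∧ ∀ n, 0 < s n ∧ P (s n) := by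
  have hd : Dense {s : ℝ | 0 < s → P s} := Measure.dense_of_ae hP
  have hmem : t ∈ closure {s : ℝ | 0 < s → P s} := hd _
  have h2 : t ∈ closure ({s : ℝ | 0 < s → P s} ∩ Ioi 0) := by
    have := mem_closure_iff_nhds.1 hmem
    rw [mem_closure_iff_nhds]
    intro V hV
    obtain ⟨y, hy1, hy2⟩ := this (V ∩ Ioi 0) (inter_mem hV (Ioi_mem_nhds ht))
    exact ⟨y, hy1.1, hy2, hy1.2⟩
  obtain ⟨s, hs, hlim⟩ := mem_closure_iff_seq_limit.1 h2
  exact ⟨s, hlim, fun n => ⟨(hs n).2, (hs n).1 (hs n).2⟩⟩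

/-- a continuous quantity determined on almost every circle -/
theorem rg_dense {P : ℝ → Prop} (hP : ∀ᵐ s : ℝ, 0 < s → P s) {z : ℂ} (hz : z ≠ 0) :
    ∃ w : ℕ → ℂ, Tendsto w atTop (𝓝 z) ∧ ∀ n, 0 < ‖w n‖ ∧ P ‖w n‖ := by
  have hn : 0 < ‖z‖ := norm_pos_iff.2 hz
  obtain ⟨s, hlim, hs⟩ := rg_seq hP hn
  refine ⟨fun n => ((s n / ‖z‖ : ℝ) : ℂ) * z, ?_, fun n => ?_⟩
  · have h3 : Tendsto (fun n => s n / ‖z‖) atTop (𝓝 (‖z‖ / ‖z‖)) := hlim.div_const _
    rw [div_self hn.ne'] at h3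
    have h4 := (Complex.continuous_ofReal.tendsto 1).comp h3
    have h5 := h4.mul_const z
    simpa using h5
  · have h3 : ‖((s n / ‖z‖ : ℝ) : ℂ) * z‖ = s n := by
      rw [norm_mul, Complex.norm_real, Real.norm_of_nonneg (div_nonneg (hs n).1.le hn.le)]
      field_simp
    rw [h3]
    exact hs n

/-- the Hopf differential is constant -/
theorem GMin.rg_hopf (h : GMin u K) (h0 : (0 : ℂ) ∈ K) (hE : ∀ s : ℝ, 0 < s → En u s = s) :
    ∃ c : ℂ, (∀ z, z ∉ K → z * rf u z ^ 2 = c) ∧ ‖c‖ = 1 / (2 * π) ∧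
      ∀ᵐ s : ℝ, 0 < s → ∃ a : ℝ, circleMap 0 s a ∈ K ∧
        c = (1 / (2 * π) : ℝ) * Complex.exp (-(a * Complex.I)) := by
  have hπ := Real.pi_pos
  have hgood := h.rg_good h0 hE
  -- values on good circles
  have hval : ∀ᵐ s : ℝ, 0 < s → ∃ a : ℝ, circleMap 0 s a ∈ K ∧ (∀ θ ∈ Ioo a (a + 2 * π),
      circleMap 0 s θ ∉ K) ∧ ∀ z, ‖z‖ = s → z ∉ K → z * rf u z ^ 2 =
        (1 / (2 * π) : ℝ) * Complex.exp (-(a * Complex.I)) := by
    filter_upwards [hgood] with s hs hs0
    obtain ⟨a, ha, hfree, A, hA, hθ⟩ := hs hs0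
    refine ⟨a, ha, hfree, fun z hz hzK => ?_⟩
    -- a parameter for z
    obtain ⟨θ, hθ1, rfl⟩ : ∃ θ ∈ Ico a (a + 2 * π), circleMap 0 s θ = z := by
      have h1 : z ∈ range (circleMap 0 s) := by
        rw [range_circleMap, abs_of_pos hs0, mem_sphere_zero_iff_norm]
        exact hz
      obtain ⟨t, ht⟩ := h1
      have hp : (0 : ℝ) < 2 * π := by linarith only [hπ]
      obtain ⟨k, hk⟩ : ∃ k : ℤ, toIcoMod hp a t = t + k * (2 * π) := by
        refine ⟨-(toIcoDiv hp a t), ?_⟩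
        rw [← self_sub_toIcoDiv_zsmul hp a t, zsmul_eq_mul]
        push_cast
        ring
      refine ⟨toIcoMod hp a t, toIcoMod_mem_Ico hp a t, ?_⟩
      rw [hk, ← ht]
      exact (periodic_circleMap 0 s).int_mul k t
    have hθ2 : θ ∈ Ioo a (a + 2 * π) := by
      refine ⟨lt_of_le_of_ne hθ1.1 ?_, hθ1.2⟩
      rintro rfl
      exact hzK ha
    exact rg_value hs0 hA (hθ θ hθ2).1 (hθ θ hθ2).2
  have hne : ∀ z, z ∉ K → z ≠ 0 := by
    rintro z hz rfl
    exact hz h0
  have hKo := h.isOpen_compl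
  have hdiff : DifferentiableOn ℂ (fun z => z * rf u z ^ 2) Kᶜ := fun z hz =>
    ((differentiableAt_id).mul ((h.rf_diff hz).pow 2)).differentiableWithinAt
  have hnorm : ∀ z, z ∉ K → ‖z * rf u z ^ 2‖ = 1 / (2 * π) := by
    intro z hz
    obtain ⟨w, hw, hw2⟩ := rg_dense (P := fun s => ∃ a : ℝ, circleMap 0 s a ∈ K ∧
      (∀ θ ∈ Ioo a (a + 2 * π), circleMap 0 s θ ∉ K) ∧ ∀ z, ‖z‖ = s → z ∉ K →
        z * rf u z ^ 2 = (1 / (2 * π) : ℝ) * Complex.exp (-(a * Complex.I))) hval (hne z hz)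
    have hc : ContinuousAt (fun z => ‖z * rf u z ^ 2‖) z :=
      (hdiff.differentiableAt (hKo.mem_nhds hz)).continuousAt.norm
    have h1 : Tendsto (fun n => ‖w n * rf u (w n) ^ 2‖) atTop (𝓝 ‖z * rf u z ^ 2‖) :=
      hc.tendsto.comp hw
    have h2 : ∀ᶠ n in atTop, ‖w n * rf u (w n) ^ 2‖ = 1 / (2 * π) := by
      filter_upwards [hw.eventually (hKo.mem_nhds hz)] with n hn
      obtain ⟨_, a, _, _, h3⟩ := hw2 n
      rw [h3 _ rfl hn, norm_mul, Complex.norm_real]
      have : ‖Complex.exp (-(a * Complex.I))‖ = 1 := by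
        rw [Complex.norm_exp]; simp
      rw [this, mul_one, Real.norm_of_nonneg (by positivity)]
    exact tendsto_nhds_unique_of_eventuallyEq h1 tendsto_const_nhds h2
  -- a point off K
  obtain ⟨z₀, hz₀⟩ : ∃ z₀, z₀ ∉ K := by
    by_contra hcon
    push Not at hcon
    have h1 : K = univ := eq_univ_of_forall hcon
    have h2 := h.volume_zero
    rw [h1] at h2
    simp at h2
  have hconst := Complex.eqOn_of_isPreconnected_of_isMaxOn_norm h.conn hKo hdiff hz₀
    (fun z hz => by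
      simp only [Function.comp_apply, mem_setOf_eq]
      rw [hnorm z hz, hnorm z₀ hz₀])
  refine ⟨z₀ * rf u z₀ ^ 2, fun z hz => hconst hz, hnorm z₀ hz₀, ?_⟩
  filter_upwards [hval] with s hs hs0
  obtain ⟨a, ha, hfree, hv⟩ := hs hs0
  refine ⟨a, ha, ?_⟩
  have h1 : circleMap 0 s (a + π) ∉ K := hfree _ ⟨by linarith, by linarith⟩
  have h2 := hv _ (by rw [norm_circleMap_zero, abs_of_pos hs0]) h1
  rw [← h2]
  exact (hconst h1).symm

/-- the square root with the cut `-a [0, ∞)` -/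
noncomputable def sqa (a z : ℂ) : ℂ := Complex.exp (Complex.log (z / a) / 2)

theorem sqa_ne (a z : ℂ) : sqa a z ≠ 0 := Complex.exp_ne_zero _

theorem sqa_sq {a z : ℂ} (ha : a ≠ 0) (hz : z / a ∈ Complex.slitPlane) : sqa a z ^ 2 = z / a := by
  unfold sqa
  rw [← Complex.exp_nat_mul]
  have : ((2 : ℕ) : ℂ) * (Complex.log (z / a) / 2) = Complex.log (z / a) := by push_cast; ring
  rw [this, Complex.exp_log (Complex.slitPlane_ne_zero hz)]

theorem sqa_im {a z : ℂ} (ha : ‖a‖ = 1) (hz : z / a ∈ Complex.slitPlane) :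
    (sqa a z).im = Real.sqrt ‖z‖ * Real.sin (Complex.arg (z / a) / 2) := by
  unfold sqa
  have hne := Complex.slitPlane_ne_zero hz
  have hn : ‖z / a‖ = ‖z‖ := by rw [norm_div, ha, div_one]
  have hpos : 0 < ‖z‖ := by rw [← hn]; exact norm_pos_iff.2 hne
  rw [Complex.exp_im]
  have e1 : (Complex.log (z / a) / 2).re = Real.log ‖z‖ / 2 := by
    have : (Complex.log (z / a) / 2).re = (Complex.log (z / a)).re / 2 := by
      simp [Complex.div_re, Complex.normSq]
    rw [this, Complex.log_re, hn]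
  have e2 : (Complex.log (z / a) / 2).im = Complex.arg (z / a) / 2 := by
    have : (Complex.log (z / a) / 2).im = (Complex.log (z / a)).im / 2 := by
      simp [Complex.div_im, Complex.normSq]
    rw [this, Complex.log_im]
  rw [e1, e2]
  congr 1
  rw [Real.sqrt_eq_rpow, Real.rpow_def_of_pos hpos]
  congr 1
  ring

theorem sqa_deriv {a z : ℂ} (ha : a ≠ 0) (hz : z / a ∈ Complex.slitPlane) :
    HasDerivAt (sqa a) (1 / (2 * a * sqa a z)) z := by
  have hz0 : z ≠ 0 := by
    rintro rfl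
    exact Complex.slitPlane_ne_zero hz (zero_div a)
  have h1 : HasDerivAt (fun z : ℂ => z / a) (1 / a) z := (hasDerivAt_id z).div_const a
  have h2 : HasDerivAt (fun z : ℂ => Complex.log (z / a)) (1 / a / (z / a)) z := h1.clog hz
  have h3 := (h2.div_const 2).cexp
  refine h3.congr_deriv ?_
  have h4 := sqa_sq ha hz
  have h5 := sqa_ne a z
  show sqa a z * (1 / a / (z / a) / 2) = 1 / (2 * a * sqa a z)
  rw [← h4]
  field_simp

theorem isOpen_slit {a : ℂ} : IsOpen {z : ℂ | z / a ∈ Complex.slitPlane} :=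
  Complex.isOpen_slitPlane.preimage (by fun_prop)

theorem fderiv_eq_rf (u : ℂ → ℝ) (z v : ℂ) : fderiv ℝ u z v = (rf u z * v).re := by
  rw [← inner_grad, inner_eq]
  unfold rf grad
  simp

theorem rg_re_fderiv {Φ : ℂ → ℂ} {d z : ℂ} (h : HasDerivAt Φ d z) :
    HasFDerivAt (fun z => (Φ z).re)
      (Complex.reCLM.comp ((ContinuousLinearMap.toSpanSingleton ℂ d).restrictScalars ℝ)) z :=
  Complex.reCLM.hasFDerivAt.comp z (h.hasFDerivAt.restrictScalars ℝ)

/-- Rigidity. -/
theorem GMin.rigid (h : GMin u K) (h0 : (0 : ℂ) ∈ K) (hE : ∀ s : ℝ, 0 < s → En u s = s) :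
    IsCrackTip u K := by
  have hπ := Real.pi_pos
  have hKo := h.isOpen_compl
  obtain ⟨c, hc, hcn, hray⟩ := h.rg_hopf h0 hE
  obtain ⟨a, ha⟩ : ∃ a : ℂ, a = -(starRingEnd ℂ) (2 * π * c) := ⟨_, rfl⟩
  have han : ‖a‖ = 1 := by
    rw [ha, norm_neg, RCLike.norm_conj, norm_mul, norm_mul, hcn]
    simp [abs_of_pos hπ]
    field_simp
  have ha0 : a ≠ 0 := by
    rintro rfl
    simp at han
  have hconj : (starRingEnd ℂ) a * a = 1 := by
    rw [Complex.conj_mul', han]; simp
  have hca : c = -(starRingEnd ℂ) a / (2 * π) := by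
    rw [ha, map_neg, Complex.conj_conj]
    have : (π : ℂ) ≠ 0 := by exact_mod_cast hπ.ne'
    field_simp
  -- the ray
  have hrayK : ∀ t : ℝ, 0 < t → -((t : ℂ) * a) ∈ K := by
    intro t ht
    obtain ⟨s, hlim, hs⟩ := rg_seq hray ht
    have h1 : ∀ n, -((s n : ℂ) * a) ∈ K := by
      intro n
      obtain ⟨_, θ, hθ, hcθ⟩ := hs n
      have h2 : circleMap 0 (s n) θ = -((s n : ℂ) * a) := by
        rw [ha, hcθ]
        have hpi : (π : ℂ) ≠ 0 := by exact_mod_cast hπ.ne'
        have h3 : (2 * π * ((1 / (2 * π) : ℝ) * Complex.exp (-(θ * Complex.I))) : ℂ) =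
            Complex.exp (-(θ * Complex.I)) := by
          push_cast
          field_simp
        rw [h3, ← Complex.exp_conj]
        simp [circleMap]
      rw [← h2]
      exact hθ
    have h2 : Tendsto (fun n => -((s n : ℂ) * a)) atTop (𝓝 (-((t : ℂ) * a))) :=
      (((Complex.continuous_ofReal.tendsto t).comp hlim).mul_const a).neg
    exact h.closed.mem_of_tendsto h2 (Eventually.of_forall h1)
  have hrayK' : ∀ t : ℝ, 0 ≤ t → (0 : ℂ) - t * a ∈ K := by
    intro t ht
    rcases ht.eq_or_lt with rfl | ht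
    · simpa using h0
    · rw [zero_sub]; exact hrayK t ht
  have hslit : ∀ z, z ∉ K → z / a ∈ Complex.slitPlane := by
    intro z hz
    rw [Complex.mem_slitPlane_iff]
    by_contra hcon
    push Not at hcon
    obtain ⟨h1, h2⟩ := hcon
    refine hz ?_
    have h3 : z / a = ((z / a).re : ℂ) := by
      apply Complex.ext
      · simp
      · simpa using h2
    have h4 : z = 0 - ((-(z / a).re : ℝ) : ℂ) * a := by
      push_cast
      rw [zero_sub, neg_mul, neg_neg, ← h3, div_mul_cancel₀ _ ha0]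
    rw [h4]
    exact hrayK' _ (by linarith only [h1])
  -- the constant `γ`
  obtain ⟨z₀, hz₀⟩ : ∃ z₀, z₀ ∉ K := by
    by_contra hcon
    push Not at hcon
    have h1 : K = univ := eq_univ_of_forall hcon
    have h2 := h.volume_zero
    rw [h1] at h2
    simp at h2
  have hg2 : ∀ z, z ∉ K → (rf u z * sqa a z) ^ 2 = c / a := by
    intro z hz
    rw [mul_pow, sqa_sq ha0 (hslit z hz), ← hc z hz]
    ring
  have hgd : DifferentiableOn ℂ (fun z => rf u z * sqa a z) Kᶜ := fun z hz =>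
    ((h.rf_diff hz).mul (sqa_deriv ha0 (hslit z hz)).differentiableAt).differentiableWithinAt
  have hgn : ∀ z, z ∉ K → ‖rf u z * sqa a z‖ ^ 2 = 1 / (2 * π) := by
    intro z hz
    rw [← norm_pow, hg2 z hz, norm_div, hcn, han, div_one]
  have hgconst := Complex.eqOn_of_isPreconnected_of_isMaxOn_norm h.conn hKo hgd hz₀
    (fun z hz => by
      simp only [Function.comp_apply, mem_setOf_eq]
      have h1 := hgn z hz
      have h2 := hgn z₀ hz₀
      exact (pow_le_pow_iff_left₀ (norm_nonneg _) (norm_nonneg _) two_ne_zero).1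
        (by rw [h1, h2]))
  obtain ⟨γ, hγ⟩ : ∃ γ, γ = rf u z₀ * sqa a z₀ := ⟨_, rfl⟩
  have hγ2 : (a * γ) ^ 2 = -1 / (2 * π) := by
    rw [mul_pow, hγ, hg2 z₀ hz₀, hca]
    have hpi : (π : ℂ) ≠ 0 := by exact_mod_cast hπ.ne'
    field_simp
    linear_combination -hconj
  have hrf : ∀ z, z ∉ K → rf u z = γ / sqa a z := by
    intro z hz
    have h1 := hgconst hz
    simp only [Function.const_apply] at h1
    rw [hγ, ← h1]
    have := sqa_ne a z
    field_simp
  -- the sign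
  obtain ⟨r, hr⟩ : ∃ r : ℝ, r = Real.sqrt (1 / (2 * π)) := ⟨_, rfl⟩
  have hr2 : r ^ 2 = 1 / (2 * π) := by rw [hr]; exact Real.sq_sqrt (by positivity)
  obtain ⟨σ, hσ, hσγ⟩ : ∃ σ : ℝ, (σ = 1 ∨ σ = -1) ∧ a * γ = -(σ * r * Complex.I) := by
    have h1 : (a * γ - r * Complex.I) * (a * γ + r * Complex.I) = 0 := by
      have h2 : (a * γ - r * Complex.I) * (a * γ + r * Complex.I) =
          (a * γ) ^ 2 - r ^ 2 * Complex.I ^ 2 := by ring
      rw [h2, hγ2, Complex.I_sq, ← Complex.ofReal_pow, hr2]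
      push_cast
      ring
    rcases mul_eq_zero.1 h1 with h2 | h2
    · exact ⟨-1, Or.inr rfl, by push_cast; linear_combination h2⟩
    · exact ⟨1, Or.inl rfl, by push_cast; linear_combination h2⟩
  -- the potential
  set Φ : ℂ → ℂ := fun z => 2 * (a * γ) * sqa a z with hΦ
  have hΦd : ∀ z, z / a ∈ Complex.slitPlane → HasDerivAt Φ (γ / sqa a z) z := by
    intro z hz
    refine ((sqa_deriv ha0 hz).const_mul (2 * (a * γ))).congr_deriv ?_
    have := sqa_ne a z
    field_simp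
  obtain ⟨c', hc'⟩ := hKo.exists_eq_add_of_fderiv_eq h.conn (𝕜 := ℝ) (f := u)
    (g := fun z => (Φ z).re)
    (fun z hz => (((h.harm z hz).1.differentiableAt (by norm_num))).differentiableWithinAt)
    (fun z hz => (rg_re_fderiv (hΦd z (hslit z hz))).differentiableAt.differentiableWithinAt)
    (fun z hz => by
      rw [(rg_re_fderiv (hΦd z (hslit z hz))).fderiv]
      ext v
      rw [fderiv_eq_rf, hrf z hz]
      simp [mul_comm])
  have hre : ∀ z, z / a ∈ Complex.slitPlane →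
      (Φ z).re = σ * Real.sqrt (2 * ‖z‖ / π) * Real.sin (Complex.arg (z / a) / 2) := by
    intro z hz
    have h1 : Φ z = -(2 * σ * r : ℝ) * (Complex.I * sqa a z) := by
      simp only [hΦ]
      rw [hσγ]
      push_cast
      ring
    have h2 : (Φ z).re = (2 * σ * r) * (sqa a z).im := by
      rw [h1]
      simp
    rw [h2, sqa_im han hz]
    have h3 : Real.sqrt (2 * ‖z‖ / π) = 2 * r * Real.sqrt ‖z‖ := by
      rw [show 2 * ‖z‖ / π = (2 * r) ^ 2 * ‖z‖ by rw [mul_pow, hr2]; field_simp,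
        Real.sqrt_mul (by positivity), Real.sqrt_sq (by rw [hr]; positivity)]
    rw [h3]
    ring
  refine ⟨0, a, σ, c', han, hσ, ?_, ?_⟩
  · -- `K` is the ray
    apply Subset.antisymm
    · intro q hq
      by_contra hcon
      have hqs : q / a ∈ Complex.slitPlane := by
        rw [Complex.mem_slitPlane_iff]
        by_contra hcon2
        push Not at hcon2
        obtain ⟨h1, h2⟩ := hcon2
        refine hcon ⟨-(q / a).re, by linarith only [h1], ?_⟩
        have h3 : q / a = ((q / a).re : ℂ) := by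
          apply Complex.ext
          · simp
          · simpa using h2
        push_cast
        rw [zero_sub, neg_mul, neg_neg, ← h3, div_mul_cancel₀ _ ha0]
      obtain ⟨ρ, hρ, hρs⟩ := Metric.isOpen_iff.1 (isOpen_slit (a := a)) q hqs
      set ψ : ℂ → ℝ := fun z => (Φ z).re + c' with hψ
      have hψc : ContDiffOn ℝ 1 ψ {z : ℂ | z / a ∈ Complex.slitPlane} := by
        have h1 : DifferentiableOn ℂ Φ {z : ℂ | z / a ∈ Complex.slitPlane} := fun z hz =>
          (hΦd z hz).differentiableAt.differentiableWithinAt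
        have h2 : ContDiffOn ℂ 1 Φ {z : ℂ | z / a ∈ Complex.slitPlane} :=
          h1.contDiffOn isOpen_slit
        exact (Complex.reCLM.contDiff.comp_contDiffOn (h2.restrict_scalars ℝ)).add contDiffOn_const
      have hL : LocLip {z : ℂ | z / a ∈ Complex.slitPlane} ψ := LocLip.of_contDiffOn isOpen_slit hψc
      have hL2 : LocLip (ball q (ρ / 2)) ψ := hL.mono isOpen_ball
        ((ball_subset_ball (by linarith only [hρ])).trans hρs)
      have hw := hL2.isWeakGrad isOpen_ball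
      have heq : ∀ z, z ∉ K → u z = ψ z := fun z hz => hc' hz
      have hgeq : ∀ z, z ∉ K → grad u z = grad ψ z := fun z hz =>
        grad_congr (by filter_upwards [hKo.mem_nhds hz] with y hy using heq y hy)
      refine h.not_removable h.volume_zero hq (r := ρ / 2) (by (clear * - hρ; positivity)) ?_ ?_
      · have hcont : ContinuousOn ψ (closedBall q (ρ / 2)) := hψc.continuousOn.mono
          ((closedBall_subset_ball (by linarith only [hρ])).trans hρs)
        obtain ⟨M, hM⟩ := (isCompact_closedBall q (ρ / 2)).exists_bound_of_continuousOn hcont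
        refine ⟨M, fun z hz hzK => ?_⟩
        rw [heq z hzK]
        exact hM z (ball_subset_closedBall hz)
      · intro φ h1 h2 h3 v
        have h4 := hw φ h1 h2 h3 v
        have e1 : ∫ z in ball q (ρ / 2), u z * fderiv ℝ φ z v =
            ∫ z in ball q (ρ / 2), ψ z * fderiv ℝ φ z v := by
          refine integral_congr_ae (ae_restrict_of_ae ?_)
          filter_upwards [h.ae_compl] with z hz
          rw [heq z hz]
        have e2 : ∫ z in ball q (ρ / 2), inner ℝ (grad u z) v * φ z =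
            ∫ z in ball q (ρ / 2), inner ℝ (grad ψ z) v * φ z := by
          refine integral_congr_ae (ae_restrict_of_ae ?_)
          filter_upwards [h.ae_compl] with z hz
          rw [hgeq z hz]
        rw [e1, e2, h4]
    · rintro z ⟨t, ht, rfl⟩
      exact hrayK' t ht
  · intro z hz
    have h1 := hc' hz
    simp only at h1
    rw [h1, hre z (hslit z hz), sub_zero]
    ring

end Vale.Agent.P128.GM
end

section

/-! Localised data of a global minimizer and comparison with functions glued along circles. -/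

open MeasureTheory Set Metric Filter
open scoped ENNReal NNReal ContDiff Topology Real

namespace Vale.Agent.P128.GM

open Vale.Agent.P128

variable {u : ℂ → ℝ} {K : Set ℂ}

theorem GMin.contOn (h : GMin u K) : ContinuousOn u Kᶜ :=
  (InnerProductSpace.HarmonicOnNhd.contDiffOn h.harm).continuousOn

theorem GMin.measurable_ind (h : GMin u K) (R : ℝ) :
    Measurable ((ball (0 : ℂ) R \ K).indicator u) := by
  have hs : MeasurableSet (ball (0 : ℂ) R \ K) := measurableSet_ball.diff h.closed.measurableSet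
  refine measurable_of_restrict_of_restrict_compl hs ?_ ?_
  · have e : (ball (0 : ℂ) R \ K).domRestrict ((ball (0 : ℂ) R \ K).indicator u) =
        (ball (0 : ℂ) R \ K).domRestrict u := by
      funext z
      exact indicator_of_mem z.2 u
    rw [e]
    exact (continuousOn_iff_continuous_domRestrict.1
      (h.contOn.mono fun z hz => hz.2)).measurable
  · have e : (ball (0 : ℂ) R \ K)ᶜ.domRestrict ((ball (0 : ℂ) R \ K).indicator u) = fun _ => 0 := by
      funext z
      exact indicator_of_notMem z.2 u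
    rw [e]
    exact measurable_const

theorem GMin.memLp_ind (h : GMin u K) (R : ℝ) :
    MemLp ((ball (0 : ℂ) R \ K).indicator u) 2 (volume : Measure ℂ) := by
  obtain ⟨M, hM⟩ := h.bdd R
  have hs : MeasurableSet (ball (0 : ℂ) R \ K) := measurableSet_ball.diff h.closed.measurableSet
  have h1 : MemLp ((ball (0 : ℂ) R \ K).indicator u) 2 (volume.restrict (ball (0 : ℂ) R \ K)) := by
    have hfin : IsFiniteMeasure (volume.restrict (ball (0 : ℂ) R \ K)) :=
      ⟨by
        rw [Measure.restrict_apply_univ]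
        exact lt_of_le_of_lt (measure_mono sdiff_subset) measure_ball_lt_top⟩
    refine MemLp.of_bound (h.measurable_ind R).aestronglyMeasurable M
      ((ae_restrict_mem hs).mono fun z hz => ?_)
    rw [indicator_of_mem hz, Real.norm_eq_abs]
    exact hM z hz.1 hz.2
  rw [← memLp_indicator_iff_restrict hs] at h1
  rwa [indicator_indicator, inter_self] at h1

theorem GMin.memLp_ind_grad (h : GMin u K) (R : ℝ) :
    MemLp ((ball (0 : ℂ) R \ K).indicator (grad u)) 2 (volume : Measure ℂ) := by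
  have hs : MeasurableSet (ball (0 : ℂ) R \ K) := measurableSet_ball.diff h.closed.measurableSet
  rw [memLp_indicator_iff_restrict hs]
  exact (h.memLp 0 R).mono_measure (Measure.restrict_mono sdiff_subset le_rfl)

/-- The localised data. -/
theorem GMin.loc (h : GMin u K) {R R' : ℝ} (hR : R < R') :
    Loc 0 R (ball 0 R') K ((ball (0 : ℂ) R' \ K).indicator u)
      ((ball (0 : ℂ) R' \ K).indicator (grad u)) where
  um := h.measurable_ind R'
  Gm := (measurable_grad u).indicator (measurableSet_ball.diff h.closed.measurableSet)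
  u2 := h.memLp_ind R'
  G2 := h.memLp_ind_grad R'
  weak := by
    have hs : MeasurableSet (ball (0 : ℂ) R' \ K) := measurableSet_ball.diff h.closed.measurableSet
    refine (h.sob.weak.mono (fun z hz => hz.2)).congr_on hs ?_ ?_
    · intro z hz; rw [indicator_of_mem hz]
    · intro z hz; rw [indicator_of_mem hz]
  relClosed := by
    rw [h.closed.closure_eq]; exact inter_subset_right
  sub := closedBall_subset_ball hR

/-- Integration by parts outside almost every disk. -/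
theorem GMin.ae_outer (h : GMin u K) :
    ∀ᵐ s : ℝ, 0 < s → ∀ φ : ℂ → ℝ, ContDiff ℝ ∞ φ → HasCompactSupport φ →
      Disjoint (tsupport φ) (K \ ball 0 s) → ∀ v : ℂ,
      ∫ z in (closedBall (0 : ℂ) s)ᶜ, (u z * fderiv ℝ φ z v + inner ℝ (grad u z) v * φ z) =
        - (s * ∫ θ in ang, u (circleMap 0 s θ) *
          (φ (circleMap 0 s θ) * inner ℝ (circleMap 0 1 θ) v)) := by
  have hall : ∀ᵐ s : ℝ, ∀ n : ℕ, 0 < s → s < n → ∀ φ : ℂ → ℝ, ContDiff ℝ ∞ φ →
      HasCompactSupport φ → tsupport φ ⊆ ball 0 ((n : ℝ) + 1) →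
      Disjoint (tsupport φ) (K \ ball 0 s) → ∀ v : ℂ,
      ∫ z in (closedBall (0 : ℂ) s)ᶜ, (((ball (0 : ℂ) ((n : ℝ) + 1) \ K).indicator u) z *
          fderiv ℝ φ z v +
          inner ℝ (((ball (0 : ℂ) ((n : ℝ) + 1) \ K).indicator (grad u)) z) v * φ z) =
        - (s * ∫ θ in ang, ((ball (0 : ℂ) ((n : ℝ) + 1) \ K).indicator u) (circleMap 0 s θ) *
          (φ (circleMap 0 s θ) * inner ℝ (circleMap 0 1 θ) v)) :=
    ae_all_iff.2 fun n => (h.loc (lt_add_one (n : ℝ))).ae_outer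
  filter_upwards [hall, h.ae_finite] with s hs hfin hs0 φ h1 h2 h3 v
  have hfin := hfin hs0
  obtain ⟨ρ, hρ⟩ := exists_ball_of_compactSupport h2
  obtain ⟨n, hn⟩ := exists_nat_gt (max s ρ)
  have hns : s < n := lt_of_le_of_lt (le_max_left _ _) hn
  have hnρ : ρ < n := lt_of_le_of_lt (le_max_right _ _) hn
  have hsub : tsupport φ ⊆ ball 0 ((n : ℝ) + 1) := by
    intro z hz
    rw [mem_ball_zero_iff]
    by_contra hcon
    exact hρ z (by linarith) hz
  have key := hs n hs0 hns φ h1 h2 hsub h3 v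
  have e1 : ∫ z in (closedBall (0 : ℂ) s)ᶜ, (((ball (0 : ℂ) ((n : ℝ) + 1) \ K).indicator u) z *
          fderiv ℝ φ z v +
          inner ℝ (((ball (0 : ℂ) ((n : ℝ) + 1) \ K).indicator (grad u)) z) v * φ z) =
      ∫ z in (closedBall (0 : ℂ) s)ᶜ, (u z * fderiv ℝ φ z v + inner ℝ (grad u z) v * φ z) := by
    refine integral_congr_ae ((ae_restrict_of_ae h.ae_compl).mono fun z hz => ?_)
    by_cases hzb : z ∈ ball (0 : ℂ) ((n : ℝ) + 1)
    · simp only [indicator_of_mem (show z ∈ ball (0 : ℂ) ((n : ℝ) + 1) \ K from ⟨hzb, hz⟩)]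
    · have hz0 : z ∉ tsupport φ := fun hh => hzb (hsub hh)
      have hf : fderiv ℝ φ z = 0 := by
        by_contra hcon
        exact hz0 (support_fderiv_subset ℝ (f := φ) hcon)
      simp [image_eq_zero_of_notMem_tsupport hz0, hf]
  have hK0 : ∀ᵐ θ ∂(volume.restrict ang), circleMap 0 s θ ∉ K := by
    have h4 : {θ | θ ∈ ang ∧ circleMap 0 s θ ∈ K}.Finite := by
      refine Finite.of_finite_image (f := circleMap 0 s) (hfin.subset ?_) ?_
      · rintro _ ⟨θ, hθ, rfl⟩
        exact ⟨hθ.2, by rw [mem_sphere, dist_circleMap_center 0 hs0.le]⟩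
      · intro θ hθ θ' hθ' he
        rw [cm_eq, cm_eq] at he
        have h2 : uc θ = uc θ' := by
          have h3 := add_left_cancel he
          exact mul_left_cancel₀ (by exact_mod_cast hs0.ne') h3
        refine uc_inj h2 ?_
        rw [abs_lt]
        constructor <;> linarith [hθ.1.1, hθ.1.2, hθ'.1.1, hθ'.1.2]
    rw [ae_restrict_iff' measurableSet_Ioo, ae_iff]
    refine measure_mono_null ?_ (h4.measure_zero volume)
    intro θ hθ
    simp only [mem_ofPred_eq, Classical.not_imp, not_not] at hθ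
    exact hθ
  have e2 : ∫ θ in ang, ((ball (0 : ℂ) ((n : ℝ) + 1) \ K).indicator u) (circleMap 0 s θ) *
          (φ (circleMap 0 s θ) * inner ℝ (circleMap 0 1 θ) v) =
      ∫ θ in ang, u (circleMap 0 s θ) * (φ (circleMap 0 s θ) * inner ℝ (circleMap 0 1 θ) v) := by
    refine integral_congr_ae (hK0.mono fun θ hθ => ?_)
    have : circleMap 0 s θ ∈ ball (0 : ℂ) ((n : ℝ) + 1) \ K := by
      refine ⟨?_, hθ⟩
      rw [mem_ball, dist_circleMap_center 0 hs0.le]
      linarith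
    simp only [indicator_of_mem this]
  rw [e1, e2] at key
  exact key

open scoped Classical in
/-- Comparison with a function glued along almost every circle. -/
theorem GMin.glue0 (h : GMin u K) :
    ∀ᵐ s : ℝ, 0 < s → ∀ (Wi : ℂ → ℝ) (Gi : ℂ → ℂ) (Li : Set ℂ),
      MemLp Wi 2 (volume.restrict (ball 0 s)) → MemLp Gi 2 (volume.restrict (ball 0 s)) →
      IsClosed Li → Li ⊆ closedBall 0 s →
      (∀ φ : ℂ → ℝ, ContDiff ℝ ∞ φ → HasCompactSupport φ →
        Disjoint (tsupport φ) Li → Disjoint (tsupport φ) (K \ ball 0 s) → ∀ v : ℂ,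
        ∫ z in ball 0 s, (Wi z * fderiv ℝ φ z v + inner ℝ (Gi z) v * φ z) =
          s * ∫ θ in ang, u (circleMap 0 s θ) *
            (φ (circleMap 0 s θ) * inner ℝ (circleMap 0 1 θ) v)) →
      (∫⁻ z in ball 0 s, ENNReal.ofReal (‖grad u z‖ ^ 2)) + μH[1] (K ∩ ball 0 s) ≤
        (∫⁻ z in ball 0 s, ENNReal.ofReal (‖Gi z‖ ^ 2)) + μH[1] Li := by
  filter_upwards [h.ae_outer] with s hs hs0 Wi Gi Li hW hG hLc hLs hin
  have hout := hs hs0
  set B : Set ℂ := ball 0 s with hB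
  have hBm : MeasurableSet B := measurableSet_ball
  set w : ℂ → ℝ := B.piecewise Wi u with hw
  set H : ℂ → ℂ := B.piecewise Gi (grad u) with hH
  set L : Set ℂ := (K \ B) ∪ Li with hL
  have hLcl : IsClosed L := (h.closed.sdiff isOpen_ball).union hLc
  have hsplit : ∀ {E : Type} [NormedAddCommGroup E] (f g : ℂ → E) (C : Set ℂ), IsCompact C →
      MemLp f 2 (volume.restrict B) → MemLp g 2 (volume.restrict (C \ B)) →
      MemLp (B.piecewise f g) 2 (volume.restrict C) := by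
    intro E _ f g C hC hf hg
    have hCm := hC.measurableSet
    have e : C = (C ∩ B) ∪ (C \ B) := (inter_union_sdiff C B).symm
    rw [e]
    refine memLp_union (hCm.inter hBm) (hCm.diff hBm) ?_ ?_
    · refine (memLp_congr_ae ?_).1 (hf.mono_measure (Measure.restrict_mono
        (inter_subset_right : C ∩ B ⊆ B) le_rfl))
      exact (ae_restrict_iff' (hCm.inter hBm)).2 (Eventually.of_forall fun z hz =>
        (piecewise_eq_of_mem _ _ _ hz.2).symm)
    · refine (memLp_congr_ae ?_).1 hg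
      exact (ae_restrict_iff' (hCm.diff hBm)).2 (Eventually.of_forall fun z hz =>
        (piecewise_eq_of_notMem _ _ _ hz.2).symm)
  have hsob : Sob Lᶜ w H := by
    have hul : ∀ C ⊆ Lᶜ, IsCompact C → MemLp w 2 (volume.restrict C) := fun C hC hCc =>
      hsplit Wi u C hCc hW (h.sob.ul _ (fun z hz hzK => hC hz.1 (Or.inl ⟨hzK, hz.2⟩))
        (hCc.diff isOpen_ball))
    have hgl : ∀ C ⊆ Lᶜ, IsCompact C → MemLp H 2 (volume.restrict C) := fun C hC hCc =>
      hsplit Gi (grad u) C hCc hG (h.sob.gl _ (fun z hz hzK => hC hz.1 (Or.inl ⟨hzK, hz.2⟩))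
        (hCc.diff isOpen_ball))
    refine ⟨hLcl.isOpen_compl, hul, hgl, ?_⟩
    refine isWeakGrad_of_test fun φ h1 h2 h3 v => ?_
    have hd1 : Disjoint (tsupport φ) (K \ B) := by
      rw [disjoint_left]
      exact fun z hz hz' => (h3 hz) (Or.inl hz')
    have hd2 : Disjoint (tsupport φ) Li := by
      rw [disjoint_left]
      exact fun z hz hz' => (h3 hz) (Or.inr hz')
    have e1 := hin φ h1 h2 hd2 hd1 v
    have e2 := hout φ h1 h2 hd1 v
    have hcφ : Continuous fun z => fderiv ℝ φ z v :=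
      (h1.continuous_fderiv (by simp)).clm_apply continuous_const
    have hfinT : IsFiniteMeasure (volume.restrict (tsupport φ)) :=
      ⟨by rw [Measure.restrict_apply_univ]; exact h2.isCompact.measure_lt_top⟩
    have i1 : Integrable fun z => w z * fderiv ℝ φ z v := by
      have j1 : MemLp w 2 (volume.restrict (tsupport φ)) := hul _ h3 h2.isCompact
      have j2 : MemLp (fun z => fderiv ℝ φ z v) 2 (volume.restrict (tsupport φ)) :=
        (hcφ.memLp_of_hasCompactSupport (h2.fderiv_apply ℝ v)).restrict _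
      have j3 : IntegrableOn (fun z => w z * fderiv ℝ φ z v) (tsupport φ) :=
        j1.integrable_mul j2
      refine j3.integrable_of_forall_notMem_eq_zero fun z hz => ?_
      have : fderiv ℝ φ z = 0 := by
        by_contra hcon
        exact hz (support_fderiv_subset ℝ (f := φ) hcon)
      simp [this]
    have i2 : Integrable fun z => inner ℝ (H z) v * φ z := by
      have j1 : MemLp (fun z => (inner ℝ (H z) v : ℝ)) 2 (volume.restrict (tsupport φ)) :=
        (hgl _ h3 h2.isCompact).inner_const v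
      have j2 : MemLp φ 2 (volume.restrict (tsupport φ)) :=
        (h1.continuous.memLp_of_hasCompactSupport h2).restrict _
      have j3 : IntegrableOn (fun z => inner ℝ (H z) v * φ z) (tsupport φ) :=
        j1.integrable_mul j2
      refine j3.integrable_of_forall_notMem_eq_zero fun z hz => ?_
      rw [image_eq_zero_of_notMem_tsupport hz, mul_zero]
    have hD : Integrable fun z => w z * fderiv ℝ φ z v + inner ℝ (H z) v * φ z := i1.add i2
    have hsum := integral_add_compl hBm hD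
    have e3 : ∫ z in B, (w z * fderiv ℝ φ z v + inner ℝ (H z) v * φ z) =
        ∫ z in B, (Wi z * fderiv ℝ φ z v + inner ℝ (Gi z) v * φ z) := by
      refine setIntegral_congr_fun hBm fun z hz => ?_
      simp only [hw, hH, piecewise_eq_of_mem _ _ _ hz]
    have e4 : ∫ z in Bᶜ, (w z * fderiv ℝ φ z v + inner ℝ (H z) v * φ z) =
        ∫ z in (closedBall (0 : ℂ) s)ᶜ,
          (u z * fderiv ℝ φ z v + inner ℝ (grad u z) v * φ z) := by
      rw [setIntegral_congr_set (compl_ball_ae 0 hs0.ne')]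
      refine setIntegral_congr_fun measurableSet_closedBall.compl fun z hz => ?_
      have hz' : z ∉ B := fun h => hz (ball_subset_closedBall h)
      simp only [hw, hH, piecewise_eq_of_notMem _ _ _ hz']
    rw [e3, e4, e1, e2, integral_add i1 i2] at hsum
    linarith
  have hW12 : W12loc Lᶜ w H :=
    ⟨fun C hc hC => hsob.ul C hC hc, fun C hc hC => hsob.gl C hC hc, hsob.weak⟩
  have hcmp := h.gm.compare h.conn (x := 0) (r := s + 1) (C := closedBall 0 s) hLcl hW12
    (isCompact_closedBall _ _) (closedBall_subset_ball (by linarith)) (by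
      intro z hz
      rw [mem_symmDiff] at hz
      rcases hz with ⟨hz | hz, hz'⟩ | ⟨hz, hz'⟩
      · exact absurd hz.1 hz'
      · exact hLs hz
      · by_contra hcon
        exact hz' (Or.inl ⟨hz, fun h => hcon (ball_subset_closedBall h)⟩))
    (Eventually.of_forall fun z hz => by
      have hz' : z ∉ B := fun h => hz (ball_subset_closedBall h)
      simp only [hw, piecewise_eq_of_notMem _ _ _ hz'])
  unfold genergy at hcmp
  rw [h.gm.restrict_compl] at hcmp
  set V : Set ℂ := ball 0 (s + 1) with hV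
  have hVm : MeasurableSet V := measurableSet_ball
  have hBV : B ⊆ V := ball_subset_ball (by linarith)
  have f1 : ∫⁻ z in V, ENNReal.ofReal (‖grad u z‖ ^ 2) =
      (∫⁻ z in B, ENNReal.ofReal (‖grad u z‖ ^ 2)) +
        ∫⁻ z in V \ B, ENNReal.ofReal (‖grad u z‖ ^ 2) := by
    rw [← lintegral_inter_add_sdiff _ V hBm, inter_eq_self_of_subset_right hBV]
  have f2 : μH[1] (K ∩ V) = μH[1] (K ∩ B) + μH[1] ((K ∩ V) \ B) := by
    rw [← measure_inter_add_sdiff (K ∩ V) hBm]
    congr 2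
    rw [inter_assoc, inter_eq_self_of_subset_right hBV]
  have g1 : ∫⁻ z in V \ L, ENNReal.ofReal (‖H z‖ ^ 2) ≤
      (∫⁻ z in B, ENNReal.ofReal (‖Gi z‖ ^ 2)) +
        ∫⁻ z in V \ B, ENNReal.ofReal (‖grad u z‖ ^ 2) := by
    refine (lintegral_mono_set sdiff_subset).trans (le_of_eq ?_)
    rw [← lintegral_inter_add_sdiff _ V hBm, inter_eq_self_of_subset_right hBV]
    congr 1
    · refine setLIntegral_congr_fun hBm fun z hz => ?_
      simp only [hH, piecewise_eq_of_mem _ _ _ hz]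
    · refine setLIntegral_congr_fun (hVm.diff hBm) fun z hz => ?_
      simp only [hH, piecewise_eq_of_notMem _ _ _ hz.2]
  have g2 : μH[1] (L ∩ V) ≤ μH[1] Li + μH[1] ((K ∩ V) \ B) := by
    refine (measure_mono ?_).trans (measure_union_le _ _)
    rintro z ⟨hz | hz, hzV⟩
    · exact Or.inr ⟨⟨hz.1, hzV⟩, hz.2⟩
    · exact Or.inl hz
  set A1 := ∫⁻ z in V \ B, ENNReal.ofReal (‖grad u z‖ ^ 2) with hA1
  set A2 := μH[1] ((K ∩ V) \ B) with hA2
  have t1 : A1 ≠ ⊤ := ne_top_of_le_ne_top (h.lint_fin 0 (s + 1)) (lintegral_mono_set sdiff_subset)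
  have t2 : A2 ≠ ⊤ := ne_top_of_le_ne_top (h.len_fin 0 (s + 1)) (measure_mono sdiff_subset)
  have hfinal : (∫⁻ z in B, ENNReal.ofReal (‖grad u z‖ ^ 2)) + μH[1] (K ∩ B) + (A1 + A2) ≤
      (∫⁻ z in B, ENNReal.ofReal (‖Gi z‖ ^ 2)) + μH[1] Li + (A1 + A2) := by
    rw [f1, f2] at hcmp
    calc _ = (∫⁻ z in B, ENNReal.ofReal (‖grad u z‖ ^ 2)) + A1 + (μH[1] (K ∩ B) + A2) := by ring
      _ ≤ _ := hcmp
      _ ≤ ((∫⁻ z in B, ENNReal.ofReal (‖Gi z‖ ^ 2)) + A1) + (μH[1] Li + A2) := by gcongr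
      _ = _ := by ring
  exact (ENNReal.add_le_add_iff_right (by simp [t1, t2])).mp hfinal

end Vale.Agent.P128.GM
end

section

open MeasureTheory Set Metric Filter
open scoped ENNReal NNReal Topology Real ContDiff

namespace Vale.Agent.P128

theorem circleMap_shift (x : ℂ) {p : ℂ} (hp : ‖p‖ = 1) (s t : ℝ) :
    circleMap x s (p.arg + t) = x + s * (p * uc t) := by
  have h1 : uc p.arg = p := by
    have := uc_arg hp
    exact this
  unfold circleMap
  have h2 : Complex.exp (((p.arg + t : ℝ) : ℂ) * Complex.I) = uc (p.arg + t) := rfl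
  rw [h2, uc_add, h1]

theorem tw_circle (x : ℂ) {p : ℂ} (hp : ‖p‖ = 1) {s : ℝ} (hs : 0 < s) (d t : ℝ) :
    tw x p s d (circleMap x s (p.arg + t)) = d - uc t := by
  have hs' : (s : ℂ) ≠ 0 := by exact_mod_cast hs.ne'
  rw [circleMap_shift x hp]
  unfold tw
  rw [add_sub_cancel_left]
  have h1 := conj_mul_self hp
  congr 1
  rw [div_eq_iff hs']
  linear_combination (s * uc t : ℂ) * h1

/-- The tangential derivative of the crack-tip function on the circle. -/
theorem tsl_tipG (x : ℂ) {p : ℂ} (hp : ‖p‖ = 1) {s : ℝ} (hs : 0 < s) (d t : ℝ) :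
    tsl (tipG x p s d) x s (p.arg + t) = 1 / 2 * (uc t / csq (d - uc t)).re := by
  have hs' : (s : ℂ) ≠ 0 := by exact_mod_cast hs.ne'
  have h0 : circleMap 0 1 (p.arg + t) = p * uc t := by
    rw [circleMap_shift 0 hp]; push_cast; ring
  unfold tsl tipG
  rw [tw_circle x hp hs, h0, Complex.inner]
  obtain ⟨c, hc⟩ : ∃ c, c = csq (d - uc t) := ⟨_, rfl⟩
  have hc0 : c ≠ 0 := by rw [hc]; exact csq_ne_zero _
  rw [← hc]
  have h1 := conj_mul_self hp
  have e1 : (starRingEnd ℂ) (Complex.I * (starRingEnd ℂ) ((starRingEnd ℂ) p / (2 * s * c))) *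
      (p * uc t * Complex.I) = ((1 / (2 * s) : ℝ) : ℂ) * (uc t / c) := by
    rw [map_mul, Complex.conj_I, Complex.conj_conj]
    push_cast
    have h2 := Complex.I_sq
    field_simp
    linear_combination (-((starRingEnd ℂ) p) * p * uc t) * h2 + uc t * h1
  have e2 : (inner ℝ (Complex.I * (starRingEnd ℂ) ((starRingEnd ℂ) p / (2 * s * c)))
      (p * uc t * Complex.I) : ℝ) = ((starRingEnd ℂ) (Complex.I * (starRingEnd ℂ)
        ((starRingEnd ℂ) p / (2 * s * c))) * (p * uc t * Complex.I)).re := by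
    rw [Complex.inner, mul_comm]
  rw [← Complex.inner, e2, e1, Complex.re_ofReal_mul]
  have := hs.ne'
  field_simp

theorem abs_tsl_tipG_le (x : ℂ) {p : ℂ} (hp : ‖p‖ = 1) {s : ℝ} (hs : 0 < s) {d : ℝ}
    (hd : |d| ≤ 1 / 2) (t : ℝ) : |tsl (tipG x p s d) x s (p.arg + t)| ≤ 1 := by
  rw [tsl_tipG x hp hs, abs_mul, abs_of_pos (by norm_num)]
  have h1 : 1 / 2 ≤ ‖(d : ℂ) - uc t‖ := by
    have h2 := norm_sub_norm_le (uc t) (d : ℂ)
    rw [norm_uc, Complex.norm_real, Real.norm_eq_abs, norm_sub_rev] at h2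
    linarith
  have hne : (d : ℂ) - uc t ≠ 0 := by
    intro h; rw [h, norm_zero] at h1; norm_num at h1
  have h3 := norm_csq_sq hne
  have h4 : 1 / 2 ≤ ‖csq (d - uc t)‖ := by
    rw [← h3] at h1
    (by_contra nlg; linarith [mul_nonneg (sub_nonneg.2 h1) (sub_nonneg.2 (norm_nonneg (csq (d - uc t)))), mul_nonneg (le_of_lt (sub_pos.2 (not_le.1 nlg))) (sub_nonneg.2 (norm_nonneg (csq (d - uc t)))), mul_nonneg (le_of_lt (sub_pos.2 (not_le.1 nlg))) (sub_nonneg.2 h1), mul_pos (sub_pos.2 (not_le.1 nlg)) (sub_pos.2 (not_le.1 nlg))])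
  have h5 : |(uc t / csq (d - uc t)).re| ≤ 2 := by
    refine (Complex.abs_re_le_norm _).trans ?_
    rw [norm_div, norm_uc, div_le_iff₀ (by linarith only [h4])]
    linarith only [h4]
  linarith only [h5]

/-- Comparison of the traces of the crack-tip functions. -/
theorem tsl_tipG_approx (x : ℂ) {p : ℂ} (hp : ‖p‖ = 1) {s : ℝ} (hs : 0 < s) {d : ℝ}
    (hd : |d| ≤ 1 / 2) {t : ℝ} (ht : t ∈ Ioo 0 (2 * π)) (A : ℝ) :
    |A * (1 + d / 2) * tsl (tipG x p s d) x s (p.arg + t) + A / 2 * Real.sin (t / 2)| ≤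
      3 / 2 * |A| * d ^ 2 := by
  rw [tsl_tipG x hp hs]
  have h1 := csq_expand hd ht
  obtain ⟨X, hX⟩ : ∃ X, X = (uc t / csq (d - uc t)).re := ⟨_, rfl⟩
  obtain ⟨S, hS⟩ : ∃ S, S = Real.sin (t / 2) := ⟨_, rfl⟩
  rw [← hX, ← hS] at h1 ⊢
  have hS1 : |S| ≤ 1 := by rw [hS]; exact Real.abs_sin_le_one _
  have e1 : A * (1 + d / 2) * (1 / 2 * X) + A / 2 * S =
      A * ((1 + d / 2) / 2 * (X + (1 - d / 2) * S) + d ^ 2 / 8 * S) := by ring
  rw [e1, abs_mul]
  have h2 : |(1 + d / 2) / 2 * (X + (1 - d / 2) * S) + d ^ 2 / 8 * S| ≤ 3 / 2 * d ^ 2 := by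
    have hd' := abs_le.mp hd
    have a1 : |(1 + d / 2) / 2 * (X + (1 - d / 2) * S)| ≤ 5 / 8 * (2 * d ^ 2) := by
      rw [abs_mul]
      refine mul_le_mul ?_ h1 (abs_nonneg _) (by norm_num)
      rw [abs_of_pos (by linarith)]; linarith
    have a2 : |d ^ 2 / 8 * S| ≤ d ^ 2 / 8 * 1 := by
      rw [abs_mul, abs_of_nonneg (by (clear * -; positivity))]
      exact mul_le_mul_of_nonneg_left hS1 (by (clear * -; positivity))
    calc _ ≤ |(1 + d / 2) / 2 * (X + (1 - d / 2) * S)| + |d ^ 2 / 8 * S| := abs_add_le _ _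
      _ ≤ _ := by linarith only [sq_nonneg d, a2, a1]
  calc |A| * _ ≤ |A| * (3 / 2 * d ^ 2) := mul_le_mul_of_nonneg_left h2 (abs_nonneg _)
    _ = _ := by ring

/-- The circle is cut only in the direction `p`. -/
theorem circle_tw_mem {x p : ℂ} (hp : ‖p‖ = 1) {s : ℝ} (hs : 0 < s) {d : ℝ} (hd : |d| ≤ 1 / 2)
    {θ : ℝ} (h : tw x p s d (circleMap x s θ) ∉ Complex.slitPlane) : circleMap 0 1 θ = p := by
  obtain ⟨τ, h1, h2⟩ := mem_ray_of_tw hp hs h
  have h3 : circleMap x s θ = x + s • circleMap 0 1 θ := circleMap_eq x s θ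
  rw [h3] at h2
  have h4 : s • circleMap 0 1 θ = τ • p := add_left_cancel h2
  have h5 : |τ| = s := by
    have := congrArg norm h4
    rw [norm_smul, norm_smul, hp, mul_one, norm_unit, mul_one, Real.norm_eq_abs,
      Real.norm_eq_abs, abs_of_pos hs] at this
    exact this.symm
  have h6 : τ = s := by
    rcases abs_eq hs.le |>.mp h5 with h | h
    · exact h
    · have := (abs_le.mp hd).1
      nlinarith
  rw [h6] at h4
  exact smul_right_injective ℂ hs.ne' h4

/-- The trace of the crack-tip function. -/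
theorem circWeak_tip {x p : ℂ} (hp : ‖p‖ = 1) {s : ℝ} (hs : 0 < s) {d : ℝ} (hd : |d| ≤ 1 / 2) :
    CircWeak {p} (fun θ => tipW x p s d (circleMap x s θ)) (tsl (tipG x p s d) x s) := by
  intro Φ hΦ hdis
  have hpΦ : p ∉ tsupport Φ := fun h => disjoint_left.mp hdis h (mem_singleton p)
  have hzero : ∀ w, w ∉ tsupport Φ → Φ =ᶠ[𝓝 w] fun _ => 0 := by
    intro w hw
    filter_upwards [(isClosed_tsupport Φ).isOpen_compl.mem_nhds hw] with y hy
    exact image_eq_zero_of_notMem_tsupport hy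
  set k : ℝ → ℝ := fun θ => tipW x p s d (circleMap x s θ) * Φ (circleMap 0 1 θ) with hk
  set k' : ℝ → ℝ := fun θ => tipW x p s d (circleMap x s θ) *
    fderiv ℝ Φ (circleMap 0 1 θ) (circleMap 0 1 θ * Complex.I) +
      tsl (tipG x p s d) x s θ * Φ (circleMap 0 1 θ) with hk'
  have hc : ∀ θ : ℝ, HasDerivAt (fun θ : ℝ => circleMap x s θ)
      (s • (circleMap 0 1 θ * Complex.I)) θ := by
    intro θ
    have h1 := hasDerivAt_circleMap x s θ
    refine h1.congr_deriv ?_
    rw [Complex.real_smul]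
    simp only [circleMap, zero_add]
    push_cast; ring
  have hder : ∀ θ, HasDerivAt k (k' θ) θ := by
    intro θ
    have hΦ' := hasDerivAt_comp_circle hΦ θ
    by_cases hz : tw x p s d (circleMap x s θ) ∈ Complex.slitPlane
    · obtain ⟨h1, h2⟩ := hasFDerivAt_tipW hs hz (s • (circleMap 0 1 θ * Complex.I))
      have h3 := h1.comp_hasDerivAt θ (hc θ)
      rw [h2] at h3
      have h4 := h3.mul hΦ'
      refine h4.congr_deriv ?_
      simp only [hk', tsl, real_inner_smul_right, Function.comp]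
      ring
    · have h1 := circle_tw_mem hp hs hd hz
      have h2 : circleMap 0 1 θ ∉ tsupport Φ := by rw [h1]; exact hpΦ
      have h3 := hzero _ h2
      have h4 : k =ᶠ[𝓝 θ] fun _ => 0 := by
        have := (continuous_circleMap 0 1).continuousAt (x := θ) |>.eventually h3
        filter_upwards [this] with τ hτ
        simp only [hk, hτ, mul_zero]
      have h5 : k' θ = 0 := by
        simp only [hk']
        rw [h3.fderiv_eq, h3.eq_of_nhds]
        simp
      rw [h5]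
      exact (hasDerivAt_const θ (0 : ℝ)).congr_of_eventuallyEq h4
  have hm1 : Measurable fun θ => tipW x p s d (circleMap x s θ) :=
    (measurable_tipW x p s d).comp (measurable_circleMap x s)
  have hm2 : Measurable (tsl (tipG x p s d) x s) := measurable_tsl (measurable_tipG x p s d) x s
  have c1 := continuous_rotDeriv hΦ
  have c2 : Continuous fun θ : ℝ => Φ (circleMap 0 1 θ) :=
    hΦ.continuous.comp (continuous_circleMap 0 1)
  have hfin : IsFiniteMeasure (volume.restrict ang) := ⟨by simp⟩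
  have b1 : ∀ θ, |tipW x p s d (circleMap x s θ)| ≤ 2 := fun θ =>
    abs_tipW_le hp hs hd (by rw [mem_closedBall, dist_cm x hs])
  have b2 : ∀ θ, |tsl (tipG x p s d) x s θ| ≤ 1 := fun θ => by
    have := abs_tsl_tipG_le x hp hs hd (θ - p.arg)
    rwa [add_sub_cancel] at this
  have i1 : IntegrableOn (fun θ => tipW x p s d (circleMap x s θ)) ang :=
    (MemLp.of_bound hm1.aestronglyMeasurable 2 (Eventually.of_forall b1) :
      MemLp _ 1 (volume.restrict ang)).integrable le_rfl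
  have i2 : IntegrableOn (tsl (tipG x p s d) x s) ang :=
    (MemLp.of_bound hm2.aestronglyMeasurable 1 (Eventually.of_forall b2) :
      MemLp _ 1 (volume.restrict ang)).integrable le_rfl
  have j1 := integrable_mul_cont i1 c1
  have j2 := integrable_mul_cont i2 c2
  have hint : IntegrableOn k' ang := j1.add j2
  have hπ := Real.pi_pos
  have hFTC : ∫ θ in (-π)..π, k' θ = k π - k (-π) :=
    intervalIntegral.integral_eq_sub_of_hasDerivAt (fun θ _ => hder θ)
      ((intervalIntegrable_iff_integrableOn_Ioo_of_le (by linarith only [hπ])).mpr hint)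
  have hper : k π = k (-π) := by
    simp only [hk]
    have e1 : circleMap x s π = circleMap x s (-π) := by
      have := periodic_circleMap x s (-π)
      rw [show -π + 2 * π = π by ring] at this
      exact this
    have e2 : circleMap 0 1 π = circleMap 0 1 (-π) := by
      have := periodic_circleMap 0 1 (-π)
      rw [show -π + 2 * π = π by ring] at this
      exact this
    rw [e1, e2]
  rw [hper, sub_self, intervalIntegral.integral_of_le (by linarith only [hπ]),
    integral_Ioc_eq_integral_Ioo] at hFTC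
  have hsum : ∫ θ in ang, k' θ = (∫ θ in ang, tipW x p s d (circleMap x s θ) *
    fderiv ℝ Φ (circleMap 0 1 θ) (circleMap 0 1 θ * Complex.I)) +
      ∫ θ in ang, tsl (tipG x p s d) x s θ * Φ (circleMap 0 1 θ) := integral_add j1 j2
  have h0 : ∫ θ in ang, k' θ = 0 := hFTC
  rw [h0] at hsum
  linarith

end Vale.Agent.P128
end

section

open MeasureTheory Set Metric Filter
open scoped ENNReal NNReal Topology Real ContDiff

namespace Vale.Agent.P128

/-- Constants in the weak formulation on a disk. -/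
theorem const_ibp (x : ℂ) {s : ℝ} (hs0 : 0 < s) (c : ℝ) {φ : ℂ → ℝ} (g1 : ContDiff ℝ ∞ φ)
    (v : ℂ) :
    ∫ z in ball x s, c * fderiv ℝ φ z v =
      s * ∫ θ in ang, c * (φ (circleMap x s θ) * inner ℝ (circleMap 0 1 θ) v) := by
  have hcf : Continuous fun z => fderiv ℝ φ z v :=
    (g1.continuous_fderiv (by simp)).clm_apply continuous_const
  have e1 : (fun z => extU x (fun _ => 1) (fun _ => c) z * fderiv ℝ φ z v +
      inner ℝ (extG x (fun _ => 1) (fun _ => 0) (fun _ => c) (fun _ => 0) z) v * φ z) =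
      fun z => c * fderiv ℝ φ z v := by
    funext z
    rw [extG_zero]
    simp [extU]
  have D1 : IntegrableOn (fun z => extU x (fun _ => 1) (fun _ => c) z * fderiv ℝ φ z v +
      inner ℝ (extG x (fun _ => 1) (fun _ => 0) (fun _ => c) (fun _ => 0) z) v * φ z)
      (annu x 0 s) := by
    rw [e1]
    refine ((continuous_const.mul hcf).continuousOn.integrableOn_compact
      (isCompact_closedBall x s)).mono_set ?_
    intro z hz
    exact mem_closedBall.mpr hz.2.le
  have I1 := annulus_ibp (x := x) (a := 0) (s := s) (ζ := fun _ => 1) (ζ' := fun _ => 0)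
      (f := fun _ => c) (h := fun _ => 0) le_rfl hs0
      (fun r => hasDerivAt_const r 1) continuous_const measurable_const measurable_const
      (integrable_const c) (integrable_const 0) (circWeak_const ∅ c) g1
      (fun r _ w hw => absurd hw (notMem_empty w)) v D1
  rw [e1] at I1
  rw [← setIntegral_congr_set (annu_zero_ae x (s := s)), I1]
  ring

theorem circWeak_smul {Θ : Set ℂ} {f h : ℝ → ℝ} (hw : CircWeak Θ f h) (A : ℝ) :
    CircWeak Θ (fun θ => A * f θ) (fun θ => A * h θ) := by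
  intro Φ hΦ hd
  have := hw Φ hΦ hd
  simp only [mul_assoc]
  rw [integral_const_mul, integral_const_mul, this]
  ring

/-- The moved-tip extension of a trace with one jump. -/
theorem tip_ext (x : ℂ) {p : ℂ} (hp : ‖p‖ = 1) {s M : ℝ} (hs0 : 0 < s) {f h : ℝ → ℝ}
    (fm : Measurable f) (hm : Measurable h) (pf : Function.Periodic f (2 * π))
    (ph : Function.Periodic h (2 * π)) (hfM : ∀ θ, |f θ| ≤ M)
    (hh : MemLp h 2 (volume.restrict ang)) (hw : CircWeak {p} f h) {A d κ : ℝ}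
    (hA : |A| ≤ 3 * M) (hd : |d| ≤ 1 / 2) (hκ : 0 < κ) :
    ∃ (W : ℂ → ℝ) (Γ : ℂ → ℂ), Measurable W ∧ (∀ z ∈ ball x s, |W z| ≤ 27 * M) ∧
      MemLp Γ 2 (volume.restrict (ball x s)) ∧
      (∫⁻ z in ball x s, ENNReal.ofReal (‖Γ z‖ ^ 2) ≤
        ENNReal.ofReal ((1 + κ) * (A ^ 2 * (π / 2)) + (1 + 1 / κ) *
          (7 * ∫ θ in ang, (h θ - A * tsl (tipG x p s d) x s θ) ^ 2))) ∧
      ∀ φ : ℂ → ℝ, ContDiff ℝ ∞ φ → HasCompactSupport φ →
        Disjoint (tsupport φ) (slit x p (d * s) s) → ∀ v : ℂ,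
        ∫ z in ball x s, (W z * fderiv ℝ φ z v + inner ℝ (Γ z) v * φ z) =
          s * ∫ θ in ang, f θ * (φ (circleMap x s θ) * inner ℝ (circleMap 0 1 θ) v) := by
  have hπ := Real.pi_pos
  have hfin : IsFiniteMeasure (volume.restrict ang) := ⟨by simp⟩
  have hM0 : 0 ≤ M := (abs_nonneg _).trans (hfM 0)
  obtain ⟨w, hwdef⟩ : ∃ w : ℝ → ℝ, w = fun θ => tipW x p s d (circleMap x s θ) := ⟨_, rfl⟩
  obtain ⟨w', hwdef'⟩ : ∃ w' : ℝ → ℝ, w' = tsl (tipG x p s d) x s := ⟨_, rfl⟩
  have wm : Measurable w := by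
    rw [hwdef]; exact (measurable_tipW x p s d).comp (measurable_circleMap x s)
  have wm' : Measurable w' := by
    rw [hwdef']; exact measurable_tsl (measurable_tipG x p s d) x s
  have wb : ∀ θ, |w θ| ≤ 2 := fun θ => by
    rw [hwdef]; exact abs_tipW_le hp hs0 hd (by rw [mem_closedBall, dist_cm x hs0])
  have wb' : ∀ θ, |w' θ| ≤ 1 := fun θ => by
    rw [hwdef']
    have := abs_tsl_tipG_le x hp hs0 hd (θ - p.arg)
    rwa [add_sub_cancel] at this
  have pw : Function.Periodic w (2 * π) := fun θ => by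
    simp only [hwdef, periodic_circleMap x s θ]
  have pw' : Function.Periodic w' (2 * π) := fun θ => by
    simp only [hwdef', tsl, periodic_circleMap x s θ, periodic_circleMap 0 1 θ]
  have hcw : CircWeak {p} w w' := by rw [hwdef, hwdef']; exact circWeak_tip hp hs0 hd
  have fL : MemLp f 2 (volume.restrict ang) :=
    MemLp.of_bound fm.aestronglyMeasurable M (Eventually.of_forall hfM)
  have wL : MemLp w 2 (volume.restrict ang) :=
    MemLp.of_bound wm.aestronglyMeasurable 2 (Eventually.of_forall wb)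
  have wL' : MemLp w' 2 (volume.restrict ang) :=
    MemLp.of_bound wm'.aestronglyMeasurable 1 (Eventually.of_forall wb')
  have fi : IntegrableOn f ang := fL.integrable (by norm_num)
  have hi : IntegrableOn h ang := hh.integrable (by norm_num)
  have wi : IntegrableOn (fun θ => A * w θ) ang := (wL.const_mul A).integrable (by norm_num)
  have wi' : IntegrableOn (fun θ => A * w' θ) ang := (wL'.const_mul A).integrable (by norm_num)
  set F : ℝ → ℝ := fun θ => f θ - A * w θ with hF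
  set H : ℝ → ℝ := fun θ => h θ - A * w' θ with hH
  have Fm : Measurable F := fm.sub (wm.const_mul A)
  have Hm : Measurable H := hm.sub (wm'.const_mul A)
  have pF : Function.Periodic F (2 * π) := fun θ => by simp only [hF, pf θ, pw θ]
  have pH : Function.Periodic H (2 * π) := fun θ => by simp only [hH, ph θ, pw' θ]
  have HL : MemLp H 2 (volume.restrict ang) := hh.sub (wL'.const_mul A)
  have Fw : CircWeak {p} F H := hw.sub (circWeak_smul hcw A) fi wi hi wi'
  have Fb : ∀ θ, |F θ| ≤ 7 * M := by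
    intro θ
    have h1 := hfM θ
    have h2 : |A * w θ| ≤ 3 * M * 2 := by
      rw [abs_mul]; exact mul_le_mul hA (wb θ) (abs_nonneg _) (by (clear * - hM0; positivity))
    calc |F θ| ≤ |f θ| + |A * w θ| := abs_sub _ _
      _ ≤ 7 * M := by linarith only [h2, h1]
  obtain ⟨m, hmdef⟩ : ∃ m, m = (2 * π)⁻¹ * ∫ θ in ang, F θ := ⟨_, rfl⟩
  have hm7 : |m| ≤ 7 * M := by rw [hmdef]; exact abs_mean_le Fb
  set ρ : ℝ → ℝ := fun θ => F θ - m with hρ
  have rm : Measurable ρ := Fm.sub_const m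
  have ρb : ∀ θ, |ρ θ| ≤ 14 * M := by
    intro θ
    calc |ρ θ| ≤ |F θ| + |m| := abs_sub _ _
      _ ≤ 14 * M := by linarith only [Fb θ, hm7]
  have Fi : IntegrableOn F ang := fi.sub wi
  have Hi : IntegrableOn H ang := HL.integrable (by norm_num)
  have ρw : CircWeak {p} ρ H := by
    have := Fw.sub (circWeak_const {p} m) Fi (integrable_const m) Hi (integrable_const 0)
    simpa using this
  have hP : ∫ θ in ang, ρ θ ^ 2 ≤ 4 * ∫ θ in ang, H θ ^ 2 := by
    have := cut_poincare hp Fw pF pH Fm Hm Fb HL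
    rw [← hmdef] at this
    exact this
  obtain ⟨Z, Γ, Zm, Γm, Zb, Γ2, Γe, ibp⟩ := tail_ext x hs0 rm Hm ρb HL ρw hP
  have Tm := measurable_tipW x p s d
  have Gm := measurable_tipG x p s d
  have T2 : ∫⁻ z in ball x s, ENNReal.ofReal (‖(A : ℂ) * tipG x p s d z‖ ^ 2) ≤
      ENNReal.ofReal (A ^ 2 * (π / 2)) := by
    have e1 : ∀ z, ENNReal.ofReal (‖(A : ℂ) * tipG x p s d z‖ ^ 2) =
        ENNReal.ofReal (A ^ 2) * ENNReal.ofReal (‖tipG x p s d z‖ ^ 2) := by
      intro z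
      rw [← ENNReal.ofReal_mul (sq_nonneg A), norm_mul, mul_pow, Complex.norm_real,
        Real.norm_eq_abs, sq_abs]
    simp only [e1]
    rw [lintegral_const_mul' _ _ ENNReal.ofReal_ne_top, ENNReal.ofReal_mul (sq_nonneg A)]
    exact mul_le_mul' le_rfl (lintegral_tipG hp hs0 d)
  have AGm : Measurable fun z => (A : ℂ) * tipG x p s d z := measurable_const.mul Gm
  have A2 : MemLp (fun z => (A : ℂ) * tipG x p s d z) 2 (volume.restrict (ball x s)) :=
    memLp_of_lintegral_sq AGm.aestronglyMeasurable (lt_of_le_of_lt T2 ENNReal.ofReal_lt_top)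
  refine ⟨fun z => (m + A * tipW x p s d z) + Z z, fun z => (A : ℂ) * tipG x p s d z + Γ z,
    (measurable_const.add (Tm.const_mul A)).add Zm, ?_, A2.add Γ2, ?_, ?_⟩
  · intro z hz
    have h1 := abs_tipW_le hp hs0 hd (ball_subset_closedBall hz)
    have h2 : |A * tipW x p s d z| ≤ 3 * M * 2 := by
      rw [abs_mul]; exact mul_le_mul hA h1 (abs_nonneg _) (by (clear * - hM0; positivity))
    calc |m + A * tipW x p s d z + Z z| ≤ |m + A * tipW x p s d z| + |Z z| := abs_add_le _ _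
      _ ≤ |m| + |A * tipW x p s d z| + |Z z| := by gcongr; exact abs_add_le _ _
      _ ≤ 27 * M := by linarith only [Zb z, h2, hm7]
  · have h0 : 0 ≤ ∫ θ in ang, H θ ^ 2 := integral_nonneg fun _ => sq_nonneg _
    have := lintegral_two_norm AGm hκ (by (clear * -; positivity)) (by (clear * -; positivity)) T2 Γe
    have e3 : ∫ θ in ang, (h θ - A * tsl (tipG x p s d) x s θ) ^ 2 =
        ∫ θ in ang, H θ ^ 2 := by simp only [hH, hwdef']
    rw [e3]
    exact this
  · intro φ g1 g2 g4 v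
    have hd' := (abs_le.mp hd).2
    have g5 : Disjoint (tsupport φ) (slit x p (s / 2) s) := by
      refine g4.mono_right ?_
      refine image_mono (Icc_subset_Icc_left ?_)
      linarith only [mul_nonneg (le_of_lt (sub_pos.2 hs0)) (sub_nonneg.2 hd')]
    have hvB : volume (ball x s) ≠ ⊤ := measure_ball_lt_top.ne
    have hfinB : IsFiniteMeasure (volume.restrict (ball x s)) :=
      ⟨by rw [Measure.restrict_apply_univ]; exact measure_ball_lt_top⟩
    have I1 := const_ibp x hs0 m g1 v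
    have I2 := tip_ibp hp hs0 hd g1 g4 v
    have I3 := ibp φ g1 g2 g5 v
    have hcf : Continuous fun z => fderiv ℝ φ z v :=
      (g1.continuous_fderiv (by simp)).clm_apply continuous_const
    have TL : MemLp (tipW x p s d) 2 (volume.restrict (ball x s)) :=
      MemLp.of_bound Tm.aestronglyMeasurable 2 ((ae_restrict_mem measurableSet_ball).mono
        fun z hz => abs_tipW_le hp hs0 hd (ball_subset_closedBall hz))
    have GV : MemLp (tipG x p s d) 2 (volume.restrict (ball x s)) :=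
      memLp_of_lintegral_sq Gm.aestronglyMeasurable
        (lt_of_le_of_lt (lintegral_tipG hp hs0 d) ENNReal.ofReal_lt_top)
    have ZL : MemLp Z 2 (volume.restrict (ball x s)) :=
      MemLp.of_bound Zm.aestronglyMeasurable (14 * M) (Eventually.of_forall Zb)
    have D1 : IntegrableOn (fun z => m * fderiv ℝ φ z v) (ball x s) :=
      ((continuous_const.mul hcf).continuousOn.integrableOn_compact
        (isCompact_closedBall x s)).mono_set ball_subset_closedBall
    have D2 : IntegrableOn (fun z => tipW x p s d z * fderiv ℝ φ z v +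
        inner ℝ (tipG x p s d z) v * φ z) (ball x s) := integrableOn_density hvB TL GV g1 g2 v
    have D3 : IntegrableOn (fun z => Z z * fderiv ℝ φ z v + inner ℝ (Γ z) v * φ z) (ball x s) :=
      integrableOn_density hvB ZL Γ2 g1 g2 v
    have D12 : IntegrableOn (fun z => m * fderiv ℝ φ z v + A * (tipW x p s d z *
        fderiv ℝ φ z v + inner ℝ (tipG x p s d z) v * φ z)) (ball x s) := D1.add (D2.const_mul A)
    have e0 : ∫ z in ball x s, (((m + A * tipW x p s d z) + Z z) * fderiv ℝ φ z v +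
        inner ℝ ((A : ℂ) * tipG x p s d z + Γ z) v * φ z) =
        (∫ z in ball x s, m * fderiv ℝ φ z v) + A * (∫ z in ball x s, (tipW x p s d z *
        fderiv ℝ φ z v + inner ℝ (tipG x p s d z) v * φ z)) +
        ∫ z in ball x s, (Z z * fderiv ℝ φ z v + inner ℝ (Γ z) v * φ z) := by
      rw [← integral_const_mul, ← integral_add D1 (D2.const_mul A), ← integral_add D12 D3]
      refine integral_congr_ae (Eventually.of_forall fun z => ?_)
      have e9 : ((A : ℂ) * tipG x p s d z) = A • tipG x p s d z := by rw [Complex.real_smul]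
      simp only
      rw [inner_add_left, e9, real_inner_smul_left]
      ring
    have ct : Continuous fun θ : ℝ => φ (circleMap x s θ) * inner ℝ (circleMap 0 1 θ) v :=
      (g1.continuous.comp (continuous_circleMap x s)).mul
        ((continuous_circleMap 0 1).inner continuous_const)
    have i1 : IntegrableOn (fun _ : ℝ => m) ang := integrable_const m
    have i2 : IntegrableOn w ang := wL.integrable (by norm_num)
    have i3 : IntegrableOn ρ ang := Fi.sub i1
    have J1 := integrable_mul_cont i1 ct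
    have J2 := integrable_mul_cont i2 ct
    have J3 := integrable_mul_cont i3 ct
    have hw2 : ∫ θ in ang, tipW x p s d (circleMap x s θ) * (φ (circleMap x s θ) *
        inner ℝ (circleMap 0 1 θ) v) = ∫ θ in ang, w θ * (φ (circleMap x s θ) *
        inner ℝ (circleMap 0 1 θ) v) := by rw [hwdef]
    have J12 : IntegrableOn (fun θ => m * (φ (circleMap x s θ) * inner ℝ (circleMap 0 1 θ) v) +
      A * (w θ * (φ (circleMap x s θ) * inner ℝ (circleMap 0 1 θ) v))) ang :=
      J1.add (J2.const_mul A)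
    have e2 : ∫ θ in ang, f θ * (φ (circleMap x s θ) * inner ℝ (circleMap 0 1 θ) v) =
        (∫ θ in ang, m * (φ (circleMap x s θ) * inner ℝ (circleMap 0 1 θ) v)) +
        A * (∫ θ in ang, w θ * (φ (circleMap x s θ) * inner ℝ (circleMap 0 1 θ) v)) +
        ∫ θ in ang, ρ θ * (φ (circleMap x s θ) * inner ℝ (circleMap 0 1 θ) v) := by
      rw [← integral_const_mul, ← integral_add J1 (J2.const_mul A), ← integral_add J12 J3]
      refine integral_congr_ae (Eventually.of_forall fun θ => ?_)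
      simp only [hρ, hF]
      ring
    rw [e0, I1, I2, I3, hw2, e2]
    ring

end Vale.Agent.P128
end

section

open MeasureTheory Set Metric Filter
open scoped ENNReal NNReal Topology Real ContDiff

namespace Vale.Agent.P128

/-- The remainder of the moved-tip competitor. -/
theorem tip_rest (x : ℂ) {p : ℂ} (hp : ‖p‖ = 1) {s : ℝ} (hs0 : 0 < s) {h : ℝ → ℝ}
    (hm : Measurable h) (ph : Function.Periodic h (2 * π))
    (hh : MemLp h 2 (volume.restrict ang)) {A d : ℝ} (hd : |d| ≤ 1 / 2) :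
    ∫ θ in ang, (h θ - A * (1 + d / 2) * tsl (tipG x p s d) x s θ) ^ 2 ≤
      2 * (∫ t in Ioo 0 (2 * π), (h (p.arg + t) + A / 2 * Real.sin (t / 2)) ^ 2) +
        9 * π * A ^ 2 * d ^ 4 := by
  have hπ := Real.pi_pos
  have f0 := finite_Ioo 0 (2 * π)
  have pw' : Function.Periodic (tsl (tipG x p s d) x s) (2 * π) := fun θ => by
    simp only [tsl, periodic_circleMap x s θ, periodic_circleMap 0 1 θ]
  have pH : Function.Periodic (fun θ => (h θ - A * (1 + d / 2) * tsl (tipG x p s d) x s θ) ^ 2)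
    (2 * π) := fun θ => by simp only [ph θ, pw' θ]
  rw [integral_ang_shift pH p.arg]
  have h1 : ∀ w ∈ ({p} : Finset ℂ), ‖w‖ = 1 := fun w hw => by
    rw [Finset.mem_singleton.mp hw]; exact hp
  have hpT : p ∈ ({p} : Finset ℂ) := Finset.mem_singleton_self p
  have hco : ((({p} : Finset ℂ)) : Set ℂ) = {p} := Finset.coe_singleton p
  have hg : gap ((({p} : Finset ℂ)) : Set ℂ) p = 2 * π := by rw [hco, gap_singleton p hp]
  have mh := memLp_arc (Finset.finite_toSet {p}) hpT hp ph hm hh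
  rw [hg] at mh
  have hsL : MemLp (fun t : ℝ => Real.sin (t / 2)) 2 (volume.restrict (Ioo 0 (2 * π))) :=
    memLp_cont (by fun_prop) _ _
  have mhs : MemLp (fun t => h (p.arg + t) + A / 2 * Real.sin (t / 2)) 2
      (volume.restrict (Ioo 0 (2 * π))) := mh.add (hsL.const_mul (A / 2))
  have i1 : Integrable (fun t => 2 * (h (p.arg + t) + A / 2 * Real.sin (t / 2)) ^ 2 +
      2 * (3 / 2 * |A| * d ^ 2) ^ 2) (volume.restrict (Ioo 0 (2 * π))) :=
    (mhs.integrable_sq.const_mul 2).add (integrable_const _)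
  have hle : ∫ t in Ioo 0 (2 * π), (h (p.arg + t) - A * (1 + d / 2) *
      tsl (tipG x p s d) x s (p.arg + t)) ^ 2 ≤
      ∫ t in Ioo 0 (2 * π), (2 * (h (p.arg + t) + A / 2 * Real.sin (t / 2)) ^ 2 +
      2 * (3 / 2 * |A| * d ^ 2) ^ 2) := by
    refine integral_mono_of_nonneg (Eventually.of_forall fun t => sq_nonneg _) i1 ?_
    filter_upwards [ae_restrict_mem measurableSet_Ioo] with t ht
    have h2 := tsl_tipG_approx x hp hs0 hd ht A
    obtain ⟨X, hX⟩ : ∃ X, X = h (p.arg + t) + A / 2 * Real.sin (t / 2) := ⟨_, rfl⟩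
    obtain ⟨Y, hY⟩ : ∃ Y, Y = A * (1 + d / 2) * tsl (tipG x p s d) x s (p.arg + t) +
      A / 2 * Real.sin (t / 2) := ⟨_, rfl⟩
    have e1 : h (p.arg + t) - A * (1 + d / 2) * tsl (tipG x p s d) x s (p.arg + t) = X - Y := by
      rw [hX, hY]; ring
    rw [e1, ← hX]
    rw [← hY] at h2
    have h3 : Y ^ 2 ≤ (3 / 2 * |A| * d ^ 2) ^ 2 := by
      rw [← sq_abs Y]
      exact pow_le_pow_left₀ (abs_nonneg _) h2 2
    linarith only [sq_nonneg (X + Y), h3]
  refine hle.trans (le_of_eq ?_)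
  have i2 : Integrable (fun t => 2 * (h (p.arg + t) + A / 2 * Real.sin (t / 2)) ^ 2)
    (volume.restrict (Ioo 0 (2 * π))) := mhs.integrable_sq.const_mul 2
  rw [integral_add i2 (integrable_const _), integral_const_mul]
  simp only [integral_const, measureReal_def, Measure.restrict_apply_univ, Real.volume_Ioo,
    smul_eq_mul]
  rw [ENNReal.toReal_ofReal (by linarith only [hπ]), mul_pow, mul_pow, sq_abs]
  ring

end Vale.Agent.P128
end

section

open MeasureTheory Set Metric Filter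
open scoped ENNReal NNReal Topology Real ContDiff

namespace Vale.Agent.P128

variable {Ω K : Set ℂ} {g u : ℂ → ℝ} {G : ℂ → ℂ} {M : ℝ} {x : ℂ} {R : ℝ} {B : Set ℝ}

/-- The polynomial in the moved-tip inequality. -/
theorem tip_poly {ε₀ d : ℝ} (hε₀ : 0 ≤ ε₀) (hd : |d| ≤ 1 / 2) :
    (1 + d ^ 2) * (1 + d / 2) ^ 2 * ε₀ + (1 + 1 / d ^ 2) * (126 * ε₀ * d ^ 4) ≤
      ε₀ + d * ε₀ + 160 * ε₀ * d ^ 2 := by
  obtain ⟨h1, h2⟩ := abs_le.mp hd
  rcases eq_or_ne d 0 with h0 | h0
  · rw [h0]; norm_num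
  have hd2 : 0 < d ^ 2 := by positivity
  have hd4 : d ^ 2 ≤ 1 / 4 := by linarith only [mul_nonneg (sub_nonneg.2 h1) (sub_nonneg.2 h2)]
  have e1 : (1 + 1 / d ^ 2) * (126 * ε₀ * d ^ 4) = 126 * ε₀ * (d ^ 4 + d ^ 2) := by
    field_simp
  rw [e1]
  have h3 : (1 + d ^ 2) * (1 + d / 2) ^ 2 ≤ 1 + d + 2 * d ^ 2 := by (by_contra nlg; linarith only [nlg, mul_nonneg (le_of_lt (sub_pos.2 hd2)) (sub_nonneg.2 hd4), mul_pos (sub_pos.2 hd2) (sub_pos.2 hd2), mul_nonneg (sub_nonneg.2 h2) (le_of_lt (sub_pos.2 hd2)), mul_nonneg (le_of_lt (sub_pos.2 (not_le.1 nlg))) (sub_nonneg.2 hd4), mul_pos (sub_pos.2 (not_le.1 nlg)) (sub_pos.2 hd2)])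
  have h4 : 126 * ε₀ * (d ^ 4 + d ^ 2) ≤ 126 * ε₀ * (5 / 4 * d ^ 2) := by
    have : d ^ 4 + d ^ 2 ≤ 5 / 4 * d ^ 2 := by (by_contra nlg; linarith only [nlg, mul_nonneg (le_of_lt (sub_pos.2 hd2)) (sub_nonneg.2 hd4), mul_nonneg (le_of_lt (sub_pos.2 (not_le.1 nlg))) (sub_nonneg.2 hd4), mul_pos (sub_pos.2 (not_le.1 nlg)) (sub_pos.2 hd2)])
    gcongr
  have h5 := mul_le_mul_of_nonneg_right h3 hε₀
  linarith only [mul_nonneg hε₀ hd2.le, h5, h4]

theorem tip_alg1 {X ε₀ d δ r : ℝ} (_hε₀ : 0 ≤ ε₀) (hδ : 0 < δ) (hr : 0 < r) (hd : |d| ≤ 1 / 2)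
    (hX : X ≤ (ε₀ + δ) * r) :
    (1 + d ^ 2) * (1 + d / 2) ^ 2 * X ≤ (1 + d ^ 2) * (1 + d / 2) ^ 2 * ε₀ * r + 4 * δ * r := by
  obtain ⟨hd3, hd4⟩ := abs_le.mp hd
  obtain ⟨Y, hY⟩ : ∃ Y, Y = (1 + d ^ 2) * (1 + d / 2) ^ 2 := ⟨_, rfl⟩
  have h10 : Y ≤ 4 := by
    have h1 : (1 + d / 2) ^ 2 ≤ 2 := by (by_contra nlg; linarith only [nlg, mul_nonneg (sub_nonneg.2 hd4) (sub_nonneg.2 hd4), mul_nonneg (sub_nonneg.2 hd3) (sub_nonneg.2 hd4), mul_nonneg (le_of_lt (sub_pos.2 (not_le.1 nlg))) (sub_nonneg.2 hd4), mul_nonneg (le_of_lt (sub_pos.2 (not_le.1 nlg))) (sub_nonneg.2 hd3)])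
    have h2 : (1 + d ^ 2) ≤ 2 := by (by_contra nlg; linarith only [nlg, mul_nonneg (sub_nonneg.2 hd3) (sub_nonneg.2 hd4), mul_nonneg (le_of_lt (sub_pos.2 (not_le.1 nlg))) (sub_nonneg.2 hd4), mul_nonneg (le_of_lt (sub_pos.2 (not_le.1 nlg))) (sub_nonneg.2 hd3)])
    calc Y = (1 + d ^ 2) * (1 + d / 2) ^ 2 := hY
      _ ≤ 2 * 2 := mul_le_mul h2 h1 (sq_nonneg _) (by norm_num)
      _ = 4 := by norm_num
  have hY0 : 0 ≤ Y := by rw [hY]; (clear * -; positivity)
  rw [← hY]
  have h9 : Y * X ≤ Y * ((ε₀ + δ) * r) := mul_le_mul_of_nonneg_left hX hY0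
  have h11 : Y * (δ * r) ≤ 4 * (δ * r) := mul_le_mul_of_nonneg_right h10 (by positivity)
  have e2 : Y * ((ε₀ + δ) * r) = Y * ε₀ * r + Y * (δ * r) := by ring
  linarith only [h11, h9]

theorem tip_alg2 {X P Q ε₀ d δ r : ℝ} (hδ : 0 < δ) (hr : 0 < r) (hd : |d| ≤ 1 / 2)
    (hQ : 0 < Q) (hX : X ≤ (ε₀ + δ) * r) (hP : P ≤ 2.4 * δ * r) :
    Q * (14 * P + 126 * d ^ 4 * X) ≤
      Q * (126 * ε₀ * d ^ 4) * r + (Q * 2 * 34 + Q * 126) * δ * r := by
  obtain ⟨hd3, hd4⟩ := abs_le.mp hd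
  have hδr : 0 < δ * r := by positivity
  have h9 : 14 * P + 126 * d ^ 4 * X ≤ 34 * (δ * r) + 126 * d ^ 4 * ((ε₀ + δ) * r) := by
    have h10 : 126 * d ^ 4 * X ≤ 126 * d ^ 4 * ((ε₀ + δ) * r) :=
      mul_le_mul_of_nonneg_left hX (by positivity)
    have h11 : 14 * P ≤ 34 * (δ * r) := by linarith only [hδr, hP]
    linarith only [h10, hδr, hP]
  have h12 : d ^ 4 * (δ * r) ≤ 1 * (δ * r) := by
    refine mul_le_mul_of_nonneg_right ?_ hδr.le
    have h1 : d ^ 2 ≤ 1 := by (by_contra nlg; linarith only [nlg, mul_nonneg (sub_nonneg.2 hd3) (sub_nonneg.2 hd4), mul_nonneg (le_of_lt (sub_pos.2 (not_le.1 nlg))) (sub_nonneg.2 hd4), mul_nonneg (le_of_lt (sub_pos.2 (not_le.1 nlg))) (sub_nonneg.2 hd3)])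
    have h2 : d ^ 4 = d ^ 2 * d ^ 2 := by ring
    rw [h2]
    exact mul_le_one₀ h1 (sq_nonneg d) h1
  calc Q * (14 * P + 126 * d ^ 4 * X) ≤
      Q * (34 * (δ * r) + 126 * d ^ 4 * ((ε₀ + δ) * r)) := mul_le_mul_of_nonneg_left h9 hQ.le
    _ = Q * (126 * ε₀ * d ^ 4) * r + Q * (34 * (δ * r) + 126 * (d ^ 4 * (δ * r))) := by ring
    _ ≤ Q * (126 * ε₀ * d ^ 4) * r + Q * (34 * (δ * r) + 126 * (1 * (δ * r))) := by
        have h13 : 34 * (δ * r) + 126 * (d ^ 4 * (δ * r)) ≤ 34 * (δ * r) + 126 * (1 * (δ * r)) := by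
          linarith only [h12]
        have := mul_le_mul_of_nonneg_left h13 hQ.le
        linarith only [this]
    _ ≤ _ := by
      have h14 : 0 ≤ Q * (δ * r) := by positivity
      have e1 : Q * (34 * (δ * r) + 126 * (1 * (δ * r))) = (Q * 34 + Q * 126) * δ * r := by ring
      have e2 : (Q * 2 * 34 + Q * 126) * δ * r = (Q * 34 + Q * 126) * δ * r +
        34 * (Q * (δ * r)) := by ring
      rw [e1, e2]
      linarith only [h14]

/-- The algebra of the moved-tip inequality. -/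
theorem tip_alg {A P Q C ε₀ d δ r T₀ V E H U : ℝ} (hε₀ : 0 ≤ ε₀) (hδ : 0 < δ) (hr : 0 < r)
    (hrδ : r ≤ δ) (hd : |d| ≤ 1 / 2) (hQ : Q = 1 + 1 / d ^ 2) (hQ0 : 0 < Q) (hC0 : 0 ≤ C)
    (hU : 0 ≤ U) (a1 : A ^ 2 * π / 4 ≤ r * T₀) (hTe : 2 * T₀ - ε₀ ≤ δ)
    (a5 : 1.7 * P ≤ 4 * (r * T₀) - V) (hV : T₀ - V / (4 * r) ≤ δ) (hE : -δ ≤ E / r - ε₀)
    (hH : 1 - δ ≤ H / r)
    (h8 : E + H + U ≤ (1 - d) * r + (1 + d ^ 2) * ((A * (1 + d / 2)) ^ 2 * (π / 2)) +
      Q * (7 * (2 * P + 9 * π * A ^ 2 * d ^ 4)) + C * r ^ 2) :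
    0 ≤ d * (ε₀ - 1) + 160 * ε₀ * d ^ 2 + (2 + 4 + Q * 2 * 34 + Q * 126 + C) * δ := by
  have hπ := Real.pi_pos
  have hPr : P ≤ 2.4 * δ * r := by
    have e1 : V / (4 * r) * (4 * r) = V := by field_simp
    have h9 : (T₀ - V / (4 * r)) * (4 * r) ≤ δ * (4 * r) :=
      mul_le_mul_of_nonneg_right hV (by positivity)
    have e2 : (T₀ - V / (4 * r)) * (4 * r) = 4 * (r * T₀) - V / (4 * r) * (4 * r) := by ring
    rw [e2, e1] at h9
    have hδr : 0 < δ * r := by positivity
    linarith only [hδr, h9, a5]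
  have hA1 : A ^ 2 * (π / 2) ≤ (ε₀ + δ) * r := by
    have h1 : A ^ 2 * (π / 2) ≤ 2 * (r * T₀) := by linarith only [a1]
    have h2 : 2 * T₀ * r ≤ (ε₀ + δ) * r := mul_le_mul_of_nonneg_right (by linarith only [hTe]) hr.le
    linarith only [h2, h1]
  have hEr : (ε₀ - δ) * r ≤ E := by
    have e1 : E / r * r = E := by field_simp
    rw [← e1]; exact mul_le_mul_of_nonneg_right (by linarith only [hE]) hr.le
  have hHr : (1 - δ) * r ≤ H := by
    have e1 : H / r * r = H := by field_simp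
    rw [← e1]; exact mul_le_mul_of_nonneg_right hH hr.le
  have t1 := tip_alg1 hε₀ hδ hr hd hA1
  have t2 := tip_alg2 hδ hr hd hQ0 hA1 hPr
  have t3 : C * r ^ 2 ≤ C * δ * r := by
    have := mul_le_mul_of_nonneg_left hrδ (mul_nonneg hC0 hr.le)
    have e1 : C * r ^ 2 = C * r * r := by ring
    have e2 : C * δ * r = C * r * δ := by ring
    rw [e1, e2]; exact this
  have hpoly := tip_poly hε₀ hd
  rw [← hQ] at hpoly
  have hpoly' := mul_le_mul_of_nonneg_right hpoly hr.le
  have e1 : (1 + d ^ 2) * ((A * (1 + d / 2)) ^ 2 * (π / 2)) =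
    (1 + d ^ 2) * (1 + d / 2) ^ 2 * (A ^ 2 * (π / 2)) := by ring
  have e2 : Q * (7 * (2 * P + 9 * π * A ^ 2 * d ^ 4)) =
    Q * (14 * P + 126 * d ^ 4 * (A ^ 2 * (π / 2))) := by ring
  rw [e1, e2] at h8
  have e3 : ((1 + d ^ 2) * (1 + d / 2) ^ 2 * ε₀ + Q * (126 * ε₀ * d ^ 4)) * r =
    (1 + d ^ 2) * (1 + d / 2) ^ 2 * ε₀ * r + Q * (126 * ε₀ * d ^ 4) * r := by ring
  rw [e3] at hpoly'
  have hfin : 0 ≤ (d * (ε₀ - 1) + 160 * ε₀ * d ^ 2 +
    (2 + 4 + Q * 2 * 34 + Q * 126 + C) * δ) * r := by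
    have e4 : (d * (ε₀ - 1) + 160 * ε₀ * d ^ 2 +
      (2 + 4 + Q * 2 * 34 + Q * 126 + C) * δ) * r =
      (ε₀ + d * ε₀ + 160 * ε₀ * d ^ 2) * r - (ε₀ - δ) * r - (1 - δ) * r + (1 - d) * r +
        4 * δ * r + (Q * 2 * 34 + Q * 126) * δ * r + C * δ * r := by ring
    rw [e4]
    linarith only [hpoly', t3, t2, t1, hHr, hEr, h8, hU]
  exact nonneg_of_mul_nonneg_left hfin hr

end Vale.Agent.P128
end

section

/-! The moved-tip competitor for global minimizers. -/

open MeasureTheory Set Metric Filter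
open scoped ENNReal NNReal ContDiff Topology Real

namespace Vale.Agent.P128.GM

open Vale.Agent.P128

variable {u : ℂ → ℝ} {K : Set ℂ}

/-- Structure of the trace on a circle which meets `K` at most at `x + s p`. -/
theorem loc_tip_circle {x : ℂ} {R : ℝ} {Ω K : Set ℂ} {u : ℂ → ℝ} {G : ℂ → ℂ}
    (h : Loc x R Ω K u G) {M : ℝ} (hub : ∀ z ∈ ball x R, |u z| ≤ M) :
    ∀ᵐ s : ℝ, s ∈ Ioo 0 R → ∀ p : ℂ, ‖p‖ = 1 → (∀ w : ℂ, ‖w‖ = 1 → x + s • w ∈ K → w = p) →
      CircWeak {p} (fun θ => u (circleMap x s θ)) (tsl G x s) ∧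
      MemLp (tsl G x s) 2 (volume.restrict ang) ∧
      ∃ A : ℝ, A ^ 2 * π / 4 ≤ s * eT G x s ∧ |A| ≤ 2 * M ∧
        |cmean u x s| ≤ M ∧
        (∫ t in Ioo 0 (2 * π), (tsl G x s (p.arg + t) + A / 2 * Real.sin (t / 2)) ^ 2) +
          A ^ 2 * π / 4 = s * eT G x s ∧
        1.7 * ∫ t in Ioo 0 (2 * π), (tsl G x s (p.arg + t) + A / 2 * Real.sin (t / 2)) ^ 2 ≤
          4 * (s * eT G x s) - cvar u x s := by
  filter_upwards [h.ae_circWeak, h.ae_slices] with s hcw hsl hs p hp hpK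
  obtain ⟨hs0, hsR⟩ := hs
  have hπ := Real.pi_pos
  have hcw := hcw hs0 hsR
  obtain ⟨hf, hh⟩ := hsl hs0
  set f : ℝ → ℝ := fun θ => u (circleMap x s θ) with hfdef
  have hh' : MemLp (tsl G x s) 2 (volume.restrict ang) := hh
  have fm : Measurable f := h.um.comp (measurable_circleMap x s)
  have hm : Measurable (tsl G x s) := measurable_tsl h.Gm x s
  have pf : Function.Periodic f (2 * π) := fun θ => by
    simp only [hfdef, periodic_circleMap x s θ]
  have ph : Function.Periodic (tsl G x s) (2 * π) := fun θ => by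
    simp only [tsl, periodic_circleMap x s θ, periodic_circleMap 0 1 θ]
  have hfM : ∀ θ, |f θ| ≤ M := by
    intro θ
    refine hub _ ?_
    rw [mem_ball, dist_cm x hs0]; exact hsR
  have hw : CircWeak {p} f (tsl G x s) := fun Φ hΦ hd => by
    refine hcw Φ hΦ (hd.mono_right ?_)
    rintro w ⟨h1, h2⟩
    exact hpK w h1 h2
  refine ⟨hw, hh', ?_⟩
  obtain ⟨mF, mH, hwk⟩ := full_arc hp hw pf ph fm hm hfM hh'
  have hmean : cmean u x s = (2 * π)⁻¹ * ∫ t in Ioo 0 (2 * π), f (p.arg + t) := by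
    unfold cmean
    rw [← integral_ang_shift pf p.arg]
  obtain ⟨A, hA⟩ : ∃ A : ℝ, A = π⁻¹ * ∫ t in Ioo 0 (2 * π), f (p.arg + t) * Real.cos (t / 2) :=
    ⟨_, rfl⟩
  obtain ⟨k1, k2, k3⟩ := first_mode mF mH hwk (M := M) (Eventually.of_forall fun t => hfM _) hA
    hmean
  have pv : Function.Periodic (fun θ => (f θ - cmean u x s) ^ 2) (2 * π) := fun θ => by
    simp only [pf θ]
  have hv : cvar u x s = ∫ t in Ioo 0 (2 * π), (f (p.arg + t) - cmean u x s) ^ 2 := by
    unfold cvar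
    rw [integral_ang_shift pv p.arg]
  have pt : Function.Periodic (fun θ => tsl G x s θ ^ 2) (2 * π) := fun θ => by
    simp only [ph θ]
  have ht : ∫ t in Ioo 0 (2 * π), tsl G x s (p.arg + t) ^ 2 = s * eT G x s := by
    rw [← tsl_sq, integral_ang_shift pt p.arg]
  rw [ht] at k1 k3
  rw [← hv] at k3
  have hP0 : 0 ≤ ∫ t in Ioo 0 (2 * π), (tsl G x s (p.arg + t) + A / 2 * Real.sin (t / 2)) ^ 2 :=
    integral_nonneg fun _ => sq_nonneg _
  have hv2 : (volume : Measure ℝ).real (Ioo 0 (2 * π)) = 2 * π := by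
    rw [measureReal_def, Real.volume_Ioo, ENNReal.toReal_ofReal (by linarith only [hπ])]; ring
  have bd : ∀ F : ℝ → ℝ, (∀ t, |F t| ≤ M) → |∫ t in Ioo 0 (2 * π), F t| ≤ M * (2 * π) := by
    intro F hF
    have h1 := norm_setIntegral_le_of_norm_le_const (μ := volume) (s := Ioo 0 (2 * π))
      (f := F) (C := M) measure_Ioo_lt_top (fun θ _ => hF θ)
    rwa [hv2, Real.norm_eq_abs] at h1
  refine ⟨A, by linarith, ?_, ?_, by linarith, k3⟩
  · rw [hA, abs_mul, abs_of_pos (inv_pos.mpr hπ)]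
    have h1 := bd (fun t => f (p.arg + t) * Real.cos (t / 2)) fun t => by
      rw [abs_mul]
      calc |f (p.arg + t)| * |Real.cos (t / 2)| ≤ M * 1 :=
            mul_le_mul (hfM _) (Real.abs_cos_le_one _) (abs_nonneg _)
              ((abs_nonneg _).trans (hfM 0))
        _ = M := mul_one M
    calc π⁻¹ * |∫ t in Ioo 0 (2 * π), f (p.arg + t) * Real.cos (t / 2)| ≤
          π⁻¹ * (M * (2 * π)) := mul_le_mul_of_nonneg_left h1 (by positivity)
      _ = 2 * M := by field_simp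
  · rw [hmean, abs_mul, abs_of_pos (by positivity)]
    have h1 := bd (fun t => f (p.arg + t)) fun t => hfM _
    calc (2 * π)⁻¹ * |∫ t in Ioo 0 (2 * π), f (p.arg + t)| ≤ (2 * π)⁻¹ * (M * (2 * π)) :=
          mul_le_mul_of_nonneg_left h1 (by positivity)
      _ = M := by field_simp

/-- Localised function. -/
noncomputable def lcu (K : Set ℂ) (R : ℝ) (u : ℂ → ℝ) : ℂ → ℝ := (ball (0 : ℂ) R \ K).indicator u

/-- Localised gradient. -/
noncomputable def lcG (K : Set ℂ) (R : ℝ) (u : ℂ → ℝ) : ℂ → ℂ :=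
  (ball (0 : ℂ) R \ K).indicator (grad u)

theorem ae_notMem_circle {s : ℝ} (hs0 : 0 < s) (hfin : (K ∩ sphere 0 s).Finite) :
    ∀ᵐ θ ∂(volume.restrict ang), circleMap 0 s θ ∉ K := by
  have h4 : {θ | θ ∈ ang ∧ circleMap 0 s θ ∈ K}.Finite := by
    refine Finite.of_finite_image (f := circleMap 0 s) (hfin.subset ?_) ?_
    · rintro _ ⟨θ, hθ, rfl⟩
      exact ⟨hθ.2, by rw [mem_sphere, dist_circleMap_center 0 hs0.le]⟩
    · intro θ hθ θ' hθ' he
      rw [cm_eq, cm_eq] at he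
      have h2 : uc θ = uc θ' := by
        have h3 := add_left_cancel he
        exact mul_left_cancel₀ (by exact_mod_cast hs0.ne') h3
      refine uc_inj h2 ?_
      rw [abs_lt]
      constructor <;> linarith [hθ.1.1, hθ.1.2, hθ'.1.1, hθ'.1.2]
  rw [ae_restrict_iff' measurableSet_Ioo, ae_iff]
  refine measure_mono_null ?_ (h4.measure_zero volume)
  intro θ hθ
  simp only [mem_ofPred_eq, Classical.not_imp, not_not] at hθ
  exact hθ

/-- The moved-tip competitor on circles meeting `K` in at most one point. -/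
theorem GMin.tip_moved (h : GMin u K) {R M : ℝ} (hM : ∀ z, |lcu K (R + 1) u z| ≤ M) :
    ∀ᵐ s : ℝ, s ∈ Ioo 0 R → ∀ p : ℂ, ‖p‖ = 1 → (∀ w : ℂ, ‖w‖ = 1 → 0 + s • w ∈ K → w = p) →
      ∀ A : ℝ, |A| ≤ 2 * M → ∀ d κ : ℝ, |d| ≤ 1 / 2 → 0 < κ →
      En u s + Len K s ≤ (1 - d) * s +
        (1 + κ) * ((A * (1 + d / 2)) ^ 2 * (π / 2)) + (1 + 1 / κ) * (7 * (2 *
          (∫ t in Ioo 0 (2 * π), (tsl (lcG K (R + 1) u) 0 s (p.arg + t) +
            A / 2 * Real.sin (t / 2)) ^ 2) + 9 * π * A ^ 2 * d ^ 4)) := by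
  have hL := h.loc (lt_add_one R)
  filter_upwards [h.glue0, hL.ae_circWeak, hL.ae_slices, h.ae_finite] with s hcmp hcw hsl hfin hs
    p hp hpK A hA d κ hd hκ
  obtain ⟨hs0, hsR⟩ := hs
  have hfin := hfin hs0
  have hπ := Real.pi_pos
  have hM0 : 0 ≤ M := (abs_nonneg _).trans (hM 0)
  have hcw := hcw hs0 hsR
  obtain ⟨hf, hh⟩ := hsl hs0
  set f : ℝ → ℝ := fun θ => lcu K (R + 1) u (circleMap 0 s θ) with hfdef
  have hh' : MemLp (tsl (lcG K (R + 1) u) 0 s) 2 (volume.restrict ang) := hh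
  have fm : Measurable f := hL.um.comp (measurable_circleMap 0 s)
  have hm : Measurable (tsl (lcG K (R + 1) u) 0 s) := measurable_tsl hL.Gm 0 s
  have pf : Function.Periodic f (2 * π) := fun θ => by
    simp only [hfdef, periodic_circleMap 0 s θ]
  have ph : Function.Periodic (tsl (lcG K (R + 1) u) 0 s) (2 * π) := fun θ => by
    simp only [tsl, periodic_circleMap 0 s θ, periodic_circleMap 0 1 θ]
  have hfM : ∀ θ, |f θ| ≤ M := fun θ => hM _
  have hw : CircWeak {p} f (tsl (lcG K (R + 1) u) 0 s) := fun Φ hΦ hdis => by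
    refine hcw Φ hΦ (hdis.mono_right ?_)
    rintro w ⟨h1, h2⟩
    exact hpK w h1 h2
  have hd' := abs_le.mp hd
  have hA' : |A * (1 + d / 2)| ≤ 3 * M := by
    rw [abs_mul]
    have : |1 + d / 2| ≤ 3 / 2 := by
      rw [abs_of_pos (by linarith)]; linarith
    calc |A| * |1 + d / 2| ≤ 2 * M * (3 / 2) := mul_le_mul hA this (abs_nonneg _) (by (clear * - hM0; positivity))
      _ = 3 * M := by ring
  obtain ⟨W, Γ, Wm, Wb, Γ2, Γe, ibp⟩ := tip_ext 0 hp hs0 fm hm pf ph hfM hh' hw hA' hd hκ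
  have hmW : MemLp W 2 (volume.restrict (ball 0 s)) := by
    have hfinB : IsFiniteMeasure (volume.restrict (ball (0 : ℂ) s)) :=
      ⟨by rw [Measure.restrict_apply_univ]; exact measure_ball_lt_top⟩
    exact MemLp.of_bound Wm.aestronglyMeasurable (27 * M)
      ((ae_restrict_mem measurableSet_ball).mono fun z hz => Wb z hz)
  have hcirc : ∀ φ : ℂ → ℝ, ∀ v : ℂ, ∫ θ in ang, f θ *
      (φ (circleMap 0 s θ) * inner ℝ (circleMap 0 1 θ) v) =
      ∫ θ in ang, u (circleMap 0 s θ) * (φ (circleMap 0 s θ) * inner ℝ (circleMap 0 1 θ) v) := by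
    intro φ v
    refine integral_congr_ae ((ae_notMem_circle hs0 hfin).mono fun θ hθ => ?_)
    have : circleMap 0 s θ ∈ ball (0 : ℂ) (R + 1) \ K := by
      refine ⟨?_, hθ⟩
      rw [mem_ball, dist_circleMap_center 0 hs0.le]
      linarith only [hsR]
    simp only [hfdef, lcu, indicator_of_mem this]
  have key := hcmp hs0 W Γ (slit 0 p (d * s) s) hmW Γ2 (isCompact_slit 0 p (d * s) s).isClosed
    (slit_subset hp hs0 hd) (fun φ g1 g2 g4 _ v => by
      rw [ibp φ g1 g2 g4 v]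
      congr 1
      exact hcirc φ v)
  obtain ⟨P, hP⟩ : ∃ P, P = ∫ t in Ioo 0 (2 * π),
    (tsl (lcG K (R + 1) u) 0 s (p.arg + t) + A / 2 * Real.sin (t / 2)) ^ 2 := ⟨_, rfl⟩
  have hP0 : 0 ≤ P := by rw [hP]; exact integral_nonneg fun _ => sq_nonneg _
  have hrest := tip_rest 0 hp hs0 hm ph hh' (A := A) hd
  rw [← hP] at hrest ⊢
  have h0 : 0 ≤ (1 - d) * s := mul_nonneg (by linarith) hs0.le
  obtain ⟨X, hX⟩ : ∃ X, X = (1 + κ) * ((A * (1 + d / 2)) ^ 2 * (π / 2)) +
    (1 + 1 / κ) * (7 * (2 * P + 9 * π * A ^ 2 * d ^ 4)) := ⟨_, rfl⟩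
  have hX0 : 0 ≤ X := by rw [hX]; (clear * - hκ hP0; positivity)
  have hslit : μH[1] (slit 0 p (d * s) s) ≤ ENNReal.ofReal ((1 - d) * s) := by
    refine (hausdorff_slit 0 hp (d * s) s).trans (ENNReal.ofReal_le_ofReal (le_of_eq ?_))
    ring
  have hΓ : ∫⁻ z in ball 0 s, ENNReal.ofReal (‖Γ z‖ ^ 2) ≤ ENNReal.ofReal X := by
    refine Γe.trans (ENNReal.ofReal_le_ofReal ?_)
    rw [hX]
    have : 0 ≤ 1 + 1 / κ := by positivity
    gcongr
  have hlhs : (∫⁻ z in ball 0 s, ENNReal.ofReal (‖grad u z‖ ^ 2)) + μH[1] (K ∩ ball 0 s) =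
      ENNReal.ofReal (En u s + Len K s) := by
    unfold En Len
    rw [ENNReal.ofReal_add (integral_nonneg fun _ => by (clear * -; positivity)) ENNReal.toReal_nonneg,
      ENNReal.ofReal_toReal (h.len_fin 0 s), GMin.lintegral_grad (h.integrableOn s)]
  rw [hlhs] at key
  have h5 := key.trans (add_le_add hΓ hslit)
  rw [← ENNReal.ofReal_add hX0 h0, ENNReal.ofReal_le_ofReal_iff (by linarith only [hX0, h0])] at h5
  rw [hX] at h5
  linarith only [h5]

end Vale.Agent.P128.GM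
end

section

/-! The first variation inequality for the tip, at a single scale. -/

open MeasureTheory Set Metric Filter
open scoped ENNReal NNReal ContDiff Topology Real

namespace Vale.Agent.P128.GM

open Vale.Agent.P128

variable {u : ℂ → ℝ} {K : Set ℂ}

theorem tipAlg0 {A P Q e d δ r T V E H : ℝ} (he : 0 ≤ e) (hδ : 0 < δ) (hr : 0 < r)
    (hd : |d| ≤ 1 / 2) (hQ : Q = 1 + 1 / d ^ 2) (hQ0 : 0 < Q)
    (a1 : A ^ 2 * π / 4 ≤ r * T) (hTe : 2 * T - e ≤ δ)
    (a5 : 1.7 * P ≤ 4 * (r * T) - V) (hV : T - V / (4 * r) ≤ δ) (hE : E = e * r)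
    (hH : r ≤ H)
    (h8 : E + H ≤ (1 - d) * r + (1 + d ^ 2) * ((A * (1 + d / 2)) ^ 2 * (π / 2)) +
      Q * (7 * (2 * P + 9 * π * A ^ 2 * d ^ 4))) :
    0 ≤ d * (e - 1) + 160 * e * d ^ 2 + (2 + 4 + Q * 2 * 34 + Q * 126 + 0) * δ := by
  -- reduce to scale `δ`
  obtain ⟨l, hl⟩ : ∃ l, l = δ / r := ⟨_, rfl⟩
  have hl0 : 0 < l := by rw [hl]; positivity
  have hlr : l * r = δ := by rw [hl]; field_simp
  have hs : Real.sqrt l ^ 2 = l := Real.sq_sqrt hl0.le
  refine tip_alg (A := Real.sqrt l * A) (P := l * P) (r := δ) (T₀ := T) (V := l * V)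
    (E := l * E) (H := l * H) (U := 0) he hδ hδ le_rfl hd hQ hQ0 le_rfl le_rfl ?_ hTe ?_ ?_ ?_ ?_ ?_
  · have h1 := mul_le_mul_of_nonneg_left a1 hl0.le
    have e1 : (Real.sqrt l * A) ^ 2 * π / 4 = l * (A ^ 2 * π / 4) := by
      rw [mul_pow, hs]; ring
    rw [e1, ← hlr]
    linarith only [h1]
  · have h1 := mul_le_mul_of_nonneg_left a5 hl0.le
    rw [← hlr]
    linarith only [h1]
  · have e1 : l * V / (4 * δ) = V / (4 * r) := by
      rw [← hlr]; field_simp
    rw [e1]; exact hV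
  · have e1 : l * E / δ = e := by
      rw [hE, ← hlr]; field_simp
    rw [e1]; linarith only [hδ]
  · have e1 : 1 ≤ l * H / δ := by
      rw [le_div_iff₀ hδ, one_mul, ← hlr]
      exact mul_le_mul_of_nonneg_left hH hl0.le
    linarith only [e1, hδ]
  · have h1 := mul_le_mul_of_nonneg_left h8 hl0.le
    have e1 : (1 + d ^ 2) * ((Real.sqrt l * A * (1 + d / 2)) ^ 2 * (π / 2)) =
        l * ((1 + d ^ 2) * ((A * (1 + d / 2)) ^ 2 * (π / 2))) := by
      have : (Real.sqrt l * A * (1 + d / 2)) ^ 2 = l * (A * (1 + d / 2)) ^ 2 := by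
        calc (Real.sqrt l * A * (1 + d / 2)) ^ 2 = Real.sqrt l ^ 2 * (A * (1 + d / 2)) ^ 2 := by ring
          _ = _ := by rw [hs]
      rw [this]; ring
    have e2 : Q * (7 * (2 * (l * P) + 9 * π * (Real.sqrt l * A) ^ 2 * d ^ 4)) =
        l * (Q * (7 * (2 * P + 9 * π * A ^ 2 * d ^ 4))) := by
      rw [mul_pow, hs]; ring
    rw [e1, e2, ← hlr]
    linarith only [h1]

theorem tip_len_ge (h : GMin u K) (h0 : (0 : ℂ) ∈ K) {s : ℝ} (hs : 0 ≤ s) : s ≤ Len K s := by
  have h1 := eilenberg (X := ℂ) lipschitzWith_one_norm (E := K) (m := 1)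
    (S := Ioo 0 s) (fun t ht => by
      obtain ⟨p, hp, hpt⟩ := meets_sphere h0 (h.unbounded h0) (s := t) (by
        rw [norm_zero]; exact ht.1.le)
      rw [inter_norm_preimage]
      have h2 : (K ∩ sphere 0 t).Nonempty := ⟨p, connectedComponentIn_subset K 0 hp, hpt⟩
      have h3 := one_le_encard_iff_nonempty.2 h2
      exact_mod_cast h3)
  have h3 : ((1 : ℕ) : ℝ≥0∞) * volume (Ioo 0 s) ≤ μH[1] (K ∩ ball (0 : ℂ) s) := by
    refine h1.trans (measure_mono ?_)
    rintro z ⟨hz, hz'⟩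
    refine ⟨hz, ?_⟩
    rw [mem_ball_zero_iff]
    exact hz'.2
  have h4 := ENNReal.toReal_mono (h.len_fin 0 s) h3
  rw [Real.volume_Ioo, ENNReal.toReal_mul, ENNReal.toReal_ofReal (by linarith)] at h4
  unfold Len
  simpa using h4

theorem eT_lcG {R s : ℝ} (hs0 : 0 < s) (hsR : s < R) (hK : ∀ᵐ θ ∂(volume.restrict ang),
    circleMap 0 s θ ∉ K) : eT (lcG K R u) 0 s = TT u s := by
  unfold eT TT
  rw [intervalIntegral.integral_of_le (by linarith [Real.pi_pos]), integral_Ioc_eq_integral_Ioo]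
  congr 1
  refine integral_congr_ae (hK.mono fun θ hθ => ?_)
  have : circleMap 0 s θ ∈ ball (0 : ℂ) R \ K := by
    refine ⟨?_, hθ⟩
    rw [mem_ball, dist_circleMap_center 0 hs0.le]
    linarith
  simp only [lcG, indicator_of_mem this, ut]

/-- The energy is controlled by the variance and the normal energy. -/
theorem en_sq_le (h : GMin u K) {R s M : ℝ} (hs0 : 0 < s) (hsR : s < R)
    (hM : ∀ z, |lcu K R u z| ≤ M) (hK : ∀ᵐ θ ∂(volume.restrict ang), circleMap 0 s θ ∉ K)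
    (hgr : IntegrableOn (fun θ => ‖grad u (circleMap 0 s θ)‖ ^ 2) ang)
    (hE : En u s = s * ∫ θ in ang, u (circleMap 0 s θ) * un u s θ)
    (hfl : ∫ θ in ang, un u s θ = 0) :
    En u s ^ 2 ≤ cvar (lcu K R u) 0 s * (s * NN u s) := by
  have hπ := Real.pi_pos
  have hfinm : IsFiniteMeasure (volume.restrict ang) := ⟨by simp⟩
  obtain ⟨c, hc⟩ : ∃ c, c = cmean (lcu K R u) 0 s := ⟨_, rfl⟩
  have hun : MemLp (un u s) 2 (volume.restrict ang) := by
    refine (memLp_two_iff_integrable_sq (measurable_un u s).aestronglyMeasurable).2 ?_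
    exact integrable_un_sq hgr
  have hfmm : Measurable fun θ => lcu K R u (circleMap 0 s θ) :=
    (h.measurable_ind R).comp (measurable_circleMap 0 s)
  have hf : MemLp (fun θ => lcu K R u (circleMap 0 s θ) - c) 2 (volume.restrict ang) := by
    refine MemLp.sub ?_ (memLp_const c)
    exact MemLp.of_bound hfmm.aestronglyMeasurable M (Eventually.of_forall fun θ => hM _)
  have h1 := cs_sq hf hun
  have e1 : ∫ θ in ang, (lcu K R u (circleMap 0 s θ) - c) * un u s θ =
      ∫ θ in ang, u (circleMap 0 s θ) * un u s θ := by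
    have hi : Integrable (fun θ => lcu K R u (circleMap 0 s θ) * un u s θ)
        (volume.restrict ang) := by
      have := (hf.add (memLp_const c)).integrable_mul hun
      refine this.congr (Eventually.of_forall fun θ => ?_)
      simp
    have e2 : ∀ θ, (lcu K R u (circleMap 0 s θ) - c) * un u s θ =
        lcu K R u (circleMap 0 s θ) * un u s θ - c * un u s θ := fun θ => by ring
    simp only [e2]
    rw [integral_sub hi ((hun.integrable (by norm_num)).const_mul c), integral_const_mul, hfl,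
      mul_zero, sub_zero]
    refine integral_congr_ae (hK.mono fun θ hθ => ?_)
    have : circleMap 0 s θ ∈ ball (0 : ℂ) R \ K := by
      refine ⟨?_, hθ⟩
      rw [mem_ball, dist_circleMap_center 0 hs0.le]
      linarith
    simp only [lcu, indicator_of_mem this]
  rw [e1] at h1
  rw [hE, mul_pow]
  have e3 : s * NN u s = s ^ 2 * ∫ θ in ang, un u s θ ^ 2 := by
    unfold NN
    rw [interval_eq_ang]; ring
  have e4 : cvar (lcu K R u) 0 s = ∫ θ in ang, (lcu K R u (circleMap 0 s θ) - c) ^ 2 := by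
    unfold cvar; rw [hc]
  rw [e3, e4]
  have := mul_le_mul_of_nonneg_left h1 (sq_nonneg s)
  linarith

end Vale.Agent.P128.GM
end

section

/-! The tip lemma. -/

open MeasureTheory Set Metric Filter
open scoped ENNReal NNReal ContDiff Topology Real

namespace Vale.Agent.P128.GM

open Vale.Agent.P128

variable {u : ℂ → ℝ} {K : Set ℂ}

/-- Elementary consequences of a small defect. -/
theorem tip_defect {e T N V s η δ : ℝ} (hs : 0 < s) (he : 0 ≤ e) (he' : e ≤ 2 * π)
    (hT : 0 ≤ T) (hN : 0 ≤ N) (hV : 0 ≤ V) (hVT : V ≤ 4 * (s * T))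
    (hEV : (e * s) ^ 2 ≤ V * (s * N)) (hom : N + T - e ≤ η) (hη : 0 ≤ η)
    (hδ : η + Real.sqrt (4 * π * η + η ^ 2) ≤ δ) :
    2 * T - e ≤ δ ∧ T - V / (4 * s) ≤ δ := by
  have hsq : 0 ≤ Real.sqrt (4 * π * η + η ^ 2) := Real.sqrt_nonneg _
  have hv0 : 0 ≤ V / (4 * s) := by positivity
  obtain ⟨v, hv⟩ : ∃ v, v = V / (4 * s) := ⟨_, rfl⟩
  have hVv : V = 4 * s * v := by rw [hv]; field_simp
  have hs2 : 0 < s ^ 2 := by positivity
  have h1 : e ^ 2 ≤ 4 * v * N := by
    rw [hVv] at hEV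
    have e1 : (e * s) ^ 2 = e ^ 2 * s ^ 2 := by ring
    have e2 : 4 * s * v * (s * N) = (4 * v * N) * s ^ 2 := by ring
    rw [e1, e2] at hEV
    exact le_of_mul_le_mul_right hEV hs2
  have hvT : v ≤ T := by
    rw [hVv] at hVT
    have e1 : 4 * s * v = (4 * s) * v := by ring
    have e2 : 4 * (s * T) = (4 * s) * T := by ring
    rw [e1, e2] at hVT
    exact le_of_mul_le_mul_left hVT (by positivity)
  rw [← hv] at hv0 ⊢
  constructor
  · have h2 : e ^ 2 ≤ 4 * T * N := h1.trans (by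
      have := mul_le_mul_of_nonneg_right hvT hN
      linarith)
    have h3 : (T - N) ^ 2 ≤ 4 * π * η + η ^ 2 := by
      have h4 : (T + N) ^ 2 ≤ (e + η) ^ 2 := by
        have h5 : T + N ≤ e + η := by linarith
        exact pow_le_pow_left₀ (by linarith) h5 2
      linarith only [mul_nonneg (sub_nonneg.2 hom) (sub_nonneg.2 hvT), mul_nonneg (sub_nonneg.2 hom) (sub_nonneg.2 hv0), mul_nonneg (sub_nonneg.2 hom) (sub_nonneg.2 hom), mul_nonneg (sub_nonneg.2 hN) (sub_nonneg.2 hom), mul_nonneg (sub_nonneg.2 he') (sub_nonneg.2 hη), h2]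
    have h4 : T - N ≤ Real.sqrt (4 * π * η + η ^ 2) := Real.le_sqrt_of_sq_le h3
    linarith
  · have h5 : e ≤ v + N := by
      have h6 : e ^ 2 ≤ (v + N) ^ 2 := by linarith only [sq_nonneg (v - N), h1]
      exact le_of_sq_le_sq h6 (by linarith)
    linarith

/-- C2: the tip lemma. -/
theorem tip_lemma {e₀ ε : ℝ} (_he₀ : 0 < e₀) (hε : 0 < ε) :
    ∃ η : ℝ, 0 < η ∧ ∀ (u : ℂ → ℝ) (K : Set ℂ), GMin u K → (0 : ℂ) ∈ K →
      ∀ᵐ s : ℝ, 0 < s → OnePt K s → e₀ ≤ En u s / s → om u s ≤ η → |En u s / s - 1| ≤ ε := by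
  have hπ := Real.pi_pos
  obtain ⟨D, hD⟩ : ∃ D, D = min (1 / 2) (ε / (1280 * π)) := ⟨_, rfl⟩
  have hD0 : 0 < D := by rw [hD]; positivity
  have hD1 : D ≤ 1 / 2 := by rw [hD]; exact min_le_left _ _
  have hD2 : 320 * π * D ≤ ε / 4 := by
    have h1 : D ≤ ε / (1280 * π) := by rw [hD]; exact min_le_right _ _
    calc 320 * π * D ≤ 320 * π * (ε / (1280 * π)) := by gcongr
      _ = ε / 4 := by field_simp; ring
  obtain ⟨Q, hQ⟩ : ∃ Q, Q = 1 + 1 / D ^ 2 := ⟨_, rfl⟩
  have hQ0 : 0 < Q := by rw [hQ]; positivity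
  obtain ⟨W, hW⟩ : ∃ W, W = 2 + 4 + Q * 2 * 34 + Q * 126 + 0 := ⟨_, rfl⟩
  have hW0 : 0 < W := by rw [hW]; positivity
  obtain ⟨δ, hδ⟩ : ∃ δ, δ = ε * D / (2 * W) := ⟨_, rfl⟩
  have hδ0 : 0 < δ := by rw [hδ]; positivity
  have hWδ : W * δ = ε / 2 * D := by rw [hδ]; field_simp
  obtain ⟨η, hη⟩ : ∃ η, η = min 1 (min (δ / 2) (δ ^ 2 / (4 * (4 * π + 1)))) := ⟨_, rfl⟩
  have hη0 : 0 < η := by rw [hη]; positivity
  have hη1 : η ≤ 1 := by rw [hη]; exact min_le_left _ _
  have hη2 : η ≤ δ / 2 := by rw [hη]; exact (min_le_right _ _).trans (min_le_left _ _)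
  have hη3 : (4 * π + 1) * η ≤ δ ^ 2 / 4 := by
    have h1 : η ≤ δ ^ 2 / (4 * (4 * π + 1)) := by
      rw [hη]; exact (min_le_right _ _).trans (min_le_right _ _)
    calc (4 * π + 1) * η ≤ (4 * π + 1) * (δ ^ 2 / (4 * (4 * π + 1))) := by gcongr
      _ = δ ^ 2 / 4 := by field_simp
  have hηδ : η + Real.sqrt (4 * π * η + η ^ 2) ≤ δ := by
    have h1 : 4 * π * η + η ^ 2 ≤ (δ / 2) ^ 2 := by (by_contra nlg; linarith only [nlg, mul_nonneg (sub_nonneg.2 hη1) (sub_nonneg.2 hη3), mul_nonneg (le_of_lt (sub_pos.2 hη0)) (sub_nonneg.2 hη3), mul_nonneg (le_of_lt (sub_pos.2 hη0)) (sub_nonneg.2 hη1), mul_nonneg (le_of_lt (sub_pos.2 (not_le.1 nlg))) (sub_nonneg.2 hη1), mul_pos (sub_pos.2 (not_le.1 nlg)) (sub_pos.2 hη0)])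
    have h2 : Real.sqrt (4 * π * η + η ^ 2) ≤ δ / 2 := by
      rw [← Real.sqrt_sq (by positivity : 0 ≤ δ / 2)]
      exact Real.sqrt_le_sqrt h1
    linarith only [h2, hη2]
  refine ⟨η, hη0, fun u K h h0 => ?_⟩
  have hbd : ∀ n : ℕ, ∃ M : ℝ, ∀ z, |lcu K ((n : ℝ) + 1) u z| ≤ M := by
    intro n
    obtain ⟨M, hM⟩ := h.bdd ((n : ℝ) + 1)
    refine ⟨max M 0, fun z => ?_⟩
    unfold lcu
    by_cases hz : z ∈ ball (0 : ℂ) ((n : ℝ) + 1) \ K
    · rw [indicator_of_mem hz]
      exact (hM z hz.1 hz.2).trans (le_max_left _ _)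
    · rw [indicator_of_notMem hz, abs_zero]
      exact le_max_right _ _
  choose M hM using hbd
  have hall : ∀ᵐ s : ℝ, ∀ n : ℕ, s ∈ Ioo (0 : ℝ) n → ∀ p : ℂ, ‖p‖ = 1 →
      (∀ w : ℂ, ‖w‖ = 1 → 0 + s • w ∈ K → w = p) → ∃ A P : ℝ, 0 ≤ P ∧
        A ^ 2 * π / 4 ≤ s * eT (lcG K ((n : ℝ) + 1) u) 0 s ∧
        1.7 * P ≤ 4 * (s * eT (lcG K ((n : ℝ) + 1) u) 0 s) -
          cvar (lcu K ((n : ℝ) + 1) u) 0 s ∧
        ∀ d κ : ℝ, |d| ≤ 1 / 2 → 0 < κ →
          En u s + Len K s ≤ (1 - d) * s +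
            (1 + κ) * ((A * (1 + d / 2)) ^ 2 * (π / 2)) + (1 + 1 / κ) * (7 * (2 * P +
              9 * π * A ^ 2 * d ^ 4)) := by
    refine ae_all_iff.2 fun n => ?_
    filter_upwards [loc_tip_circle (h.loc (lt_add_one (n : ℝ))) (M := M n) (fun z _ => hM n z),
      h.tip_moved (R := n) (hM n)] with s h1 h2 hs p hp hpK
    obtain ⟨-, -, A, a1, a2, -, -, a5⟩ := h1 hs p hp hpK
    refine ⟨A, ∫ t in Ioo 0 (2 * π), (tsl (lcG K ((n : ℝ) + 1) u) 0 s (p.arg + t) +
      A / 2 * Real.sin (t / 2)) ^ 2, integral_nonneg fun _ => sq_nonneg _, a1, a5, ?_⟩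
    intro d κ hd hκ
    exact h2 hs p hp hpK A a2 d κ hd hκ
  filter_upwards [hall, h.ae_finite, polar_ae (fun R => h.integrableOn R),
    h.green_circle_of h.bdd, h.flux fun x hx => h.unbounded hx] with s h1 h2 h3 h4 h5 hs hone _ hom
  have hfin := h2 hs
  have hK := ae_notMem_circle hs hfin
  have hgr := h3 hs
  obtain ⟨-, hE⟩ := h4 hs
  rw [interval_eq_ang] at hE
  obtain ⟨z0, hz0⟩ := hone
  have hsub : (K ∩ sphere 0 s).Subsingleton := by rw [hz0]; exact subsingleton_singleton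
  obtain ⟨p, hp, hpK⟩ := exists_dir_one hs hsub
  have hpin : circleMap 0 s p.arg ∈ K := by
    have hz1 : z0 ∈ K ∩ sphere 0 s := by rw [hz0]; rfl
    obtain ⟨hz2, hz3⟩ := hz1
    rw [mem_sphere, dist_eq_norm, sub_zero] at hz3
    have e1 : (0 : ℂ) + s • ((s⁻¹ : ℝ) • z0) = z0 := by
      rw [smul_smul, mul_inv_cancel₀ hs.ne', one_smul, zero_add]
    have e2 := hpK ((s⁻¹ : ℝ) • z0) (by
      rw [norm_smul, hz3, norm_inv, Real.norm_of_nonneg hs.le, inv_mul_cancel₀ hs.ne'])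
      (by rw [e1]; exact hz2)
    have e3 : circleMap 0 s p.arg = z0 := by
      rw [cm_eq, uc_arg hp, ← e2, ← Complex.real_smul, e1]
    rw [e3]; exact hz2
  have hfl : ∫ θ in ang, un u s θ = 0 := by
    have h6 := h5 hs p.arg (p.arg + 2 * π) (by linarith only [hπ]) le_rfl hpin
      (by rw [periodic_circleMap 0 s p.arg]; exact hpin) (fun θ hθ hθK => by
        have e1 : (0 : ℂ) + s • uc θ = circleMap 0 s θ := by
          rw [cm_eq, Complex.real_smul]
        have e2 := hpK (uc θ) (norm_uc θ) (by rw [e1]; exact hθK)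
        rw [← uc_arg hp] at e2
        have e3 : uc θ = uc (p.arg) := e2
        have := uc_inj e3 (by
          rw [abs_lt]
          constructor <;> linarith [hθ.1, hθ.2])
        linarith only [hθ.1, this])
    rw [integral_ang_shift (periodic_un u s) p.arg, ← integral_Ioc_eq_integral_Ioo,
      ← intervalIntegral.integral_of_le (by linarith only [hπ]),
      intervalIntegral.integral_comp_add_left (fun θ => un u s θ) p.arg, add_zero]
    exact h6
  obtain ⟨n, hn⟩ := exists_nat_gt s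
  obtain ⟨A, P, hP0, a1, a5, a6⟩ := h1 n ⟨hs, hn⟩ p hp hpK
  rw [eT_lcG hs (by linarith only [hn, hD1, hD0]) hK] at a1 a5
  have hEV := en_sq_le h hs (by linarith only [hn, hD1, hD0] : s < (n : ℝ) + 1) (hM n) hK hgr hE hfl
  obtain ⟨V, hV⟩ : ∃ V, V = cvar (lcu K ((n : ℝ) + 1) u) 0 s := ⟨_, rfl⟩
  rw [← hV] at a5 hEV
  have hV0 : 0 ≤ V := by rw [hV]; exact integral_nonneg fun _ => sq_nonneg _
  obtain ⟨e, he⟩ : ∃ e, e = En u s / s := ⟨_, rfl⟩
  have hEe : En u s = e * s := by rw [he]; field_simp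
  have hEn0 : 0 ≤ En u s := integral_nonneg fun _ => by (clear * -; positivity)
  have he0 : 0 ≤ e := by rw [he]; (clear * - hEn0 hs; positivity)
  have hgrow := h.growth hs
  have hlen := tip_len_ge h h0 hs.le
  have he1 : e ≤ 2 * π := by
    rw [he, div_le_iff₀ hs]; linarith only [hlen, hgrow, hs]
  unfold om at hom
  rw [← he] at hom ⊢
  rw [hEe] at hEV
  obtain ⟨k1, k2⟩ := tip_defect hs he0 he1 (TT_nonneg u hs.le) (NN_nonneg u hs.le) hV0
    (by linarith only [a5, hP0]) hEV hom hη0.le hηδ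
  have hvar : ∀ d : ℝ, |d| ≤ 1 / 2 → Q = 1 + 1 / d ^ 2 → d ≠ 0 →
      0 ≤ d * (e - 1) + 160 * e * d ^ 2 + W * δ := by
    intro d hd hQd hd0
    have h7 := a6 d (d ^ 2) hd (by positivity)
    rw [← hQd] at h7
    have h8 := tipAlg0 (δ := δ) he0 hδ0 hs hd hQd hQ0 a1 k1 a5 k2 hEe hlen h7
    rw [hW]
    exact h8
  have v1 := hvar D (by rw [abs_of_pos hD0]; exact hD1) hQ hD0.ne'
  have v2 := hvar (-D) (by rw [abs_neg, abs_of_pos hD0]; exact hD1) (by rw [neg_sq]; exact hQ)
    (neg_ne_zero.2 hD0.ne')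
  have hb : 160 * e * D ^ 2 ≤ ε / 4 * D := by
    calc 160 * e * D ^ 2 = (160 * e * D) * D := by ring
      _ ≤ (160 * (2 * π) * D) * D := by gcongr
      _ = (320 * π * D) * D := by ring
      _ ≤ ε / 4 * D := by gcongr
  rw [hWδ] at v1 v2
  rw [neg_sq] at v2
  rw [abs_le]
  constructor
  · have h9 : 0 ≤ D * ((e - 1) + (ε / 4 + ε / 2)) := by
      have : D * ((e - 1) + (ε / 4 + ε / 2)) = D * (e - 1) + ε / 4 * D + ε / 2 * D := by ring
      rw [this]; linarith only [hb, v1]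
    have h10 := nonneg_of_mul_nonneg_right h9 hD0
    linarith only [h10, hε]
  · have h9 : 0 ≤ D * (-(e - 1) + (ε / 4 + ε / 2)) := by
      have : D * (-(e - 1) + (ε / 4 + ε / 2)) = -D * (e - 1) + ε / 4 * D + ε / 2 * D := by ring
      rw [this]; linarith only [hb, v2]
    have h10 := nonneg_of_mul_nonneg_right h9 hD0
    linarith only [h10, hε]

end Vale.Agent.P128.GM
end

section

/-! Theorem C: classification of the global minimizers with connected complement. -/

open MeasureTheory Set Metric Filter InnerProductSpace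
open scoped ENNReal NNReal ContDiff Topology Real

namespace Vale.Agent.P128.GM

open Vale.Agent.P128

variable {u : ℂ → ℝ} {K : Set ℂ}

theorem GMin.energy_eq (h : GMin u K) (h0 : (0 : ℂ) ∈ K) {c : ℝ} (hc : 0 < c)
    (hE : ∀ ρ : ℝ, 0 < ρ → c * ρ ≤ En u ρ) {s : ℝ} (hs : 0 < s) : En u s = s :=
  h.energy_eq_of (fun _ _ => exists_good_radii) (fun _ _ => tip_lemma)
    (fun _ _ => h.mono h0) h0 hc hE hs

/-- THEOREM C -/
theorem GMin.classify (h : GMin u K) : (K = ∅ ∧ ∃ c : ℝ, ∀ z, u z = c) ∨ IsCrackTip u K := by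
  rcases K.eq_empty_or_nonempty with hK | ⟨x₀, hx₀⟩
  · subst hK
    exact Or.inl ⟨rfl, h.const_of_empty⟩
  · right
    have h1 := h.shift x₀
    have h01 : (0 : ℂ) ∈ shiftSet x₀ K := by
      show (0 : ℂ) + x₀ ∈ K
      rwa [zero_add]
    obtain ⟨x, hx, c, hc, hE⟩ := h1.exists_tip h01
    have h2 := h1.shift x
    have h02 : (0 : ℂ) ∈ shiftSet x (shiftSet x₀ K) := by
      show (0 : ℂ) + x ∈ shiftSet x₀ K
      rwa [zero_add]
    refine IsCrackTip.unshift (x := x₀) (IsCrackTip.unshift (x := x) ?_)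
    refine h2.rigid h02 fun s hs => h2.energy_eq h02 hc (fun ρ hρ => ?_) hs
    rw [En_shift]
    exact hE ρ hρ

/-- Theorem C for reduced global minimizers in the weak formulation. -/
theorem IsGlobalMin.classify {G : ℂ → ℂ} (h : IsGlobalMin u G K) (hr : IsReduced univ K)
    (hc : IsPreconnected Kᶜ) :
    (K = ∅ ∧ ∃ c : ℝ, ∀ᵐ z, u z = c) ∨ ∃ u', IsCrackTip u' K ∧ ∀ᵐ z, u z = u' z := by
  obtain ⟨u', hu', hae⟩ := h.exists_gmin_ae hr hc
  rcases hu'.classify with ⟨hK, c, hc'⟩ | h1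
  · refine Or.inl ⟨hK, c, ?_⟩
    filter_upwards [hae] with z hz
    rw [hz, hc']
  · exact Or.inr ⟨u', h1, hae⟩

end Vale.Agent.P128.GM
end

section

/-! D-12 (GM/D/CNoPiece.lean) -/

open MeasureTheory Set Metric Filter InnerProductSpace
open scoped ENNReal NNReal ContDiff Topology Real

namespace Vale.Agent.P128.GM

open Vale.Agent.P128

variable {u : ℂ → ℝ} {G : ℂ → ℂ} {K L A W : Set ℂ} {η w : ℂ → ℝ} {δ : ℝ}

lemma cnp_ff_congr {f g : ℂ → ℝ} {z : ℂ} (h : f =ᶠ[𝓝 z] g) : ff f z = ff g z := by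
  unfold ff
  rw [h.fderiv_eq]

lemma cnp_ff_neg (f : ℂ → ℝ) (z : ℂ) : ff (fun y => - f y) z = - ff f z := by
  unfold ff
  rw [fderiv_fun_neg]
  simp
  ring

lemma cnp_fderiv_zero {f : ℂ → ℝ} {z : ℂ} (hf : ff f z = 0) : fderiv ℝ f z = 0 := by
  have h1 := congrArg Complex.re hf
  have h2 := congrArg Complex.im hf
  simp [ff] at h1 h2
  have hg : grad f z = 0 := by
    apply Complex.ext <;> simp [grad, h1, h2]
  ext v
  rw [← inner_grad, hg]
  simp

/-- `q = ηu - w` vanishes off `A` -/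
theorem CMin.q_zero (h : CMin u K) (P : Piece K A η δ) (hw : Pot (src u η) w)
    (hc : IsPreconnected Aᶜ) (hne : (K \ A).Nonempty)
    (h0 : ∀ x ∈ K \ A, deriv (ff w) x = 0) {z : ℂ} (hz : z ∉ A) : η z * u z = w z := by
  set q : ℂ → ℝ := fun z => η z * u z - w z with hqdef
  have hq : HarmonicOnNhd q Aᶜ := h.sh_harm P hw
  have hAo : IsOpen Aᶜ := P.cpt.isClosed.isOpen_compl
  have han : AnalyticOnNhd ℂ (ff q) Aᶜ := fun z hz =>
    HarmonicAt.analyticAt_complex_partial (hq z hz)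
  -- far away `q = -w`
  obtain ⟨ρ, hρ⟩ : ∃ ρ : ℝ, ∀ z : ℂ, ρ < ‖z‖ → q =ᶠ[𝓝 z] fun y => - w y := by
    obtain ⟨ρ, hρ⟩ := P.supp.isCompact.isBounded.subset_closedBall (0 : ℂ)
    refine ⟨ρ, fun z hz => ?_⟩
    have hz' : z ∉ tsupport η := by
      intro hz'
      have := hρ hz'
      rw [mem_closedBall, dist_zero_right] at this
      linarith only [this, hz]
    filter_upwards [notMem_tsupport_iff_eventuallyEq.1 hz'] with y hy
    simp [hqdef, hy]
  -- near `K \ A`
  have hnear : ∀ x ∈ K \ A, ff q =ᶠ[𝓝 x] fun y => - ff w y := by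
    intro x hx
    have hx' : thickening (2 * δ) (K \ A) ∈ 𝓝 x :=
      isOpen_thickening.mem_nhds (self_subset_thickening (by have := P.pos; positivity) _ hx)
    filter_upwards [hx'] with y hy
    rw [← cnp_ff_neg]
    refine cnp_ff_congr ?_
    filter_upwards [isOpen_thickening.mem_nhds hy] with y' hy'
    simp [hqdef, P.zero y' (thickening_subset_cthickening _ _ hy')]
  have hd0 : ∀ x ∈ K \ A, deriv (ff q) x = 0 := by
    intro x hx
    rw [(hnear x hx).deriv_eq, deriv.fun_neg, h0 x hx, neg_zero]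
  obtain ⟨x, hx⟩ := hne
  have hxA : x ∈ Aᶜ := hx.2
  have hacc : ∃ᶠ z in 𝓝[≠] x, deriv (ff q) z = 0 := by
    have hap : AccPt x (𝓟 (K \ A)) := by
      rw [accPt_iff_nhds]
      intro U hU
      obtain ⟨r, hr, hrU⟩ := Metric.mem_nhds_iff.1 (inter_mem hU (hAo.mem_nhds hxA))
      have h1 := h.red x hx.1 r hr
      by_contra hcon
      push Not at hcon
      have h2 : K ∩ ball x r ⊆ {x} := by
        rintro y ⟨hyK, hyb⟩
        have h3 := hrU hyb
        exact hcon y ⟨h3.1, hyK, h3.2⟩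
      have : NullSingletonClass (μH[1] : Measure ℂ) :=
        Measure.nullSingletonClass_hausdorff ℂ one_pos
      have h3 : μH[1] ({x} : Set ℂ) = 0 := measure_singleton x
      exact absurd (measure_mono_null h2 h3) h1.ne'
    exact (accPt_iff_frequently_nhdsNE.1 hap).mono hd0
  have hd : EqOn (deriv (ff q)) 0 Aᶜ :=
    han.deriv.eqOn_zero_of_preconnected_of_frequently_eq_zero hc hxA hacc
  obtain ⟨c, hcc⟩ := hAo.exists_is_const_of_deriv_eq_zero hc
    (fun z hz => (han z hz).differentiableAt.differentiableWithinAt) hd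
  -- the constant is zero
  have hfar : ∀ᶠ z in cocompact ℂ, z ∈ Aᶜ ∧ q =ᶠ[𝓝 z] fun y => - w y := by
    have h1 : ∀ᶠ z in cocompact ℂ, z ∈ Aᶜ := P.cpt.compl_mem_cocompact
    have h2 : ∀ᶠ z in cocompact ℂ, ρ < ‖z‖ :=
      (tendsto_norm_cocompact_atTop (E := ℂ)).eventually_gt_atTop ρ
    filter_upwards [h1, h2] with z hz1 hz2 using ⟨hz1, hρ z hz2⟩
  have hc0 : c = 0 := by
    have h1 : Tendsto (fun z => - ff w z) (cocompact ℂ) (𝓝 0) := by
      have h2 : (fun z => - ff w z) = fun z => - (starRingEnd ℂ) (grad w z) := by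
        funext z
        rw [orth_grad_eq]
        simp
      rw [h2]
      have h3 := ((Complex.continuous_conj.tendsto 0).comp hw.glim).neg
      simpa using h3
    have h2 : Tendsto (fun _ : ℂ => c) (cocompact ℂ) (𝓝 0) := by
      refine h1.congr' ?_
      filter_upwards [hfar] with z hz
      rw [← cnp_ff_neg, ← cnp_ff_congr hz.2, hcc z hz.1]
    exact tendsto_nhds_unique tendsto_const_nhds h2
  obtain ⟨γ, hγ⟩ := hAo.exists_is_const_of_fderiv_eq_zero (𝕜 := ℝ) (f := q) hc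
    ((HarmonicOnNhd.smooth hq).differentiableOn (by simp))
    (fun z hz => cnp_fderiv_zero (by rw [hcc z hz, hc0]))
  have hγ0 : γ = 0 := by
    have h1 : Tendsto (fun z => - w z) (cocompact ℂ) (𝓝 0) := by
      simpa using hw.lim.neg
    have h2 : Tendsto (fun _ : ℂ => γ) (cocompact ℂ) (𝓝 0) := by
      refine h1.congr' ?_
      filter_upwards [hfar] with z hz
      have h5 : q z = - w z := hz.2.self_of_nhds
      rw [← h5, hγ z hz.1]
    exact tendsto_nhds_unique tendsto_const_nhds h2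
  have h1 := hγ z hz
  rw [hγ0] at h1
  exact sub_eq_zero.1 h1

/-- if `u = w` off a null set closed in the disk, with `w` smooth, then `grad u` is the weak
gradient of `u` in the disk -/
lemma cnp_weak {x : ℂ} {r : ℝ} (hK : IsClosed K) (hK0 : volume K = 0) (hws : ContDiff ℝ ∞ w)
    (he : ∀ z ∈ ball x r, z ∉ K → u z = w z) : IsWeakGrad (ball x r) u (grad u) := by
  have hae : ∀ᵐ z : ℂ, z ∉ K := measure_eq_zero_iff_ae_notMem.1 hK0
  have hw1 : IsWeakGrad univ w (grad w) :=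
    (LocLip.of_contDiff hws isOpen_univ).isWeakGrad isOpen_univ
  refine isWeakGrad_of_test fun φ h1 h2 h3 v => ?_
  have h4 := hw1.test h1 h2 (subset_univ _) v
  have e1 : ∫ z, u z * fderiv ℝ φ z v = ∫ z, w z * fderiv ℝ φ z v := by
    refine integral_congr_ae ?_
    filter_upwards [hae] with z hz
    by_cases hzb : z ∈ ball x r
    · simp only [he z hzb hz]
    · have : fderiv ℝ φ z = 0 := by
        by_contra hcon
        exact hzb (h3 (support_fderiv_subset ℝ (f := φ) hcon))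
      simp [this]
  have e2 : ∫ z, inner ℝ (grad u z) v * φ z = ∫ z, inner ℝ (grad w z) v * φ z := by
    refine integral_congr_ae ?_
    filter_upwards [hae] with z hz
    by_cases hzb : z ∈ ball x r
    · have h5 : u =ᶠ[𝓝 z] w := by
        filter_upwards [(isOpen_ball.inter hK.isOpen_compl).mem_nhds ⟨hzb, hz⟩] with y hy
        exact he y hy.1 hy.2
      simp only [grad_congr h5]
    · have : φ z = 0 := image_eq_zero_of_notMem_tsupport fun hcon => hzb (h3 hcon)
      simp [this]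
  rw [e1, e2, h4]

theorem CMin.no_piece (h : CMin u K) (hd : ¬ IsPreconnected Kᶜ) : NoPiece K := by
  intro A hA hAK ho
  by_contra hne
  have hAne : A.Nonempty := nonempty_iff_ne_empty.2 hne
  obtain ⟨η, δ, P⟩ := exists_piece hA hAK ho
  obtain ⟨w, hw⟩ := exists_pot (h.src_smooth P) (src_supp P) (h.src_int P)
  have hn : NoBdd K := h.noBdd
  have hc : IsPreconnected Aᶜ :=
    compl_preconn_of_noBdd h.closed (Measure.interior_eq_empty_of_null h.volume_zero) hn hA hAK
  have hKA : (K \ A).Nonempty := by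
    by_contra hcon
    rw [not_nonempty_iff_eq_empty, sdiff_eq_empty] at hcon
    exact hd (by rw [subset_antisymm hcon hAK]; exact hc)
  have h0 : ∀ x ∈ K \ A, deriv (ff w) x = 0 := fun x hx => h.case_out hn P hw hx
  obtain ⟨x, hx⟩ := hAne
  have hxo : x ∈ (K \ A)ᶜ := fun hx' => hx'.2 hx
  obtain ⟨r0, hr0, hrs⟩ := Metric.isOpen_iff.1 P.out.isOpen_compl x hxo
  set r := min r0 δ with hrdef
  have hr : 0 < r := lt_min hr0 P.pos
  have hrs' : ball x r ⊆ (K \ A)ᶜ := (ball_subset_ball (min_le_left _ _)).trans hrs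
  have hone : ∀ z ∈ ball x r, η z = 1 := by
    intro z hz
    refine P.one z ?_
    refine closedBall_subset_cthickening hx (2 * δ) ?_
    refine ball_subset_closedBall (ball_subset_ball ?_ hz)
    have := P.pos
    exact (min_le_right _ _).trans (by linarith)
  have he : ∀ z ∈ ball x r, z ∉ K → u z = w z := by
    intro z hz hzK
    have h1 := h.q_zero P hw hc hKA h0 (z := z) fun hzA => hzK (hAK hzA)
    rwa [hone z hz, one_mul] at h1
  obtain ⟨R0, hR0⟩ := (hA.isBounded.union (isBounded_ball (x := x) (r := r))).subset_ball (0 : ℂ)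
  refine h.not_removable (hAK hx) hr ?_
    (cnp_weak h.closed h.volume_zero hw.smooth he) (x1 := 0) (R := R0)
    (subset_union_right.trans hR0)
    (SepOut.of_piece h.closed hA hAK ho ?_ (subset_union_left.trans hR0))
  · obtain ⟨M, hM⟩ := (isCompact_closedBall x r).exists_bound_of_continuousOn
      (hw.smooth.continuous.continuousOn)
    refine ⟨M, fun z hz hzK => ?_⟩
    rw [he z hz hzK]
    exact hM z (ball_subset_closedBall hz)
  · intro z hz
    exact ⟨hz.1, fun hzb => hrs' (ball_subset_ball (by linarith) hzb) hz⟩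

end Vale.Agent.P128.GM
end

section

/-! Bonnet's inequality. -/

open MeasureTheory Set Metric Filter
open scoped ENNReal NNReal ContDiff Topology Real

namespace Vale.Agent.P128.GM

open Vale.Agent.P128

variable {u : ℂ → ℝ} {K : Set ℂ}

end Vale.Agent.P128.GM
end

section

/-! D-14 (GM/D/CBonnet.lean) : Green, Bonnet -/

open MeasureTheory Set Metric Filter Function InnerProductSpace
open scoped ENNReal NNReal ContDiff Topology Real

namespace Vale.Agent.P128.GM

open Vale.Agent.P128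

variable {u : ℂ → ℝ} {G : ℂ → ℂ} {K L A W : Set ℂ} {η w : ℂ → ℝ} {δ : ℝ}

/-- The energy identity on circles of radius `< R`. -/
theorem CMin.green_ball_d14 (h : CMin u K)
    (hb : ∀ R : ℝ, ∃ M : ℝ, ∀ z ∈ ball (0 : ℂ) R, z ∉ K → |u z| ≤ M)
    {R : ℝ} (hR0 : 0 < R) :
    ∀ᵐ s ∂(volume : Measure ℝ), s ∈ Ioo 0 R →
      IntegrableOn (fun θ => u (circleMap 0 s θ) * un u s θ) ang ∧
      En u s = s * ∫ θ in ang, u (circleMap 0 s θ) * un u s θ := by
  classical
  obtain ⟨M, hM⟩ := hb R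
  set U : ℂ → ℝ := Kᶜ.indicator u with hU
  have hUm : Measurable U := by
    rw [hU, ← Set.piecewise_eq_indicator]
    exact h.locLip.continuousOn.measurable_piecewise continuousOn_const h.isOpen_compl.measurableSet
  have hUu : ∀ z, z ∉ K → U z = u z := fun z hz => indicator_of_mem (s := Kᶜ) hz u
  set F1 : ℂ → ℝ := (ball (0 : ℂ) R).indicator fun z => ‖grad u z‖ ^ 2 with hF1
  set F2 : ℂ → ℝ := (ball (0 : ℂ) R).indicator fun z => U z * inner ℝ (grad u z) (nu 0 z) with hF2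
  have m1 : Measurable F1 := ((measurable_grad u).norm.pow_const 2).indicator measurableSet_ball
  have m2 : Measurable F2 :=
    (hUm.mul ((measurable_grad u).inner (measurable_nu 0))).indicator measurableSet_ball
  have i1 : Integrable F1 := by
    rw [hF1, integrable_indicator_iff measurableSet_ball]
    exact h.integrableOn R
  have hfinB : IsFiniteMeasure (volume.restrict (ball (0 : ℂ) R) : Measure ℂ) :=
    ⟨by simpa using measure_ball_lt_top (μ := (volume : Measure ℂ)) (x := 0) (r := R)⟩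
  have i2 : Integrable F2 := by
    rw [hF2, integrable_indicator_iff measurableSet_ball]
    have hL1 : Integrable (grad u) (volume.restrict (ball (0 : ℂ) R)) :=
      (h.memLp 0 R).integrable (by norm_num)
    refine Integrable.mono' (hL1.norm.const_mul |M|)
      (hUm.mul ((measurable_grad u).inner (measurable_nu 0))).aestronglyMeasurable ?_
    rw [ae_restrict_iff' measurableSet_ball]
    filter_upwards [h.ae_compl] with z hz hzB
    rw [norm_mul, Real.norm_eq_abs]
    have e1 : |U z| ≤ |M| := by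
      rw [hUu z hz]
      exact (hM z hzB hz).trans (le_abs_self M)
    have e2 : ‖(inner ℝ (grad u z) (nu 0 z) : ℝ)‖ ≤ ‖grad u z‖ :=
      calc ‖(inner ℝ (grad u z) (nu 0 z) : ℝ)‖ ≤ ‖grad u z‖ * ‖nu 0 z‖ := norm_inner_le_norm _ _
        _ ≤ ‖grad u z‖ * 1 := by gcongr; exact norm_nu_le 0 z
        _ = ‖grad u z‖ := mul_one _
    gcongr
  have core := flux_core 0 m1 m2 i1 i2 hR0 ?_
  · filter_upwards [core, ae_integrable_circle 0 m2 i2, ae_circle_compl h.closed h.volume_zero]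
      with s hs his hcK hsR
    have hball : ∀ θ, circleMap 0 s θ ∈ ball (0 : ℂ) R := fun θ => by
      rw [mem_ball_zero_iff, norm_circleMap_zero, abs_of_pos hsR.1]; exact hsR.2
    have hae : ∀ᵐ θ ∂(volume.restrict ang : Measure ℝ),
        F2 (circleMap 0 s θ) = u (circleMap 0 s θ) * un u s θ := by
      filter_upwards [hcK hsR.1] with θ hθ
      simp only [hF2, indicator_of_mem (hball θ), nu_circleMap 0 hsR.1, hUu _ hθ]
      rfl
    refine ⟨(his hsR.1).congr hae, ?_⟩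
    have e1 : ∫ z in ball (0 : ℂ) s, F1 z = En u s := by
      unfold En
      refine setIntegral_congr_fun measurableSet_ball fun z hz => ?_
      simp only [hF1, indicator_of_mem (ball_subset_ball hsR.2.le hz)]
    rw [← e1, hs hsR, integral_congr_ae hae]
  · intro ψ hh a b k h1 h2 h3 ha hb' hsm hder hk hb0
    set η : ℂ → ℝ := fun z => hh ‖z - 0‖ with hη
    have hηs : ContDiff ℝ ∞ η := contDiff_radial hsm ha hk 0
    have hCR : closedBall (0 : ℂ) b ⊆ ball 0 R := closedBall_subset_ball hb'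
    have hsupp : tsupport η ⊆ closedBall 0 b := by
      refine closure_minimal (fun z hz => ?_) isClosed_closedBall
      by_contra hcon
      rw [mem_closedBall, dist_eq_norm, not_le] at hcon
      exact hz (hb0 _ hcon)
    have hcs : HasCompactSupport η :=
      (isCompact_closedBall (0 : ℂ) b).of_isClosed_subset (isClosed_tsupport η) hsupp
    obtain ⟨Cη, hCη⟩ := hηs.continuous.bounded_above_of_compact_support hcs
    obtain ⟨Cg, hCg⟩ := (continuous_grad hηs).bounded_above_of_compact_support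
      (HasCompactSupport.intro hcs.isCompact fun z hz => grad_eq_zero_of_notMem hz)
    obtain ⟨Cψ, hCψ⟩ := h1.continuous.bounded_above_of_compact_support h2
    have hφ : LocLip Kᶜ fun z => η z * u z :=
      (LocLip.of_contDiff hηs h.isOpen_compl).mul h.locLip
    have hgφ : ∀ᵐ z, grad (fun z => η z * u z) z = η z • grad u z + u z • grad η z := by
      filter_upwards [h.ae_compl, h.locLip.ae_diff h.isOpen_compl] with z hz hzd
      exact grad_mul ((hηs.differentiable (by simp)) z) (hzd hz)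
    -- the gradient of the test function is square integrable
    have hi : Integrable fun z => ‖grad (fun z => η z * u z) z‖ ^ 2 := by
      have hbd : Integrable ((ball (0 : ℂ) R).indicator fun z =>
          2 * Cη ^ 2 * ‖grad u z‖ ^ 2 + 2 * (M ^ 2 * Cg ^ 2)) := by
        rw [integrable_indicator_iff measurableSet_ball]
        exact ((h.integrableOn R).const_mul _).add (integrable_const _)
      refine Integrable.mono' hbd ((measurable_grad _).norm.pow_const 2).aestronglyMeasurable ?_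
      filter_upwards [h.ae_compl, hgφ] with z hz hzg
      rw [Real.norm_of_nonneg (by positivity), hzg]
      by_cases hzB : z ∈ ball (0 : ℂ) R
      · rw [indicator_of_mem hzB]
        have e1 : ‖η z • grad u z + u z • grad η z‖ ≤ Cη * ‖grad u z‖ + |M| * Cg := by
          refine (norm_add_le _ _).trans ?_
          rw [norm_smul, norm_smul]
          have hu : ‖u z‖ ≤ |M| := by
            rw [Real.norm_eq_abs]; exact (hM z hzB hz).trans (le_abs_self M)
          have h4 := hCη z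
          have h5 := hCg z
          gcongr
        have e2 : 0 ≤ ‖η z • grad u z + u z • grad η z‖ := norm_nonneg _
        calc ‖η z • grad u z + u z • grad η z‖ ^ 2 ≤ (Cη * ‖grad u z‖ + |M| * Cg) ^ 2 := by
              gcongr
          _ ≤ 2 * Cη ^ 2 * ‖grad u z‖ ^ 2 + 2 * (M ^ 2 * Cg ^ 2) := by
              rw [← sq_abs M]
              linarith only [sq_nonneg (Cη * ‖grad u z‖ - |M| * Cg)]
      · have hzC : z ∉ tsupport η := fun hh => hzB (hCR (hsupp hh))
        rw [indicator_of_notMem hzB, image_eq_zero_of_notMem_tsupport hzC,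
          grad_eq_zero_of_notMem hzC]
        simp
    have EL := h.el hφ ⟨R, fun z _ hzR => by
      have : η z = 0 := hb0 _ (by rw [sub_zero]; linarith)
      simp only [this, zero_mul]⟩ hi
    have q1 : Integrable (fun z => η z * F1 z) :=
      i1.bdd_mul hηs.continuous.aestronglyMeasurable (Eventually.of_forall hCη)
    have q2 : Integrable (fun z => ψ ‖z - 0‖ * F2 z) :=
      i2.bdd_mul (h1.continuous.comp (continuous_id.sub continuous_const).norm).aestronglyMeasurable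
        (Eventually.of_forall fun z => hCψ _)
    have hne0 : ∀ᵐ z : ℂ, z ≠ 0 := by
      rw [ae_iff]
      simp
    show (∫ z, η z * F1 z) + ∫ z, ψ ‖z - 0‖ * F2 z = 0
    rw [← integral_add q1 q2, ← EL]
    refine integral_congr_ae ?_
    filter_upwards [h.ae_compl, hgφ, hne0] with z hz hzg hz0
    rw [hzg]
    by_cases hzB : z ∈ ball (0 : ℂ) R
    · have hgrad : (inner ℝ (grad u z) (grad η z) : ℝ) = ψ ‖z - 0‖ * inner ℝ (grad u z) (nu 0 z) := by
        rw [real_inner_comm, inner_grad, hη, fderiv_radial hz0 (hder _), real_inner_comm]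
      simp only [hF1, hF2, indicator_of_mem hzB, hUu z hz]
      rw [inner_add_right, inner_smul_right, inner_smul_right, hgrad,
        real_inner_self_eq_norm_sq]
      ring
    · have hzC : z ∉ tsupport η := fun hh => hzB (hCR (hsupp hh))
      simp only [hF1, hF2, indicator_of_notMem hzB]
      rw [image_eq_zero_of_notMem_tsupport hzC, grad_eq_zero_of_notMem hzC]
      simp

/-- The energy identity on almost every circle, boundedness on disks being given. -/
theorem CMin.green_circle_of_d14 (h : CMin u K)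
    (hb : ∀ R : ℝ, ∃ M : ℝ, ∀ z ∈ ball (0 : ℂ) R, z ∉ K → |u z| ≤ M) :
    ∀ᵐ s : ℝ, 0 < s →
      IntervalIntegrable (fun θ => u (circleMap 0 s θ) * un u s θ) volume (-π) π ∧
      En u s = s * ∫ θ in (-π)..π, u (circleMap 0 s θ) * un u s θ := by
  have h1 : ∀ n : ℕ, ∀ᵐ s : ℝ, s ∈ Ioo (0 : ℝ) (n + 1) →
      IntegrableOn (fun θ => u (circleMap 0 s θ) * un u s θ) ang ∧
      En u s = s * ∫ θ in ang, u (circleMap 0 s θ) * un u s θ := fun n =>
    h.green_ball_d14 hb (by positivity)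
  rw [← ae_all_iff] at h1
  filter_upwards [h1] with s hs hs0
  obtain ⟨n, hn⟩ := exists_nat_gt s
  obtain ⟨h2, h3⟩ := hs n ⟨hs0, by linarith⟩
  have hpi : (-π) ≤ π := by linarith [Real.pi_pos]
  refine ⟨(intervalIntegrable_iff_integrableOn_Ioo_of_le hpi).2 h2, ?_⟩
  rw [h3, intervalIntegral.integral_of_le hpi, integral_Ioc_eq_integral_Ioo]

theorem CMin.bonnet_of_d14 (h : CMin u K)
    (hp : NoPiece K)
    (hb : ∀ R : ℝ, ∃ M : ℝ, ∀ z ∈ ball (0 : ℂ) R, z ∉ K → |u z| ≤ M)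
    (hg : ∀ᵐ s : ℝ, 0 < s →
      IntervalIntegrable (fun θ => u (circleMap 0 s θ) * un u s θ) volume (-π) π ∧
      En u s = s * ∫ θ in (-π)..π, u (circleMap 0 s θ) * un u s θ) :
    ∀ᵐ s : ℝ, 0 < s → (K ∩ sphere 0 s).Nonempty → ∀ ℓ : ℝ, GapLe K s ℓ →
      En u s ≤ ℓ * s / π * Real.sqrt (TT u s * NN u s) := by
  have hπ := Real.pi_pos
  filter_upwards [h.flux hp, hg, h.ae_finite, polar_ae (fun R => h.integrableOn' 0 R)] with
    s h1 h2 h3 h4 hs hne ℓ hℓ
  obtain ⟨hi, hE⟩ := h2 hs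
  obtain ⟨M, hM⟩ := hb (s + 1)
  have hF : IntegrableOn (fun θ => u (circleMap 0 s θ) * un u s θ) ang := by
    rwa [intervalIntegrable_iff_integrableOn_Ioo_of_le (by linarith)] at hi
  have hsub : ∀ {f : ℝ → ℝ}, Function.Periodic f (2 * π) → IntegrableOn f ang →
      ∀ α β : ℝ, α < β → IntegrableOn f (Ioo α β) := by
    intro f hf hfi α β hαβ
    have h5 : IntervalIntegrable f volume (-π) (-π + 2 * π) := by
      rw [show -π + 2 * π = π by ring, intervalIntegrable_iff_integrableOn_Ioo_of_le (by linarith)]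
      exact hfi
    have h6 := hf.intervalIntegrable (by positivity) h5 α β
    rwa [intervalIntegrable_iff_integrableOn_Ioo_of_le hαβ.le] at h6
  refine bonnet_core hs (h3 hs) hne (h4 hs) hF hE (fun α β a1 a2 a3 a4 a5 => ?_) hℓ
  refine arc_ineq h.closed ?_ hs a1 a5 (M := M) (fun θ hθ => hM _ ?_ (a5 θ hθ)) ?_ ?_
    (h1 hs α β a1 a2 a3 a4 a5)
  · exact (InnerProductSpace.HarmonicOnNhd.contDiffOn h.harm).of_le (by norm_num)
  · rw [mem_ball_zero_iff, norm_circleMap_zero, abs_of_pos hs]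
    linarith
  · exact hsub (fun θ => by simp only [periodic_ut u s θ]) (integrable_ut_sq (h4 hs)) α β a1
  · exact hsub (fun θ => by simp only [periodic_un u s θ]) (integrable_un_sq (h4 hs)) α β a1

theorem CMin.bonnet (h : CMin u K) (hp : NoPiece K)
    (hb : ∀ R : ℝ, ∃ M : ℝ, ∀ z ∈ ball (0 : ℂ) R, z ∉ K → |u z| ≤ M) :
    ∀ᵐ s : ℝ, 0 < s → (K ∩ sphere 0 s).Nonempty → ∀ ℓ : ℝ, GapLe K s ℓ →
      En u s ≤ ℓ * s / π * Real.sqrt (TT u s * NN u s) :=
  h.bonnet_of_d14 hp hb (h.green_circle_of_d14 hb)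

end Vale.Agent.P128.GM
end

section

/-! D-16 (GM/D/CZero.lean) -/

open MeasureTheory Set Metric Filter InnerProductSpace
open scoped ENNReal NNReal ContDiff Topology Real

namespace Vale.Agent.P128.GM

open Vale.Agent.P128

variable {u : ℂ → ℝ} {G : ℂ → ℂ} {K L A W : Set ℂ} {η w : ℂ → ℝ} {δ : ℝ}

/-- an unbounded component meets every circle around its points -/
theorem czero_meets (hn : NoBdd K) {z : ℂ} (hz : z ∉ K) {s : ℝ} (hs : ‖z‖ < s) :
    (connectedComponentIn Kᶜ z ∩ sphere 0 s).Nonempty := by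
  have h1 : ¬ connectedComponentIn Kᶜ z ⊆ closedBall 0 s := fun h =>
    hn z hz (isBounded_closedBall.subset h)
  rw [not_subset] at h1
  obtain ⟨w, hw, hws⟩ := h1
  rw [mem_closedBall_zero_iff, not_le] at hws
  have h2 := isPreconnected_connectedComponentIn (F := Kᶜ) (x := z) |>.intermediate_value
    (mem_connectedComponentIn hz) hw (f := fun x : ℂ => ‖x‖) continuous_norm.continuousOn
  obtain ⟨y, hy, hys⟩ := h2 ⟨hs.le, hws.le⟩
  exact ⟨y, hy, mem_sphere_zero_iff_norm.2 hys⟩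

theorem two_crossings (hK : IsClosed K) (hn : NoBdd K) (hd : ¬ IsPreconnected Kᶜ) :
    ∃ R₀ : ℝ, 0 ≤ R₀ ∧ ∀ s : ℝ, R₀ < s → ∃ p q : ℂ, p ≠ q ∧ p ∈ K ∩ sphere 0 s ∧
      q ∈ K ∩ sphere 0 s := by
  have _ := hK
  have hex : ∃ z₁, z₁ ∉ K ∧ ∃ z₂, z₂ ∉ K ∧ z₂ ∉ connectedComponentIn Kᶜ z₁ := by
    by_contra hne
    push Not at hne
    refine hd ?_
    rcases (Kᶜ).eq_empty_or_nonempty with h0 | ⟨x, hx⟩
    · rw [h0]
      exact isPreconnected_empty
    · have : connectedComponentIn Kᶜ x = Kᶜ :=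
        Subset.antisymm (connectedComponentIn_subset _ x) fun y hy => hne x hx y hy
      rw [← this]
      exact isPreconnected_connectedComponentIn
  obtain ⟨z₁, hz₁, z₂, hz₂, h12⟩ := hex
  refine ⟨max ‖z₁‖ ‖z₂‖, (norm_nonneg z₁).trans (le_max_left _ _), fun s hs => ?_⟩
  have hs0 : 0 < s := ((norm_nonneg z₁).trans (le_max_left _ _)).trans_lt hs
  obtain ⟨w₁, hw₁, hw₁s⟩ := czero_meets hn hz₁ ((le_max_left _ _).trans_lt hs)
  obtain ⟨w₂, hw₂, hw₂s⟩ := czero_meets hn hz₂ ((le_max_right _ _).trans_lt hs)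
  have hw₁K : w₁ ∉ K := connectedComponentIn_subset _ _ hw₁
  have hw₂K : w₂ ∉ K := connectedComponentIn_subset _ _ hw₂
  by_contra hne
  push Not at hne
  -- a preconnected subset of the complement containing both points
  have key : ∀ T : Set ℂ, IsPreconnected T → T ⊆ Kᶜ → w₁ ∈ T → w₂ ∈ T → False := by
    intro T hT hTK h1 h2
    have h3 : w₂ ∈ connectedComponentIn Kᶜ w₁ := hT.subset_connectedComponentIn h1 hTK h2
    have e1 := connectedComponentIn_eq hw₁
    have e2 := connectedComponentIn_eq hw₂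
    have e3 := connectedComponentIn_eq h3
    refine h12 ?_
    rw [e1, e3, ← e2]
    exact mem_connectedComponentIn hz₂
  rw [mem_sphere_zero_iff_norm] at hw₁s hw₂s
  have hc : ∀ (w : ℂ) (a : ℝ), ‖w‖ = s → circleMap 0 s (brA a w) = w := by
    intro w a hw
    have := circleMap_brA a w
    rwa [hw] at this
  have hsp : ∀ t : ℝ, circleMap 0 s t ∈ sphere (0 : ℂ) s := circleMap_mem_sphere 0 hs0.le
  rcases (K ∩ sphere 0 s).eq_empty_or_nonempty with h0 | ⟨p, hp⟩
  · refine key (range (circleMap 0 s)) (isPreconnected_range (continuous_circleMap 0 s)) ?_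
      ⟨brA 0 w₁, hc w₁ 0 hw₁s⟩ ⟨brA 0 w₂, hc w₂ 0 hw₂s⟩
    rintro _ ⟨t, rfl⟩ hK'
    have : circleMap 0 s t ∈ K ∩ sphere 0 s := ⟨hK', hsp t⟩
    rw [h0] at this
    exact this
  · have hps : ‖p‖ = s := mem_sphere_zero_iff_norm.1 hp.2
    set a : ℝ := brA 0 p with ha
    have hpa : circleMap 0 s a = p := hc p 0 hps
    have hin : ∀ w : ℂ, w ∉ K → ‖w‖ = s → w ∈ circleMap 0 s '' Ioo a (a + 2 * π) := by
      intro w hwK hws
      have h1 := brA_mem' a w
      have h2 := hc w a hws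
      refine ⟨brA a w, ⟨lt_of_le_of_ne h1.1 ?_, lt_of_le_of_ne h1.2 ?_⟩, h2⟩
      · intro h3
        rw [← h3, hpa] at h2
        exact hwK (h2 ▸ hp.1)
      · intro h3
        rw [h3, periodic_circleMap 0 s a, hpa] at h2
        exact hwK (h2 ▸ hp.1)
    refine key (circleMap 0 s '' Ioo a (a + 2 * π))
      (isPreconnected_Ioo.image _ (continuous_circleMap 0 s).continuousOn) ?_
      (hin w₁ hw₁K hw₁s) (hin w₂ hw₂K hw₂s)
    rintro _ ⟨t, ht, rfl⟩ hK'
    have hne' : p ≠ circleMap 0 s t := by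
      intro h3
      rw [← hpa] at h3
      obtain ⟨n, hn⟩ := (circleMap_eq_circleMap_iff 0 hs0.ne').1 h3
      have h4 : t = a - 2 * π * n := by
        have h5 : ((a : ℂ)) = t + n * (2 * π) := by
          have h6 := hn
          have h7 : (Complex.I : ℂ) ≠ 0 := Complex.I_ne_zero
          apply mul_right_cancel₀ h7
          rw [h6]
          ring
        have h8 : a = t + n * (2 * π) := by exact_mod_cast h5
        linarith
      have hπ := Real.pi_pos
      have h9 : (0 : ℝ) < -n * (2 * π) := by linarith [ht.1]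
      have h10 : -n * (2 * π) < 1 * (2 * π) := by linarith [ht.2]
      have h11 : (0 : ℝ) < -n := by
        by_contra hcon
        rw [not_lt] at hcon
        have := mul_nonpos_of_nonpos_of_nonneg hcon (by positivity : (0 : ℝ) ≤ 2 * π)
        linarith
      have h12 : -(n : ℝ) < 1 := lt_of_mul_lt_mul_right h10 (by positivity)
      have h13 : (0 : ℤ) < -n := by exact_mod_cast h11
      have h14 : -n < (1 : ℤ) := by exact_mod_cast h12
      omega
    exact hne p (circleMap 0 s t) hne' hp ⟨hK', hsp t⟩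

theorem CMin.en_zero (h : CMin u K) (hd : ¬ IsPreconnected Kᶜ) (R : ℝ) : En u R = 0 := by
  have hint := fun R => h.integrableOn R
  have hEn0 : ∀ R, 0 ≤ En u R := fun R =>
    integral_nonneg fun z => by positivity
  by_contra hne
  have hRe : 0 < En u R := lt_of_le_of_ne (hEn0 R) (Ne.symm hne)
  have hn := h.noBdd
  have hp := h.no_piece hd
  obtain ⟨R₀, hR₀0, htwo⟩ := two_crossings h.closed hn hd
  have hbonnet := h.bonnet hp fun R => h.bdd hn R
  have hcluster := h.cluster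
  set R₁ := max (max R₀ R) 1 with hR₁
  have hR₁0 : 0 < R₁ := lt_of_lt_of_le one_pos (le_max_right _ _)
  have h1 : R₀ ≤ R₁ := (le_max_left _ _).trans (le_max_left _ _)
  -- crossings from `R₁ + 1` on
  have hR₂ : R₀ < R₁ + 1 := by linarith
  have hmono : ∀ a b : ℝ, a ≤ b → En u a ≤ En u b := by
    intro a b hab
    unfold En
    exact setIntegral_mono_set (hint b) (Eventually.of_forall fun z => by positivity)
      (LE.le.eventuallyLE (ball_subset_ball hab))
  have hEpos : ∀ s, R₁ + 1 ≤ s → 0 < En u s := fun s hs =>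
    hRe.trans_le (hmono _ _ ((le_max_right R₀ R).trans ((le_max_left _ _).trans (by linarith))))
  have hLen0 : ∀ s, 0 ≤ Len K s := fun s => ENNReal.toReal_nonneg
  have hR₂0 : 0 < R₁ + 1 := by linarith
  refine ode_contra (E := En u) (L := Len K) (T := TT u) (N := NN u) (R₀ := R₁ + 1) hR₂0 hEpos
    (fun s hs => ?_) (fun s hs => TT_nonneg u (hR₂0.le.trans hs))
    (fun s hs => NN_nonneg u (hR₂0.le.trans hs)) (fun a b ha hab => ?_) (fun s hs => ?_) ?_
  · have := h.growth (hR₂0.trans_le hs)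
    linarith [hLen0 s]
  · exact polar_of_integrable hint (hR₂0.trans_le ha) hab
  · have := h.len_ge hR₀0 htwo (s := s) (by linarith)
    linarith
  · filter_upwards [hbonnet, hcluster] with s hb hc hs
    have hs0 : 0 < s := hR₂0.trans_le hs
    obtain ⟨p, q, -, hp', -⟩ := htwo s (by linarith)
    exact exists_gap hs0 (hEpos s hs) (hb hs0 ⟨p, hp'⟩) (hc hs0)

theorem CMin.grad_zero (h : CMin u K) (hd : ¬ IsPreconnected Kᶜ) {z : ℂ} (hz : z ∉ K) :
    grad u z = 0 := by
  have hcont : ContinuousOn (grad u) Kᶜ := by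
    have h1 : ContinuousOn (fun z => fderiv ℝ u z) Kᶜ :=
      (InnerProductSpace.HarmonicOnNhd.contDiffOn h.harm).continuousOn_fderiv_of_isOpen
        h.isOpen_compl (by norm_num)
    have h2 : grad u = fun z => (fderiv ℝ u z 1 : ℂ) + (fderiv ℝ u z Complex.I : ℂ) * Complex.I := by
      funext z
      apply Complex.ext <;> simp [grad]
    rw [h2]
    have h3 : ContinuousOn (fun z => fderiv ℝ u z 1) Kᶜ := h1.clm_apply continuousOn_const
    have h4 : ContinuousOn (fun z => fderiv ℝ u z Complex.I) Kᶜ := h1.clm_apply continuousOn_const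
    exact (Complex.continuous_ofReal.comp_continuousOn h3).add
      ((Complex.continuous_ofReal.comp_continuousOn h4).mul continuousOn_const)
  by_contra hne
  have hU : IsOpen (Kᶜ ∩ grad u ⁻¹' {0}ᶜ) :=
    hcont.isOpen_inter_preimage h.isOpen_compl isOpen_compl_singleton
  have hzU : z ∈ Kᶜ ∩ grad u ⁻¹' {0}ᶜ := ⟨hz, hne⟩
  obtain ⟨ε, hε, hball⟩ := Metric.isOpen_iff.1 hU z hzU
  have hR := h.en_zero hd (‖z‖ + ε)
  unfold En at hR
  rw [setIntegral_eq_zero_iff_of_nonneg_ae (Eventually.of_forall fun w => by positivity)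
    (h.integrableOn _)] at hR
  rw [EventuallyEq, ae_restrict_iff' measurableSet_ball] at hR
  have hsub : ball z ε ⊆ {w : ℂ | ¬ (w ∈ ball (0 : ℂ) (‖z‖ + ε) → ‖grad u w‖ ^ 2 = (0 : ℂ → ℝ) w)} := by
    intro w hw
    rw [Set.mem_ofPred_eq]
    intro hcon
    have h1 : w ∈ ball (0 : ℂ) (‖z‖ + ε) := by
      rw [mem_ball_zero_iff]
      rw [mem_ball, dist_eq_norm] at hw
      calc ‖w‖ = ‖z + (w - z)‖ := by congr 1; ring
        _ ≤ ‖z‖ + ‖w - z‖ := norm_add_le _ _
        _ < ‖z‖ + ε := by linarith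
    have h2 := hcon h1
    rw [Pi.zero_apply, sq_eq_zero_iff, norm_eq_zero] at h2
    exact (hball hw).2 h2
  have h0 : volume (ball z ε) = 0 := measure_mono_null hsub (ae_iff.1 hR)
  exact (isOpen_ball.measure_pos volume ⟨z, mem_ball_self hε⟩).ne' h0

end Vale.Agent.P128.GM
end

section

/-! Theorem D -/

open MeasureTheory Set Metric Filter InnerProductSpace
open scoped ENNReal NNReal ContDiff Topology Real

namespace Vale.Agent.P128.GM

open Vale.Agent.P128

variable {u : ℂ → ℝ} {G : ℂ → ℂ} {K L A W : Set ℂ} {η w : ℂ → ℝ} {δ : ℝ}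

theorem IsGlobalMin.disconnected (h : IsGlobalMin u G K) (hr : IsReduced univ K)
    (hd : ¬ IsPreconnected Kᶜ) : (∀ᵐ z, z ∉ K → G z = 0) ∧ (IsLine K ∨ IsPropeller K) := by
  obtain ⟨u', h', hG⟩ := h.exists_cmin hr
  have hG0 : ∀ᵐ z, z ∉ K → G z = 0 := by
    filter_upwards [hG] with z hz hzK
    rw [hz hzK, h'.grad_zero hd hzK]
  refine ⟨hG0, ?_⟩
  rcases h.classify_const hr hG0 with h0 | h0
  · exfalso
    apply hd
    rw [h0, compl_empty]
    exact isPreconnected_univ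
  · exact h0

end Vale.Agent.P128.GM
end

section

/-! The classification of all reduced global minimizers. -/

open MeasureTheory Set Metric Filter InnerProductSpace
open scoped ENNReal NNReal ContDiff Topology Real

namespace Vale.Agent.P128.GM

open Vale.Agent.P128

variable {u : ℂ → ℝ} {G : ℂ → ℂ} {K : Set ℂ}

/-- the harmonic representative -/
theorem IsGlobalMin.exists_cmin_ae (h : IsGlobalMin u G K) (hr : IsReduced univ K) :
    ∃ u', CMin u' K ∧ ∀ᵐ z, u z = u' z := by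
  have hU : IsOpen Kᶜ := h.closed.isOpen_compl
  obtain ⟨u', hu', hae⟩ := clWeyl hU (clLI hU h.sobolev.memLp) fun φ h1 h2 h3 =>
    h.weak_harm_sep h1 h2 h3
  rw [ae_restrict_iff' hU.measurableSet] at hae
  have hW : W12loc Kᶜ u' (grad u') :=
    (LocLip.of_contDiffOn hU ((HarmonicOnNhd.smooth hu').of_le (by simp))).w12loc hU
  have hG : ∀ᵐ z, z ∈ Kᶜ → G z = grad u' z := clUniq hU h.sobolev hW hae
  have hen : ∀ (x : ℂ) (r : ℝ), genergy (grad u') K (ball x r) = genergy G K (ball x r) := by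
    intro x r
    unfold genergy
    congr 1
    refine lintegral_congr_ae ?_
    rw [EventuallyEq, ae_restrict_iff' (measurableSet_ball.diff h.closed.measurableSet)]
    filter_upwards [hG] with z hz hz2
    rw [hz hz2.2]
  refine ⟨u', ⟨⟨h.closed, hW, fun x r => ?_, fun x r v H L hL hv hC hsep => ?_⟩, hu',
    fun x hx r hr0 => hr x hx r hr0 (subset_univ _)⟩, ?_⟩
  · rw [hen]; exact h.finite x r
  · rw [hen]
    refine h.minimal x r v H L hL hv ?_ hsep
    obtain ⟨C, h1, h2, h3, h4⟩ := hC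
    refine ⟨C, h1, h2, h3, ?_⟩
    filter_upwards [h4, hae, h.ae_compl] with z a b c hz
    rw [a hz, b c]
  · filter_upwards [hae, h.ae_compl] with z b c
    exact b c

theorem CMin.locally_constant (h : CMin u K) (hd : ¬ IsPreconnected Kᶜ) :
    ∀ z ∉ K, ∀ w ∈ connectedComponentIn Kᶜ z, u w = u z := by
  intro z hz w hw
  have hU : IsOpen Kᶜ := h.gm.closed.isOpen_compl
  have hsub : connectedComponentIn Kᶜ z ⊆ Kᶜ := connectedComponentIn_subset _ _
  have hdiff : DifferentiableOn ℝ u (connectedComponentIn Kᶜ z) :=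
    ((HarmonicOnNhd.smooth h.harm).differentiableOn (by simp)).mono hsub
  refine hU.connectedComponentIn.is_const_of_fderiv_eq_zero
    isPreconnected_connectedComponentIn hdiff (fun y hy => ?_) hw (mem_connectedComponentIn hz)
  have h1 := h.grad_zero hd (hsub hy)
  ext v
  rw [← inner_grad, h1, inner_zero_left]
  rfl

theorem IsGlobalMin.classify_all (h : IsGlobalMin u G K) (hr : IsReduced univ K) :
    (K = ∅ ∧ ∃ c : ℝ, ∀ᵐ z, u z = c) ∨
    ((IsLine K ∨ IsPropeller K) ∧ ∃ u' : ℂ → ℝ, (∀ᵐ z, u z = u' z) ∧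
      ∀ z ∉ K, ∀ w ∈ connectedComponentIn Kᶜ z, u' w = u' z) ∨
    ∃ u' : ℂ → ℝ, (∀ᵐ z, u z = u' z) ∧ IsCrackTip u' K := by
  by_cases hc : IsPreconnected Kᶜ
  · rcases h.classify hr hc with h1 | ⟨u', h1, h2⟩
    · exact Or.inl h1
    · exact Or.inr (Or.inr ⟨u', h2, h1⟩)
  · obtain ⟨u', h1, h2⟩ := h.exists_cmin_ae hr
    exact Or.inr (Or.inl ⟨(h.disconnected hr hc).2, u', h2, h1.locally_constant hc⟩)

end Vale.Agent.P128.GM
end

section

/-! The classification of the reduced global minimizers (Theorems C and D). -/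

open MeasureTheory Set Metric Filter InnerProductSpace
open scoped ENNReal NNReal ContDiff Topology Real

namespace Vale.Agent.P128.Q1

open Vale.Agent.P128

/-- **Part I**: every reduced global minimizer with nonempty singular set is a line or a propeller
with locally constant function, or a crack-tip. -/
theorem classified : Classified := by
  intro u G K h hr hne
  by_cases hc : IsPreconnected Kᶜ
  · rcases h.classify hr hc with ⟨h0, -⟩ | ⟨u', h1, h2⟩
    · exact absurd h0 hne.ne_empty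
    · refine Or.inr (Or.inr ⟨u', ?_, h1⟩)
      filter_upwards [h2] with z hz _ using hz.symm
  · obtain ⟨hG, hK | hK⟩ := h.disconnected hr hc
    · exact Or.inl ⟨hK, hG⟩
    · exact Or.inr (Or.inl ⟨hK, hG⟩)

end Vale.Agent.P128.Q1
end

section

/-! C8: the limit is a global minimizer. -/

open MeasureTheory Set Metric Filter
open scoped ENNReal NNReal ContDiff Topology Real

namespace Vale.Agent.P128.Q

open Vale.Agent.P128
open Vale.Agent.P128.GM (LocLip genergy IsGlobalMin W12loc)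

theorem Lim.globalMin {c₁ : ℝ} {R κ : ℕ → ℝ} {v : ℕ → ℂ → ℝ} {Kj : ℕ → Set ℂ} {u₀ : ℂ → ℝ}
    {K₀ : Set ℂ} {c : ℕ → ℂ → ℝ} (hS : Seq c₁ R κ v Kj) (h : Lim v Kj u₀ K₀ c) :
    IsGlobalMin u₀ (grad u₀) K₀ :=
  h.globalMin_of hS (fun x _ hs _ hε => h.lower hS x hs hε)
    fun _ _ _ hL hv hu _ _ _ hC hCr hLK hvu hfin _ hε =>
      approx_locLip hL h.closed hv hu hC hCr hLK hvu hfin hε

end Vale.Agent.P128.Q
end

section

/-! C9: limits of sequences of almost minimizers are reduced. -/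

open MeasureTheory Set Metric Filter
open scoped ENNReal NNReal ContDiff Topology Real

namespace Vale.Agent.P128.Q

open Vale.Agent.P128

variable {c₁ : ℝ} {R κ : ℕ → ℝ} {v : ℕ → ℂ → ℝ} {Kj : ℕ → Set ℂ} {u₀ : ℂ → ℝ} {K₀ : Set ℂ}
  {c : ℕ → ℂ → ℝ}

theorem Lim.reduced (hS : Seq c₁ R κ v Kj) (h : Lim v Kj u₀ K₀ c) : IsReduced univ K₀ :=
  lrc_reduced hS h (h.globalMin hS)

end Vale.Agent.P128.Q
end

section

/-! Blow-up limits of the local minimizer: the result of blocks A and C. -/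

open MeasureTheory Set Metric Filter
open scoped ENNReal NNReal ContDiff Topology Real

namespace Vale.Agent.P128.Q

open Vale.Agent.P128
open Vale.Agent.P128.GM (LocLip genergy IsGlobalMin W12loc)

variable {Ω K : Set ℂ} {g u : ℂ → ℝ} {M R₀ : ℝ} {x₀ : ℂ}

/-- the sequence of blow-ups -/
theorem MS.blow_seq (S : MS Ω g u K M x₀ R₀) {x : ℕ → ℂ} {r : ℕ → ℝ}
    (hx : ∀ j, x j ∈ K ∩ closedBall x₀ (R₀ / 2)) (hr : ∀ j, 0 < r j)
    (h0 : Tendsto r atTop (𝓝 0)) :
    ∃ (c₁ : ℝ) (N : ℕ) (R κ : ℕ → ℝ), Seq c₁ R κ (fun j => blow u (x (j + N)) (r (j + N)))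
      (fun j => blowSet K (x (j + N)) (r (j + N))) := by
  obtain ⟨c₁, hc₁, hge⟩ := exists_grad_est
  obtain ⟨ρ, hρ, ham⟩ := S.amin hc₁ (hge S)
  obtain ⟨N, hN⟩ := eventually_atTop.1 (h0.eventually (eventually_lt_nhds hρ))
  have hrN : Tendsto (fun j => r (j + N)) atTop (𝓝 0) := h0.comp (tendsto_add_atTop_nat N)
  refine ⟨c₁, N, fun j => ρ / r (j + N), fun j => 4 * π * M ^ 2 * r (j + N), hc₁,
    fun j => ham _ (hx _) _ (hr _) (hN _ (Nat.le_add_left _ _)), ?_, ?_, fun j => ?_⟩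
  · have h1 : Tendsto (fun j => r (j + N)) atTop (𝓝[>] 0) :=
      tendsto_nhdsWithin_iff.2 ⟨hrN, Eventually.of_forall fun j => hr _⟩
    have h2 := (tendsto_inv_nhdsGT_zero.comp h1).const_mul_atTop hρ
    refine h2.congr fun j => ?_
    rw [Function.comp_apply, div_eq_mul_inv]
  · have h1 := hrN.const_mul (4 * π * M ^ 2)
    rwa [mul_zero] at h1
  · change x (j + N) + r (j + N) * 0 ∈ K
    rw [mul_zero, add_zero]
    exact (hx _).1

/-- C10: the result of blocks A and C -/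
theorem MS.blowup (S : MS Ω g u K M x₀ R₀) {x : ℕ → ℂ} {r : ℕ → ℝ}
    (hx : ∀ j, x j ∈ K ∩ closedBall x₀ (R₀ / 2)) (hr : ∀ j, 0 < r j)
    (h0 : Tendsto r atTop (𝓝 0)) :
    ∃ φ : ℕ → ℕ, StrictMono φ ∧ ∃ (u₀ : ℂ → ℝ) (K₀ : Set ℂ),
      IsGlobalMin u₀ (grad u₀) K₀ ∧ ContDiffOn ℝ 1 u₀ K₀ᶜ ∧ IsReduced univ K₀ ∧ (0 : ℂ) ∈ K₀ ∧
      (∀ z ∈ K₀, ∀ ε > 0, ∀ᶠ j in atTop, ∃ y ∈ K,
        dist y (x (φ j) + r (φ j) * z) < ε * r (φ j)) ∧
      (∀ C : Set ℂ, IsCompact C → C ⊆ K₀ᶜ →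
        ∀ᶠ j in atTop, ∀ z ∈ C, x (φ j) + r (φ j) * z ∉ K) ∧
      (∀ (z : ℂ) (s ε : ℝ), 0 < s → 0 < ε → ∀ᶠ j in atTop,
        (dir u₀ z s - ε) * r (φ j) ≤ dir u (x (φ j) + r (φ j) * z) (r (φ j) * s)) ∧
      (∀ (z : ℂ) (s ε : ℝ), 0 < s → 0 < ε → ∀ᶠ j in atTop,
        (len K₀ z s - ε) * r (φ j) ≤ len K (x (φ j) + r (φ j) * z) (r (φ j) * s)) ∧
      ∀ (z : ℂ) (s ε : ℝ), 0 < s → 0 < ε → ∀ᶠ j in atTop,
        dir u (x (φ j) + r (φ j) * z) (r (φ j) * s) + len K (x (φ j) + r (φ j) * z) (r (φ j) * s) ≤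
          (dir u₀ z s + (μH[1] (K₀ ∩ closedBall z s)).toReal + ε) * r (φ j) := by
  obtain ⟨c₁, N, R, κ, hS⟩ := S.blow_seq hx hr h0
  obtain ⟨φ, hφ, u₀, K₀, c, hL⟩ := hS.exists_lim
  have hS' := hS.comp hφ
  refine ⟨fun j => φ j + N, fun a b h => Nat.add_lt_add_right (hφ h) N, u₀, K₀, hL.globalMin hS',
    hL.smooth, hL.reduced hS', hL.zero_mem hS', ?_, ?_, ?_, ?_, ?_⟩
  · intro z hz ε hε
    filter_upwards [hL.near z hz ε hε] with j hj
    obtain ⟨y, hy, hd⟩ := hj
    refine ⟨x (φ j + N) + r (φ j + N) * y, hy, ?_⟩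
    rw [dist_add_left, dist_eq_norm, ← mul_sub, norm_mul, Complex.norm_real,
      Real.norm_of_nonneg (hr _).le, ← dist_eq_norm, mul_comm]
    exact mul_lt_mul_of_pos_right hd (hr _)
  · intro C hC hCK
    filter_upwards [hL.far C hC hCK] with j hj y hy hmem
    exact Set.disjoint_left.1 hj hy hmem
  · intro z s ε _ hε
    filter_upwards [hL.dir_le hS' z s hε] with j hj
    have h1 : dir u₀ z s - ε < dir (blow u (x (φ j + N)) (r (φ j + N))) z s := hj
    rw [dir_blow u _ z (hr _) s, lt_div_iff₀ (hr _)] at h1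
    exact h1.le
  · intro z s ε hs hε
    filter_upwards [hL.len_lower hS' z hs hε] with j hj
    have h1 : len K₀ z s - ε ≤ len (blowSet K (x (φ j + N)) (r (φ j + N))) z s := hj
    rwa [len_blow K _ z (hr _) s, le_div_iff₀ (hr _)] at h1
  · intro z s ε hs hε
    obtain ⟨t, hst, hfin, ht⟩ := exists_radius hL.closed (fun r => hL.len_fin hS' z r)
      (fun r => hL.int hS' z r) s (half_pos hε)
    have hup := hL.upper hS' (x := z) (r := 0) le_rfl (w := u₀) (L := K₀) (C := ∅) hL.closed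
      (GM.LocLip.of_contDiffOn hL.closed.isOpen_compl hL.smooth) (fun s => hL.int hS' z s)
      (fun s => hL.len_fin hS' z s) isCompact_empty (empty_subset _) (fun _ _ => Iff.rfl)
      (fun _ _ _ => rfl) (fun p q _ _ h => h) (s := t) (hs.trans hst) hfin (half_pos hε)
    filter_upwards [hup, hS'.Rinf.eventually_gt_atTop (‖z‖ + t)] with j hj hR
    have hA := hS'.am j
    have hsub : ball z t ⊆ ball 0 ((R ∘ φ) j) := by
      refine ball_subset_ball' ?_
      rw [dist_zero_right]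
      linarith
    have h1 : dir (blow u (x (φ j + N)) (r (φ j + N))) z s ≤
        dir (blow u (x (φ j + N)) (r (φ j + N))) z t := by
      refine setIntegral_mono_set (hA.int.mono_set hsub) (ae_of_all _ fun y => sq_nonneg _) ?_
      exact (ball_subset_ball hst.le).eventuallyLE
    have h2 : len (blowSet K (x (φ j + N)) (r (φ j + N))) z s ≤
        len (blowSet K (x (φ j + N)) (r (φ j + N))) z t := by
      refine ENNReal.toReal_mono ?_ (measure_mono
        (inter_subset_inter_right _ (ball_subset_ball hst.le)))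
      exact ((measure_mono (inter_subset_inter_right _ hsub)).trans_lt hA.fin).ne
    have h3 : dir (blow u (x (φ j + N)) (r (φ j + N))) z t +
        len (blowSet K (x (φ j + N)) (r (φ j + N))) z t ≤
          dir u₀ z t + len K₀ z t + ε / 2 := hj
    rw [dir_blow u _ z (hr _)] at h1
    rw [len_blow K _ z (hr _)] at h2
    have h4 : dir u (x (φ j + N) + r (φ j + N) * z) (r (φ j + N) * s) / r (φ j + N) +
        len K (x (φ j + N) + r (φ j + N) * z) (r (φ j + N) * s) / r (φ j + N) ≤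
          dir u₀ z s + (μH[1] (K₀ ∩ closedBall z s)).toReal + ε := by linarith
    rwa [← add_div, div_le_iff₀ (hr _)] at h4

end Vale.Agent.P128.Q
end

section

/-! Part II in the form of Q1/Top.lean.txt. -/

open MeasureTheory Set Metric Filter
open scoped ENNReal NNReal Topology Real ContDiff

namespace Vale.Agent.P128.Q1

open Vale.Agent.P128

variable {Ω : Set ℂ} {g u : ℂ → ℝ} {G : ℂ → ℂ} {K : Set ℂ} {M : ℝ} {x₀ : ℂ} {R₀ : ℝ}

theorem MS.blowUp (h : MS Ω g u G K M x₀ R₀) : BlowUp u K x₀ R₀ := by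
  intro x r hx hr h0
  refine Q.MS.blowup h.toQ (x := x) (r := r) (fun j => ?_) hr h0
  have e : 2 * R₀ / 2 = R₀ := by ring
  rw [e]
  exact hx j

/-- **Part II** (compactness). -/
theorem MS.close (hc : Classified) (h : MS Ω g u G K M x₀ R₀) {R ε : ℝ} (hR : 1 ≤ R)
    (hε : 0 < ε) : ∃ r₀ > 0, ∀ y ∈ K ∩ closedBall x₀ R₀, ∀ r, 0 < r → r ≤ r₀ →
      ∃ L F, IsModel L F ∧ Close G K y r L F R ε :=
  close_of_blowup hc h h.blowUp hR hε

end Vale.Agent.P128.Q1
end

section

/-! P128, Q1, Part III: Types -/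

open MeasureTheory Set Metric Filter InnerProductSpace
open scoped ENNReal NNReal ContDiff Topology Real

namespace Vale.Agent.P128.Q1

open Vale.Agent.P128

variable {Ω : Set ℂ} {g u : ℂ → ℝ} {G : ℂ → ℂ} {K : Set ℂ} {M : ℝ} {x₀ : ℂ} {R₀ : ℝ}

theorem types_iter_tip {r₀ : ℝ} {y : ℂ}
    (h : ∀ r, 0 < r → r ≤ r₀ → Hn K y r ≤ 3 / 2 * r → ∀ s, r ≤ s → s ≤ 2 * r →
      Hn K y s ≤ 8 / 5 * s ∧ (s = 2 * r → Hn K y s ≤ 3 / 2 * s)) (n : ℕ) :
    ∀ r, 0 < r → Hn K y r ≤ 3 / 2 * r → ∀ s, r ≤ s → s ≤ 2 ^ n * r → s ≤ r₀ →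
      Hn K y s ≤ 8 / 5 * s := by
  induction n with
  | zero =>
    intro r hr ht s hrs hs hs0
    have : s = r := le_antisymm (by simpa using hs) hrs
    subst this
    linarith only [ht, hr]
  | succ n ih =>
    intro r hr ht s hrs hs hs0
    by_cases h2 : s ≤ 2 * r
    · exact (h r hr (hrs.trans hs0) ht s hrs h2).1
    · push Not at h2
      refine ih (2 * r) (by linarith)
        ((h r hr (hrs.trans hs0) ht (2 * r) (by linarith) le_rfl).2 rfl) s h2.le ?_ hs0
      calc s ≤ 2 ^ (n + 1) * r := hs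
        _ = 2 ^ n * (2 * r) := by ring

theorem types_iter_tri {r₀ : ℝ} {y : ℂ}
    (h : ∀ r, 0 < r → r ≤ r₀ → 5 / 2 * r ≤ Hn K y r → ∀ s, r ≤ s → s ≤ 2 * r →
      12 / 5 * s ≤ Hn K y s ∧ (s = 2 * r → 5 / 2 * s ≤ Hn K y s)) (n : ℕ) :
    ∀ r, 0 < r → 5 / 2 * r ≤ Hn K y r → ∀ s, r ≤ s → s ≤ 2 ^ n * r → s ≤ r₀ →
      12 / 5 * s ≤ Hn K y s := by
  induction n with
  | zero =>
    intro r hr ht s hrs hs hs0
    have : s = r := le_antisymm (by simpa using hs) hrs
    subst this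
    linarith
  | succ n ih =>
    intro r hr ht s hrs hs hs0
    by_cases h2 : s ≤ 2 * r
    · exact (h r hr (hrs.trans hs0) ht s hrs h2).1
    · push Not at h2
      refine ih (2 * r) (by linarith)
        ((h r hr (hrs.trans hs0) ht (2 * r) (by linarith) le_rfl).2 rfl) s h2.le ?_ hs0
      calc s ≤ 2 ^ (n + 1) * r := hs
        _ = 2 ^ n * (2 * r) := by ring

theorem types_pow {r s : ℝ} (hr : 0 < r) : ∃ n : ℕ, s ≤ 2 ^ n * r := by
  obtain ⟨n, hn⟩ := pow_unbounded_of_one_lt (s / r) (by norm_num : (1 : ℝ) < 2)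
  exact ⟨n, ((div_lt_iff₀ hr).1 hn).le⟩

/-- if no small scale is `Mid` then all the small scales are of the same kind -/
theorem AllClose.same (h : AllClose G K x₀ R₀) : ∃ r₀ > 0, ∀ y ∈ K ∩ closedBall x₀ R₀, ∀ r₁, 0 < r₁ →
    r₁ ≤ r₀ → (∀ r, 0 < r → r ≤ r₁ → ¬ Mid K y r) →
    (∀ r, 0 < r → r ≤ r₁ → Hn K y r ≤ 3 / 2 * r) ∨ (∀ r, 0 < r → r ≤ r₁ → 5 / 2 * r ≤ Hn K y r) := by
  obtain ⟨a, ha, h1⟩ := h.tip_up
  obtain ⟨b, hb, h2⟩ := h.tri_up
  refine ⟨min a b, lt_min ha hb, fun y hy r₁ hr₁ hr₁0 hm => ?_⟩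
  have hor : ∀ r, 0 < r → r ≤ r₁ → Hn K y r ≤ 3 / 2 * r ∨ 5 / 2 * r ≤ Hn K y r := by
    intro r hr hr1
    have := hm r hr hr1
    unfold Mid at this
    by_contra hcon
    push Not at hcon
    exact this hcon
  by_cases ht : ∃ r, 0 < r ∧ r ≤ r₁ ∧ Hn K y r ≤ 3 / 2 * r
  · left
    obtain ⟨t, ht0, ht1, ht2⟩ := ht
    intro r hr hr1
    rcases hor r hr hr1 with h3 | h3
    · exact h3
    · exfalso
      rcases le_total t r with h4 | h4
      · obtain ⟨n, hn⟩ := types_pow (s := r) ht0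
        have := types_iter_tip (h1 y hy) n t ht0 ht2 r h4 hn
          (hr1.trans (hr₁0.trans (min_le_left _ _)))
        linarith
      · obtain ⟨n, hn⟩ := types_pow (s := t) hr
        have := types_iter_tri (h2 y hy) n r hr h3 t h4 hn
          (ht1.trans (hr₁0.trans (min_le_right _ _)))
        linarith only [this, h4, hr, ht2]
  · right
    push Not at ht
    intro r hr hr1
    rcases hor r hr hr1 with h3 | h3
    · exact absurd h3 (not_le.2 (ht r hr hr1))
    · exact h3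

theorem types (hm : MS Ω g u G K M x₀ R₀) (h : AllClose G K x₀ R₀) {x : ℂ}
    (hx : x ∈ K ∩ ball x₀ R₀) : LineType G K x ∨ TripodType G K x ∨ TipType G K x := by
  obtain ⟨r₀, hr₀, h1⟩ := h.lineType hm
  obtain ⟨r₀', hr₀', h2⟩ := h.same
  have hx' : x ∈ K ∩ closedBall x₀ R₀ := ⟨hx.1, ball_subset_closedBall hx.2⟩
  by_cases hmid : ∃ r₁, 0 < r₁ ∧ r₁ ≤ min r₀ r₀' ∧ Mid K x r₁
  · obtain ⟨r₁, h3, h4, h5⟩ := hmid
    exact Or.inl (h1 x hx r₁ h3 (h4.trans (min_le_left _ _)) h5)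
  right
  push Not at hmid
  have hpos : 0 < min r₀ r₀' := lt_min hr₀ hr₀'
  rcases h2 x hx' (min r₀ r₀') hpos (min_le_right _ _) hmid with h3 | h3
  · right
    refine ⟨fun δ hδ => h.tip_lim hx hpos h3 hδ, h.away hx ?_⟩
    obtain ⟨r₂, hr₂, h4⟩ := h.tip_lim hx hpos h3 (δ := 1 / 10000) (by norm_num)
    obtain ⟨r₃, hr₃, h5⟩ := away_of_ray hr₂ fun r hr hr' => (h4 r hr hr').1
    exact ⟨r₃, hr₃, h5⟩
  · left
    refine ⟨fun δ hδ => h.tri_lim hx hpos h3 hδ, h.away hx ?_⟩
    obtain ⟨r₂, hr₂, h4⟩ := h.tri_lim hx hpos h3 (δ := 1 / 10000) (by norm_num)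
    obtain ⟨r₃, hr₃, h5⟩ := away_of_tripod hr₂ fun r hr hr' => (h4 r hr hr').1
    exact ⟨r₃, hr₃, h5⟩

end Vale.Agent.P128.Q1
end

section

/-! P128, Q1: rates of convergence of the angles at a point of line type. -/

set_option linter.all false

open MeasureTheory Set Metric Filter ComplexConjugate
open scoped ENNReal NNReal Topology Real ContDiff

namespace Vale.Agent.P128.Q1

open Vale.Agent.P128

theorem Branches.mono {K : Set ℂ} {x : ℂ} {s₀ s₁ : ℝ} {m : ℕ} {φ : Fin m → ℝ → ℝ}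
    (h : Branches K x s₀ m φ) (h0 : 0 < s₁) (h1 : s₁ ≤ s₀) : Branches K x s₁ m φ := by
  obtain ⟨C, β, h2, h3, h4⟩ := h.holder
  refine ⟨h0, h.mem, fun i s hs => h.diff i s ⟨hs.1, hs.2.trans_le h1⟩,
    fun s hs => h.eq s ⟨hs.1, hs.2.trans_le h1⟩, fun s hs => h.inj s ⟨hs.1, hs.2.trans_le h1⟩,
    h.small, C, β, h2, h3, fun i s t hs hst hts hs1 => h4 i s t hs hst hts (hs1.trans_le h1)⟩

theorem exists_near_int_pi {t η : ℝ} (h : |Real.sin t| ≤ η) : ∃ n : ℤ, |t - n * π| ≤ 2 * η := by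
  have hπ := Real.pi_pos
  have hπ4 := Real.pi_lt_d2
  refine ⟨round (t / π), ?_⟩
  set n := round (t / π) with hn
  have h1 : |t / π - n| ≤ 1 / 2 := abs_sub_round _
  have h2 : |t - n * π| ≤ π / 2 := by
    have e1 : t - n * π = (t / π - n) * π := by field_simp
    rw [e1, abs_mul, abs_of_pos hπ]
    have := mul_le_mul_of_nonneg_right h1 hπ.le
    linarith only [this]
  have h3 : |Real.sin (t - n * π)| = |Real.sin t| := by
    rw [Real.sin_sub_int_mul_pi, abs_mul]
    simp [abs_zpow]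
  have h4 : 2 / π * |t - n * π| ≤ |Real.sin (t - n * π)| := by
    have := Real.mul_abs_le_abs_sin h2
    linarith only [this]
  rw [h3] at h4
  have h5 : 2 / π * |t - n * π| ≤ η := h4.trans h
  rw [div_mul_eq_mul_div, div_le_iff₀ hπ] at h5
  have h6 : 0 ≤ η := (abs_nonneg _).trans h
  nlinarith

/-- A continuous angle with small sine stays near one multiple of `π`. -/
theorem sin_track {φ η : ℝ → ℝ} {α s₁ : ℝ} (hs₁ : 0 < s₁) (hc : ContinuousOn φ (Ioo 0 s₁))
    (h1 : ∀ s ∈ Ioo 0 s₁, |Real.sin (φ s - α)| ≤ η s) (h2 : ∀ s ∈ Ioo 0 s₁, η s ≤ 1 / 10) :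
    ∃ n : ℤ, ∀ s ∈ Ioo 0 s₁, |φ s - (α + n * π)| ≤ 2 * η s := by
  have hπ := Real.pi_pos
  have hπ3 := Real.pi_gt_three
  have key : ∀ s ∈ Ioo 0 s₁, ∃ n : ℤ, |φ s - α - n * π| ≤ 2 * η s := fun s hs =>
    exists_near_int_pi (h1 s hs)
  obtain ⟨n₀, hn₀⟩ := key (s₁ / 2) ⟨by positivity, by linarith⟩
  have hno : ∀ s t, s ∈ Ioo 0 s₁ → t ∈ Ioo 0 s₁ → ∀ n k : ℤ, |φ s - α - n * π| ≤ 2 * η s →
      |φ t - α - k * π| ≤ 2 * η t → n < k → False := by
    intro s t hs ht n k hn hk hnk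
    have a1 := (abs_le.1 hn).2
    have a2 := (abs_le.1 hk).1
    have a3 := h2 s hs
    have a4 := h2 t ht
    have hk1 : (n : ℝ) + 1 ≤ k := by exact_mod_cast hnk
    have hk2 : ((n : ℝ) + 1) * π ≤ k * π := mul_le_mul_of_nonneg_right hk1 hπ.le
    have hsub : uIcc s t ⊆ Ioo 0 s₁ := by
      intro r hr
      rw [mem_uIcc] at hr
      rcases hr with hr | hr
      · exact ⟨hs.1.trans_le hr.1, hr.2.trans_lt ht.2⟩
      · exact ⟨ht.1.trans_le hr.1, hr.2.trans_lt hs.2⟩
    have hiv := intermediate_value_uIcc (hc.mono hsub)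
    have hmem : α + n * π + π / 2 ∈ uIcc (φ s) (φ t) := by
      rw [mem_uIcc]
      left
      constructor
      · linarith only [a3, a1, hπ3]
      · linarith only [hk2, a4, a2, hπ3]
    obtain ⟨r, hr, hr2⟩ := hiv hmem
    have h5 := h1 r (hsub hr)
    have h6 := h2 r (hsub hr)
    have e1 : φ r - α = π / 2 + n * π := by rw [hr2]; ring
    rw [e1, Real.sin_add_int_mul_pi, Real.sin_pi_div_two, mul_one, abs_zpow, abs_neg, abs_one,
      one_zpow] at h5
    linarith only [h6, h5]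
  refine ⟨n₀, fun s hs => ?_⟩
  obtain ⟨n, hn⟩ := key s hs
  have hmid : s₁ / 2 ∈ Ioo 0 s₁ := ⟨by positivity, by linarith⟩
  have : n = n₀ := by
    rcases lt_trichotomy n n₀ with h | h | h
    · exact (hno s _ hs hmid n n₀ hn hn₀ h).elim
    · exact h
    · exact (hno _ s hmid hs n₀ n hn₀ hn h).elim
  rw [← this]
  rw [show φ s - (α + n * π) = φ s - α - n * π by ring]
  exact hn

/-- If `K` has a tangent at the vertex of the branches then the angles have rates. -/
theorem Branches.rates_of_tan {K : Set ℂ} {x : ℂ} {s₀ ρ A : ℝ} {m : ℕ} {φ : Fin m → ℝ → ℝ}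
    (h : Branches K x s₀ m φ) (hA : 0 < A) {e : ℂ} (hT : Tan K A x ρ e) :
    ∃ (s₁ : ℝ) (a : Fin m → ℝ), 0 < s₁ ∧ s₁ ≤ s₀ ∧ Rates s₁ m φ a ∧
      ∀ i, Tendsto (φ i) (𝓝[>] 0) (𝓝 (a i)) := by
  have hρ := hT.pos
  have hs₀ := h.pos
  -- the radius
  obtain ⟨b, hb⟩ : ∃ b, b = 1 / (10 * A) := ⟨_, rfl⟩
  have hb0 : 0 < b := by rw [hb]; positivity
  have hb4 : (b ^ 4) ^ (1 / 4 : ℝ) = b := by
    rw [← Real.rpow_natCast, ← Real.rpow_mul hb0.le]
    norm_num
  obtain ⟨s₁, hs₁⟩ : ∃ s₁, s₁ = min s₀ (min ρ (b ^ 4 * ρ)) := ⟨_, rfl⟩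
  have h10 : 0 < s₁ := by rw [hs₁]; positivity
  have h11 : s₁ ≤ s₀ := by rw [hs₁]; exact min_le_left _ _
  have h12 : s₁ ≤ ρ := by rw [hs₁]; exact (min_le_right _ _).trans (min_le_left _ _)
  have h13 : s₁ ≤ b ^ 4 * ρ := by rw [hs₁]; exact (min_le_right _ _).trans (min_le_right _ _)
  have hη : ∀ s ∈ Ioo 0 s₁, A * (s / ρ) ^ (1 / 4 : ℝ) ≤ 1 / 10 := by
    intro s hs
    have h2 : s / ρ ≤ b ^ 4 := by
      rw [div_le_iff₀ hρ]
      exact hs.2.le.trans h13
    have h3 : (s / ρ) ^ (1 / 4 : ℝ) ≤ b := by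
      rw [← hb4]
      exact Real.rpow_le_rpow (div_nonneg hs.1.le hρ.le) h2 (by norm_num)
    calc A * (s / ρ) ^ (1 / 4 : ℝ) ≤ A * b := mul_le_mul_of_nonneg_left h3 hA.le
      _ = 1 / 10 := by rw [hb]; field_simp
  have hsin : ∀ i, ∀ s ∈ Ioo 0 s₁, |Real.sin (φ i s - e.arg)| ≤ A * (s / ρ) ^ (1 / 4 : ℝ) := by
    intro i s hs
    have hs' : s ∈ Ioo 0 s₀ := ⟨hs.1, hs.2.trans_le h11⟩
    have hz : x + s * Complex.exp (φ i s * Complex.I) ∈ K ∩ sphere x s := by
      rw [h.eq s hs']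
      exact ⟨i, rfl⟩
    have hd : dist (x + s * Complex.exp (φ i s * Complex.I)) x = s := hz.2
    have h1 := hT.est _ hz.1 (by rw [hd]; exact hs.2.le.trans h12)
    rw [hd, add_sub_cancel_left] at h1
    have h2 : conj e * (s * Complex.exp (φ i s * Complex.I)) = s * uc (φ i s - e.arg) := by
      have h3 : conj e = uc (-e.arg) := by
        have h4 := uc_neg_mul e.arg
        rw [uc_arg hT.norm] at h4
        have h5 := conj_mul_self_of_norm hT.norm
        have h6 : e ≠ 0 := by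
          intro h0
          have := hT.norm
          rw [h0, norm_zero] at this
          norm_num at this
        exact mul_right_cancel₀ h6 (h5.trans h4.symm)
      rw [h3, sub_eq_neg_add, uc_add]
      unfold uc
      ring
    rw [h2, Complex.im_ofReal_mul, abs_mul, abs_of_pos hs.1] at h1
    have h3 : (uc (φ i s - e.arg)).im = Real.sin (φ i s - e.arg) := by
      unfold uc; rw [Complex.exp_ofReal_mul_I_im]
    rw [h3] at h1
    refine le_of_mul_le_mul_left ?_ hs.1
    linarith only [h1]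
  have hcont : ∀ i, ContinuousOn (φ i) (Ioo 0 s₁) := fun i s hs =>
    (h.diff i s ⟨hs.1, hs.2.trans_le h11⟩).continuousAt.continuousWithinAt
  choose n hn using fun i => sin_track h10 (hcont i) (hsin i) hη
  have hest : ∀ i, ∀ s ∈ Ioo 0 s₁, |φ i s - (e.arg + n i * π)| ≤
      2 * A * (1 / ρ) ^ (1 / 4 : ℝ) * s ^ (1 / 4 : ℝ) := by
    intro i s hs
    refine (hn i s hs).trans (le_of_eq ?_)
    rw [div_eq_mul_one_div s ρ, Real.mul_rpow hs.1.le (by positivity)]
    ring
  refine ⟨s₁, fun i => e.arg + n i * π, h10, h11, ⟨_, 1 / 4, by norm_num, hest⟩, fun i => ?_⟩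
  rw [tendsto_iff_dist_tendsto_zero]
  have h7 : Tendsto (fun s : ℝ => 2 * A * (1 / ρ) ^ (1 / 4 : ℝ) * s ^ (1 / 4 : ℝ)) (𝓝[>] 0)
      (𝓝 0) := by
    have h8 : ContinuousAt (fun s : ℝ => 2 * A * (1 / ρ) ^ (1 / 4 : ℝ) * s ^ (1 / 4 : ℝ)) 0 :=
      (Real.continuousAt_rpow_const _ _ (Or.inr (by norm_num))).const_mul _
    have h9 := h8.tendsto
    rw [Real.zero_rpow (by norm_num), mul_zero] at h9
    exact h9.mono_left nhdsWithin_le_nhds
  refine squeeze_zero' (Eventually.of_forall fun s => dist_nonneg) ?_ h7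
  filter_upwards [Ioo_mem_nhdsGT h10] with s hs
  rw [Real.dist_eq]
  exact hest i s hs

end Vale.Agent.P128.Q1
end

section

/-! P128, Q1, Part IV: the branches of `K` at points of the three types. -/

set_option linter.all false

open MeasureTheory Set Metric Filter ComplexConjugate
open scoped ENNReal NNReal Topology Real ContDiff

namespace Vale.Agent.P128.Q1

open Vale.Agent.P128

variable {Ω : Set ℂ} {g u : ℂ → ℝ} {G : ℂ → ℂ} {K : Set ℂ} {M : ℝ} {x₀ : ℂ} {R₀ : ℝ}

/-- **Part IV**, centre of line type. -/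
theorem line_branches (h : MS Ω g u G K M x₀ R₀) {x : ℂ} (hx : x ∈ K ∩ ball x₀ R₀)
    (hl : LineType G K x) : ∃ (s₀ : ℝ) (φ : Fin 2 → ℝ → ℝ) (a : Fin 2 → ℝ),
      Branches K x s₀ 2 φ ∧ Rates s₀ 2 φ a ∧ a 1 = a 0 + π := by
  obtain ⟨R, c, A, hC⟩ := h.cone_line hx hl
  obtain ⟨s₀, φ, hφ, hd⟩ := hC.branches
  obtain ⟨ρ, C, hρ, hC1, hreg⟩ := h.reg_line hx hl
  obtain ⟨e, hT⟩ := hreg.tangent (by linarith)
  obtain ⟨s₁, a, h0, h1, hr, ht⟩ := hφ.rates_of_tan (by linarith : 0 < 50 * C) hT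
  refine ⟨s₁, φ, a, hφ.mono h0 h1, hr, ?_⟩
  have h2 := tendsto_nhds_unique ((ht 1).sub (ht 0)) (hd 1 0)
  have h3 : 2 * π * (((1 : Fin 2) : ℝ) - ((0 : Fin 2) : ℝ)) / ((2 : ℕ) : ℝ) = π := by
    simp
  linarith

/-- **Part IV**, centre of tripod type. -/
theorem tripod_branches (h : MS Ω g u G K M x₀ R₀) {x : ℂ} (hx : x ∈ K ∩ ball x₀ R₀)
    (hl : TripodType G K x) : ∃ (s₀ : ℝ) (φ : Fin 3 → ℝ → ℝ), Branches K x s₀ 3 φ := by
  obtain ⟨R, c, A, hC⟩ := h.cone_tripod hx hl
  obtain ⟨s₀, φ, hφ, -⟩ := hC.branches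
  exact ⟨s₀, φ, hφ⟩

/-- **Part IV**, centre of tip type. -/
theorem tip_branches (h : MS Ω g u G K M x₀ R₀) {x : ℂ} (hx : x ∈ K ∩ ball x₀ R₀)
    (hl : TipType G K x) : ∃ (s₀ : ℝ) (φ : Fin 1 → ℝ → ℝ), Branches K x s₀ 1 φ := by
  obtain ⟨R, c, A, hC⟩ := h.cone_tip hx hl
  obtain ⟨s₀, φ, hφ, -⟩ := hC.branches
  exact ⟨s₀, φ, hφ⟩

end Vale.Agent.P128.Q1
end

section

/-! Part VI, T1: the circle identity at a tip. -/

open MeasureTheory Set Metric Filter
open scoped ENNReal NNReal ContDiff Topology Real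

namespace Vale.Agent.P128.Q1

open Vale.Agent.P128

variable {Ω : Set ℂ} {g u : ℂ → ℝ} {G : ℂ → ℂ} {K : Set ℂ} {M : ℝ}

/-- The translation functional on the circle, in the direction away from the angle `α`. -/
noncomputable def ZZ (G : ℂ → ℂ) (x : ℂ) (s α : ℝ) : ℝ :=
  ∫ t in Ioo 0 (2 * π), ((nsl G x s (α + t) ^ 2 - tsl G x s (α + t) ^ 2) * Real.cos t -
    2 * (nsl G x s (α + t) * tsl G x s (α + t)) * Real.sin t)

theorem periodic_tsl (G : ℂ → ℂ) (x : ℂ) (s : ℝ) : Function.Periodic (tsl G x s) (2 * π) := by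
  intro θ
  simp only [tsl, periodic_circleMap x s θ, periodic_circleMap 0 1 θ]

theorem ZZ_int_mul (G : ℂ → ℂ) (x : ℂ) (s α : ℝ) (k : ℤ) :
    ZZ G x s (α + k * (2 * π)) = ZZ G x s α := by
  unfold ZZ
  have h1 : ∀ t : ℝ, nsl G x s (α + k * (2 * π) + t) = nsl G x s (α + t) := by
    intro t
    have := (periodic_nsl G x s).int_mul k (α + t)
    rw [← this]; congr 1; ring
  have h2 : ∀ t : ℝ, tsl G x s (α + k * (2 * π) + t) = tsl G x s (α + t) := by
    intro t
    have := (periodic_tsl G x s).int_mul k (α + t)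
    rw [← this]; congr 1; ring
  simp only [h1, h2]

theorem exists_arg_eq (α : ℝ) : ∃ k : ℤ, α = (uc α).arg + k * (2 * π) := by
  have h1 := uc_arg (norm_uc α)
  have h2 : Complex.exp (α * Complex.I) = Complex.exp ((uc α).arg * Complex.I) := h1.symm
  rw [Complex.exp_eq_exp_iff_exists_int] at h2
  obtain ⟨n, hn⟩ := h2
  refine ⟨n, ?_⟩
  have hI := Complex.I_ne_zero
  have h3 : (α : ℂ) * Complex.I = ((uc α).arg + n * (2 * π)) * Complex.I := by rw [hn]; ring
  have h4 := mul_right_cancel₀ hI h3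
  exact_mod_cast h4

theorem memLp_full {p : ℂ} (hp : ‖p‖ = 1) {h : ℝ → ℝ} (ph : Function.Periodic h (2 * π))
    (hm : Measurable h) (hh : MemLp h 2 (volume.restrict ang)) :
    MemLp (fun t => h (p.arg + t)) 2 (volume.restrict (Ioo 0 (2 * π))) := by
  have hpT : p ∈ ({p} : Finset ℂ) := Finset.mem_singleton_self p
  have hco : ((({p} : Finset ℂ)) : Set ℂ) = {p} := Finset.coe_singleton p
  have hg : gap ((({p} : Finset ℂ)) : Set ℂ) p = 2 * π := by rw [hco, gap_singleton p hp]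
  have mh := memLp_arc (Finset.finite_toSet {p}) hpT hp ph hm hh
  rwa [hg] at mh

theorem tp_circle (N : Nice Ω g u G K M) {x : ℂ} {R : ℝ} (hR : closedBall x R ⊆ Ω)
    (hub : ∀ z ∈ ball x R, |u z| ≤ M) :
    ∀ᵐ s : ℝ, s ∈ Ioo 0 R → ∀ α : ℝ,
      (∀ w : ℂ, ‖w‖ = 1 → x + s • w ∈ K → w = Complex.exp (α * Complex.I)) →
      |ZZ G x s α - En G x s| ≤
        10 * (s * (eT G x s + eN G x s) - En G x s) + 44 * π * M ^ 2 * s ^ 2 := by
  have h := N.loc hR
  filter_upwards [h.ae_circWeak, h.ae_slices, h.ae_nsl, N.flux_c hR] with s hcw hsl hn hfl hs α hα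
  obtain ⟨hs0, hsR⟩ := hs
  have hπ := Real.pi_pos
  have hcw := hcw hs0 hsR
  obtain ⟨hf, hh⟩ := hsl hs0
  have hn := hn hs0
  have hfl := hfl ⟨hs0, hsR⟩ (cmean u x s)
  obtain ⟨p, hpdef⟩ : ∃ p, p = uc α := ⟨_, rfl⟩
  have hp : ‖p‖ = 1 := by rw [hpdef]; exact norm_uc α
  have hpK : ∀ w : ℂ, ‖w‖ = 1 → x + s • w ∈ K → w = p := by
    rw [hpdef]; exact hα
  obtain ⟨k, hk⟩ := exists_arg_eq α
  rw [← hpdef] at hk
  rw [hk, ZZ_int_mul]
  set f : ℝ → ℝ := fun θ => u (circleMap x s θ) with hfdef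
  have hh' : MemLp (tsl G x s) 2 (volume.restrict ang) := hh
  have fm : Measurable f := h.um.comp (measurable_circleMap x s)
  have hm : Measurable (tsl G x s) := measurable_tsl h.Gm x s
  have pf : Function.Periodic f (2 * π) := fun θ => by
    simp only [hfdef, periodic_circleMap x s θ]
  have ph := periodic_tsl G x s
  have pn := periodic_nsl G x s
  have hfM : ∀ θ, |f θ| ≤ M := by
    intro θ
    refine hub _ ?_
    rw [mem_ball, dist_cm x hs0]; exact hsR
  have hw : CircWeak {p} f (tsl G x s) := fun Φ hΦ hd => by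
    refine hcw Φ hΦ (hd.mono_right ?_)
    rintro w ⟨h1, h2⟩
    exact hpK w h1 h2
  obtain ⟨mF, mH, hwk⟩ := full_arc hp hw pf ph fm hm hfM hh'
  have hmean : cmean u x s = (2 * π)⁻¹ * ∫ t in Ioo 0 (2 * π), f (p.arg + t) := by
    unfold cmean
    rw [← integral_ang_shift pf p.arg]
  obtain ⟨k1, k2, k3⟩ := first_mode mF mH hwk (M := M) (Eventually.of_forall fun t => hfM _) rfl
    hmean
  have mG := memLp_full hp pn (measurable_nsl h.Gm x s) hn
  have key := tip_circle mF mH mG k1 k2 k3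
  have pv : Function.Periodic (fun θ => (f θ - cmean u x s) * nsl G x s θ) (2 * π) := fun θ => by
    simp only [pf θ, pn θ]
  have pt : Function.Periodic (fun θ => tsl G x s θ ^ 2) (2 * π) := fun θ => by
    simp only [ph θ]
  have pq : Function.Periodic (fun θ => nsl G x s θ ^ 2) (2 * π) := fun θ => by
    simp only [pn θ]
  have ht : ∫ t in Ioo 0 (2 * π), tsl G x s (p.arg + t) ^ 2 = s * eT G x s := by
    rw [← tsl_sq, integral_ang_shift pt p.arg]
  have hq : ∫ t in Ioo 0 (2 * π), nsl G x s (p.arg + t) ^ 2 = s * eN G x s := by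
    rw [← nsl_sq, integral_ang_shift pq p.arg]
  have hv : ∫ t in Ioo 0 (2 * π), (f (p.arg + t) - cmean u x s) * nsl G x s (p.arg + t) =
      En G x s + ∫ z in ball x s, (u z - g z) * (u z - cmean u x s) := by
    rw [hfl, integral_ang_shift pv p.arg]
  rw [ht, hq, hv] at key
  have hmM : |cmean u x s| ≤ M := by
    have h1 := norm_setIntegral_le_of_norm_le_const (μ := volume) (s := ang)
      (f := fun θ => u (circleMap x s θ)) (C := M)
      (by simp) (fun θ _ => hub _ (by rw [mem_ball, dist_cm x hs0]; exact hsR))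
    have h2 : (volume : Measure ℝ).real ang = 2 * π := by
      rw [measureReal_def, Real.volume_Ioo, ENNReal.toReal_ofReal (by linarith only [hπ])]; ring
    rw [h2, Real.norm_eq_abs] at h1
    unfold cmean
    rw [abs_mul, abs_of_pos (by positivity)]
    calc (2 * π)⁻¹ * |∫ θ in ang, u (circleMap x s θ)| ≤ (2 * π)⁻¹ * (M * (2 * π)) :=
          mul_le_mul_of_nonneg_left h1 (by positivity)
      _ = M := by field_simp
  have hfid : |∫ z in ball x s, (u z - g z) * (u z - cmean u x s)| ≤ 4 * π * M ^ 2 * s ^ 2 := by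
    rw [← Real.norm_eq_abs]
    refine (norm_setIntegral_le_of_norm_le_const (C := 4 * M ^ 2) measure_ball_lt_top
      fun z hz => ?_).trans (le_of_eq ?_)
    · have hzR : z ∈ ball x R := ball_subset_ball hsR.le hz
      have h1 := abs_le.mp (hub z hzR)
      have h2 := abs_le.mp (N.gb z)
      have h3 := abs_le.mp hmM
      have h4 : |u z - g z| ≤ 2 * M := by rw [abs_le]; constructor <;> linarith
      have h5 : |u z - cmean u x s| ≤ 2 * M := by rw [abs_le]; constructor <;> linarith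
      rw [Real.norm_eq_abs, abs_mul]
      calc |u z - g z| * |u z - cmean u x s| ≤ (2 * M) * (2 * M) :=
            mul_le_mul h4 h5 (abs_nonneg _) (by linarith only [N.M_nonneg])
        _ = 4 * M ^ 2 := by ring
    · rw [measureReal_def, Complex.volume_ball, ENNReal.toReal_mul, ENNReal.toReal_pow,
        ENNReal.toReal_ofReal hs0.le]
      have : ((NNReal.pi : ℝ≥0∞)).toReal = π := by simp
      rw [this]
      ring
  obtain ⟨I, hI⟩ : ∃ I, I = ∫ z in ball x s, (u z - g z) * (u z - cmean u x s) := ⟨_, rfl⟩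
  rw [← hI] at key hfid
  change |ZZ G x s p.arg - (En G x s + I)| ≤ _ at key
  obtain ⟨k4, k5⟩ := abs_le.1 key
  obtain ⟨k6, k7⟩ := abs_le.1 hfid
  rw [abs_le]
  constructor <;> nlinarith

end Vale.Agent.P128.Q1
end

section

/-! Part VI: convergence of the direction at a tip with a rate, from the translation inequality. -/

open MeasureTheory Set Metric Filter
open scoped ENNReal NNReal ContDiff Topology Real

namespace Vale.Agent.P128.Q1

open Vale.Agent.P128

variable {Ω : Set ℂ} {g u : ℂ → ℝ} {G : ℂ → ℂ} {K : Set ℂ} {M : ℝ} {x₀ : ℂ} {R₀ : ℝ}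

theorem Branches.continuousOn {x : ℂ} {s₀ : ℝ} {m : ℕ} {φ : Fin m → ℝ → ℝ}
    (h : Branches K x s₀ m φ) (i : Fin m) :
    ContinuousOn (fun s => s * deriv (φ i) s) (Ioo 0 s₀) := by
  obtain ⟨C, β, hβ, -, hC⟩ := h.holder
  have hlim : ∀ s, 0 < s → Tendsto (fun t : ℝ => |C| * (|t - s| / (s / 2)) ^ β) (𝓝 s) (𝓝 0) := by
    intro s hs
    have h1 : Tendsto (fun t : ℝ => |t - s| / (s / 2)) (𝓝 s) (𝓝 (|s - s| / (s / 2))) :=
      (((continuous_id.sub continuous_const).abs).div_const _).tendsto s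
    rw [sub_self, abs_zero, zero_div] at h1
    have h2 : Tendsto (fun t : ℝ => (|t - s| / (s / 2)) ^ β) (𝓝 s) (𝓝 (0 ^ β)) :=
      (Real.continuousAt_rpow_const 0 β (Or.inr hβ.le)).tendsto.comp h1
    rw [Real.zero_rpow hβ.ne'] at h2
    simpa using h2.const_mul |C|
  intro s hs
  refine ContinuousAt.continuousWithinAt ?_
  rw [ContinuousAt, tendsto_iff_dist_tendsto_zero]
  refine squeeze_zero' (Eventually.of_forall fun _ => dist_nonneg) ?_ (hlim s hs.1)
  have h1 : Ioo (s / 2) (min (2 * s) s₀) ∈ 𝓝 s :=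
    Ioo_mem_nhds (by linarith [hs.1]) (lt_min (by linarith [hs.1]) hs.2)
  filter_upwards [h1] with t ht
  have ht2 : t < 2 * s := ht.2.trans_le (min_le_left _ _)
  have hts : t < s₀ := ht.2.trans_le (min_le_right _ _)
  have hs0 := hs.1
  have ht0 : 0 < t := by linarith [ht.1]
  have key : ∀ a b : ℝ, 0 < b → s / 2 ≤ b → a ≤ b → b - a = |t - s| →
      C * ((b - a) / b) ^ β ≤ |C| * (|t - s| / (s / 2)) ^ β := by
    intro a b hb hsb hab he
    have h2 : (b - a) / b ≤ |t - s| / (s / 2) := by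
      rw [he]; gcongr
    have h3 : ((b - a) / b) ^ β ≤ (|t - s| / (s / 2)) ^ β :=
      Real.rpow_le_rpow (div_nonneg (by linarith) hb.le) h2 hβ.le
    calc C * ((b - a) / b) ^ β ≤ |C| * ((b - a) / b) ^ β :=
          mul_le_mul_of_nonneg_right (le_abs_self C)
            (Real.rpow_nonneg (div_nonneg (by linarith) hb.le) _)
      _ ≤ _ := mul_le_mul_of_nonneg_left h3 (abs_nonneg C)
  rw [Real.dist_eq]
  rcases le_total t s with hle | hle
  · rw [abs_sub_comm]
    exact (hC i s t hs0 (by linarith [ht.1]) hle hs.2).trans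
      (key t s hs0 (by linarith) hle (by rw [abs_sub_comm, abs_of_nonneg (by linarith)]))
  · exact (hC i t s ht0 (by linarith) hle hts).trans
      (key s t ht0 (by linarith) hle (by rw [abs_of_nonneg (by linarith)]))

/-- Part VI from the translation inequality. -/
theorem tip_rates_of (h : MS Ω g u G K M x₀ R₀) {x : ℂ} (hx : x ∈ K ∩ ball x₀ R₀)
    (hl : TipType G K x) {s₀ : ℝ} {φ : Fin 1 → ℝ → ℝ} (hφ : Branches K x s₀ 1 φ)
    {C₂ s₂ : ℝ} (hC₂ : 0 ≤ C₂) (hs₂ : 0 < s₂)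
    (ht : ∀ᵐ s : ℝ, s ∈ Ioo 0 s₂ →
      ZZ G x s (φ 0 s) ≤ s / Real.sqrt (1 + (s * deriv (φ 0) s) ^ 2) + C₂ * s ^ 2) :
    ∃ (s₁ : ℝ) (a : Fin 1 → ℝ), 0 < s₁ ∧ s₁ ≤ s₀ ∧ Rates s₁ 1 φ a := by
  have hπ := Real.pi_pos
  have hR0 := h.R0
  have hM1 := h.M1
  have hxR : closedBall x (3 * R₀) ⊆ closedBall x₀ (4 * R₀) := by
    intro z hz
    rw [mem_closedBall] at hz ⊢
    have := hx.2
    rw [mem_ball] at this
    linarith [dist_triangle z x x₀]
  have hΩ : closedBall x R₀ ⊆ Ω :=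
    (closedBall_subset_closedBall (by linarith)).trans (hxR.trans h.sub)
  have hub : ∀ z ∈ ball x R₀, |u z| ≤ M := fun z hz =>
    h.bd z (hxR (closedBall_subset_closedBall (by linarith) (ball_subset_closedBall hz)))
  -- small scale
  obtain ⟨s₃, hs₃, hψ1⟩ : ∃ s₃ > 0, ∀ s ∈ Ioo 0 s₃, |s * deriv (φ 0) s| ≤ 1 := by
    have h1 := hφ.small 0
    rw [Metric.tendsto_nhdsWithin_nhds] at h1
    obtain ⟨d, hd, h2⟩ := h1 1 one_pos
    refine ⟨d, hd, fun s hs => ?_⟩
    have h3 := h2 (x := s) hs.1 (by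
      rw [Real.dist_eq, sub_zero, abs_of_pos hs.1]; exact hs.2)
    rw [Real.dist_eq, sub_zero] at h3
    exact h3.le
  obtain ⟨s₁, hs₁def⟩ : ∃ s₁, s₁ = min (min (s₀ / 2) (R₀ / 2)) (min (s₂ / 2) (s₃ / 2)) := ⟨_, rfl⟩
  have hs₀ := hφ.pos
  have hs₁ : 0 < s₁ := by rw [hs₁def]; positivity
  have b0 : s₁ ≤ s₀ / 2 := by
    rw [hs₁def]; exact (min_le_left _ _).trans (min_le_left _ _)
  have b1 : s₁ ≤ R₀ / 2 := by
    rw [hs₁def]; exact (min_le_left _ _).trans (min_le_right _ _)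
  have b2 : s₁ ≤ s₂ / 2 := by
    rw [hs₁def]; exact (min_le_right _ _).trans (min_le_left _ _)
  have b3 : s₁ ≤ s₃ / 2 := by
    rw [hs₁def]; exact (min_le_right _ _).trans (min_le_right _ _)
  have hN := h.N
  obtain ⟨C, hC⟩ : ∃ C, C = C₂ + 44 * π * M ^ 2 := ⟨_, rfl⟩
  have hC0 : 0 ≤ C := by rw [hC]; positivity
  have hcirc := tp_circle hN hΩ hub
  have hcirc' : ∀ᵐ s : ℝ, s ∈ Ioo 0 s₁ → |ZZ G x s (φ 0 s) - En G x s| ≤
        10 * (s * (eT G x s + eN G x s) - En G x s) + 44 * π * M ^ 2 * s ^ 2 := by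
    filter_upwards [hcirc] with s hs hs'
    refine hs ⟨hs'.1, by linarith only [hs'.2, b1, hs₁]⟩ (φ 0 s) fun w hw hwK => ?_
    have h1 : x + s • w ∈ K ∩ sphere x s := by
      refine ⟨hwK, ?_⟩
      rw [mem_sphere, dist_eq_norm, add_sub_cancel_left, norm_smul, hw, mul_one,
        Real.norm_of_nonneg hs'.1.le]
    rw [hφ.eq s ⟨hs'.1, by linarith only [hs'.2, b0, hs₁]⟩] at h1
    obtain ⟨i, hi⟩ := h1
    have hi0 : i = 0 := Subsingleton.elim _ _
    subst hi0
    simp only [Complex.real_smul] at hi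
    have h2 := add_left_cancel hi
    exact (mul_left_cancel₀ (by exact_mod_cast hs'.1.ne') h2).symm
  obtain ⟨c, C', hc0, hc1, hC', hI⟩ := tip_decay (f := En G x)
    (p := fun s => eT G x s + eN G x s) (ψ := fun s => s * deriv (φ 0) s) (s₁ := s₁)
    (Λ := 2 * π + π * M ^ 2 * (2 * R₀)) (C := C) hs₁ hC0
    (fun s hs => En_nonneg G x s)
    (fun s hs => by
      have h1 := hN.circle_bound hs.1 (by linarith only [hs.2, b1, hs₁] : s < R₀) hΩ
      have h2 := Un_nonneg g u x s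
      have h4 := Hn_nonneg K x s
      have h3 : π * M ^ 2 * s ^ 2 ≤ π * M ^ 2 * (2 * R₀) * s := by
        have : π * M ^ 2 * s ^ 2 = π * M ^ 2 * s * s := by ring
        rw [this]
        have h4 : s ≤ 2 * R₀ := by linarith only [hs.2, b1, hs₁]
        have h5 := hs.1.le
        gcongr
      linarith only [h3, h4, h2, h1])
    (fun a ha haR => (hN.incr_E x ha haR).1)
    (fun s hs => add_nonneg (eT_nonneg G x hs.le) (eN_nonneg G x hs.le))
    (fun s t hs hst _ => ((hN.incr_E x hs hst).2).le)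
    ((hφ.continuousOn 0).mono fun s hs => ⟨hs.1, by linarith only [hs.2, b0, hs₁]⟩)
    (fun s hs => hψ1 s ⟨hs.1, by linarith only [hs.2, b3, hs₁]⟩)
    (by
      rw [Metric.tendsto_nhdsWithin_nhds]
      intro ε hε
      obtain ⟨r₁, hr₁, h1⟩ := hl.1 (ε / 2) (by positivity)
      refine ⟨r₁, hr₁, fun {s} hs hsd => ?_⟩
      have hs0 : 0 < s := hs
      rw [Real.dist_eq, sub_zero, abs_of_pos hs0] at hsd
      obtain ⟨-, h2, -⟩ := h1 s hs0 hsd.le
      rw [Real.dist_eq]
      have e1 : En G x s / s - 1 = (En G x s - s) / s := by field_simp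
      rw [e1, abs_div, abs_of_pos hs0, div_lt_iff₀ hs0]
      (by_contra nlg; linarith only [nlg, mul_pos (sub_pos.2 hε) (sub_pos.2 hs0), mul_nonneg (mul_self_nonneg (1 : ℝ)) (sub_nonneg.2 h2), mul_nonneg (mul_self_nonneg (1 : ℝ)) (sub_nonneg.2 (not_lt.1 nlg))]))
    (by
      filter_upwards [hcirc', ht] with s h1 h2 hs
      have h1 := h1 hs
      have h2 := h2 ⟨hs.1, by linarith only [hs.2, b2, hs₁]⟩
      have hs0 := hs.1
      have h3 := (abs_le.1 h1).1
      rw [div_le_iff₀ hs0]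
      have e1 : (1 / Real.sqrt (1 + (s * deriv (φ 0) s) ^ 2) + 10 *
          (eT G x s + eN G x s - En G x s / s) + C * s) * s =
          s / Real.sqrt (1 + (s * deriv (φ 0) s) ^ 2) +
            10 * (s * (eT G x s + eN G x s) - En G x s) + C * s ^ 2 := by
        field_simp
      rw [e1, hC]
      linarith only [h3, h2])
    (by
      filter_upwards [hcirc'] with s h1 hs
      have h1 := h1 hs
      have hs0 := hs.1
      have h3 := (abs_nonneg _).trans h1
      rw [div_le_iff₀ hs0]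
      have h4 : 0 ≤ C₂ * s ^ 2 := by positivity
      have h5 : 0 ≤ π * M ^ 2 * s ^ 2 := by positivity
      rw [hC]
      linarith only [h5, h4, h3])
  obtain ⟨a, C'', ha⟩ := angle_conv (φ := φ 0) (s₁ := s₁) (c := c) (C := C') hs₁ hc0 hC'
    (fun s hs => hφ.diff 0 s ⟨hs.1, by linarith [hs.2]⟩)
    ((hφ.continuousOn 0).mono fun s hs => ⟨hs.1, by linarith [hs.2]⟩)
    (fun s hs hss => hI s hs hss.le)
  refine ⟨s₁ / 2, fun _ => a, by positivity, by linarith only [b0, hs₁], C'', c / 2, by positivity, ?_⟩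
  intro i s hs
  have hi0 : i = 0 := Subsingleton.elim _ _
  subst hi0
  exact ha s hs

end Vale.Agent.P128.Q1
end

section

/-! Part VI: the rate at a tip. -/

open MeasureTheory Set Metric Filter
open scoped ENNReal NNReal ContDiff Topology Real

namespace Vale.Agent.P128.Q1

open Vale.Agent.P128

variable {Ω : Set ℂ} {g u : ℂ → ℝ} {G : ℂ → ℂ} {K : Set ℂ} {M : ℝ} {x₀ : ℂ} {R₀ : ℝ}

/-- **Part VI** (crack-tips). -/
theorem tip_rates (h : MS Ω g u G K M x₀ R₀) {x : ℂ} (hx : x ∈ K ∩ ball x₀ R₀)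
    (hl : TipType G K x) {s₀ : ℝ} {φ : Fin 1 → ℝ → ℝ} (hφ : Branches K x s₀ 1 φ) :
    ∃ (s₁ : ℝ) (a : Fin 1 → ℝ), 0 < s₁ ∧ s₁ ≤ s₀ ∧ Rates s₁ 1 φ a := by
  obtain ⟨C, s₂, hs₂, ht⟩ := translation h hx hφ
  refine tip_rates_of h hx hl hφ (C₂ := max C 0) (le_max_right _ _) hs₂ ?_
  filter_upwards [ht] with s h1 hs
  refine (h1 hs).trans ?_
  have := mul_le_mul_of_nonneg_right (le_max_left C 0) (sq_nonneg s)
  linarith

end Vale.Agent.P128.Q1
end

section

/-! P128, Q1: the assembly of the parts. -/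

open MeasureTheory Set Metric Filter InnerProductSpace
open scoped ENNReal NNReal ContDiff Topology Real

namespace Vale.Agent.P128.Q1

open Vale.Agent.P128

variable {Ω : Set ℂ} {g u : ℂ → ℝ} {G : ℂ → ℂ} {K : Set ℂ} {M : ℝ} {x₀ : ℂ} {R₀ : ℝ}

/-- **Part V** (tripods). -/
theorem tripod_rates (h : MS Ω g u G K M x₀ R₀) {x : ℂ} (hx : x ∈ K ∩ ball x₀ R₀)
    (hl : TripodType G K x) {s₀ : ℝ} {φ : Fin 3 → ℝ → ℝ} (hφ : Branches K x s₀ 3 φ) :
    ∃ (s₁ : ℝ) (a : Fin 3 → ℝ), 0 < s₁ ∧ s₁ ≤ s₀ ∧ Rates s₁ 3 φ a ∧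
      ∀ i j, i ≠ j → Real.cos (a i - a j) = -(1 / 2) :=
  hφ.tripod_rates_of_star h hx hl (tri_star h.N (h.tr6_ball hx.2).1 (h.tr6_ball hx.2).2)

/-- **Q1** (the Mumford-Shah conjecture in the plane). -/
theorem main (hΩ : IsOpen Ω) (hg : MemLp g ⊤ (volume.restrict Ω))
    (hmin : IsMinimizer Ω g u G K) (hred : IsReduced Ω K) : ∀ x ∈ K, Q1At Ω K x := by
  intro x hx
  obtain ⟨g', u', G', M, R₀, h⟩ := exists_MS hΩ hg hmin hred hx
  have hxx : x ∈ K ∩ ball x R₀ := ⟨hx, mem_ball_self h.R0⟩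
  have hsub : ∀ r, 0 < r → r < R₀ → closedBall x r ⊆ Ω := fun r hr hr' =>
    (closedBall_subset_closedBall (by linarith [h.R0])).trans h.sub
  have key : ∀ {P : ℝ → ℝ → Prop} {s : ℝ}, 0 < s → (∃ α > 0, ∀ r, 0 < r → r < s → P α r) →
      ∃ r, 0 < r ∧ closedBall x r ⊆ Ω ∧ ∃ α, 0 < α ∧ P α r := by
    rintro P s hs ⟨α, hα, H⟩
    have h0 : 0 < min s R₀ := lt_min hs h.R0
    refine ⟨min s R₀ / 2, by positivity, hsub _ (by positivity) ?_, α, hα,
      H _ (by positivity) ?_⟩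
    · have := min_le_right s R₀
      linarith
    · have := min_le_left s R₀
      linarith
  rcases types h (fun R ε hR hε => h.close classified hR hε) hxx with hl | hl | hl
  · obtain ⟨s₀, φ, a, hφ, hr, ha⟩ := line_branches h hxx hl
    obtain ⟨r, h1, h2, α, h3, h4⟩ :=
      key (P := fun α r => ArcThrough α (K ∩ closedBall x r) x) hφ.pos
        (arcThrough hφ hφ.pos le_rfl hr ha)
    exact ⟨r, h1, h2, α, h3, Or.inl h4⟩
  · obtain ⟨s₀, φ, hφ⟩ := tripod_branches h hxx hl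
    obtain ⟨s₁, a, hs₁, h10, hr, ha⟩ := tripod_rates h hxx hl hφ
    obtain ⟨r, h1, h2, α, h3, h4⟩ :=
      key (P := fun α r => TripleJunction α (K ∩ closedBall x r) x) hs₁
        (tripleJunction hφ hs₁ h10 hr ha)
    exact ⟨r, h1, h2, α, h3, Or.inr (Or.inr h4)⟩
  · obtain ⟨s₀, φ, hφ⟩ := tip_branches h hxx hl
    obtain ⟨s₁, a, hs₁, h10, hr⟩ := tip_rates h hxx hl hφ
    obtain ⟨r, h1, h2, α, h3, h4⟩ :=
      key (P := fun α r => ArcEnding α (K ∩ closedBall x r) x) hs₁
        (arcEnding hφ hs₁ h10 hr)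
    exact ⟨r, h1, h2, α, h3, Or.inr (Or.inl h4)⟩

end Vale.Agent.P128.Q1
end
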